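import Mathlib

/-!
R193, block AF (invariant Dirichlet form as a Gamma-limit on the Cayley graph), part 1:
weighted `ℓ²` sums over a countable index type.   (helper555)
-/

set_option autoImplicit false

namespace Crest.Agent.R193.AF

open Filter Topology

section wsum

variable {ι : Type} (W : ι → ℝ)

/-- finite weighted energy -/
def FinE (a : ι → ℝ) : Prop := Summable fun i => W i * (a i) ^ 2

/-- weighted energy -/
noncomputable def wen (a : ι → ℝ) : ℝ := ∑' i, W i * (a i) ^ 2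

/-- weighted bilinear form with coefficient `b` -/
noncomputable def wip (b a c : ι → ℝ) : ℝ := ∑' i, W i * (b i * (a i * c i))

variable {W}

theorem wen_nonneg (hW : ∀ i, 0 ≤ W i) (a : ι → ℝ) : 0 ≤ wen W a :=
  tsum_nonneg fun i => mul_nonneg (hW i) (sq_nonneg _)

theorem FinE.add (hW : ∀ i, 0 ≤ W i) {a c : ι → ℝ} (ha : FinE W a) (hc : FinE W c) :
    FinE W (fun i => a i + c i) := by
  have h1 : Summable fun i => 2 * (W i * (a i) ^ 2) + 2 * (W i * (c i) ^ 2) :=
    (ha.mul_left 2).add (hc.mul_left 2)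
  refine Summable.of_nonneg_of_le (fun i => mul_nonneg (hW i) (sq_nonneg _)) (fun i => ?_) h1
  have h2 : (a i + c i) ^ 2 ≤ 2 * (a i) ^ 2 + 2 * (c i) ^ 2 := by nlinarith [sq_nonneg (a i - c i)]
  nlinarith [hW i]

theorem FinE.smul {a : ι → ℝ} (t : ℝ) (ha : FinE W a) : FinE W (fun i => t * a i) := by
  have h1 : Summable fun i => t ^ 2 * (W i * (a i) ^ 2) := ha.mul_left _
  refine h1.congr fun i => ?_
  ring

theorem FinE.neg {a : ι → ℝ} (ha : FinE W a) : FinE W (fun i => - a i) := by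
  refine ha.congr fun i => ?_
  ring

theorem FinE.of_le (hW : ∀ i, 0 ≤ W i) {a c : ι → ℝ} (ha : FinE W a)
    (h : ∀ i, |c i| ≤ |a i|) : FinE W c := by
  refine Summable.of_nonneg_of_le (fun i => mul_nonneg (hW i) (sq_nonneg _)) (fun i => ?_) ha
  exact mul_le_mul_of_nonneg_left (sq_le_sq.mpr (h i)) (hW i)

theorem wen_le_of_le (hW : ∀ i, 0 ≤ W i) {a c : ι → ℝ} (ha : FinE W a)
    (h : ∀ i, |c i| ≤ |a i|) : wen W c ≤ wen W a :=
  Summable.tsum_le_tsum (fun i => mul_le_mul_of_nonneg_left (sq_le_sq.mpr (h i)) (hW i))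
    (ha.of_le hW h) ha

theorem wen_add_le (hW : ∀ i, 0 ≤ W i) {a c : ι → ℝ} (ha : FinE W a) (hc : FinE W c) :
    wen W (fun i => a i + c i) ≤ 2 * wen W a + 2 * wen W c := by
  unfold wen
  rw [← tsum_mul_left, ← tsum_mul_left, ← (ha.mul_left 2).tsum_add (hc.mul_left 2)]
  refine Summable.tsum_le_tsum (fun i => ?_) (ha.add hW hc) ((ha.mul_left 2).add (hc.mul_left 2))
  have h2 : (a i + c i) ^ 2 ≤ 2 * (a i) ^ 2 + 2 * (c i) ^ 2 := by nlinarith [sq_nonneg (a i - c i)]
  nlinarith [hW i]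

theorem wen_smul {a : ι → ℝ} (t : ℝ) : wen W (fun i => t * a i) = t ^ 2 * wen W a := by
  unfold wen
  rw [← tsum_mul_left]
  refine tsum_congr fun i => ?_
  ring

/-- absolute summability of the mixed sums -/
theorem summable_abs (hW : ∀ i, 0 ≤ W i) {a c : ι → ℝ} (ha : FinE W a) (hc : FinE W c) :
    Summable fun i => W i * (|a i| * |c i|) := by
  have ha' : Summable fun i => W i * (a i) ^ 2 := ha
  have hc' : Summable fun i => W i * (c i) ^ 2 := hc
  refine Summable.of_nonneg_of_le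
    (fun i => mul_nonneg (hW i) (mul_nonneg (abs_nonneg _) (abs_nonneg _))) (fun i => ?_)
    (ha'.add hc')
  have h1 : |a i| * |c i| ≤ (a i) ^ 2 + (c i) ^ 2 := by
    have := sq_nonneg (|a i| - |c i|)
    nlinarith [sq_abs (a i), sq_abs (c i), abs_nonneg (a i), abs_nonneg (c i),
      mul_nonneg (abs_nonneg (a i)) (abs_nonneg (c i))]
  nlinarith [hW i]

theorem summable_wip (hW : ∀ i, 0 ≤ W i) {a b c : ι → ℝ} (ha : FinE W a) (hc : FinE W c)
    {M : ℝ} (hb : ∀ i, |b i| ≤ M) : Summable fun i => W i * (b i * (a i * c i)) := by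
  refine Summable.of_norm_bounded ((summable_abs hW ha hc).mul_left M) fun i => ?_
  rw [Real.norm_eq_abs, abs_mul, abs_mul, abs_mul, abs_of_nonneg (hW i)]
  have h1 : 0 ≤ W i * (|a i| * |c i|) :=
    mul_nonneg (hW i) (mul_nonneg (abs_nonneg _) (abs_nonneg _))
  have h2 := mul_le_mul_of_nonneg_right (hb i) h1
  nlinarith

theorem tsum_abs_le (hW : ∀ i, 0 ≤ W i) {a c : ι → ℝ} (ha : FinE W a) (hc : FinE W c) :
    ∑' i, W i * (|a i| * |c i|) ≤ Real.sqrt (wen W a) * Real.sqrt (wen W c) := by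
  have hs := summable_abs hW ha hc
  refine hs.tsum_le_of_sum_le fun s => ?_
  have h1 : ∑ i ∈ s, W i * (|a i| * |c i|)
      = ∑ i ∈ s, (Real.sqrt (W i) * |a i|) * (Real.sqrt (W i) * |c i|) := by
    refine Finset.sum_congr rfl fun i _ => ?_
    have := Real.mul_self_sqrt (hW i)
    calc W i * (|a i| * |c i|) = (Real.sqrt (W i) * Real.sqrt (W i)) * (|a i| * |c i|) := by
          rw [this]
      _ = _ := by ring
  have h2 := Finset.sum_mul_sq_le_sq_mul_sq s (fun i => Real.sqrt (W i) * |a i|)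
    (fun i => Real.sqrt (W i) * |c i|)
  have h3 : ∀ d : ι → ℝ, FinE W d → ∑ i ∈ s, (Real.sqrt (W i) * |d i|) ^ 2 ≤ wen W d := by
    intro d hd
    have : ∑ i ∈ s, (Real.sqrt (W i) * |d i|) ^ 2 = ∑ i ∈ s, W i * (d i) ^ 2 := by
      refine Finset.sum_congr rfl fun i _ => ?_
      rw [mul_pow, Real.sq_sqrt (hW i), sq_abs]
    rw [this]
    exact hd.sum_le_tsum s fun i _ => mul_nonneg (hW i) (sq_nonneg _)
  rw [h1, ← Real.sqrt_mul (wen_nonneg hW a)]
  refine Real.le_sqrt_of_sq_le (h2.trans ?_)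
  exact mul_le_mul (h3 a ha) (h3 c hc) (Finset.sum_nonneg fun i _ => sq_nonneg _)
    (wen_nonneg hW a)

theorem abs_wip_le (hW : ∀ i, 0 ≤ W i) {a b c : ι → ℝ} (ha : FinE W a) (hc : FinE W c)
    {M : ℝ} (hb : ∀ i, |b i| ≤ M) :
    |wip W b a c| ≤ M * (Real.sqrt (wen W a) * Real.sqrt (wen W c)) := by
  by_cases hι : Nonempty ι
  · have hM : 0 ≤ M := (abs_nonneg _).trans (hb hι.some)
    have hs := summable_abs hW ha hc
    have h1 : |wip W b a c| ≤ ∑' i, M * (W i * (|a i| * |c i|)) := by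
      rw [← Real.norm_eq_abs]
      unfold wip
      refine tsum_of_norm_bounded ((hs.mul_left M).hasSum) fun i => ?_
      rw [Real.norm_eq_abs, abs_mul, abs_mul, abs_mul, abs_of_nonneg (hW i)]
      have h1 : 0 ≤ W i * (|a i| * |c i|) :=
        mul_nonneg (hW i) (mul_nonneg (abs_nonneg _) (abs_nonneg _))
      have h2 := mul_le_mul_of_nonneg_right (hb i) h1
      nlinarith
    rw [tsum_mul_left] at h1
    exact h1.trans (mul_le_mul_of_nonneg_left (tsum_abs_le hW ha hc) hM)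
  · have : IsEmpty ι := not_nonempty_iff.mp hι
    simp [wip, wen]

theorem wip_add_left (hW : ∀ i, 0 ≤ W i) {a a' b c : ι → ℝ} (ha : FinE W a) (ha' : FinE W a')
    (hc : FinE W c) {M : ℝ} (hb : ∀ i, |b i| ≤ M) :
    wip W b (fun i => a i + a' i) c = wip W b a c + wip W b a' c := by
  unfold wip
  rw [← (summable_wip hW ha hc hb).tsum_add (summable_wip hW ha' hc hb)]
  refine tsum_congr fun i => ?_
  ring

theorem wip_smul_left (t : ℝ) {a b c : ι → ℝ} :
    wip W b (fun i => t * a i) c = t * wip W b a c := by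
  unfold wip
  rw [← tsum_mul_left]
  refine tsum_congr fun i => ?_
  ring

theorem wip_add_test (hW : ∀ i, 0 ≤ W i) {a b b' c : ι → ℝ} (ha : FinE W a)
    (hc : FinE W c) {M M' : ℝ} (hb : ∀ i, |b i| ≤ M) (hb' : ∀ i, |b' i| ≤ M') :
    wip W (fun i => b i + b' i) a c = wip W b a c + wip W b' a c := by
  unfold wip
  rw [← (summable_wip hW ha hc hb).tsum_add (summable_wip hW ha hc hb')]
  refine tsum_congr fun i => ?_
  ring

theorem wip_smul_test (t : ℝ) {a b c : ι → ℝ} :
    wip W (fun i => t * b i) a c = t * wip W b a c := by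
  unfold wip
  rw [← tsum_mul_left]
  refine tsum_congr fun i => ?_
  ring

theorem wip_symm {a b c : ι → ℝ} : wip W b a c = wip W b c a := by
  unfold wip
  refine tsum_congr fun i => ?_
  ring

theorem wip_one_self {a : ι → ℝ} : wip W (fun _ => 1) a a = wen W a := by
  unfold wip wen
  refine tsum_congr fun i => ?_
  ring

theorem wip_nonneg (hW : ∀ i, 0 ≤ W i) {a b : ι → ℝ} (hb : ∀ i, 0 ≤ b i) :
    0 ≤ wip W b a a :=
  tsum_nonneg fun i => mul_nonneg (hW i) (mul_nonneg (hb i) (mul_self_nonneg _))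

/-- energy of `a + t c` -/
theorem wen_add_smul (hW : ∀ i, 0 ≤ W i) {a c : ι → ℝ} (ha : FinE W a) (hc : FinE W c) (t : ℝ) :
    wen W (fun i => a i + t * c i) = wen W a + 2 * t * wip W (fun _ => 1) a c + t ^ 2 * wen W c := by
  have h1 : Summable fun i => W i * (1 * (a i * c i)) :=
    summable_wip hW ha hc (M := 1) (b := fun _ => 1) (fun i => by simp)
  have ha' : Summable fun i => W i * (a i) ^ 2 := ha
  have hc' : Summable fun i => W i * (c i) ^ 2 := hc
  unfold wen wip
  rw [← tsum_mul_left, ← tsum_mul_left, ← Summable.tsum_add ha' (h1.mul_left _),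
    ← Summable.tsum_add (ha'.add (h1.mul_left _)) (hc'.mul_left _)]
  refine tsum_congr fun i => ?_
  ring

end wsum

end Crest.Agent.R193.AF
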