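import Mathlib

/-!
R193, block D2 (invariant form), part 1: ultralimits of bounded real sequences and Cesaro
averages over balls of a group with a length function.   (helper508)
-/

set_option autoImplicit false

namespace Crest.Agent.R193.InvForm

open Filter Topology

/-! ### ultralimits along the hyperfilter of `ℕ` -/

/-- a bounded real sequence -/
def Bdd (x : ℕ → ℝ) : Prop := ∃ C : ℝ, ∀ n, |x n| ≤ C

theorem Bdd.of_le {x : ℕ → ℝ} {C : ℝ} (h : ∀ n, |x n| ≤ C) : Bdd x := ⟨C, h⟩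

theorem Bdd.add {x y : ℕ → ℝ} (hx : Bdd x) (hy : Bdd y) : Bdd (fun n => x n + y n) := by
  obtain ⟨C, hC⟩ := hx; obtain ⟨D, hD⟩ := hy
  exact ⟨C + D, fun n => (abs_add_le _ _).trans (add_le_add (hC n) (hD n))⟩

theorem Bdd.sub {x y : ℕ → ℝ} (hx : Bdd x) (hy : Bdd y) : Bdd (fun n => x n - y n) := by
  obtain ⟨C, hC⟩ := hx; obtain ⟨D, hD⟩ := hy
  exact ⟨C + D, fun n => (abs_sub _ _).trans (add_le_add (hC n) (hD n))⟩

theorem Bdd.const_mul {x : ℕ → ℝ} (c : ℝ) (hx : Bdd x) : Bdd (fun n => c * x n) := by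
  obtain ⟨C, hC⟩ := hx
  exact ⟨|c| * C, fun n => by rw [abs_mul]; exact mul_le_mul_of_nonneg_left (hC n) (abs_nonneg _)⟩

theorem Bdd.const (c : ℝ) : Bdd (fun _ => c) := ⟨|c|, fun _ => le_rfl⟩

/-- the ultralimit of a (bounded) real sequence along the hyperfilter -/
noncomputable def ulim (x : ℕ → ℝ) : ℝ := limUnder (hyperfilter ℕ : Filter ℕ) x

theorem tendsto_ulim {x : ℕ → ℝ} (hx : Bdd x) :
    Tendsto x (hyperfilter ℕ : Filter ℕ) (𝓝 (ulim x)) := by
  obtain ⟨C, hC⟩ := hx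
  have hcomp : IsCompact (Metric.closedBall (0 : ℝ) C) := isCompact_closedBall _ _
  have hmem : Metric.closedBall (0 : ℝ) C ∈ (hyperfilter ℕ).map x := by
    rw [Ultrafilter.mem_map]
    filter_upwards with n
    simpa [Real.norm_eq_abs] using hC n
  obtain ⟨a, -, ha⟩ := hcomp.ultrafilter_le_nhds ((hyperfilter ℕ).map x) (by simpa using hmem)
  have h1 : Tendsto x (hyperfilter ℕ : Filter ℕ) (𝓝 a) := ha
  exact tendsto_nhds_limUnder ⟨a, h1⟩

theorem ulim_eq_of_tendsto {x : ℕ → ℝ} {a : ℝ}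
    (h : Tendsto x (hyperfilter ℕ : Filter ℕ) (𝓝 a)) : ulim x = a := h.limUnder_eq

theorem ulim_eq_of_tendsto_atTop {x : ℕ → ℝ} {a : ℝ} (h : Tendsto x atTop (𝓝 a)) :
    ulim x = a :=
  ulim_eq_of_tendsto (h.mono_left (by rw [← Nat.cofinite_eq_atTop]; exact hyperfilter_le_cofinite))

theorem ulim_const (c : ℝ) : ulim (fun _ => c) = c := ulim_eq_of_tendsto tendsto_const_nhds

theorem ulim_add {x y : ℕ → ℝ} (hx : Bdd x) (hy : Bdd y) :
    ulim (fun n => x n + y n) = ulim x + ulim y :=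
  ulim_eq_of_tendsto ((tendsto_ulim hx).add (tendsto_ulim hy))

theorem ulim_sub {x y : ℕ → ℝ} (hx : Bdd x) (hy : Bdd y) :
    ulim (fun n => x n - y n) = ulim x - ulim y :=
  ulim_eq_of_tendsto ((tendsto_ulim hx).sub (tendsto_ulim hy))

theorem ulim_const_mul (c : ℝ) {x : ℕ → ℝ} (hx : Bdd x) :
    ulim (fun n => c * x n) = c * ulim x :=
  ulim_eq_of_tendsto ((tendsto_ulim hx).const_mul c)

theorem ulim_mono {x y : ℕ → ℝ} (hx : Bdd x) (hy : Bdd y) (h : ∀ n, x n ≤ y n) :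
    ulim x ≤ ulim y :=
  le_of_tendsto_of_tendsto' (tendsto_ulim hx) (tendsto_ulim hy) h

theorem ulim_nonneg {x : ℕ → ℝ} (hx : Bdd x) (h : ∀ n, 0 ≤ x n) : 0 ≤ ulim x :=
  ge_of_tendsto' (tendsto_ulim hx) h

theorem ulim_le_of_le {x : ℕ → ℝ} {C : ℝ} (hx : Bdd x) (h : ∀ n, x n ≤ C) : ulim x ≤ C :=
  le_of_tendsto' (tendsto_ulim hx) h

theorem abs_ulim_le {x : ℕ → ℝ} {C : ℝ} (h : ∀ n, |x n| ≤ C) : |ulim x| ≤ C := by
  have hx : Bdd x := ⟨C, h⟩
  exact le_of_tendsto' ((tendsto_ulim hx).abs) h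

/-- two bounded sequences with difference tending to zero have the same ultralimit -/
theorem ulim_congr_of_sub {x y : ℕ → ℝ} (hx : Bdd x) (hy : Bdd y)
    (h : Tendsto (fun n => x n - y n) atTop (𝓝 0)) : ulim x = ulim y := by
  have h1 := ulim_sub hx hy
  rw [ulim_eq_of_tendsto_atTop h] at h1
  linarith

/-- values close to the ultralimit occur for arbitrarily large indices -/
theorem exists_lt_ulim_add {x : ℕ → ℝ} (hx : Bdd x) {ε : ℝ} (hε : 0 < ε) (N : ℕ) :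
    ∃ n, N ≤ n ∧ x n < ulim x + ε := by
  have h1 : ∀ᶠ n in (hyperfilter ℕ : Filter ℕ), x n < ulim x + ε :=
    (tendsto_ulim hx).eventually (gt_mem_nhds (by linarith))
  have h2 : ∀ᶠ n in (hyperfilter ℕ : Filter ℕ), N ≤ n := by
    have : ∀ᶠ n : ℕ in cofinite, N ≤ n := by
      rw [Nat.cofinite_eq_atTop]; exact eventually_ge_atTop N
    exact this.filter_mono hyperfilter_le_cofinite
  obtain ⟨n, hn⟩ := (h1.and h2).exists
  exact ⟨n, hn.2, hn.1⟩

theorem exists_gt_ulim_sub {x : ℕ → ℝ} (hx : Bdd x) {ε : ℝ} (hε : 0 < ε) (N : ℕ) :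
    ∃ n, N ≤ n ∧ ulim x - ε < x n := by
  have h1 : ∀ᶠ n in (hyperfilter ℕ : Filter ℕ), ulim x - ε < x n :=
    (tendsto_ulim hx).eventually (lt_mem_nhds (by linarith))
  have h2 : ∀ᶠ n in (hyperfilter ℕ : Filter ℕ), N ≤ n := by
    have : ∀ᶠ n : ℕ in cofinite, N ≤ n := by
      rw [Nat.cofinite_eq_atTop]; exact eventually_ge_atTop N
    exact this.filter_mono hyperfilter_le_cofinite
  obtain ⟨n, hn⟩ := (h1.and h2).exists
  exact ⟨n, hn.2, hn.1⟩

/-! ### Cesaro averages -/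

/-- the Cesaro average of the first `N+1` terms -/
noncomputable def ces (s : ℕ → ℝ) (N : ℕ) : ℝ := (∑ n ∈ Finset.range (N + 1), s n) / (N + 1)

theorem ces_add (s t : ℕ → ℝ) (N : ℕ) : ces (fun n => s n + t n) N = ces s N + ces t N := by
  simp only [ces, Finset.sum_add_distrib, add_div]

theorem ces_sub (s t : ℕ → ℝ) (N : ℕ) : ces (fun n => s n - t n) N = ces s N - ces t N := by
  simp only [ces, Finset.sum_sub_distrib, sub_div]

theorem ces_const_mul (c : ℝ) (s : ℕ → ℝ) (N : ℕ) :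
    ces (fun n => c * s n) N = c * ces s N := by
  simp only [ces, ← Finset.mul_sum, mul_div_assoc]

theorem ces_nonneg {s : ℕ → ℝ} (h : ∀ n, 0 ≤ s n) (N : ℕ) : 0 ≤ ces s N :=
  div_nonneg (Finset.sum_nonneg fun n _ => h n) (by positivity)

theorem ces_mono {s t : ℕ → ℝ} (h : ∀ n, s n ≤ t n) (N : ℕ) : ces s N ≤ ces t N := by
  unfold ces
  exact div_le_div_of_nonneg_right (Finset.sum_le_sum fun n _ => h n) (by positivity)

theorem abs_ces_le {s : ℕ → ℝ} {C : ℝ} (h : ∀ n, |s n| ≤ C) (N : ℕ) : |ces s N| ≤ C := by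
  unfold ces
  have hpos : (0 : ℝ) < (N : ℝ) + 1 := by positivity
  rw [abs_div, abs_of_pos hpos, div_le_iff₀ hpos]
  calc |∑ n ∈ Finset.range (N + 1), s n| ≤ ∑ n ∈ Finset.range (N + 1), |s n| :=
        Finset.abs_sum_le_sum_abs _ _
    _ ≤ ∑ n ∈ Finset.range (N + 1), C := Finset.sum_le_sum fun n _ => h n
    _ = C * ((N : ℝ) + 1) := by
        rw [Finset.sum_const, Finset.card_range, nsmul_eq_mul]; push_cast; ring

theorem Bdd.ces {s : ℕ → ℝ} (h : Bdd s) : Bdd (ces s) := by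
  obtain ⟨C, hC⟩ := h
  exact ⟨C, fun N => abs_ces_le hC N⟩

/-- Cesaro averages of a null sequence tend to zero -/
theorem tendsto_ces_zero {s : ℕ → ℝ} (h : Tendsto s atTop (𝓝 0)) :
    Tendsto (ces s) atTop (𝓝 0) := by
  have h1 := h.cesaro
  have h2 : Tendsto (fun n : ℕ => ((n + 1 : ℕ) : ℝ)⁻¹ * ∑ i ∈ Finset.range (n + 1), s i)
      atTop (𝓝 0) := h1.comp (tendsto_add_atTop_nat 1)
  refine h2.congr fun n => ?_
  unfold Crest.Agent.R193.InvForm.ces
  push_cast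
  rw [div_eq_inv_mul]

/-- If the partial sums of `s` and `t` differ by a bounded amount, their Cesaro averages are
asymptotically equal. -/
theorem tendsto_ces_sub_of_bdd {s t : ℕ → ℝ} {C : ℝ}
    (h : ∀ N, |(∑ n ∈ Finset.range (N + 1), s n) - ∑ n ∈ Finset.range (N + 1), t n| ≤ C) :
    Tendsto (fun N => ces s N - ces t N) atTop (𝓝 0) := by
  have h1 : Tendsto (fun N : ℕ => C / ((N : ℝ) + 1)) atTop (𝓝 0) :=
    tendsto_const_nhds.div_atTop
      (tendsto_atTop_add_const_right _ _ tendsto_natCast_atTop_atTop)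
  refine squeeze_zero_norm (fun N => ?_) h1
  have hpos : (0 : ℝ) < (N : ℝ) + 1 := by positivity
  unfold ces
  rw [← sub_div, Real.norm_eq_abs, abs_div, abs_of_pos hpos]
  exact div_le_div_of_nonneg_right (h N) hpos.le

/-- some term `s n` with `n ≥ N₀` is at most `ulim (ces s) + ε`. -/
theorem exists_term_le {s : ℕ → ℝ} (hs : Bdd s) {ε : ℝ} (hε : 0 < ε) (N₀ : ℕ) :
    ∃ n, N₀ ≤ n ∧ s n ≤ ulim (ces s) + ε := by
  by_contra hcon
  push Not at hcon
  obtain ⟨C, hC⟩ := hs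
  set L := ulim (ces s) with hL
  -- for N large, ces s N ≥ L + ε - (stuff)/(N+1)
  have hC0 : 0 ≤ C := (abs_nonneg _).trans (hC 0)
  have key : ∀ N, N₀ ≤ N →
      L + ε - (N₀ : ℝ) * (C + |L + ε|) / (N + 1) ≤ ces s N := by
    intro N hN
    have hpos : (0 : ℝ) < (N : ℝ) + 1 := by positivity
    unfold ces
    rw [sub_le_iff_le_add, ← add_div, le_div_iff₀ hpos]
    have hsplit : ∑ n ∈ Finset.range (N + 1), s n =
        ∑ n ∈ Finset.range N₀, s n + ∑ n ∈ Finset.Ico N₀ (N + 1), s n := by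
      rw [Finset.sum_range_add_sum_Ico _ (by omega)]
    have h1 : -((N₀ : ℝ) * C) ≤ ∑ n ∈ Finset.range N₀, s n := by
      have : ∑ n ∈ Finset.range N₀, (-C) ≤ ∑ n ∈ Finset.range N₀, s n :=
        Finset.sum_le_sum fun n _ => (abs_le.mp (hC n)).1
      simpa [Finset.sum_const] using this
    have h2 : ((N : ℝ) + 1 - N₀) * (L + ε) ≤ ∑ n ∈ Finset.Ico N₀ (N + 1), s n := by
      have : ∑ n ∈ Finset.Ico N₀ (N + 1), (L + ε) ≤ ∑ n ∈ Finset.Ico N₀ (N + 1), s n :=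
        Finset.sum_le_sum fun n hn => (hcon n (Finset.mem_Ico.mp hn).1).le
      rw [Finset.sum_const, Nat.card_Ico, nsmul_eq_mul] at this
      rw [Nat.cast_sub (by omega)] at this
      push_cast at this
      exact this
    rw [hsplit]
    have h3 : (N₀ : ℝ) * (L + ε) ≤ (N₀ : ℝ) * |L + ε| :=
      mul_le_mul_of_nonneg_left (le_abs_self _) (by positivity)
    nlinarith
  have hlim : Tendsto (fun N : ℕ => L + ε - (N₀ : ℝ) * (C + |L + ε|) / (N + 1)) atTop
      (𝓝 (L + ε)) := by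
    have h1 : Tendsto (fun N : ℕ => (N₀ : ℝ) * (C + |L + ε|) / ((N : ℝ) + 1)) atTop (𝓝 0) :=
      tendsto_const_nhds.div_atTop
        (tendsto_atTop_add_const_right _ _ tendsto_natCast_atTop_atTop)
    simpa using tendsto_const_nhds.sub h1
  have h4 : ∀ᶠ N : ℕ in atTop, L + ε / 2 < ces s N := by
    filter_upwards [hlim.eventually (lt_mem_nhds (show L + ε / 2 < L + ε by linarith)),
      eventually_ge_atTop N₀] with N hN1 hN2
    exact hN1.trans_le (key N hN2)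
  obtain ⟨M, hM⟩ := eventually_atTop.mp h4
  obtain ⟨n, hn, hlt⟩ := exists_lt_ulim_add (Bdd.ces ⟨C, hC⟩) (show 0 < ε / 2 by linarith) M
  have := hM n hn
  linarith

end Crest.Agent.R193.InvForm
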