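import Mathlib
import Crest.Agent.R193.AF1
import Crest.Agent.R193.InvForm1

/-!
R193, block AF, part 2: Abel-weighted energies on the Cayley graph, admissible sequences,
the limit bilinear functional `L`, null test functions, the linearisation (chain) rule. (helper555)
-/

set_option autoImplicit false

namespace Crest.Agent.R193.AF

open Filter Topology InvForm

/-- A group with a length function acting on a space `Z`, together with a map `p : G → Z`
("shadow points") which is asymptotically invariant under right multiplication by `st` and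
asymptotically equivariant. -/
structure Net (G Z : Type) [Group G] [TopologicalSpace Z] [MulAction G Z] where
  len : G → ℕ
  len_mul : ∀ g h : G, len (g * h) ≤ len g + len h
  len_inv : ∀ g : G, len g⁻¹ = len g
  fin : ∀ n : ℕ, {g : G | len g ≤ n}.Finite
  st : Finset G
  p : G → Z
  A1 : ∀ s ∈ st, ∀ u : C(Z, ℝ), ∀ ε : ℝ, 0 < ε → ∃ K : ℕ, ∀ h : G, K ≤ len h →
    |u (p h) - u (p (h * s))| ≤ ε
  A2 : ∀ g : G, ∀ u : C(Z, ℝ), ∀ ε : ℝ, 0 < ε → ∃ K : ℕ, ∀ h : G, K ≤ len h →
    |u (g • p h) - u (p (g * h))| ≤ ε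
  cont : ∀ g : G, Continuous (fun x : Z => g • x)

/-- the ultrafilter -/
noncomputable abbrev om : Filter ℕ := (hyperfilter ℕ : Filter ℕ)

theorem om_eventually_of_atTop {P : ℕ → Prop} (h : ∀ᶠ n in atTop, P n) : ∀ᶠ n in om, P n := by
  rw [← Nat.cofinite_eq_atTop] at h
  exact h.filter_mono hyperfilter_le_cofinite

theorem om_ge (K : ℕ) : ∀ᶠ n in om, K ≤ n := om_eventually_of_atTop (eventually_ge_atTop K)

theorem ulim_eq_zero_of_abs_le {x : ℕ → ℝ} (h : ∀ η > 0, ∀ᶠ n in om, |x n| ≤ η) :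
    ulim x = 0 := by
  refine ulim_eq_of_tendsto ?_
  rw [Metric.tendsto_nhds]
  intro ε hε
  filter_upwards [h (ε / 2) (by linarith)] with n hn
  rw [Real.dist_eq, sub_zero]
  linarith

section
variable {G Z : Type} [Group G] [TopologicalSpace Z] [MulAction G Z] (N : Net G Z)

/-- oriented edges of the Cayley graph -/
abbrev Net.I : Type := G × {s : G // s ∈ N.st}

/-- Abel weights -/
noncomputable def Net.W (k : ℕ) (i : N.I) : ℝ :=
  Real.exp (-((N.len i.1 : ℝ) / ((k : ℝ) + 1))) / ((k : ℝ) + 1)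

/-- difference along an edge -/
def Net.dd (f : G → ℝ) (i : N.I) : ℝ := f i.1 - f (i.1 * i.2.1)

variable {N}

theorem Net.W_pos (k : ℕ) (i : N.I) : 0 < N.W k i := by
  unfold Net.W; positivity

theorem Net.W_nonneg (k : ℕ) (i : N.I) : 0 ≤ N.W k i := (N.W_pos k i).le

theorem Net.W_le (k : ℕ) (i : N.I) : N.W k i ≤ 1 / ((k : ℝ) + 1) := by
  unfold Net.W
  refine div_le_div_of_nonneg_right ?_ (by positivity)
  rw [Real.exp_le_one_iff]
  have : 0 ≤ (N.len i.1 : ℝ) / ((k : ℝ) + 1) := by positivity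
  linarith

/-- a bound for the lengths of the steps -/
theorem Net.exists_step_bound (N : Net G Z) : ∃ c : ℕ, ∀ s ∈ N.st, N.len s ≤ c :=
  ⟨N.st.sup N.len, fun _ hs => Finset.le_sup (f := N.len) hs⟩

theorem Net.len_le_mul (N : Net G Z) (g h : G) : N.len g ≤ N.len (g * h) + N.len h := by
  have := N.len_mul (g * h) h⁻¹
  rw [mul_assoc, mul_inv_cancel, mul_one, N.len_inv] at this
  exact this

theorem Net.len_le_mul' (N : Net G Z) (g h : G) : N.len h ≤ N.len (g * h) + N.len g := by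
  have := N.len_mul g⁻¹ (g * h)
  rw [inv_mul_cancel_left, N.len_inv] at this
  omega

/-- admissible sequences of functions on the group: uniformly bounded with bounded energy -/
def Net.Adm (N : Net G Z) (f : ℕ → G → ℝ) : Prop :=
  ∃ C : ℝ, (∀ k h, |f k h| ≤ C) ∧ (∀ k, FinE (N.W k) (N.dd (f k))) ∧
    ∀ k, wen (N.W k) (N.dd (f k)) ≤ C

/-- convergence of a sequence of functions on the group to a function on the boundary -/
def Net.Conv (N : Net G Z) (f : ℕ → G → ℝ) (u : C(Z, ℝ)) : Prop :=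
  ∀ η > 0, ∃ K : ℕ, ∀ᶠ k in om, ∀ h : G, K ≤ N.len h → |f k h - u (N.p h)| ≤ η

/-- bounded test functions -/
def Net.TB (N : Net G Z) (b : ℕ → N.I → ℝ) : Prop := ∃ C : ℝ, ∀ k i, |b k i| ≤ C

/-- null test functions -/
def Net.TN (N : Net G Z) (b : ℕ → N.I → ℝ) : Prop :=
  N.TB b ∧ ∀ η > 0, ∃ K : ℕ, ∀ᶠ k in om, ∀ i : N.I, K ≤ N.len i.1 → |b k i| ≤ η

/-- the limit bilinear functional -/
noncomputable def Net.L (N : Net G Z) (f g : ℕ → G → ℝ) (b : ℕ → N.I → ℝ) : ℝ :=
  ulim fun k => wip (N.W k) (b k) (N.dd (f k)) (N.dd (g k))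

/-- the constant test function -/
def Net.one (N : Net G Z) : ℕ → N.I → ℝ := fun _ _ => 1

theorem Net.TB_one : N.TB N.one := ⟨1, fun k i => by simp [Net.one]⟩

theorem Net.TB.add {b c : ℕ → N.I → ℝ} (hb : N.TB b) (hc : N.TB c) :
    N.TB (fun k i => b k i + c k i) := by
  obtain ⟨C, hC⟩ := hb; obtain ⟨D, hD⟩ := hc
  exact ⟨C + D, fun k i => (abs_add_le _ _).trans (add_le_add (hC k i) (hD k i))⟩

theorem Net.TB.mul {b c : ℕ → N.I → ℝ} (hb : N.TB b) (hc : N.TB c) :
    N.TB (fun k i => b k i * c k i) := by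
  obtain ⟨C, hC⟩ := hb; obtain ⟨D, hD⟩ := hc
  refine ⟨|C| * |D|, fun k i => ?_⟩
  rw [abs_mul]
  exact mul_le_mul ((hC k i).trans (le_abs_self _)) ((hD k i).trans (le_abs_self _))
    (abs_nonneg _) (abs_nonneg _)

theorem Net.TB.smul {b : ℕ → N.I → ℝ} (t : ℝ) (hb : N.TB b) :
    N.TB (fun k i => t * b k i) := by
  obtain ⟨C, hC⟩ := hb
  refine ⟨|t| * |C|, fun k i => ?_⟩
  rw [abs_mul]
  exact mul_le_mul_of_nonneg_left ((hC k i).trans (le_abs_self _)) (abs_nonneg _)

theorem Net.TB.exists_pos {b : ℕ → N.I → ℝ} (hb : N.TB b) : ∃ C > 0, ∀ k i, |b k i| ≤ C := by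
  obtain ⟨C, hC⟩ := hb
  exact ⟨|C| + 1, by positivity, fun k i => (hC k i).trans ((le_abs_self C).trans (by linarith))⟩

theorem Net.Adm.exists_pos {f : ℕ → G → ℝ} (hf : N.Adm f) :
    ∃ C > 0, (∀ k h, |f k h| ≤ C) ∧ (∀ k, FinE (N.W k) (N.dd (f k))) ∧
      ∀ k, wen (N.W k) (N.dd (f k)) ≤ C := by
  obtain ⟨C, h1, h2, h3⟩ := hf
  exact ⟨|C| + 1, by positivity, fun k h => (h1 k h).trans ((le_abs_self C).trans (by linarith)),
    h2, fun k => (h3 k).trans ((le_abs_self C).trans (by linarith))⟩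

theorem Net.Adm.fin {f : ℕ → G → ℝ} (hf : N.Adm f) (k : ℕ) : FinE (N.W k) (N.dd (f k)) := by
  obtain ⟨C, h1, h2, h3⟩ := hf
  exact h2 k

theorem Net.dd_add (f g : G → ℝ) : N.dd (fun h => f h + g h) = fun i => N.dd f i + N.dd g i := by
  funext i; simp only [Net.dd]; ring

theorem Net.dd_smul (t : ℝ) (f : G → ℝ) : N.dd (fun h => t * f h) = fun i => t * N.dd f i := by
  funext i; simp only [Net.dd]; ring

theorem Net.Adm.add {f g : ℕ → G → ℝ} (hf : N.Adm f) (hg : N.Adm g) :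
    N.Adm (fun k h => f k h + g k h) := by
  obtain ⟨C, hC0, h1, h2, h3⟩ := hf.exists_pos
  obtain ⟨D, hD0, g1, g2, g3⟩ := hg.exists_pos
  refine ⟨2 * C + 2 * D, fun k h => ?_, fun k => ?_, fun k => ?_⟩
  · exact (abs_add_le _ _).trans (by linarith [h1 k h, g1 k h])
  · rw [Net.dd_add]; exact (h2 k).add (N.W_nonneg k) (g2 k)
  · rw [Net.dd_add]
    exact (wen_add_le (N.W_nonneg k) (h2 k) (g2 k)).trans (by linarith [h3 k, g3 k])

theorem Net.Adm.smul {f : ℕ → G → ℝ} (t : ℝ) (hf : N.Adm f) :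
    N.Adm (fun k h => t * f k h) := by
  obtain ⟨C, hC0, h1, h2, h3⟩ := hf.exists_pos
  refine ⟨|t| * C + t ^ 2 * C, fun k h => ?_, fun k => ?_, fun k => ?_⟩
  · rw [abs_mul]
    have := mul_le_mul_of_nonneg_left (h1 k h) (abs_nonneg t)
    nlinarith [sq_nonneg t, mul_nonneg (sq_nonneg t) hC0.le]
  · rw [Net.dd_smul]; exact (h2 k).smul t
  · rw [Net.dd_smul, wen_smul]
    have := mul_le_mul_of_nonneg_left (h3 k) (sq_nonneg t)
    nlinarith [abs_nonneg t, mul_nonneg (abs_nonneg t) hC0.le]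

theorem Net.Adm.neg {f : ℕ → G → ℝ} (hf : N.Adm f) : N.Adm (fun k h => - f k h) := by
  have := hf.smul (-1)
  simpa using this

theorem Net.Adm.sub {f g : ℕ → G → ℝ} (hf : N.Adm f) (hg : N.Adm g) :
    N.Adm (fun k h => f k h - g k h) := by
  have := hf.add hg.neg
  simpa [sub_eq_add_neg] using this

/-- the functional is bounded along the sequence -/
theorem Net.bdd_wip {f g : ℕ → G → ℝ} {b : ℕ → N.I → ℝ} (hf : N.Adm f) (hg : N.Adm g)
    (hb : N.TB b) : Bdd fun k => wip (N.W k) (b k) (N.dd (f k)) (N.dd (g k)) := by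
  obtain ⟨C, hC0, h1, h2, h3⟩ := hf.exists_pos
  obtain ⟨D, hD0, g1, g2, g3⟩ := hg.exists_pos
  obtain ⟨M, hM0, hM⟩ := hb.exists_pos
  refine ⟨M * (Real.sqrt C * Real.sqrt D), fun k => ?_⟩
  refine (abs_wip_le (N.W_nonneg k) (h2 k) (g2 k) (hM k)).trans ?_
  exact mul_le_mul_of_nonneg_left (mul_le_mul (Real.sqrt_le_sqrt (h3 k)) (Real.sqrt_le_sqrt (g3 k))
    (Real.sqrt_nonneg _) (Real.sqrt_nonneg _)) hM0.le

theorem Net.tendsto_L {f g : ℕ → G → ℝ} {b : ℕ → N.I → ℝ} (hf : N.Adm f) (hg : N.Adm g)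
    (hb : N.TB b) :
    Tendsto (fun k => wip (N.W k) (b k) (N.dd (f k)) (N.dd (g k))) om (𝓝 (N.L f g b)) :=
  tendsto_ulim (Net.bdd_wip hf hg hb)

theorem Net.L_symm {f g : ℕ → G → ℝ} {b : ℕ → N.I → ℝ} : N.L f g b = N.L g f b := by
  unfold Net.L
  congr 1
  funext k
  exact wip_symm

theorem Net.L_add_left {f f' g : ℕ → G → ℝ} {b : ℕ → N.I → ℝ} (hf : N.Adm f) (hf' : N.Adm f')
    (hg : N.Adm g) (hb : N.TB b) :
    N.L (fun k h => f k h + f' k h) g b = N.L f g b + N.L f' g b := by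
  unfold Net.L
  rw [← ulim_add (Net.bdd_wip hf hg hb) (Net.bdd_wip hf' hg hb)]
  congr 1
  funext k
  obtain ⟨M, hM⟩ := hb
  rw [Net.dd_add]
  exact wip_add_left (N.W_nonneg k) (hf.fin k) (hf'.fin k) (hg.fin k) (hM k)

theorem Net.L_smul_left {f g : ℕ → G → ℝ} {b : ℕ → N.I → ℝ} (t : ℝ) (hf : N.Adm f)
    (hg : N.Adm g) (hb : N.TB b) :
    N.L (fun k h => t * f k h) g b = t * N.L f g b := by
  unfold Net.L
  rw [← ulim_const_mul t (Net.bdd_wip hf hg hb)]
  congr 1
  funext k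
  rw [Net.dd_smul]
  exact wip_smul_left t

theorem Net.L_sub_left {f f' g : ℕ → G → ℝ} {b : ℕ → N.I → ℝ} (hf : N.Adm f) (hf' : N.Adm f')
    (hg : N.Adm g) (hb : N.TB b) :
    N.L (fun k h => f k h - f' k h) g b = N.L f g b - N.L f' g b := by
  have h1 := Net.L_add_left hf (hf'.smul (-1)) hg hb
  rw [Net.L_smul_left (-1) hf' hg hb] at h1
  have h2 : (fun k h => f k h + -1 * f' k h) = fun k h => f k h - f' k h := by
    funext k h; ring
  rw [h2] at h1
  linarith

theorem Net.L_add_right {f g g' : ℕ → G → ℝ} {b : ℕ → N.I → ℝ} (hf : N.Adm f) (hg : N.Adm g)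
    (hg' : N.Adm g') (hb : N.TB b) :
    N.L f (fun k h => g k h + g' k h) b = N.L f g b + N.L f g' b := by
  rw [Net.L_symm, Net.L_add_left hg hg' hf hb, Net.L_symm, Net.L_symm (f := g')]

theorem Net.L_smul_right {f g : ℕ → G → ℝ} {b : ℕ → N.I → ℝ} (t : ℝ) (hf : N.Adm f)
    (hg : N.Adm g) (hb : N.TB b) :
    N.L f (fun k h => t * g k h) b = t * N.L f g b := by
  rw [Net.L_symm, Net.L_smul_left t hg hf hb, Net.L_symm]

theorem Net.L_sub_right {f g g' : ℕ → G → ℝ} {b : ℕ → N.I → ℝ} (hf : N.Adm f) (hg : N.Adm g)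
    (hg' : N.Adm g') (hb : N.TB b) :
    N.L f (fun k h => g k h - g' k h) b = N.L f g b - N.L f g' b := by
  rw [Net.L_symm, Net.L_sub_left hg hg' hf hb, Net.L_symm, Net.L_symm (f := g')]

theorem Net.L_add_test {f g : ℕ → G → ℝ} {b c : ℕ → N.I → ℝ} (hf : N.Adm f) (hg : N.Adm g)
    (hb : N.TB b) (hc : N.TB c) :
    N.L f g (fun k i => b k i + c k i) = N.L f g b + N.L f g c := by
  unfold Net.L
  rw [← ulim_add (Net.bdd_wip hf hg hb) (Net.bdd_wip hf hg hc)]
  congr 1
  funext k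
  obtain ⟨M, hM⟩ := hb
  obtain ⟨M', hM'⟩ := hc
  exact wip_add_test (N.W_nonneg k) (hf.fin k) (hg.fin k) (hM k) (hM' k)

theorem Net.L_smul_test {f g : ℕ → G → ℝ} {b : ℕ → N.I → ℝ} (t : ℝ) (hf : N.Adm f)
    (hg : N.Adm g) (hb : N.TB b) :
    N.L f g (fun k i => t * b k i) = t * N.L f g b := by
  unfold Net.L
  rw [← ulim_const_mul t (Net.bdd_wip hf hg hb)]
  congr 1
  funext k
  exact wip_smul_test t

theorem Net.L_nonneg {f : ℕ → G → ℝ} {b : ℕ → N.I → ℝ} (hf : N.Adm f) (hb : N.TB b)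
    (h0 : ∀ k i, 0 ≤ b k i) : 0 ≤ N.L f f b :=
  ulim_nonneg (Net.bdd_wip hf hf hb) fun k => wip_nonneg (N.W_nonneg k) (h0 k)

theorem Net.tendsto_wen {f : ℕ → G → ℝ} (hf : N.Adm f) :
    Tendsto (fun k => wen (N.W k) (N.dd (f k))) om (𝓝 (N.L f f N.one)) := by
  have := Net.tendsto_L hf hf Net.TB_one
  refine this.congr fun k => ?_
  exact wip_one_self

/-- Cauchy-Schwarz -/
theorem Net.abs_L_le {f g : ℕ → G → ℝ} {b : ℕ → N.I → ℝ} {M : ℝ} (hf : N.Adm f) (hg : N.Adm g)
    (hb : ∀ k i, |b k i| ≤ M) :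
    |N.L f g b| ≤ M * (Real.sqrt (N.L f f N.one) * Real.sqrt (N.L g g N.one)) := by
  have h1 := (Net.tendsto_L hf hg ⟨M, hb⟩).abs
  have h2 := ((Real.continuous_sqrt.tendsto _).comp (Net.tendsto_wen hf)).mul
    ((Real.continuous_sqrt.tendsto _).comp (Net.tendsto_wen hg))
  have h3 := h2.const_mul M
  refine le_of_tendsto_of_tendsto' h1 h3 fun k => ?_
  exact abs_wip_le (N.W_nonneg k) (hf.fin k) (hg.fin k) (hb k)

/-- a differences sum supported in a ball is negligible -/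
theorem Net.finite_I (N : Net G Z) (K : ℕ) : {i : N.I | N.len i.1 < K}.Finite := by
  have h1 : ({g : G | N.len g ≤ K} ×ˢ (Set.univ : Set {s : G // s ∈ N.st})).Finite :=
    (N.fin K).prod Set.finite_univ
  refine h1.subset fun i hi => ?_
  simp only [Set.mem_prod, Set.mem_ofPred_eq, Set.mem_univ, and_true]
  exact le_of_lt hi

/-- Main estimate for remainders: if `|c i| ≤ β i * (|dd f i| * |dd g i|)` with `β` null, the
weighted sums of `c` tend to `0`. -/
theorem Net.ulim_rem {f g : ℕ → G → ℝ} (hf : N.Adm f) (hg : N.Adm g) {β c : ℕ → N.I → ℝ}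
    (hβ : N.TN β) (hc : ∀ k i, |c k i| ≤ |β k i| * (|N.dd (f k) i| * |N.dd (g k) i|)) :
    ∀ η > 0, ∀ᶠ k in om, |∑' i, N.W k i * c k i| ≤ η := by
  classical
  intro η hη
  obtain ⟨C, hC0, h1, h2, h3⟩ := hf.exists_pos
  obtain ⟨D, hD0, g1, g2, g3⟩ := hg.exists_pos
  obtain ⟨B, hB0, hB⟩ := hβ.1.exists_pos
  set E := Real.sqrt C * Real.sqrt D with hE
  have hE0 : 0 < E := mul_pos (Real.sqrt_pos.mpr hC0) (Real.sqrt_pos.mpr hD0)
  obtain ⟨K, hK⟩ := hβ.2 (η / (2 * E)) (by positivity)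
  set F := (N.finite_I K).toFinset with hF
  have hdf : ∀ k i, |N.dd (f k) i| ≤ 2 * C := fun k i => by
    unfold Net.dd
    exact (abs_sub _ _).trans (by linarith [h1 k i.1, h1 k (i.1 * i.2.1)])
  have hdg : ∀ k i, |N.dd (g k) i| ≤ 2 * D := fun k i => by
    unfold Net.dd
    exact (abs_sub _ _).trans (by linarith [g1 k i.1, g1 k (i.1 * i.2.1)])
  -- size of the finite part
  set A := (F.card : ℝ) * (B * ((2 * C) * (2 * D))) with hA
  have hA0 : 0 ≤ A := by positivity
  obtain ⟨k0, hk0⟩ := exists_nat_gt (A / (η / 2))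
  filter_upwards [hK, om_ge k0] with k hk hkk
  have hsum : Summable fun i => N.W k i * (|N.dd (f k) i| * |N.dd (g k) i|) :=
    summable_abs (N.W_nonneg k) (h2 k) (g2 k)
  have hle : ∀ i, |N.W k i * c k i| ≤
      (if i ∈ F then N.W k i * (B * ((2 * C) * (2 * D))) else 0) +
      (η / (2 * E)) * (N.W k i * (|N.dd (f k) i| * |N.dd (g k) i|)) := by
    intro i
    rw [abs_mul, abs_of_nonneg (N.W_nonneg k i)]
    have hP : 0 ≤ |N.dd (f k) i| * |N.dd (g k) i| := mul_nonneg (abs_nonneg _) (abs_nonneg _)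
    by_cases hi : i ∈ F
    · rw [if_pos hi]
      have h5 : |c k i| ≤ B * ((2 * C) * (2 * D)) := by
        refine (hc k i).trans ?_
        exact mul_le_mul (hB k i) (mul_le_mul (hdf k i) (hdg k i) (abs_nonneg _) (by positivity))
          hP hB0.le
      have h6 := mul_le_mul_of_nonneg_left h5 (N.W_nonneg k i)
      have h7 : 0 ≤ (η / (2 * E)) * (N.W k i * (|N.dd (f k) i| * |N.dd (g k) i|)) :=
        mul_nonneg (by positivity) (mul_nonneg (N.W_nonneg k i) hP)
      linarith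
    · rw [if_neg hi, zero_add]
      have hi' : K ≤ N.len i.1 := by
        by_contra hcon
        exact hi (by rw [hF]; simpa using hcon)
      have h5 : |c k i| ≤ (η / (2 * E)) * (|N.dd (f k) i| * |N.dd (g k) i|) :=
        (hc k i).trans (mul_le_mul_of_nonneg_right (hk i hi') hP)
      have h6 := mul_le_mul_of_nonneg_left h5 (N.W_nonneg k i)
      linarith
  have hs1 : Summable fun i : N.I => (if i ∈ F then N.W k i * (B * ((2 * C) * (2 * D))) else 0) :=
    summable_of_ne_finset_zero (s := F) fun i hi => by rw [if_neg hi]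
  have hs2 : Summable fun i => (η / (2 * E)) * (N.W k i * (|N.dd (f k) i| * |N.dd (g k) i|)) :=
    hsum.mul_left _
  have h8 : |∑' i, N.W k i * c k i| ≤ ∑' i, ((if i ∈ F then N.W k i * (B * ((2 * C) * (2 * D))) else 0) +
      (η / (2 * E)) * (N.W k i * (|N.dd (f k) i| * |N.dd (g k) i|))) := by
    rw [← Real.norm_eq_abs]
    exact tsum_of_norm_bounded (hs1.add hs2).hasSum fun i => by
      rw [Real.norm_eq_abs]; exact hle i
  rw [hs1.tsum_add hs2, tsum_mul_left] at h8
  have h9 : ∑' i, N.W k i * (|N.dd (f k) i| * |N.dd (g k) i|) ≤ E := by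
    refine (tsum_abs_le (N.W_nonneg k) (h2 k) (g2 k)).trans ?_
    exact mul_le_mul (Real.sqrt_le_sqrt (h3 k)) (Real.sqrt_le_sqrt (g3 k))
      (Real.sqrt_nonneg _) (Real.sqrt_nonneg _)
  have h10 : (η / (2 * E)) * ∑' i, N.W k i * (|N.dd (f k) i| * |N.dd (g k) i|) ≤ η / 2 := by
    refine (mul_le_mul_of_nonneg_left h9 (by positivity)).trans (le_of_eq ?_)
    field_simp
  have h11 : ∑' i : N.I, (if i ∈ F then N.W k i * (B * ((2 * C) * (2 * D))) else 0) ≤ η / 2 := by
    rw [tsum_eq_sum (s := F) fun i hi => by rw [if_neg hi]]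
    have : ∑ i ∈ F, (if i ∈ F then N.W k i * (B * ((2 * C) * (2 * D))) else 0)
        ≤ ∑ i ∈ F, 1 / ((k : ℝ) + 1) * (B * ((2 * C) * (2 * D))) := by
      refine Finset.sum_le_sum fun i hi => ?_
      rw [if_pos hi]
      exact mul_le_mul_of_nonneg_right (N.W_le k i) (by positivity)
    refine this.trans ?_
    rw [Finset.sum_const, nsmul_eq_mul]
    have hk1 : A / (η / 2) < (k : ℝ) + 1 := by
      have : (k0 : ℝ) ≤ k := by exact_mod_cast hkk
      linarith
    have hkp : (0 : ℝ) < (k : ℝ) + 1 := by positivity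
    rw [div_lt_iff₀ (by linarith)] at hk1
    have : (F.card : ℝ) * (1 / ((k : ℝ) + 1) * (B * ((2 * C) * (2 * D)))) = A / ((k : ℝ) + 1) := by
      rw [hA]; ring
    rw [this, div_le_iff₀ hkp]
    nlinarith
  linarith

/-- null test functions do not contribute -/
theorem Net.L_null {f g : ℕ → G → ℝ} (hf : N.Adm f) (hg : N.Adm g) {b : ℕ → N.I → ℝ}
    (hb : N.TN b) : N.L f g b = 0 := by
  refine ulim_eq_zero_of_abs_le fun η hη => ?_
  have := Net.ulim_rem hf hg (c := fun k i => b k i * (N.dd (f k) i * N.dd (g k) i)) hb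
    (fun k i => by rw [abs_mul, abs_mul]) η hη
  exact this

/-- test functions with null difference give the same functional -/
theorem Net.L_congr_test {f g : ℕ → G → ℝ} (hf : N.Adm f) (hg : N.Adm g) {b c : ℕ → N.I → ℝ}
    (hb : N.TB b) (hc : N.TB c) (h : N.TN (fun k i => b k i - c k i)) : N.L f g b = N.L f g c := by
  have h1 := Net.L_null hf hg h
  have h2 : (fun k i => b k i - c k i) = fun k i => b k i + (-1) * c k i := by
    funext k i; ring
  rw [h2, Net.L_add_test hf hg hb (hc.smul (-1)), Net.L_smul_test (-1) hf hg hc] at h1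
  linarith

/-- LINEARISATION: if `dd F = a * dd f + b * dd g + r` with `|r| ≤ β (|dd f| + |dd g|)`, `β` null,
then `L F w c = L f w (c a) + L g w (c b)`. -/
theorem Net.L_lin {F f g w : ℕ → G → ℝ} (hF : N.Adm F) (hf : N.Adm f) (hg : N.Adm g)
    (hw : N.Adm w) {a b c β : ℕ → N.I → ℝ} (ha : N.TB a) (hb : N.TB b) (hc : N.TB c)
    (hβ : N.TN β)
    (h : ∀ k i, |N.dd (F k) i - (a k i * N.dd (f k) i + b k i * N.dd (g k) i)| ≤
      |β k i| * (|N.dd (f k) i| + |N.dd (g k) i|)) :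
    N.L F w c = N.L f w (fun k i => c k i * a k i) + N.L g w (fun k i => c k i * b k i) := by
  obtain ⟨M, hM0, hM⟩ := hc.exists_pos
  have hca := hc.mul ha
  have hcb := hc.mul hb
  have key : ulim (fun k => wip (N.W k) (c k) (N.dd (F k)) (N.dd (w k)) -
      (wip (N.W k) (fun i => c k i * a k i) (N.dd (f k)) (N.dd (w k)) +
        wip (N.W k) (fun i => c k i * b k i) (N.dd (g k)) (N.dd (w k)))) = 0 := by
    refine ulim_eq_zero_of_abs_le fun η hη => ?_
    -- split the remainder in two parts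
    have hr1 := Net.ulim_rem hf hw (β := fun k i => M * β k i)
      (c := fun k i => M * (|β k i| * (|N.dd (f k) i| * |N.dd (w k) i|)))
      ⟨hβ.1.smul M, fun η hη => by
        obtain ⟨K, hK⟩ := hβ.2 (η / M) (by positivity)
        refine ⟨K, hK.mono fun k hk i hi => ?_⟩
        rw [abs_mul, abs_of_pos hM0]
        have := hk i hi
        rw [le_div_iff₀ hM0] at this
        linarith⟩
      (fun k i => by
        rw [abs_mul, abs_mul, abs_mul M (β k i), abs_abs, abs_mul, abs_abs, abs_abs]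
        exact le_of_eq (by ring)) (η / 2) (by linarith)
    have hr2 := Net.ulim_rem hg hw (β := fun k i => M * β k i)
      (c := fun k i => M * (|β k i| * (|N.dd (g k) i| * |N.dd (w k) i|)))
      ⟨hβ.1.smul M, fun η hη => by
        obtain ⟨K, hK⟩ := hβ.2 (η / M) (by positivity)
        refine ⟨K, hK.mono fun k hk i hi => ?_⟩
        rw [abs_mul, abs_of_pos hM0]
        have := hk i hi
        rw [le_div_iff₀ hM0] at this
        linarith⟩
      (fun k i => by
        rw [abs_mul, abs_mul, abs_mul M (β k i), abs_abs, abs_mul, abs_abs, abs_abs]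
        exact le_of_eq (by ring)) (η / 2) (by linarith)
    filter_upwards [hr1, hr2] with k hk1 hk2
    obtain ⟨B, hB0, hB⟩ := hβ.1.exists_pos
    obtain ⟨Ma, hMa⟩ := hca
    obtain ⟨Mb, hMb⟩ := hcb
    have s0 := summable_wip (N.W_nonneg k) (hF.fin k) (hw.fin k) (hM k)
    have s1 := summable_wip (N.W_nonneg k) (hf.fin k) (hw.fin k) (hMa k)
    have s2 := summable_wip (N.W_nonneg k) (hg.fin k) (hw.fin k) (hMb k)
    have t1 : Summable fun i => N.W k i * (M * (|β k i| * (|N.dd (f k) i| * |N.dd (w k) i|))) := by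
      refine Summable.of_nonneg_of_le (fun i => ?_) (fun i => ?_)
        ((summable_abs (N.W_nonneg k) (hf.fin k) (hw.fin k)).mul_left (M * B))
      · have := N.W_nonneg k i
        positivity
      · have h1 : 0 ≤ N.W k i * (|N.dd (f k) i| * |N.dd (w k) i|) :=
          mul_nonneg (N.W_nonneg k i) (by positivity)
        have h2 := mul_le_mul_of_nonneg_right (hB k i) h1
        have h3 := mul_le_mul_of_nonneg_left h2 hM0.le
        linarith
    have t2 : Summable fun i => N.W k i * (M * (|β k i| * (|N.dd (g k) i| * |N.dd (w k) i|))) := by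
      refine Summable.of_nonneg_of_le (fun i => ?_) (fun i => ?_)
        ((summable_abs (N.W_nonneg k) (hg.fin k) (hw.fin k)).mul_left (M * B))
      · have := N.W_nonneg k i
        positivity
      · have h1 : 0 ≤ N.W k i * (|N.dd (g k) i| * |N.dd (w k) i|) :=
          mul_nonneg (N.W_nonneg k i) (by positivity)
        have h2 := mul_le_mul_of_nonneg_right (hB k i) h1
        have h3 := mul_le_mul_of_nonneg_left h2 hM0.le
        linarith
    unfold wip
    rw [← s1.tsum_add s2, ← s0.tsum_sub (s1.add s2)]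
    have h8 : |∑' i, (N.W k i * (c k i * (N.dd (F k) i * N.dd (w k) i)) -
        (N.W k i * (c k i * a k i * (N.dd (f k) i * N.dd (w k) i)) +
          N.W k i * (c k i * b k i * (N.dd (g k) i * N.dd (w k) i))))| ≤
        ∑' i, (N.W k i * (M * (|β k i| * (|N.dd (f k) i| * |N.dd (w k) i|))) +
          N.W k i * (M * (|β k i| * (|N.dd (g k) i| * |N.dd (w k) i|)))) := by
      rw [← Real.norm_eq_abs]
      refine tsum_of_norm_bounded (t1.add t2).hasSum fun i => ?_
      rw [Real.norm_eq_abs]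
      have e1 : N.W k i * (c k i * (N.dd (F k) i * N.dd (w k) i)) -
        (N.W k i * (c k i * a k i * (N.dd (f k) i * N.dd (w k) i)) +
          N.W k i * (c k i * b k i * (N.dd (g k) i * N.dd (w k) i))) =
          N.W k i * (c k i * ((N.dd (F k) i - (a k i * N.dd (f k) i + b k i * N.dd (g k) i)) *
            N.dd (w k) i)) := by ring
      rw [e1, abs_mul, abs_mul, abs_mul, abs_of_nonneg (N.W_nonneg k i), ← mul_add]
      refine mul_le_mul_of_nonneg_left ?_ (N.W_nonneg k i)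
      have h9 := mul_le_mul_of_nonneg_right (h k i) (abs_nonneg (N.dd (w k) i))
      have h10 := mul_le_mul (hM k i) h9 (by positivity) hM0.le
      refine h10.trans (le_of_eq ?_)
      ring
    rw [t1.tsum_add t2] at h8
    have h11 := (abs_le.mp hk1).2
    have h12 := (abs_le.mp hk2).2
    linarith
  have hb1 := Net.bdd_wip hF hw hc
  have hb2 := Net.bdd_wip hf hw hca
  have hb3 := Net.bdd_wip hg hw hcb
  rw [ulim_sub hb1 (hb2.add hb3), ulim_add hb2 hb3] at key
  unfold Net.L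
  linarith

end

end Crest.Agent.R193.AF
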