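import Mathlib
import Crest.Agent.R193.AF2

/-!
R193, block AF, part 3: convergence, composition with smooth functions, optimal sequences.
(helper555)
-/

set_option autoImplicit false

namespace Crest.Agent.R193.AF

open Filter Topology InvForm

section
variable {G Z : Type} [Group G] [TopologicalSpace Z] [MulAction G Z] {N : Net G Z}

/-- null sequences -/
def Net.Nul (N : Net G Z) (w : ℕ → G → ℝ) : Prop :=
  N.Adm w ∧ ∀ η > 0, ∃ K : ℕ, ∀ᶠ k in om, ∀ h : G, K ≤ N.len h → |w k h| ≤ η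

/-- optimal sequences -/
def Net.Opt (N : Net G Z) (f : ℕ → G → ℝ) (u : C(Z, ℝ)) : Prop :=
  N.Adm f ∧ N.Conv f u ∧ ∀ w, N.Nul w → N.L f w N.one = 0

/-- test function given by a sequence of functions on the group -/
def Net.tf (N : Net G Z) (a : ℕ → G → ℝ) : ℕ → N.I → ℝ := fun k i => a k i.1

/-- test function given by a function on the boundary -/
def Net.tz (N : Net G Z) (φ : C(Z, ℝ)) : ℕ → N.I → ℝ := fun _ i => φ (N.p i.1)

theorem Net.Adm.TB_tf {a : ℕ → G → ℝ} (ha : N.Adm a) : N.TB (N.tf a) := by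
  obtain ⟨C, h1, h2, h3⟩ := ha
  exact ⟨C, fun k i => h1 k i.1⟩

theorem Net.Nul.TN_tf {w : ℕ → G → ℝ} (hw : N.Nul w) : N.TN (N.tf w) := by
  refine ⟨hw.1.TB_tf, fun η hη => ?_⟩
  obtain ⟨K, hK⟩ := hw.2 η hη
  exact ⟨K, hK.mono fun k hk i hi => hk i.1 hi⟩

theorem Net.TB_tz [CompactSpace Z] (φ : C(Z, ℝ)) : N.TB (N.tz φ) :=
  ⟨‖φ‖, fun _ i => φ.norm_coe_le_norm (N.p i.1)⟩

theorem Net.Conv.add {f g : ℕ → G → ℝ} {u v : C(Z, ℝ)} (hf : N.Conv f u) (hg : N.Conv g v) :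
    N.Conv (fun k h => f k h + g k h) (u + v) := by
  intro η hη
  obtain ⟨K, hK⟩ := hf (η / 2) (by linarith)
  obtain ⟨K', hK'⟩ := hg (η / 2) (by linarith)
  refine ⟨max K K', (hK.and hK').mono fun k hk h hh => ?_⟩
  have h1 := hk.1 h (le_trans (le_max_left _ _) hh)
  have h2 := hk.2 h (le_trans (le_max_right _ _) hh)
  rw [ContinuousMap.add_apply]
  have : f k h + g k h - (u (N.p h) + v (N.p h)) = (f k h - u (N.p h)) + (g k h - v (N.p h)) := by
    ring
  rw [this]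
  exact (abs_add_le _ _).trans (by linarith)

theorem Net.Conv.smul {f : ℕ → G → ℝ} {u : C(Z, ℝ)} (t : ℝ) (hf : N.Conv f u) :
    N.Conv (fun k h => t * f k h) (t • u) := by
  intro η hη
  obtain ⟨K, hK⟩ := hf (η / (|t| + 1)) (by positivity)
  refine ⟨K, hK.mono fun k hk h hh => ?_⟩
  have h1 := hk h hh
  rw [ContinuousMap.smul_apply, smul_eq_mul, ← mul_sub, abs_mul]
  rw [le_div_iff₀ (by positivity)] at h1
  nlinarith [abs_nonneg (f k h - u (N.p h)), abs_nonneg t]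

theorem Net.Nul.smul {w : ℕ → G → ℝ} (t : ℝ) (hw : N.Nul w) : N.Nul (fun k h => t * w k h) := by
  refine ⟨hw.1.smul t, fun η hη => ?_⟩
  obtain ⟨K, hK⟩ := hw.2 (η / (|t| + 1)) (by positivity)
  refine ⟨K, hK.mono fun k hk h hh => ?_⟩
  have h1 := hk h hh
  rw [abs_mul]
  rw [le_div_iff₀ (by positivity)] at h1
  nlinarith [abs_nonneg (w k h), abs_nonneg t]

theorem Net.Conv.add_nul {f w : ℕ → G → ℝ} {u : C(Z, ℝ)} (hf : N.Conv f u) (hw : N.Nul w) :
    N.Conv (fun k h => f k h + w k h) u := by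
  intro η hη
  obtain ⟨K, hK⟩ := hf (η / 2) (by linarith)
  obtain ⟨K', hK'⟩ := hw.2 (η / 2) (by linarith)
  refine ⟨max K K', (hK.and hK').mono fun k hk h hh => ?_⟩
  have h1 := hk.1 h (le_trans (le_max_left _ _) hh)
  have h2 := hk.2 h (le_trans (le_max_right _ _) hh)
  have : f k h + w k h - u (N.p h) = (f k h - u (N.p h)) + w k h := by ring
  rw [this]
  exact (abs_add_le _ _).trans (by linarith)

theorem Net.Conv.sub_nul {f g : ℕ → G → ℝ} {u : C(Z, ℝ)} (hf : N.Adm f) (hg : N.Adm g)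
    (hfu : N.Conv f u) (hgu : N.Conv g u) : N.Nul (fun k h => f k h - g k h) := by
  refine ⟨hf.sub hg, fun η hη => ?_⟩
  obtain ⟨K, hK⟩ := hfu (η / 2) (by linarith)
  obtain ⟨K', hK'⟩ := hgu (η / 2) (by linarith)
  refine ⟨max K K', (hK.and hK').mono fun k hk h hh => ?_⟩
  have h1 := hk.1 h (le_trans (le_max_left _ _) hh)
  have h2 := hk.2 h (le_trans (le_max_right _ _) hh)
  have : f k h - g k h = (f k h - u (N.p h)) - (g k h - u (N.p h)) := by ring
  show |f k h - g k h| ≤ η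
  rw [this]
  exact (abs_sub _ _).trans (by linarith)

/-- differences along edges of a convergent sequence are null -/
theorem Net.Conv.TN_dd {f : ℕ → G → ℝ} {u : C(Z, ℝ)} (hf : N.Adm f) (hfu : N.Conv f u) :
    N.TN (fun k i => N.dd (f k) i) := by
  obtain ⟨C, h1, h2, h3⟩ := hf
  refine ⟨⟨2 * C, fun k i => ?_⟩, fun η hη => ?_⟩
  · unfold Net.dd
    exact (abs_sub _ _).trans (by linarith [h1 k i.1, h1 k (i.1 * i.2.1)])
  · obtain ⟨K, hK⟩ := hfu (η / 3) (by linarith)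
    obtain ⟨c, hc⟩ := N.exists_step_bound
    choose! K1 hK1 using fun s (hs : s ∈ N.st) => N.A1 s hs u (η / 3) (by linarith)
    refine ⟨max (K + c) (N.st.sup K1), hK.mono fun k hk i hi => ?_⟩
    have hi1 : K + c ≤ N.len i.1 := le_trans (le_max_left _ _) hi
    have hi2 : K1 i.2.1 ≤ N.len i.1 :=
      le_trans (Finset.le_sup (f := K1) i.2.2) (le_trans (le_max_right _ _) hi)
    have e1 := hk i.1 (by omega)
    have h4 : K ≤ N.len (i.1 * i.2.1) := by
      have := N.len_le_mul i.1 i.2.1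
      have := hc i.2.1 i.2.2
      omega
    have e2 := hk _ h4
    have e3 := hK1 i.2.1 i.2.2 i.1 hi2
    show |f k i.1 - f k (i.1 * i.2.1)| ≤ η
    have : f k i.1 - f k (i.1 * i.2.1) = (f k i.1 - u (N.p i.1)) +
      (u (N.p i.1) - u (N.p (i.1 * i.2.1))) - (f k (i.1 * i.2.1) - u (N.p (i.1 * i.2.1))) := by
      ring
    rw [this]
    refine (abs_sub _ _).trans ?_
    have := abs_add_le (f k i.1 - u (N.p i.1)) (u (N.p i.1) - u (N.p (i.1 * i.2.1)))
    linarith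

theorem Net.TN.abs {b : ℕ → N.I → ℝ} (hb : N.TN b) : N.TN (fun k i => |b k i|) := by
  obtain ⟨⟨C, hC⟩, h⟩ := hb
  refine ⟨⟨C, fun k i => by rw [abs_abs]; exact hC k i⟩, fun η hη => ?_⟩
  obtain ⟨K, hK⟩ := h η hη
  exact ⟨K, hK.mono fun k hk i hi => by rw [abs_abs]; exact hk i hi⟩

theorem Net.TN.add {b c : ℕ → N.I → ℝ} (hb : N.TN b) (hc : N.TN c) :
    N.TN (fun k i => b k i + c k i) := by
  refine ⟨hb.1.add hc.1, fun η hη => ?_⟩
  obtain ⟨K, hK⟩ := hb.2 (η / 2) (by linarith)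
  obtain ⟨K', hK'⟩ := hc.2 (η / 2) (by linarith)
  refine ⟨max K K', (hK.and hK').mono fun k hk i hi => ?_⟩
  exact (abs_add_le _ _).trans (by
    linarith [hk.1 i (le_trans (le_max_left _ _) hi), hk.2 i (le_trans (le_max_right _ _) hi)])

theorem Net.TN.smul {b : ℕ → N.I → ℝ} (t : ℝ) (hb : N.TN b) :
    N.TN (fun k i => t * b k i) := by
  refine ⟨hb.1.smul t, fun η hη => ?_⟩
  obtain ⟨K, hK⟩ := hb.2 (η / (|t| + 1)) (by positivity)
  refine ⟨K, hK.mono fun k hk i hi => ?_⟩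
  have h1 := hk i hi
  rw [abs_mul]
  rw [le_div_iff₀ (by positivity)] at h1
  nlinarith [abs_nonneg (b k i), abs_nonneg t]

theorem Net.TN.mul_TB {b c : ℕ → N.I → ℝ} (hb : N.TN b) (hc : N.TB c) :
    N.TN (fun k i => b k i * c k i) := by
  refine ⟨hb.1.mul hc, fun η hη => ?_⟩
  obtain ⟨C, hC0, hC⟩ := hc.exists_pos
  obtain ⟨K, hK⟩ := hb.2 (η / C) (by positivity)
  refine ⟨K, hK.mono fun k hk i hi => ?_⟩
  have h1 := hk i hi
  rw [le_div_iff₀ hC0] at h1
  rw [abs_mul]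
  have := mul_le_mul_of_nonneg_left (hC k i) (abs_nonneg (b k i))
  linarith

/-! ### smooth functions of two variables -/

theorem exists_lip {ψ : ℝ × ℝ → ℝ} (hψ : ContDiff ℝ 1 ψ) (C : ℝ) :
    ∃ Λ > 0, ∀ x y : ℝ × ℝ, ‖x‖ ≤ C → ‖y‖ ≤ C → |ψ x - ψ y| ≤ Λ * ‖x - y‖ := by
  have hc : IsCompact (Metric.closedBall (0 : ℝ × ℝ) C) := isCompact_closedBall _ _
  have hcont : Continuous (fun x => ‖fderiv ℝ ψ x‖) :=
    (hψ.continuous_fderiv (by norm_num)).norm
  obtain ⟨M, hM⟩ := (hc.image hcont).bddAbove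
  refine ⟨|M| + 1, by positivity, fun x y hx hy => ?_⟩
  have h := Convex.norm_image_sub_le_of_norm_fderiv_le (𝕜 := ℝ) (f := ψ) (C := |M| + 1)
    (s := Metric.closedBall (0 : ℝ × ℝ) C) (x := y) (y := x)
    (fun z _ => (hψ.differentiable (by norm_num)) z)
    (fun z hz => (hM ⟨z, hz, rfl⟩).trans ((le_abs_self M).trans (by linarith)))
    (convex_closedBall _ _) (by simpa using hy) (by simpa using hx)
  simpa [Real.norm_eq_abs] using h

theorem exists_taylor {ψ : ℝ × ℝ → ℝ} (hψ : ContDiff ℝ 2 ψ) (C : ℝ) :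
    ∃ Λ > 0, ∀ x y : ℝ × ℝ, ‖x‖ ≤ C → ‖y‖ ≤ C →
      |ψ y - ψ x - fderiv ℝ ψ x (y - x)| ≤ Λ * ‖y - x‖ * ‖y - x‖ := by
  have hd : ContDiff ℝ 1 (fderiv ℝ ψ) := hψ.fderiv_right (by norm_num)
  have hc : IsCompact (Metric.closedBall (0 : ℝ × ℝ) C) := isCompact_closedBall _ _
  have hcont : Continuous (fun x => ‖fderiv ℝ (fderiv ℝ ψ) x‖) :=
    (hd.continuous_fderiv (by norm_num)).norm
  obtain ⟨M, hM⟩ := (hc.image hcont).bddAbove
  refine ⟨|M| + 1, by positivity, fun x y hx hy => ?_⟩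
  have hseg : segment ℝ x y ⊆ Metric.closedBall (0 : ℝ × ℝ) C :=
    (convex_closedBall _ _).segment_subset (by simpa using hx) (by simpa using hy)
  have hbd : ∀ z ∈ segment ℝ x y, ‖fderiv ℝ ψ z - fderiv ℝ ψ x‖ ≤ (|M| + 1) * ‖y - x‖ := by
    intro z hz
    have h := Convex.norm_image_sub_le_of_norm_fderiv_le (𝕜 := ℝ) (f := fderiv ℝ ψ) (C := |M| + 1)
      (s := Metric.closedBall (0 : ℝ × ℝ) C) (x := x) (y := z)
      (fun z _ => (hd.differentiable (by norm_num)) z)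
      (fun z hz => (hM ⟨z, hz, rfl⟩).trans ((le_abs_self M).trans (by linarith)))
      (convex_closedBall _ _) (by simpa using hx) (hseg hz)
    refine h.trans (mul_le_mul_of_nonneg_left ?_ (by positivity))
    have h5 : segment ℝ x y ⊆ Metric.closedBall x ‖y - x‖ :=
      (convex_closedBall _ _).segment_subset (Metric.mem_closedBall_self (norm_nonneg _))
        (by rw [Metric.mem_closedBall, dist_eq_norm])
    have h6 := h5 hz
    rwa [Metric.mem_closedBall, dist_eq_norm] at h6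
  have := Convex.norm_image_sub_le_of_norm_hasFDerivWithin_le' (𝕜 := ℝ) (f := ψ)
    (f' := fderiv ℝ ψ) (φ := fderiv ℝ ψ x) (C := (|M| + 1) * ‖y - x‖) (s := segment ℝ x y)
    (x := x) (y := y)
    (fun z _ => ((hψ.differentiable (by norm_num)) z).hasFDerivAt.hasFDerivWithinAt)
    hbd (convex_segment _ _) (left_mem_segment _ _ _) (right_mem_segment _ _ _)
  rw [Real.norm_eq_abs] at this
  exact this

end

end Crest.Agent.R193.AF
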