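import Mathlib
import Crest.Agent.R193.AF3

/-!
R193, block AF, part 4: chain rule at the level of sequences; optimal sequences are stable under
`C²` functions of two variables; independence of the choice of optimal sequences. (helper555)
-/

set_option autoImplicit false

namespace Crest.Agent.R193.AF

open Filter Topology InvForm

section
variable {G Z : Type} [Group G] [TopologicalSpace Z] [MulAction G Z] {N : Net G Z}

theorem norm_pair_le {a b C : ℝ} (ha : |a| ≤ C) (hb : |b| ≤ C) : ‖((a, b) : ℝ × ℝ)‖ ≤ C := by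
  rw [Prod.norm_def]
  exact max_le (by simpa using ha) (by simpa using hb)

theorem norm_pair_le_add (a b : ℝ) : ‖((a, b) : ℝ × ℝ)‖ ≤ |a| + |b| := by
  rw [Prod.norm_def]
  exact max_le (by simp) (by simp)

/-- composition of a function of two variables with two sequences -/
def cmp (ψ : ℝ × ℝ → ℝ) (f g : ℕ → G → ℝ) : ℕ → G → ℝ := fun k h => ψ (f k h, g k h)

theorem FinE.of_le_add {ι : Type} {W : ι → ℝ} (hW : ∀ i, 0 ≤ W i) {a c e : ι → ℝ}
    (ha : FinE W a) (hc : FinE W c) {Λ : ℝ}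
    (h : ∀ i, |e i| ≤ Λ * (|a i| + |c i|)) :
    FinE W e ∧ wen W e ≤ Λ ^ 2 * (2 * wen W a + 2 * wen W c) := by
  have ha' : FinE W (fun i => |a i|) := ha.of_le hW fun i => by rw [abs_abs]
  have hc' : FinE W (fun i => |c i|) := hc.of_le hW fun i => by rw [abs_abs]
  have h1 : FinE W (fun i => Λ * (|a i| + |c i|)) := (ha'.add hW hc').smul Λ
  have h2 : ∀ i, |e i| ≤ |Λ * (|a i| + |c i|)| := fun i => (h i).trans (le_abs_self _)
  refine ⟨h1.of_le hW h2, (wen_le_of_le hW h1 h2).trans ?_⟩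
  rw [wen_smul]
  refine mul_le_mul_of_nonneg_left ?_ (sq_nonneg _)
  refine (wen_add_le hW ha' hc').trans (le_of_eq ?_)
  have e1 : wen W (fun i => |a i|) = wen W a := by unfold wen; simp
  have e2 : wen W (fun i => |c i|) = wen W c := by unfold wen; simp
  rw [e1, e2]

theorem Net.Adm.cmp {ψ : ℝ × ℝ → ℝ} (hψ : ContDiff ℝ 1 ψ) {f g : ℕ → G → ℝ} (hf : N.Adm f)
    (hg : N.Adm g) : N.Adm (cmp ψ f g) := by
  obtain ⟨C, hC0, h1, h2, h3⟩ := hf.exists_pos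
  obtain ⟨D, hD0, g1, g2, g3⟩ := hg.exists_pos
  set R := max C D with hR
  obtain ⟨Λ, hΛ0, hΛ⟩ := exists_lip hψ R
  have hn : ∀ k h, ‖((f k h, g k h) : ℝ × ℝ)‖ ≤ R := fun k h =>
    norm_pair_le ((h1 k h).trans (le_max_left _ _)) ((g1 k h).trans (le_max_right _ _))
  have hdd : ∀ k i, |N.dd (AF.cmp ψ f g k) i| ≤ Λ * (|N.dd (f k) i| + |N.dd (g k) i|) := by
    intro k i
    have := hΛ _ _ (hn k i.1) (hn k (i.1 * i.2.1))
    refine this.trans (mul_le_mul_of_nonneg_left ?_ hΛ0.le)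
    exact norm_pair_le_add _ _
  have hR0 : 0 < R := lt_max_of_lt_left hC0
  refine ⟨(|ψ 0| + Λ * R) + Λ ^ 2 * (2 * C + 2 * D), fun k h => ?_, fun k => ?_, fun k => ?_⟩
  · have h4 := hΛ _ _ (hn k h) (show ‖(0 : ℝ × ℝ)‖ ≤ R by simpa using hR0.le)
    rw [sub_zero] at h4
    have h5 : |ψ (f k h, g k h)| ≤ |ψ 0| + Λ * R := by
      have h6 : |ψ (f k h, g k h)| ≤ |ψ (f k h, g k h) - ψ 0| + |ψ 0| := by
        have := abs_add_le (ψ (f k h, g k h) - ψ 0) (ψ 0)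
        simpa using this
      have h7 := mul_le_mul_of_nonneg_left (hn k h) hΛ0.le
      linarith
    have h8 : 0 ≤ Λ ^ 2 * (2 * C + 2 * D) := by positivity
    exact h5.trans (by linarith)
  · exact (FinE.of_le_add (N.W_nonneg k) (h2 k) (g2 k) (hdd k)).1
  · refine (FinE.of_le_add (N.W_nonneg k) (h2 k) (g2 k) (hdd k)).2.trans ?_
    have h9 : 0 ≤ |ψ 0| + Λ * R := by positivity
    have h10 : Λ ^ 2 * (2 * wen (N.W k) (N.dd (f k)) + 2 * wen (N.W k) (N.dd (g k))) ≤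
        Λ ^ 2 * (2 * C + 2 * D) :=
      mul_le_mul_of_nonneg_left (by linarith [h3 k, g3 k]) (sq_nonneg _)
    linarith

theorem Net.Conv.cmp [CompactSpace Z] {ψ : ℝ × ℝ → ℝ} (hψ : ContDiff ℝ 1 ψ) {f g : ℕ → G → ℝ}
    (hf : N.Adm f) (hg : N.Adm g) {u v w : C(Z, ℝ)} (hfu : N.Conv f u) (hgv : N.Conv g v)
    (hw : ∀ x, w x = ψ (u x, v x)) : N.Conv (cmp ψ f g) w := by
  obtain ⟨C, hC0, h1, h2, h3⟩ := hf.exists_pos
  obtain ⟨D, hD0, g1, g2, g3⟩ := hg.exists_pos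
  set R := max (max C D) (max ‖u‖ ‖v‖) with hR
  obtain ⟨Λ, hΛ0, hΛ⟩ := exists_lip hψ R
  have hn : ∀ k h, ‖((f k h, g k h) : ℝ × ℝ)‖ ≤ R := fun k h =>
    norm_pair_le ((h1 k h).trans ((le_max_left _ _).trans (le_max_left _ _)))
      ((g1 k h).trans ((le_max_right _ _).trans (le_max_left _ _)))
  have hn' : ∀ x, ‖((u x, v x) : ℝ × ℝ)‖ ≤ R := fun x =>
    norm_pair_le ((u.norm_coe_le_norm x).trans ((le_max_left _ _).trans (le_max_right _ _)))
      ((v.norm_coe_le_norm x).trans ((le_max_right _ _).trans (le_max_right _ _)))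
  intro η hη
  obtain ⟨K, hK⟩ := hfu (η / (2 * Λ)) (by positivity)
  obtain ⟨K', hK'⟩ := hgv (η / (2 * Λ)) (by positivity)
  refine ⟨max K K', (hK.and hK').mono fun k hk h hh => ?_⟩
  have e1 := hk.1 h (le_trans (le_max_left _ _) hh)
  have e2 := hk.2 h (le_trans (le_max_right _ _) hh)
  rw [hw]
  refine (hΛ _ _ (hn k h) (hn' _)).trans ?_
  have h3 : ‖((f k h, g k h) : ℝ × ℝ) - (u (N.p h), v (N.p h))‖ ≤ η / (2 * Λ) + η / (2 * Λ) :=
    (norm_pair_le_add _ _).trans (add_le_add e1 e2)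
  refine (mul_le_mul_of_nonneg_left h3 hΛ0.le).trans (le_of_eq ?_)
  field_simp
  ring

/-- the chain rule for the limit functional -/
theorem Net.L_chain {ψ : ℝ × ℝ → ℝ} (hψ : ContDiff ℝ 2 ψ) {f g w : ℕ → G → ℝ}
    (hf : N.Adm f) (hg : N.Adm g) (hw : N.Adm w) {u v : C(Z, ℝ)} (hfu : N.Conv f u)
    (hgv : N.Conv g v) {c : ℕ → N.I → ℝ} (hc : N.TB c) :
    N.L (cmp ψ f g) w c =
      N.L f w (fun k i => c k i * N.tf (cmp (fun x => fderiv ℝ ψ x (1, 0)) f g) k i) +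
      N.L g w (fun k i => c k i * N.tf (cmp (fun x => fderiv ℝ ψ x (0, 1)) f g) k i) := by
  have hψ1 : ContDiff ℝ 1 ψ := hψ.of_le (by norm_num)
  have hd : ContDiff ℝ 1 (fderiv ℝ ψ) := hψ.fderiv_right (by norm_num)
  have hd1 : ContDiff ℝ 1 (fun x => fderiv ℝ ψ x (1, 0)) := hd.clm_apply contDiff_const
  have hd2 : ContDiff ℝ 1 (fun x => fderiv ℝ ψ x (0, 1)) := hd.clm_apply contDiff_const
  have hA := Net.Adm.cmp hd1 hf hg
  have hB := Net.Adm.cmp hd2 hf hg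
  obtain ⟨C, hC0, h1, h2, h3⟩ := hf.exists_pos
  obtain ⟨D, hD0, g1, g2, g3⟩ := hg.exists_pos
  set R := max C D with hR
  obtain ⟨Λ, hΛ0, hΛ⟩ := exists_taylor hψ R
  have hn : ∀ k h, ‖((f k h, g k h) : ℝ × ℝ)‖ ≤ R := fun k h =>
    norm_pair_le ((h1 k h).trans (le_max_left _ _)) ((g1 k h).trans (le_max_right _ _))
  have hβ : N.TN (fun k i => Λ * (|N.dd (f k) i| + |N.dd (g k) i|)) :=
    ((hfu.TN_dd hf).abs.add (hgv.TN_dd hg).abs).smul Λ
  refine Net.L_lin (Net.Adm.cmp hψ1 hf hg) hf hg hw hA.TB_tf hB.TB_tf hc hβ fun k i => ?_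
  set x : ℝ × ℝ := (f k i.1, g k i.1) with hx
  set y : ℝ × ℝ := (f k (i.1 * i.2.1), g k (i.1 * i.2.1)) with hy
  have ht := hΛ x y (hn k i.1) (hn k (i.1 * i.2.1))
  have hyx : y - x = (-(N.dd (f k) i)) • ((1, 0) : ℝ × ℝ) + (-(N.dd (g k) i)) • ((0, 1) : ℝ × ℝ) := by
    simp only [hx, hy, Net.dd, Prod.mk_sub_mk, Prod.smul_mk, smul_eq_mul, mul_one, mul_zero,
      Prod.mk_add_mk, add_zero, zero_add]
    congr 1 <;> ring
  have hnorm : ‖y - x‖ ≤ |N.dd (f k) i| + |N.dd (g k) i| := by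
    have e : y - x = (-(N.dd (f k) i), -(N.dd (g k) i)) := by
      simp only [hx, hy, Net.dd, Prod.mk_sub_mk]
      congr 1 <;> ring
    rw [e]
    refine (norm_pair_le_add _ _).trans ?_
    rw [abs_neg, abs_neg]
  have e2 : fderiv ℝ ψ x (y - x) = -(N.dd (f k) i) * fderiv ℝ ψ x (1, 0) +
      -(N.dd (g k) i) * fderiv ℝ ψ x (0, 1) := by
    rw [hyx, map_add, map_smul, map_smul, smul_eq_mul, smul_eq_mul]
  have e3 : N.dd (cmp ψ f g k) i - (N.tf (cmp (fun x => fderiv ℝ ψ x (1, 0)) f g) k i * N.dd (f k) i +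
      N.tf (cmp (fun x => fderiv ℝ ψ x (0, 1)) f g) k i * N.dd (g k) i) =
      -(ψ y - ψ x - fderiv ℝ ψ x (y - x)) := by
    rw [e2]
    simp only [Net.tf, cmp, Net.dd, hx, hy]
    ring
  rw [e3, abs_neg]
  refine ht.trans ?_
  rw [abs_of_nonneg (by positivity : 0 ≤ Λ * (|N.dd (f k) i| + |N.dd (g k) i|))]
  have h5 : 0 ≤ |N.dd (f k) i| + |N.dd (g k) i| := by positivity
  have h6 := mul_le_mul_of_nonneg_left hnorm hΛ0.le
  exact mul_le_mul h6 hnorm (norm_nonneg _) (by positivity)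

/-- the Leibniz rule -/
theorem Net.L_mul {f g w : ℕ → G → ℝ} (hf : N.Adm f) (hg : N.Adm g) (hw : N.Adm w)
    {u v : C(Z, ℝ)} (hfu : N.Conv f u) (hgv : N.Conv g v) {c : ℕ → N.I → ℝ} (hc : N.TB c) :
    N.L (fun k h => f k h * g k h) w c =
      N.L f w (fun k i => c k i * N.tf g k i) + N.L g w (fun k i => c k i * N.tf f k i) := by
  have hψ : ContDiff ℝ 2 (fun x : ℝ × ℝ => x.1 * x.2) := contDiff_fst.mul contDiff_snd
  have h := Net.L_chain (N := N) hψ hf hg hw hfu hgv hc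
  have hfd : ∀ x : ℝ × ℝ, HasFDerivAt (fun x : ℝ × ℝ => x.1 * x.2)
      (x.1 • ContinuousLinearMap.snd ℝ ℝ ℝ + x.2 • ContinuousLinearMap.fst ℝ ℝ ℝ) x := fun x =>
    (hasFDerivAt_fst).mul (hasFDerivAt_snd)
  have e1 : cmp (fun x => fderiv ℝ (fun x : ℝ × ℝ => x.1 * x.2) x (1, 0)) f g = g := by
    funext k h
    simp only [cmp]
    rw [(hfd _).fderiv]
    simp
  have e2 : cmp (fun x => fderiv ℝ (fun x : ℝ × ℝ => x.1 * x.2) x (0, 1)) f g = f := by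
    funext k h
    simp only [cmp]
    rw [(hfd _).fderiv]
    simp
  rw [e1, e2] at h
  exact h

theorem Net.Adm.mul {f g : ℕ → G → ℝ} (hf : N.Adm f) (hg : N.Adm g) :
    N.Adm (fun k h => f k h * g k h) :=
  Net.Adm.cmp (ψ := fun x : ℝ × ℝ => x.1 * x.2) (contDiff_fst.mul contDiff_snd) hf hg

theorem Net.Nul.mul_left {a w : ℕ → G → ℝ} (ha : N.Adm a) (hw : N.Nul w) :
    N.Nul (fun k h => a k h * w k h) := by
  refine ⟨ha.mul hw.1, fun η hη => ?_⟩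
  obtain ⟨C, hC0, h1, h2, h3⟩ := ha.exists_pos
  obtain ⟨K, hK⟩ := hw.2 (η / C) (by positivity)
  refine ⟨K, hK.mono fun k hk h hh => ?_⟩
  have e1 := hk h hh
  rw [le_div_iff₀ hC0] at e1
  rw [abs_mul]
  have := mul_le_mul_of_nonneg_right (h1 k h) (abs_nonneg (w k h))
  linarith

theorem Net.Nul.conv {w : ℕ → G → ℝ} (hw : N.Nul w) : N.Conv w 0 := by
  intro η hη
  obtain ⟨K, hK⟩ := hw.2 η hη
  exact ⟨K, hK.mono fun k hk h hh => by simpa using hk h hh⟩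

/-- an optimal sequence is orthogonal to null sequences also with coefficients of finite energy -/
theorem Net.Opt.L_nul_coef {f a w : ℕ → G → ℝ} {u v : C(Z, ℝ)} (hf : N.Opt f u) (ha : N.Adm a)
    (hav : N.Conv a v) (hw : N.Nul w) : N.L f w (N.tf a) = 0 := by
  have h1 := hf.2.2 _ (hw.mul_left ha)
  have h2 := Net.L_mul ha hw.1 hf.1 hav hw.conv (c := N.one) Net.TB_one
  have e1 : (fun k i => N.one k i * N.tf w k i) = N.tf w := by funext k i; simp [Net.one]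
  have e2 : (fun k i => N.one k i * N.tf a k i) = N.tf a := by funext k i; simp [Net.one]
  rw [e1, e2, Net.L_symm] at h2
  rw [h1] at h2
  have h3 : N.L a f (N.tf w) = 0 := Net.L_null ha hf.1 hw.TN_tf
  rw [h3, zero_add] at h2
  rw [Net.L_symm]
  exact h2.symm

/-- optimal sequences are stable under `C²` functions -/
theorem Net.Opt.cmp [CompactSpace Z] {ψ : ℝ × ℝ → ℝ} (hψ : ContDiff ℝ 2 ψ) {f g : ℕ → G → ℝ}
    {u v w : C(Z, ℝ)} (hf : N.Opt f u) (hg : N.Opt g v) (hw : ∀ x, w x = ψ (u x, v x)) :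
    N.Opt (AF.cmp ψ f g) w := by
  have hψ1 : ContDiff ℝ 1 ψ := hψ.of_le (by norm_num)
  have hd : ContDiff ℝ 1 (fderiv ℝ ψ) := hψ.fderiv_right (by norm_num)
  have hd1 : ContDiff ℝ 1 (fun x => fderiv ℝ ψ x (1, 0)) := hd.clm_apply contDiff_const
  have hd2 : ContDiff ℝ 1 (fun x => fderiv ℝ ψ x (0, 1)) := hd.clm_apply contDiff_const
  have hA := Net.Adm.cmp hd1 hf.1 hg.1
  have hB := Net.Adm.cmp hd2 hf.1 hg.1
  have cA : N.Conv (AF.cmp (fun x => fderiv ℝ ψ x (1, 0)) f g)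
      ⟨fun x => fderiv ℝ ψ (u x, v x) (1, 0),
        hd1.continuous.comp (u.continuous.prodMk v.continuous)⟩ :=
    Net.Conv.cmp hd1 hf.1 hg.1 hf.2.1 hg.2.1 fun x => rfl
  have cB : N.Conv (AF.cmp (fun x => fderiv ℝ ψ x (0, 1)) f g)
      ⟨fun x => fderiv ℝ ψ (u x, v x) (0, 1),
        hd2.continuous.comp (u.continuous.prodMk v.continuous)⟩ :=
    Net.Conv.cmp hd2 hf.1 hg.1 hf.2.1 hg.2.1 fun x => rfl
  refine ⟨Net.Adm.cmp hψ1 hf.1 hg.1, Net.Conv.cmp hψ1 hf.1 hg.1 hf.2.1 hg.2.1 hw,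
    fun w hw => ?_⟩
  rw [Net.L_chain hψ hf.1 hg.1 hw.1 hf.2.1 hg.2.1 Net.TB_one]
  have e1 : (fun k i => N.one k i * N.tf (AF.cmp (fun x => fderiv ℝ ψ x (1, 0)) f g) k i) =
      N.tf (AF.cmp (fun x => fderiv ℝ ψ x (1, 0)) f g) := by funext k i; simp [Net.one]
  have e2 : (fun k i => N.one k i * N.tf (AF.cmp (fun x => fderiv ℝ ψ x (0, 1)) f g) k i) =
      N.tf (AF.cmp (fun x => fderiv ℝ ψ x (0, 1)) f g) := by funext k i; simp [Net.one]
  rw [e1, e2, hf.L_nul_coef hA cA hw, hg.L_nul_coef hB cB hw, add_zero]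

theorem Net.Opt.add {f g : ℕ → G → ℝ} {u v : C(Z, ℝ)} (hf : N.Opt f u) (hg : N.Opt g v) :
    N.Opt (fun k h => f k h + g k h) (u + v) :=
  ⟨hf.1.add hg.1, hf.2.1.add hg.2.1, fun w hw => by
    rw [Net.L_add_left hf.1 hg.1 hw.1 Net.TB_one, hf.2.2 w hw, hg.2.2 w hw, add_zero]⟩

theorem Net.Opt.smul {f : ℕ → G → ℝ} {u : C(Z, ℝ)} (t : ℝ) (hf : N.Opt f u) :
    N.Opt (fun k h => t * f k h) (t • u) :=
  ⟨hf.1.smul t, hf.2.1.smul t, fun w hw => by
    rw [Net.L_smul_left t hf.1 hw.1 Net.TB_one, hf.2.2 w hw, mul_zero]⟩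

/-- zero-energy differences do not change the functional -/
theorem Net.L_eq_of_energy_zero {f f' g : ℕ → G → ℝ} (hf : N.Adm f) (hf' : N.Adm f')
    (hg : N.Adm g) (h : N.L (fun k h => f k h - f' k h) (fun k h => f k h - f' k h) N.one = 0)
    {b : ℕ → N.I → ℝ} (hb : N.TB b) : N.L f g b = N.L f' g b := by
  obtain ⟨M, hM⟩ := hb
  have h1 := Net.abs_L_le (hf.sub hf') hg hM
  rw [h, Real.sqrt_zero, zero_mul, mul_zero, Net.L_sub_left hf hf' hg ⟨M, hM⟩] at h1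
  have := abs_nonpos_iff.mp h1
  linarith

/-- independence of the optimal sequence -/
theorem Net.Opt.L_congr {f f' g : ℕ → G → ℝ} {u : C(Z, ℝ)} (hf : N.Opt f u) (hf' : N.Opt f' u)
    (hg : N.Adm g) {b : ℕ → N.I → ℝ} (hb : N.TB b) : N.L f g b = N.L f' g b := by
  refine Net.L_eq_of_energy_zero hf.1 hf'.1 hg ?_ hb
  have hn := Net.Conv.sub_nul hf.1 hf'.1 hf.2.1 hf'.2.1
  rw [Net.L_sub_left hf.1 hf'.1 hn.1 Net.TB_one, hf.2.2 _ hn, hf'.2.2 _ hn, sub_zero]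

end

end Crest.Agent.R193.AF
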