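import Mathlib
import Crest.Agent.R193.AF4

/-!
R193, block AF, part 5: finite modifications, diagonal sequences, existence of optimal sequences,
closedness and weak continuity. (helper555)
-/

set_option autoImplicit false

namespace Crest.Agent.R193.AF

open Filter Topology InvForm

/-- DIAGONAL LEMMA along the hyperfilter. -/
theorem exists_diag {X : Type} (x0 : X) (P : ℕ → ℕ → X → Prop)
    (hmono : ∀ j k x, P (j + 1) k x → P j k x) (hP : ∀ j, ∀ᶠ k in om, ∃ x, P j k x) :
    ∃ x : ℕ → X, (∀ j, ∀ᶠ k in om, P j k (x k)) ∧ ∀ k, x k = x0 ∨ P 0 k (x k) := by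
  classical
  have hmono' : ∀ j m k x, j ≤ m → P m k x → P j k x := by
    intro j m k x hjm
    induction m, hjm using Nat.le_induction with
    | base => exact id
    | succ m _ ih => exact fun h => ih (hmono m k x h)
  let m : ℕ → ℕ := fun k => Nat.findGreatest (fun j => ∃ x, P j k x) k
  let x : ℕ → X := fun k => if h : ∃ x, P (m k) k x then h.choose else x0
  refine ⟨x, fun j => ?_, fun k => ?_⟩
  · filter_upwards [hP j, om_ge j] with k hk hjk
    have h1 : ∃ x, P (m k) k x := Nat.findGreatest_spec (P := fun j => ∃ x, P j k x) hjk hk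
    have h2 : j ≤ m k := Nat.le_findGreatest hjk hk
    have h3 : x k = h1.choose := dif_pos h1
    rw [h3]
    exact hmono' j (m k) k _ h2 h1.choose_spec
  · by_cases h : ∃ x, P (m k) k x
    · right
      have h3 : x k = h.choose := dif_pos h
      rw [h3]
      exact hmono' 0 (m k) k _ (Nat.zero_le _) h.choose_spec
    · left
      exact dif_neg h

section
variable {G Z : Type} [Group G] [TopologicalSpace Z] [MulAction G Z] {N : Net G Z}

/-- sequences supported in a fixed ball are admissible and have zero energy in the limit -/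
theorem Net.ball_supported {e : ℕ → G → ℝ} {C : ℝ} (hC : ∀ k h, |e k h| ≤ C) {K : ℕ}
    (hK : ∀ k h, K ≤ N.len h → e k h = 0) : N.Adm e ∧ N.L e e N.one = 0 := by
  classical
  obtain ⟨c, hc⟩ := N.exists_step_bound
  have h0 : ∀ k (i : N.I), K + c ≤ N.len i.1 → N.dd (e k) i = 0 := by
    intro k i hi
    unfold Net.dd
    have h1 := N.len_le_mul i.1 i.2.1
    have h2 := hc i.2.1 i.2.2
    rw [hK k i.1 (by omega), hK k _ (by omega), sub_zero]
  set F := (N.finite_I (K + c)).toFinset with hF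
  have hC0 : 0 ≤ C := (abs_nonneg _).trans (hC 0 1)
  have hdd : ∀ k i, |N.dd (e k) i| ≤ 2 * C := fun k i => by
    unfold Net.dd
    exact (abs_sub _ _).trans (by linarith [hC k i.1, hC k (i.1 * i.2.1)])
  have hout : ∀ k (i : N.I), i ∉ F → N.W k i * (N.dd (e k) i) ^ 2 = 0 := by
    intro k i hi
    rw [h0 k i (by
      by_contra hcon
      exact hi (by rw [hF]; simpa using hcon))]
    ring
  have hadm : N.Adm e := by
    refine ⟨C + F.card * (2 * C) ^ 2, fun k h => (hC k h).trans ?_, fun k => ?_, fun k => ?_⟩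
    · have : 0 ≤ (F.card : ℝ) * (2 * C) ^ 2 := by positivity
      linarith
    · exact summable_of_ne_finset_zero (s := F) fun i hi => hout k i hi
    · unfold wen
      rw [tsum_eq_sum (s := F) fun i hi => hout k i hi]
      have h1 : ∑ i ∈ F, N.W k i * (N.dd (e k) i) ^ 2 ≤ ∑ i ∈ F, (2 * C) ^ 2 := by
        refine Finset.sum_le_sum fun i _ => ?_
        have h2 : N.W k i ≤ 1 := by
          refine (N.W_le k i).trans ?_
          rw [div_le_one (by positivity)]
          have : (0 : ℝ) ≤ k := Nat.cast_nonneg k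
          linarith
        have h3 : (N.dd (e k) i) ^ 2 ≤ (2 * C) ^ 2 := by
          rw [← sq_abs]
          exact pow_le_pow_left₀ (abs_nonneg _) (hdd k i) 2
        have := mul_le_mul h2 h3 (sq_nonneg _) zero_le_one
        linarith
      rw [Finset.sum_const, nsmul_eq_mul] at h1
      linarith
  refine ⟨hadm, ?_⟩
  have hβ : N.TN (fun _ i => if N.len i.1 < K + c then (1 : ℝ) else 0) := by
    refine ⟨⟨1, fun k i => by dsimp only; split_ifs <;> simp⟩, fun η hη => ⟨K + c, ?_⟩⟩
    refine Eventually.of_forall fun k i hi => ?_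
    dsimp only
    rw [if_neg (by omega)]
    simpa using hη.le
  have h1 := Net.L_null hadm hadm hβ
  rw [← h1]
  unfold Net.L
  congr 1
  funext k
  unfold wip
  refine tsum_congr fun i => ?_
  dsimp only
  by_cases hi : N.len i.1 < K + c
  · rw [if_pos hi]; rfl
  · rw [h0 k i (by omega)]; simp

/-- modification on a ball: uniform closeness to the boundary function -/
theorem Net.modify [CompactSpace Z] {f : ℕ → G → ℝ} {u : C(Z, ℝ)} (hf : N.Adm f)
    (hfu : N.Conv f u) {η : ℝ} (hη : 0 < η) :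
    ∃ f' : ℕ → G → ℝ, N.Adm f' ∧ (∀ᶠ k in om, ∀ h, |f' k h - u (N.p h)| ≤ η) ∧
      (∀ g, N.Adm g → ∀ b, N.TB b → N.L f' g b = N.L f g b) := by
  classical
  obtain ⟨C, hC0, h1, h2, h3⟩ := hf.exists_pos
  obtain ⟨K, hK⟩ := hfu η hη
  set e : ℕ → G → ℝ := fun k h => if N.len h < K then u (N.p h) - f k h else 0 with he
  have hb := Net.ball_supported (N := N) (e := e) (C := ‖u‖ + C) (K := K)
    (fun k h => by
      simp only [he]
      split_ifs
      · exact (abs_sub _ _).trans (add_le_add (u.norm_coe_le_norm _) (h1 k h))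
      · rw [abs_zero]; positivity)
    (fun k h hh => by simp only [he]; rw [if_neg (by omega)])
  refine ⟨fun k h => f k h + e k h, hf.add hb.1, ?_, fun g hg b hb' => ?_⟩
  · refine hK.mono fun k hk h => ?_
    simp only [he]
    split_ifs with hh
    · simpa using hη.le
    · rw [add_zero]; exact hk h (by omega)
  · refine Net.L_eq_of_energy_zero (hf.add hb.1) hf hg ?_ hb'
    have : (fun k h => f k h + e k h - f k h) = e := by funext k h; ring
    rw [this]
    exact hb.2

/-- the domain of the limit form -/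
def Net.Dom (N : Net G Z) : Set C(Z, ℝ) := {u | ∃ f, N.Adm f ∧ N.Conv f u}

/-- EXISTENCE of optimal sequences -/
theorem Net.exists_opt [CompactSpace Z] {u : C(Z, ℝ)} (hu : u ∈ N.Dom) : ∃ f, N.Opt f u := by
  set S : Set ℝ := {e | ∃ f, N.Adm f ∧ N.Conv f u ∧ e = N.L f f N.one} with hS
  have hne : S.Nonempty := by
    obtain ⟨f, hf, hfu⟩ := hu
    exact ⟨_, f, hf, hfu, rfl⟩
  have hbdd : BddBelow S := ⟨0, fun e ⟨f, hf, _, he⟩ => by
    rw [he]; exact Net.L_nonneg hf Net.TB_one fun k i => by simp [Net.one]⟩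
  set m := sInf S with hm
  have hm0 : 0 ≤ m := le_csInf hne fun e ⟨f, hf, _, he⟩ => by
    rw [he]; exact Net.L_nonneg hf Net.TB_one fun k i => by simp [Net.one]
  let P : ℕ → ℕ → (G → ℝ) → Prop := fun j k x => (∀ h, |x h - u (N.p h)| ≤ 1 / ((j : ℝ) + 1)) ∧
    FinE (N.W k) (N.dd x) ∧ wen (N.W k) (N.dd x) ≤ m + 2 / ((j : ℝ) + 1)
  have hmono : ∀ j k x, P (j + 1) k x → P j k x := by
    intro j k x ⟨a1, a2, a3⟩
    have h1 : 1 / (((j + 1 : ℕ) : ℝ) + 1) ≤ 1 / ((j : ℝ) + 1) := by
      push_cast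
      exact one_div_le_one_div_of_le (by positivity) (by linarith)
    have h2 : 2 / (((j + 1 : ℕ) : ℝ) + 1) ≤ 2 / ((j : ℝ) + 1) := by
      have e1 : 2 / (((j + 1 : ℕ) : ℝ) + 1) = 2 * (1 / (((j + 1 : ℕ) : ℝ) + 1)) := by ring
      have e2 : 2 / ((j : ℝ) + 1) = 2 * (1 / ((j : ℝ) + 1)) := by ring
      rw [e1, e2]
      linarith
    exact ⟨fun h => (a1 h).trans h1, a2, a3.trans (by linarith)⟩
  have hP : ∀ j, ∀ᶠ k in om, ∃ x, P j k x := by
    intro j
    have hjp : (0 : ℝ) < 1 / ((j : ℝ) + 1) := by positivity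
    obtain ⟨e, ⟨f, hf, hfu, rfl⟩, he⟩ := exists_lt_of_csInf_lt hne
      (show sInf S < m + 1 / ((j : ℝ) + 1) by linarith)
    obtain ⟨f', hf', hclose, hL⟩ := Net.modify hf hfu hjp
    have hE : N.L f' f' N.one < m + 1 / ((j : ℝ) + 1) := by
      rw [hL f' hf' _ Net.TB_one, Net.L_symm, hL f hf _ Net.TB_one]
      exact he
    have ht := (Net.tendsto_wen hf').eventually (gt_mem_nhds hE)
    filter_upwards [hclose, ht] with k hk1 hk2
    refine ⟨f' k, hk1, hf'.fin k, hk2.le.trans ?_⟩
    have : 2 / ((j : ℝ) + 1) = 2 * (1 / ((j : ℝ) + 1)) := by ring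
    rw [this]
    linarith
  obtain ⟨f, hf1, hf2⟩ := exists_diag (fun _ => (0 : ℝ)) P hmono hP
  have hfin0 : ∀ k, FinE (N.W k) (N.dd (fun _ : G => (0 : ℝ))) := fun k => by
    unfold FinE Net.dd
    simp only [sub_self]
    have : (fun i : N.I => N.W k i * (0 : ℝ) ^ 2) = fun _ => 0 := by funext i; ring
    rw [this]
    exact summable_zero
  have hwen0 : ∀ k, wen (N.W k) (N.dd (fun _ : G => (0 : ℝ))) = 0 := fun k => by
    unfold wen Net.dd
    simp
  have hadm : N.Adm f := by
    refine ⟨(‖u‖ + 1) + (m + 2), fun k h => ?_, fun k => ?_, fun k => ?_⟩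
    · rcases hf2 k with h0 | ⟨a1, a2, a3⟩
      · rw [h0, abs_zero]; positivity
      · have e1 := a1 h
        have e2 := u.norm_coe_le_norm (N.p h)
        rw [Real.norm_eq_abs] at e2
        have e3 : |f k h| ≤ |f k h - u (N.p h)| + |u (N.p h)| := by
          have := abs_add_le (f k h - u (N.p h)) (u (N.p h))
          simpa using this
        norm_num at e1
        linarith
    · rcases hf2 k with h0 | ⟨a1, a2, a3⟩
      · rw [h0]; exact hfin0 k
      · exact a2
    · rcases hf2 k with h0 | ⟨a1, a2, a3⟩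
      · rw [h0, hwen0 k]; positivity
      · norm_num at a3
        linarith [norm_nonneg u]
  have hconv : N.Conv f u := by
    intro η hη
    obtain ⟨j, hj⟩ := exists_nat_one_div_lt hη
    exact ⟨0, (hf1 j).mono fun k hk h _ => (hk.1 h).trans hj.le⟩
  have hLle : N.L f f N.one ≤ m := by
    refine le_of_forall_pos_le_add fun η hη => ?_
    obtain ⟨j, hj⟩ := exists_nat_one_div_lt (show 0 < η / 2 by linarith)
    refine le_of_tendsto (Net.tendsto_wen hadm) ((hf1 j).mono fun k hk => hk.2.2.trans ?_)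
    have : 2 / ((j : ℝ) + 1) = 2 * (1 / ((j : ℝ) + 1)) := by ring
    rw [this]
    linarith
  refine ⟨f, hadm, hconv, fun w hw => ?_⟩
  set A := N.L f w N.one with hA
  set B := N.L w w N.one with hB
  have key : ∀ t : ℝ, 0 ≤ 2 * t * A + t ^ 2 * B := by
    intro t
    have hw' := hw.smul t
    have h1 : N.L (fun k h => f k h + t * w k h) (fun k h => f k h + t * w k h) N.one ∈ S :=
      ⟨_, hadm.add hw'.1, hconv.add_nul hw', rfl⟩
    have h2 := csInf_le hbdd h1
    rw [Net.L_add_left hadm hw'.1 (hadm.add hw'.1) Net.TB_one,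
      Net.L_add_right hadm hadm hw'.1 Net.TB_one, Net.L_add_right hw'.1 hadm hw'.1 Net.TB_one,
      Net.L_smul_left t hw.1 hadm Net.TB_one, Net.L_smul_right t hadm hw.1 Net.TB_one,
      Net.L_smul_left t hw.1 hw'.1 Net.TB_one, Net.L_smul_right t hw.1 hw.1 Net.TB_one,
      Net.L_symm (f := w) (g := f)] at h2
    have h3 : m ≤ N.L f f N.one + t * A + (t * A + t * (t * B)) := h2
    nlinarith
  have hB0 : 0 ≤ B := Net.L_nonneg hw.1 Net.TB_one fun k i => by simp [Net.one]
  -- choose t = -A / (B+1)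
  have h4 := key (-A / (B + 1))
  have hB1 : 0 < B + 1 := by linarith
  have h5 : 2 * (-A / (B + 1)) * A + (-A / (B + 1)) ^ 2 * B = -(A ^ 2 * (B + 2) / (B + 1) ^ 2) := by
    field_simp
    ring
  rw [h5] at h4
  have h6 : 0 ≤ A ^ 2 * (B + 2) / (B + 1) ^ 2 := by positivity
  have h7 : A ^ 2 * (B + 2) / (B + 1) ^ 2 = 0 := by linarith
  have h8 : A ^ 2 * (B + 2) = 0 := by
    rcases div_eq_zero_iff.mp h7 with h | h
    · exact h
    · exfalso; have : 0 < (B + 1) ^ 2 := by positivity
      linarith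
  have h9 : A ^ 2 = 0 := by
    rcases mul_eq_zero.mp h8 with h | h
    · exact h
    · exfalso; linarith
  exact pow_eq_zero_iff (two_ne_zero) |>.mp h9

end

end Crest.Agent.R193.AF
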