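import Mathlib
import Crest.Agent.R193.AF5

/-!
R193, block AF, part 6: the limit form `Gam`, chain rule, closedness and weak continuity.
(helper555)
-/

set_option autoImplicit false

namespace Crest.Agent.R193.AF

open Filter Topology InvForm

section
variable {G Z : Type} [Group G] [TopologicalSpace Z] [MulAction G Z] {N : Net G Z}

open Classical in
/-- a chosen optimal sequence -/
noncomputable def Net.opt [CompactSpace Z] (N : Net G Z) (u : C(Z, ℝ)) : ℕ → G → ℝ :=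
  if h : u ∈ N.Dom then (Net.exists_opt h).choose else fun _ _ => 0

theorem Net.opt_spec [CompactSpace Z] {u : C(Z, ℝ)} (hu : u ∈ N.Dom) : N.Opt (N.opt u) u := by
  unfold Net.opt
  rw [dif_pos hu]
  exact (Net.exists_opt hu).choose_spec

theorem Net.Opt.mem {f : ℕ → G → ℝ} {u : C(Z, ℝ)} (hf : N.Opt f u) : u ∈ N.Dom :=
  ⟨f, hf.1, hf.2.1⟩

/-- the limit form -/
noncomputable def Net.Gam [CompactSpace Z] (N : Net G Z) (u v φ : C(Z, ℝ)) : ℝ :=
  N.L (N.opt u) (N.opt v) (N.tz φ)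

theorem Net.Gam_eq [CompactSpace Z] {f g : ℕ → G → ℝ} {u v : C(Z, ℝ)} (hf : N.Opt f u)
    (hg : N.Opt g v) (φ : C(Z, ℝ)) : N.Gam u v φ = N.L f g (N.tz φ) := by
  unfold Net.Gam
  have hu := Net.opt_spec hf.mem
  have hv := Net.opt_spec hg.mem
  rw [hu.L_congr hf hv.1 (Net.TB_tz φ), Net.L_symm, hv.L_congr hg hf.1 (Net.TB_tz φ), Net.L_symm]

theorem Net.tz_one : N.tz (1 : C(Z, ℝ)) = N.one := by
  funext k i
  simp [Net.tz, Net.one]

/-- minimality of optimal sequences -/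
theorem Net.Opt.le {f g : ℕ → G → ℝ} {u : C(Z, ℝ)} (hf : N.Opt f u) (hg : N.Adm g)
    (hgu : N.Conv g u) : N.L f f N.one ≤ N.L g g N.one := by
  have hn := Net.Conv.sub_nul hg hf.1 hgu hf.2.1
  have h1 : N.L g g N.one = N.L f f N.one +
      N.L (fun k h => g k h - f k h) (fun k h => g k h - f k h) N.one := by
    have e : g = fun k h => f k h + (g k h - f k h) := by funext k h; ring
    have h2 : N.L g g N.one = N.L (fun k h => f k h + (g k h - f k h))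
        (fun k h => f k h + (g k h - f k h)) N.one := by rw [← e]
    have hs1 : N.L f (fun k h => g k h - f k h) N.one = 0 := hf.2.2 _ hn
    have hs2 : N.L (fun k h => g k h - f k h) f N.one = 0 := by
      rw [Net.L_symm]; exact hf.2.2 _ hn
    rw [h2, Net.L_add_left hf.1 hn.1 (hf.1.add hn.1) Net.TB_one,
      Net.L_add_right hf.1 hf.1 hn.1 Net.TB_one, Net.L_add_right hn.1 hf.1 hn.1 Net.TB_one,
      hs1, hs2]
    ring
  have h3 : 0 ≤ N.L (fun k h => g k h - f k h) (fun k h => g k h - f k h) N.one :=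
    Net.L_nonneg hn.1 Net.TB_one fun k i => by simp [Net.one]
  linarith

theorem Net.Gam_self_le [CompactSpace Z] {g : ℕ → G → ℝ} {u : C(Z, ℝ)} (hg : N.Adm g)
    (hgu : N.Conv g u) : N.Gam u u 1 ≤ N.L g g N.one := by
  have hf := Net.opt_spec (N := N) (u := u) ⟨g, hg, hgu⟩
  rw [Net.Gam_eq hf hf, Net.tz_one]
  exact hf.le hg hgu

theorem Net.const_opt (c : ℝ) : N.Opt (fun _ _ => c) (ContinuousMap.const Z c) := by
  have h0 : ∀ k, N.dd ((fun (_ : ℕ) (_ : G) => c) k) = fun _ => 0 := fun k => by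
    funext i; simp [Net.dd]
  have hadm : N.Adm (fun _ _ => c) := by
    refine ⟨|c|, fun k h => le_refl _, fun k => ?_, fun k => ?_⟩
    · rw [h0 k]
      unfold FinE
      have : (fun i : N.I => N.W k i * (0 : ℝ) ^ 2) = fun _ => 0 := by funext i; ring
      rw [this]
      exact summable_zero
    · rw [h0 k]
      unfold wen
      simp
  refine ⟨hadm, fun η hη => ⟨0, Eventually.of_forall fun k h _ => by simpa using hη.le⟩,
    fun w hw => ?_⟩
  unfold Net.L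
  refine ulim_eq_zero_of_abs_le fun η hη => Eventually.of_forall fun k => ?_
  rw [h0 k]
  unfold wip
  simpa using hη.le

theorem Net.const_mem (c : ℝ) : ContinuousMap.const Z c ∈ N.Dom := (Net.const_opt c).mem

theorem Net.add_mem {u v : C(Z, ℝ)} (hu : u ∈ N.Dom) (hv : v ∈ N.Dom) : u + v ∈ N.Dom := by
  obtain ⟨f, hf, hfu⟩ := hu
  obtain ⟨g, hg, hgv⟩ := hv
  exact ⟨_, hf.add hg, hfu.add hgv⟩

theorem Net.smul_mem (t : ℝ) {u : C(Z, ℝ)} (hu : u ∈ N.Dom) : t • u ∈ N.Dom := by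
  obtain ⟨f, hf, hfu⟩ := hu
  exact ⟨_, hf.smul t, hfu.smul t⟩

theorem Net.sub_mem {u v : C(Z, ℝ)} (hu : u ∈ N.Dom) (hv : v ∈ N.Dom) : u - v ∈ N.Dom := by
  have h := Net.add_mem hu (Net.smul_mem (-1) hv)
  have e : u + (-1 : ℝ) • v = u - v := by ext x; simp [sub_eq_add_neg]
  rwa [e] at h

theorem Net.comp_mem [CompactSpace Z] {ψ : ℝ × ℝ → ℝ} (hψ : ContDiff ℝ 1 ψ) {u v w : C(Z, ℝ)}
    (hu : u ∈ N.Dom) (hv : v ∈ N.Dom) (hw : ∀ x, w x = ψ (u x, v x)) : w ∈ N.Dom := by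
  obtain ⟨f, hf, hfu⟩ := hu
  obtain ⟨g, hg, hgv⟩ := hv
  exact ⟨_, hf.cmp hψ hg, Net.Conv.cmp hψ hf hg hfu hgv hw⟩

theorem Net.mul_mem [CompactSpace Z] {u v : C(Z, ℝ)} (hu : u ∈ N.Dom) (hv : v ∈ N.Dom) :
    u * v ∈ N.Dom :=
  Net.comp_mem (ψ := fun x : ℝ × ℝ => x.1 * x.2) (contDiff_fst.mul contDiff_snd) hu hv
    fun _ => rfl

theorem Net.Gam_symm [CompactSpace Z] (u v φ : C(Z, ℝ)) : N.Gam u v φ = N.Gam v u φ := Net.L_symm

theorem Net.Gam_add_left [CompactSpace Z] {u u' v : C(Z, ℝ)} (hu : u ∈ N.Dom) (hu' : u' ∈ N.Dom)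
    (hv : v ∈ N.Dom) (φ : C(Z, ℝ)) : N.Gam (u + u') v φ = N.Gam u v φ + N.Gam u' v φ := by
  have a := Net.opt_spec hu
  have b := Net.opt_spec hu'
  have c := Net.opt_spec hv
  rw [Net.Gam_eq (a.add b) c, Net.Gam_eq a c, Net.Gam_eq b c]
  exact Net.L_add_left a.1 b.1 c.1 (Net.TB_tz φ)

theorem Net.Gam_smul_left [CompactSpace Z] (t : ℝ) {u v : C(Z, ℝ)} (hu : u ∈ N.Dom)
    (hv : v ∈ N.Dom) (φ : C(Z, ℝ)) : N.Gam (t • u) v φ = t * N.Gam u v φ := by
  have a := Net.opt_spec hu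
  have c := Net.opt_spec hv
  rw [Net.Gam_eq (a.smul t) c, Net.Gam_eq a c]
  exact Net.L_smul_left t a.1 c.1 (Net.TB_tz φ)

theorem Net.Gam_sub_left [CompactSpace Z] {u u' v : C(Z, ℝ)} (hu : u ∈ N.Dom) (hu' : u' ∈ N.Dom)
    (hv : v ∈ N.Dom) (φ : C(Z, ℝ)) : N.Gam (u - u') v φ = N.Gam u v φ - N.Gam u' v φ := by
  have h := Net.Gam_add_left hu (Net.smul_mem (-1) hu') hv φ
  have e : u + (-1 : ℝ) • u' = u - u' := by ext x; simp [sub_eq_add_neg]
  rw [e, Net.Gam_smul_left (-1) hu' hv] at h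
  rw [h]; ring

theorem Net.Gam_add_test [CompactSpace Z] {u v : C(Z, ℝ)} (hu : u ∈ N.Dom) (hv : v ∈ N.Dom)
    (φ φ' : C(Z, ℝ)) : N.Gam u v (φ + φ') = N.Gam u v φ + N.Gam u v φ' :=
  Net.L_add_test (Net.opt_spec hu).1 (Net.opt_spec hv).1 (Net.TB_tz φ) (Net.TB_tz φ')

theorem Net.Gam_smul_test [CompactSpace Z] (t : ℝ) {u v : C(Z, ℝ)} (hu : u ∈ N.Dom)
    (hv : v ∈ N.Dom) (φ : C(Z, ℝ)) : N.Gam u v (t • φ) = t * N.Gam u v φ :=
  Net.L_smul_test t (Net.opt_spec hu).1 (Net.opt_spec hv).1 (Net.TB_tz φ)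

theorem Net.Gam_nonneg [CompactSpace Z] {u : C(Z, ℝ)} (hu : u ∈ N.Dom) {φ : C(Z, ℝ)}
    (hφ : ∀ x, 0 ≤ φ x) : 0 ≤ N.Gam u u φ :=
  Net.L_nonneg (Net.opt_spec hu).1 (Net.TB_tz φ) fun _ i => hφ (N.p i.1)

theorem Net.abs_Gam_le [CompactSpace Z] {u v : C(Z, ℝ)} (hu : u ∈ N.Dom) (hv : v ∈ N.Dom)
    (φ : C(Z, ℝ)) :
    |N.Gam u v φ| ≤ ‖φ‖ * (Real.sqrt (N.Gam u u 1) * Real.sqrt (N.Gam v v 1)) := by
  have h := Net.abs_L_le (Net.opt_spec hu).1 (Net.opt_spec hv).1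
    (b := N.tz φ) (M := ‖φ‖) (fun _ i => φ.norm_coe_le_norm (N.p i.1))
  unfold Net.Gam
  rw [Net.tz_one]
  exact h

/-- coefficients converging to the same boundary function are interchangeable -/
theorem Net.L_coef_congr [CompactSpace Z] {f g a : ℕ → G → ℝ} {c : ℕ → N.I → ℝ} {d : C(Z, ℝ)}
    (hf : N.Adm f) (hg : N.Adm g) (ha : N.Adm a) (had : N.Conv a d) (hc : N.TB c) :
    N.L f g (fun k i => c k i * N.tf a k i) = N.L f g (fun k i => c k i * N.tz d k i) := by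
  refine Net.L_congr_test hf hg (hc.mul ha.TB_tf) (hc.mul (Net.TB_tz d)) ?_
  have h1 : N.TN (fun k i => N.tf a k i - N.tz d k i) := by
    refine ⟨?_, fun η hη => ?_⟩
    · have := ha.TB_tf.add ((Net.TB_tz d).smul (-1))
      simpa [sub_eq_add_neg] using this
    · obtain ⟨K, hK⟩ := had η hη
      exact ⟨K, hK.mono fun k hk i hi => hk i.1 hi⟩
  have h2 := h1.mul_TB hc
  have e : (fun k i => c k i * N.tf a k i - c k i * N.tz d k i) =
      fun k i => (N.tf a k i - N.tz d k i) * c k i := by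
    funext k i; ring
  rw [e]
  exact h2

/-- CHAIN RULE for the limit form -/
theorem Net.Gam_chain [CompactSpace Z] {ψ : ℝ × ℝ → ℝ} (hψ : ContDiff ℝ 2 ψ)
    {u v w' d1 d2 : C(Z, ℝ)} (hu : u ∈ N.Dom) (hv : v ∈ N.Dom)
    (hw' : ∀ x, w' x = ψ (u x, v x)) (hd1 : ∀ x, d1 x = fderiv ℝ ψ (u x, v x) (1, 0))
    (hd2 : ∀ x, d2 x = fderiv ℝ ψ (u x, v x) (0, 1)) :
    w' ∈ N.Dom ∧ ∀ w ∈ N.Dom, ∀ φ : C(Z, ℝ),
      N.Gam w' w φ = N.Gam u w (φ * d1) + N.Gam v w (φ * d2) := by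
  have a := Net.opt_spec hu
  have b := Net.opt_spec hv
  have c := Net.Opt.cmp hψ a b hw'
  refine ⟨c.mem, fun w hw φ => ?_⟩
  have e := Net.opt_spec hw
  have hd : ContDiff ℝ 1 (fderiv ℝ ψ) := hψ.fderiv_right (by norm_num)
  have hd1' : ContDiff ℝ 1 (fun x => fderiv ℝ ψ x (1, 0)) := hd.clm_apply contDiff_const
  have hd2' : ContDiff ℝ 1 (fun x => fderiv ℝ ψ x (0, 1)) := hd.clm_apply contDiff_const
  rw [Net.Gam_eq c e, Net.Gam_eq a e, Net.Gam_eq b e,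
    Net.L_chain hψ a.1 b.1 e.1 a.2.1 b.2.1 (Net.TB_tz φ)]
  have hA := Net.Adm.cmp hd1' a.1 b.1
  have hB := Net.Adm.cmp hd2' a.1 b.1
  rw [Net.L_coef_congr a.1 e.1 hA (Net.Conv.cmp hd1' a.1 b.1 a.2.1 b.2.1 hd1) (Net.TB_tz φ),
    Net.L_coef_congr b.1 e.1 hB (Net.Conv.cmp hd2' a.1 b.1 a.2.1 b.2.1 hd2) (Net.TB_tz φ)]
  rfl

theorem Net.Gam_mul [CompactSpace Z] {u v w : C(Z, ℝ)} (hu : u ∈ N.Dom) (hv : v ∈ N.Dom)
    (hw : w ∈ N.Dom) (φ : C(Z, ℝ)) :
    N.Gam (u * v) w φ = N.Gam u w (φ * v) + N.Gam v w (φ * u) := by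
  have hfd : ∀ x : ℝ × ℝ, HasFDerivAt (fun x : ℝ × ℝ => x.1 * x.2)
      (x.1 • ContinuousLinearMap.snd ℝ ℝ ℝ + x.2 • ContinuousLinearMap.fst ℝ ℝ ℝ) x := fun x =>
    (hasFDerivAt_fst).mul (hasFDerivAt_snd)
  exact (Net.Gam_chain (ψ := fun x : ℝ × ℝ => x.1 * x.2) (contDiff_fst.mul contDiff_snd) hu hv
    (w' := u * v) (d1 := v) (d2 := u) (fun x => rfl)
    (fun x => by rw [(hfd _).fderiv]; simp) (fun x => by rw [(hfd _).fderiv]; simp)).2 w hw φ

/-- diagonal sequences built from admissible functions are admissible -/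
theorem Net.adm_of_diag {f : ℕ → G → ℝ} {C : ℝ} (hC : 0 ≤ C)
    (h : ∀ k, (f k = fun _ => 0) ∨ ((∀ h, |f k h| ≤ C) ∧ FinE (N.W k) (N.dd (f k)) ∧
      wen (N.W k) (N.dd (f k)) ≤ C)) : N.Adm f := by
  have hd0 : N.dd (fun _ : G => (0 : ℝ)) = fun _ => 0 := by funext i; simp [Net.dd]
  refine ⟨C, fun k h' => ?_, fun k => ?_, fun k => ?_⟩
  · rcases h k with h0 | ⟨a1, a2, a3⟩
    · rw [h0, abs_zero]; exact hC
    · exact a1 h'
  · rcases h k with h0 | ⟨a1, a2, a3⟩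
    · rw [h0, hd0]
      unfold FinE
      have : (fun i : N.I => N.W k i * (0 : ℝ) ^ 2) = fun _ => 0 := by funext i; ring
      rw [this]
      exact summable_zero
    · exact a2
  · rcases h k with h0 | ⟨a1, a2, a3⟩
    · rw [h0, hd0]
      unfold wen
      simpa using hC
    · exact a3

/-- CLOSEDNESS (lower semicontinuity) -/
theorem Net.closed_mem [CompactSpace Z] {w : C(Z, ℝ)} {C : ℝ}
    (h : ∀ ε > 0, ∃ u ∈ N.Dom, ‖u - w‖ ≤ ε ∧ N.Gam u u 1 ≤ C) :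
    w ∈ N.Dom ∧ N.Gam w w 1 ≤ C := by
  have hC : 0 ≤ C := by
    obtain ⟨u, hu, _, h2⟩ := h 1 one_pos
    exact (Net.Gam_nonneg hu fun x => by simp).trans h2
  let P : ℕ → ℕ → (G → ℝ) → Prop := fun j k x => (∀ h, |x h - w (N.p h)| ≤ 2 / ((j : ℝ) + 1)) ∧
    FinE (N.W k) (N.dd x) ∧ wen (N.W k) (N.dd x) ≤ C + 1 / ((j : ℝ) + 1)
  have h1 : ∀ j : ℕ, 1 / (((j + 1 : ℕ) : ℝ) + 1) ≤ 1 / ((j : ℝ) + 1) := fun j => by
    push_cast
    exact one_div_le_one_div_of_le (by positivity) (by linarith)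
  have h2' : ∀ j : ℕ, 2 / ((j : ℝ) + 1) = 2 * (1 / ((j : ℝ) + 1)) := fun j => by ring
  have hmono : ∀ j k x, P (j + 1) k x → P j k x := by
    intro j k x ⟨a1, a2, a3⟩
    refine ⟨fun h => (a1 h).trans ?_, a2, a3.trans (by linarith [h1 j])⟩
    rw [h2', h2']
    linarith [h1 j]
  have hP : ∀ j, ∀ᶠ k in om, ∃ x, P j k x := by
    intro j
    have hjp : (0 : ℝ) < 1 / ((j : ℝ) + 1) := by positivity
    obtain ⟨u, hu, huw, hE⟩ := h _ hjp
    have a := Net.opt_spec hu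
    obtain ⟨f', hf', hclose, hL⟩ := Net.modify a.1 a.2.1 hjp
    have hE' : N.L f' f' N.one < C + 1 / ((j : ℝ) + 1) := by
      rw [hL f' hf' _ Net.TB_one, Net.L_symm, hL _ a.1 _ Net.TB_one, ← Net.tz_one,
        ← Net.Gam_eq a a]
      linarith
    have ht := (Net.tendsto_wen hf').eventually (gt_mem_nhds hE')
    filter_upwards [hclose, ht] with k hk1 hk2
    refine ⟨f' k, fun h => ?_, hf'.fin k, hk2.le⟩
    have e1 := hk1 h
    have e2 := (u - w).norm_coe_le_norm (N.p h)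
    rw [Real.norm_eq_abs, ContinuousMap.sub_apply] at e2
    have : f' k h - w (N.p h) = (f' k h - u (N.p h)) + (u (N.p h) - w (N.p h)) := by ring
    rw [this, h2']
    exact (abs_add_le _ _).trans (by linarith)
  obtain ⟨f, hf1, hf2⟩ := exists_diag (fun _ => (0 : ℝ)) P hmono hP
  have hadm : N.Adm f := by
    refine Net.adm_of_diag (C := ‖w‖ + C + 2) (by positivity) fun k => ?_
    rcases hf2 k with h0 | ⟨a1, a2, a3⟩
    · exact Or.inl h0
    · refine Or.inr ⟨fun h => ?_, a2, ?_⟩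
      · have e1 := a1 h
        have e2 := w.norm_coe_le_norm (N.p h)
        rw [Real.norm_eq_abs] at e2
        have e3 : |f k h| ≤ |f k h - w (N.p h)| + |w (N.p h)| := by
          have := abs_add_le (f k h - w (N.p h)) (w (N.p h))
          simpa using this
        norm_num at e1
        linarith
      · norm_num at a3
        linarith [norm_nonneg w]
  have hconv : N.Conv f w := by
    intro η hη
    obtain ⟨j, hj⟩ := exists_nat_one_div_lt (show 0 < η / 2 by linarith)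
    refine ⟨0, (hf1 j).mono fun k hk h _ => (hk.1 h).trans ?_⟩
    rw [h2']
    linarith
  have hLle : N.L f f N.one ≤ C := by
    refine le_of_forall_pos_le_add fun η hη => ?_
    obtain ⟨j, hj⟩ := exists_nat_one_div_lt hη
    exact le_of_tendsto (Net.tendsto_wen hadm) ((hf1 j).mono fun k hk => hk.2.2.trans (by linarith))
  exact ⟨⟨f, hadm, hconv⟩, (Net.Gam_self_le hadm hconv).trans hLle⟩

/-- WEAK CONTINUITY, test function `1` -/
theorem Net.weak_one [CompactSpace Z] {v : C(Z, ℝ)} (hv : v ∈ N.Dom) (C : ℝ) {ε : ℝ}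
    (hε : 0 < ε) : ∃ δ > 0, ∀ w ∈ N.Dom, ‖w‖ ≤ δ → N.Gam w w 1 ≤ C → |N.Gam w v 1| ≤ ε := by
  by_contra hcon
  push Not at hcon
  have g := Net.opt_spec hv
  have hC : 0 ≤ C := by
    obtain ⟨w, hw, _, h2, _⟩ := hcon 1 one_pos
    exact (Net.Gam_nonneg hw fun x => by simp).trans h2
  let P : ℕ → ℕ → (G → ℝ) → Prop := fun j k x => (∀ h, |x h| ≤ 2 / ((j : ℝ) + 1)) ∧
    FinE (N.W k) (N.dd x) ∧ wen (N.W k) (N.dd x) ≤ C + 1 ∧
    ε / 2 ≤ |wip (N.W k) (N.one k) (N.dd x) (N.dd (N.opt v k))|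
  have h1 : ∀ j : ℕ, 1 / (((j + 1 : ℕ) : ℝ) + 1) ≤ 1 / ((j : ℝ) + 1) := fun j => by
    push_cast
    exact one_div_le_one_div_of_le (by positivity) (by linarith)
  have h2' : ∀ j : ℕ, 2 / ((j : ℝ) + 1) = 2 * (1 / ((j : ℝ) + 1)) := fun j => by ring
  have hmono : ∀ j k x, P (j + 1) k x → P j k x := by
    intro j k x ⟨a1, a2, a3, a4⟩
    refine ⟨fun h => (a1 h).trans ?_, a2, a3, a4⟩
    rw [h2', h2']
    linarith [h1 j]
  have hP : ∀ j, ∀ᶠ k in om, ∃ x, P j k x := by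
    intro j
    have hjp : (0 : ℝ) < 1 / ((j : ℝ) + 1) := by positivity
    obtain ⟨w, hw, hwn, hE, hbig⟩ := hcon _ hjp
    have a := Net.opt_spec hw
    obtain ⟨f', hf', hclose, hL⟩ := Net.modify a.1 a.2.1 hjp
    have hE' : N.L f' f' N.one < C + 1 := by
      rw [hL f' hf' _ Net.TB_one, Net.L_symm, hL _ a.1 _ Net.TB_one, ← Net.tz_one,
        ← Net.Gam_eq a a]
      linarith
    have hb' : ε / 2 < |N.L f' (N.opt v) N.one| := by
      rw [hL _ g.1 _ Net.TB_one, ← Net.tz_one, ← Net.Gam_eq a g]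
      linarith
    have ht := (Net.tendsto_wen hf').eventually (gt_mem_nhds hE')
    have ht2 := (Net.tendsto_L hf' g.1 Net.TB_one).abs.eventually (lt_mem_nhds hb')
    filter_upwards [hclose, ht, ht2] with k hk1 hk2 hk3
    refine ⟨f' k, fun h => ?_, hf'.fin k, hk2.le, hk3.le⟩
    have e1 := hk1 h
    have e2 := w.norm_coe_le_norm (N.p h)
    rw [Real.norm_eq_abs] at e2
    have e3 : |f' k h| ≤ |f' k h - w (N.p h)| + |w (N.p h)| := by
      have := abs_add_le (f' k h - w (N.p h)) (w (N.p h))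
      simpa using this
    rw [h2']
    linarith
  obtain ⟨f, hf1, hf2⟩ := exists_diag (fun _ => (0 : ℝ)) P hmono hP
  have hadm : N.Adm f := by
    refine Net.adm_of_diag (C := C + 2) (by positivity) fun k => ?_
    rcases hf2 k with h0 | ⟨a1, a2, a3, _⟩
    · exact Or.inl h0
    · refine Or.inr ⟨fun h => ?_, a2, by linarith⟩
      have e1 := a1 h
      norm_num at e1
      linarith
  have hnul : N.Nul f := by
    refine ⟨hadm, fun η hη => ?_⟩
    obtain ⟨j, hj⟩ := exists_nat_one_div_lt (show 0 < η / 2 by linarith)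
    refine ⟨0, (hf1 j).mono fun k hk h _ => (hk.1 h).trans ?_⟩
    rw [h2']
    linarith
  have h3 := g.2.2 f hnul
  rw [Net.L_symm] at h3
  have h4 := (Net.tendsto_L hadm g.1 Net.TB_one).abs
  rw [h3, abs_zero] at h4
  have h5 := ge_of_tendsto h4 ((hf1 0).mono fun k hk => hk.2.2.2)
  linarith

end

end Crest.Agent.R193.AF
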