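import Mathlib
import Crest.Agent.R193.AF6

/-!
R193, block AF, part 7: exact invariance of the limit form under the group. (helper555)
-/

set_option autoImplicit false

namespace Crest.Agent.R193.AF

open Filter Topology InvForm

section
variable {G Z : Type} [Group G] [TopologicalSpace Z] [MulAction G Z] {N : Net G Z}

/-- left translation of edges -/
def Net.ml (N : Net G Z) (g : G) : N.I ≃ N.I := (Equiv.mulLeft g).prodCongr (Equiv.refl _)

@[simp] theorem Net.ml_fst (g : G) (i : N.I) : (N.ml g i).1 = g * i.1 := rfl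
@[simp] theorem Net.ml_snd (g : G) (i : N.I) : (N.ml g i).2 = i.2 := rfl
@[simp] theorem Net.ml_symm_fst (g : G) (i : N.I) : ((N.ml g).symm i).1 = g⁻¹ * i.1 := rfl
@[simp] theorem Net.ml_symm_snd (g : G) (i : N.I) : ((N.ml g).symm i).2 = i.2 := rfl

/-- left translation of sequences -/
def sh (g : G) (f : ℕ → G → ℝ) : ℕ → G → ℝ := fun k h => f k (g * h)

theorem Net.dd_sh (g : G) (f : ℕ → G → ℝ) (k : ℕ) :
    N.dd (sh g f k) = fun i => N.dd (f k) (N.ml g i) := by
  funext i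
  simp [Net.dd, sh, mul_assoc]

theorem sh_inv_sh (g : G) (f : ℕ → G → ℝ) : sh g (sh g⁻¹ f) = f := by
  funext k h
  simp [sh]

/-- the distortion factor of the weights -/
noncomputable def Net.ef (N : Net G Z) (g : G) (k : ℕ) : ℝ :=
  Real.exp ((N.len g : ℝ) / ((k : ℝ) + 1))

theorem Net.one_le_ef (g : G) (k : ℕ) : 1 ≤ N.ef g k := by
  unfold Net.ef
  exact Real.one_le_exp (by positivity)

theorem Net.ef_le (g : G) (k : ℕ) : N.ef g k ≤ Real.exp (N.len g) := by
  unfold Net.ef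
  rw [Real.exp_le_exp]
  have hk : (0 : ℝ) ≤ k := Nat.cast_nonneg k
  rw [div_le_iff₀ (by positivity)]
  have : (0 : ℝ) ≤ N.len g := Nat.cast_nonneg _
  nlinarith

theorem Net.tendsto_ef (g : G) : Tendsto (fun k => N.ef g k) atTop (𝓝 1) := by
  unfold Net.ef
  have h1 : Tendsto (fun k : ℕ => (N.len g : ℝ) / ((k : ℝ) + 1)) atTop (𝓝 0) :=
    tendsto_const_nhds.div_atTop
      (tendsto_atTop_add_const_right _ _ tendsto_natCast_atTop_atTop)
  have h2 := (Real.continuous_exp.tendsto 0).comp h1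
  rw [Real.exp_zero] at h2
  exact h2

theorem Net.W_ml_symm_le (g : G) (k : ℕ) (i : N.I) :
    N.W k ((N.ml g).symm i) ≤ N.ef g k * N.W k i := by
  unfold Net.W Net.ef
  rw [← mul_div_assoc, ← Real.exp_add]
  refine div_le_div_of_nonneg_right ?_ (by positivity)
  rw [Real.exp_le_exp, Net.ml_symm_fst]
  have h1 : N.len i.1 ≤ N.len (g⁻¹ * i.1) + N.len g := by
    have := N.len_le_mul' g⁻¹ i.1
    rwa [N.len_inv] at this
  have h2 : (N.len i.1 : ℝ) ≤ N.len (g⁻¹ * i.1) + N.len g := by exact_mod_cast h1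
  have h3 : (N.len i.1 : ℝ) / ((k : ℝ) + 1) ≤
      (N.len (g⁻¹ * i.1) + N.len g) / ((k : ℝ) + 1) :=
    div_le_div_of_nonneg_right h2 (by positivity)
  rw [add_div] at h3
  linarith

theorem Net.W_le_ml_symm (g : G) (k : ℕ) (i : N.I) :
    N.W k i ≤ N.ef g k * N.W k ((N.ml g).symm i) := by
  unfold Net.W Net.ef
  rw [← mul_div_assoc, ← Real.exp_add]
  refine div_le_div_of_nonneg_right ?_ (by positivity)
  rw [Real.exp_le_exp, Net.ml_symm_fst]
  have h1 : N.len (g⁻¹ * i.1) ≤ N.len g + N.len i.1 := by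
    have := N.len_mul g⁻¹ i.1
    rwa [N.len_inv] at this
  have h2 : (N.len (g⁻¹ * i.1) : ℝ) ≤ N.len g + N.len i.1 := by exact_mod_cast h1
  have h3 : (N.len (g⁻¹ * i.1) : ℝ) / ((k : ℝ) + 1) ≤
      (N.len g + N.len i.1) / ((k : ℝ) + 1) :=
    div_le_div_of_nonneg_right h2 (by positivity)
  rw [add_div] at h3
  linarith

theorem Net.abs_W_sub_le (g : G) (k : ℕ) (i : N.I) :
    |N.W k ((N.ml g).symm i) - N.W k i| ≤ (N.ef g k - 1) * N.W k i := by
  have h1 := N.W_ml_symm_le g k i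
  have h2 := N.W_le_ml_symm g k i
  have h3 := N.one_le_ef g k
  have h4 := N.W_nonneg k i
  have h5 := N.W_nonneg k ((N.ml g).symm i)
  rw [abs_le]
  constructor
  · -- W i - W' ≤ (E-1) W i
    have h6 : 0 ≤ (N.ef g k - 1) * (N.ef g k * N.W k ((N.ml g).symm i) - N.W k i) :=
      mul_nonneg (by linarith) (by linarith)
    by_contra hcon
    push Not at hcon
    -- W' < W - (E-1) W = (2 - E) W
    have h7 : N.ef g k * N.W k ((N.ml g).symm i) < N.ef g k * ((2 - N.ef g k) * N.W k i) :=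
      mul_lt_mul_of_pos_left (by linarith) (by linarith)
    nlinarith [mul_nonneg (sq_nonneg (N.ef g k - 1)) h4]
  · linarith

theorem Net.FinE_sh {f : ℕ → G → ℝ} (hf : N.Adm f) (g : G) (k : ℕ) :
    FinE (N.W k) (N.dd (sh g f k)) ∧
      wen (N.W k) (N.dd (sh g f k)) ≤ N.ef g k * wen (N.W k) (N.dd (f k)) := by
  rw [Net.dd_sh]
  set F : N.I → ℝ := fun j => N.W k ((N.ml g).symm j) * (N.dd (f k) j) ^ 2 with hF
  have h1 : (fun i => N.W k i * (N.dd (f k) (N.ml g i)) ^ 2) = F ∘ (N.ml g) := by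
    funext i
    simp only [hF, Function.comp, Equiv.symm_apply_apply]
  have h2 : Summable fun j => N.ef g k * (N.W k j * (N.dd (f k) j) ^ 2) := (hf.fin k).mul_left _
  have h3 : ∀ j, F j ≤ N.ef g k * (N.W k j * (N.dd (f k) j) ^ 2) := fun j => by
    have := mul_le_mul_of_nonneg_right (N.W_ml_symm_le g k j) (sq_nonneg (N.dd (f k) j))
    simp only [hF]
    linarith
  have h4 : Summable F := Summable.of_nonneg_of_le
    (fun j => mul_nonneg (N.W_nonneg _ _) (sq_nonneg _)) h3 h2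
  refine ⟨?_, ?_⟩
  · unfold FinE
    rw [h1]
    exact (Equiv.summable_iff (N.ml g)).mpr h4
  · unfold wen
    rw [h1, ← tsum_mul_left]
    have : ∑' i, (F ∘ (N.ml g)) i = ∑' j, F j := (N.ml g).tsum_eq F
    rw [this]
    exact Summable.tsum_le_tsum h3 h4 h2

theorem Net.Adm.sh {f : ℕ → G → ℝ} (hf : N.Adm f) (g : G) : N.Adm (sh g f) := by
  obtain ⟨C, hC0, h1, h2, h3⟩ := hf.exists_pos
  refine ⟨C + Real.exp (N.len g) * C, fun k h => ?_, fun k => (Net.FinE_sh hf g k).1,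
    fun k => ?_⟩
  · have := h1 k (g * h)
    have h5 : 0 ≤ Real.exp (N.len g) * C := by positivity
    show |f k (g * h)| ≤ _
    linarith
  · refine (Net.FinE_sh hf g k).2.trans ?_
    have h4 := mul_le_mul (N.ef_le g k) (h3 k) (wen_nonneg (N.W_nonneg k) _)
      (Real.exp_pos _).le
    linarith

/-- the functional is invariant -/
theorem Net.L_sh {f f' : ℕ → G → ℝ} (hf : N.Adm f) (hf' : N.Adm f') (g : G)
    {b : ℕ → N.I → ℝ} (hb : N.TB b) :
    N.L (sh g f) (sh g f') (fun k i => b k (N.ml g i)) = N.L f f' b := by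
  have hb' : N.TB (fun k i => b k (N.ml g i)) := by
    obtain ⟨C, hC⟩ := hb
    exact ⟨C, fun k i => hC k _⟩
  obtain ⟨M, hM0, hM⟩ := hb.exists_pos
  obtain ⟨C, hC0, h1, h2, h3⟩ := hf.exists_pos
  obtain ⟨D, hD0, g1, g2, g3⟩ := hf'.exists_pos
  have key : ∀ k, |wip (N.W k) (fun i => b k (N.ml g i)) (N.dd (sh g f k)) (N.dd (sh g f' k)) -
      wip (N.W k) (b k) (N.dd (f k)) (N.dd (f' k))| ≤
      (N.ef g k - 1) * (M * (Real.sqrt C * Real.sqrt D)) := by
    intro k
    rw [Net.dd_sh, Net.dd_sh]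
    set F : N.I → ℝ := fun j => N.W k ((N.ml g).symm j) * (b k j * (N.dd (f k) j * N.dd (f' k) j))
      with hF
    have e1 : wip (N.W k) (fun i => b k (N.ml g i)) (fun i => N.dd (f k) (N.ml g i))
        (fun i => N.dd (f' k) (N.ml g i)) = ∑' j, F j := by
      unfold wip
      rw [← (N.ml g).tsum_eq F]
      refine tsum_congr fun i => ?_
      simp only [hF, Equiv.symm_apply_apply]
    have hs := summable_abs (N.W_nonneg k) (h2 k) (g2 k)
    have hsF : Summable F := by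
      refine Summable.of_norm_bounded (hs.mul_left (N.ef g k * M)) fun j => ?_
      rw [Real.norm_eq_abs]
      simp only [hF]
      rw [abs_mul, abs_mul, abs_mul, abs_of_nonneg (N.W_nonneg _ _)]
      have a1 := N.W_ml_symm_le g k j
      have a2 : |b k j| * (|N.dd (f k) j| * |N.dd (f' k) j|) ≤
          M * (|N.dd (f k) j| * |N.dd (f' k) j|) :=
        mul_le_mul_of_nonneg_right (hM k j) (by positivity)
      have a3 := mul_le_mul a1 a2 (by positivity)
        (mul_nonneg (by linarith [N.one_le_ef g k]) (N.W_nonneg k j))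
      refine a3.trans (le_of_eq (by ring))
    have hs2 := summable_wip (N.W_nonneg k) (h2 k) (g2 k) (hM k)
    rw [e1]
    unfold wip
    rw [← hsF.tsum_sub hs2]
    have h8 : |∑' j, (F j - N.W k j * (b k j * (N.dd (f k) j * N.dd (f' k) j)))| ≤
        ∑' j, ((N.ef g k - 1) * M) * (N.W k j * (|N.dd (f k) j| * |N.dd (f' k) j|)) := by
      rw [← Real.norm_eq_abs]
      refine tsum_of_norm_bounded (hs.mul_left _).hasSum fun j => ?_
      rw [Real.norm_eq_abs]
      simp only [hF]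
      rw [← sub_mul, abs_mul, abs_mul, abs_mul]
      have a1 := N.abs_W_sub_le g k j
      have a2 : |b k j| * (|N.dd (f k) j| * |N.dd (f' k) j|) ≤
          M * (|N.dd (f k) j| * |N.dd (f' k) j|) :=
        mul_le_mul_of_nonneg_right (hM k j) (by positivity)
      have a3 := mul_le_mul a1 a2 (by positivity)
        (mul_nonneg (by linarith [N.one_le_ef g k]) (N.W_nonneg k j))
      refine a3.trans (le_of_eq (by ring))
    rw [tsum_mul_left] at h8
    refine h8.trans ?_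
    rw [mul_assoc]
    have h9 : ∑' j, N.W k j * (|N.dd (f k) j| * |N.dd (f' k) j|) ≤ Real.sqrt C * Real.sqrt D := by
      refine (tsum_abs_le (N.W_nonneg k) (h2 k) (g2 k)).trans ?_
      exact mul_le_mul (Real.sqrt_le_sqrt (h3 k)) (Real.sqrt_le_sqrt (g3 k))
        (Real.sqrt_nonneg _) (Real.sqrt_nonneg _)
    exact mul_le_mul_of_nonneg_left (mul_le_mul_of_nonneg_left h9 hM0.le)
      (by linarith [N.one_le_ef g k])
  have hlim : Tendsto (fun k => wip (N.W k) (fun i => b k (N.ml g i)) (N.dd (sh g f k))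
      (N.dd (sh g f' k)) - wip (N.W k) (b k) (N.dd (f k)) (N.dd (f' k))) atTop (𝓝 0) := by
    refine squeeze_zero_norm key ?_
    have h5 := ((N.tendsto_ef g).sub_const 1).mul_const (M * (Real.sqrt C * Real.sqrt D))
    rw [sub_self, zero_mul] at h5
    exact h5
  exact ulim_congr_of_sub (Net.bdd_wip (hf.sh g) (hf'.sh g) hb') (Net.bdd_wip hf hf' hb) hlim

theorem Net.Nul.sh {w : ℕ → G → ℝ} (hw : N.Nul w) (g : G) : N.Nul (sh g w) := by
  refine ⟨hw.1.sh g, fun η hη => ?_⟩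
  obtain ⟨K, hK⟩ := hw.2 η hη
  refine ⟨K + N.len g, hK.mono fun k hk h hh => hk (g * h) ?_⟩
  have := N.len_le_mul' g h
  omega

theorem Net.Conv.sh {f : ℕ → G → ℝ} {u u' : C(Z, ℝ)} (hf : N.Conv f u) (g : G)
    (hu' : ∀ x, u' x = u (g • x)) : N.Conv (sh g f) u' := by
  intro η hη
  obtain ⟨K, hK⟩ := hf (η / 2) (by linarith)
  obtain ⟨K', hK'⟩ := N.A2 g u (η / 2) (by linarith)
  refine ⟨max (K + N.len g) K', hK.mono fun k hk h hh => ?_⟩
  have h1 := N.len_le_mul' g h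
  have h2 : K + N.len g ≤ N.len h := le_trans (le_max_left _ _) hh
  have e1 := hk (g * h) (by omega)
  have e2 := hK' h (le_trans (le_max_right _ _) hh)
  show |f k (g * h) - u' (N.p h)| ≤ η
  rw [hu']
  have : f k (g * h) - u (g • N.p h) = (f k (g * h) - u (N.p (g * h))) -
      (u (g • N.p h) - u (N.p (g * h))) := by ring
  rw [this]
  exact (abs_sub _ _).trans (by linarith)

theorem Net.Opt.sh {f : ℕ → G → ℝ} {u u' : C(Z, ℝ)} (hf : N.Opt f u) (g : G)
    (hu' : ∀ x, u' x = u (g • x)) : N.Opt (sh g f) u' := by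
  refine ⟨hf.1.sh g, hf.2.1.sh g hu', fun w hw => ?_⟩
  have hw' := hw.sh g⁻¹
  have h1 := Net.L_sh hf.1 hw'.1 g Net.TB_one
  rw [sh_inv_sh, hf.2.2 _ hw'] at h1
  exact h1

/-- EXACT INVARIANCE of the limit form -/
theorem Net.Gam_inv [CompactSpace Z] (g : G) {u v φ u' v' φ' : C(Z, ℝ)} (hu : u ∈ N.Dom)
    (hv : v ∈ N.Dom) (hu' : ∀ x, u' x = u (g • x)) (hv' : ∀ x, v' x = v (g • x))
    (hφ' : ∀ x, φ' x = φ (g • x)) : u' ∈ N.Dom ∧ N.Gam u' v' φ' = N.Gam u v φ := by
  have a := Net.opt_spec hu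
  have b := Net.opt_spec hv
  have a' := a.sh g hu'
  have b' := b.sh g hv'
  refine ⟨a'.mem, ?_⟩
  rw [Net.Gam_eq a' b', Net.Gam_eq a b, ← Net.L_sh a.1 b.1 g (Net.TB_tz φ)]
  refine Net.L_congr_test a'.1 b'.1 (Net.TB_tz φ') ⟨‖φ‖, fun k i => φ.norm_coe_le_norm _⟩ ?_
  refine ⟨⟨‖φ'‖ + ‖φ‖, fun k i => (abs_sub _ _).trans
    (add_le_add (φ'.norm_coe_le_norm _) (φ.norm_coe_le_norm _))⟩, fun η hη => ?_⟩
  obtain ⟨K, hK⟩ := N.A2 g φ η hη
  refine ⟨K, Eventually.of_forall fun k i hi => ?_⟩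
  show |φ' (N.p i.1) - φ (N.p (g * i.1))| ≤ η
  rw [hφ']
  exact hK i.1 hi

end

end Crest.Agent.R193.AF
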