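import Mathlib
import Crest.Agent.R193.AF7

/-!
R193, block AF, part 8: shells; functions with bounded shell sums belong to the domain; every
function in the domain is approximated on some large shell with energy at most the limit energy.
(helper555)
-/

set_option autoImplicit false

namespace Crest.Agent.R193.AF

open Filter Topology InvForm

section
variable {G Z : Type} [Group G] [TopologicalSpace Z] [MulAction G Z] {N : Net G Z}

/-- edges starting in the sphere of radius `n` -/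
noncomputable def Net.shI (N : Net G Z) (n : ℕ) : Finset N.I :=
  ((N.finite_I (n + 1)).subset (fun i (hi : N.len i.1 = n) => Nat.lt_succ_of_le (le_of_eq hi))
    : {i : N.I | N.len i.1 = n}.Finite).toFinset

theorem Net.mem_shI {n : ℕ} {i : N.I} : i ∈ N.shI n ↔ N.len i.1 = n := by
  simp [Net.shI]

/-- value of the weight on a shell -/
noncomputable def wt (k n : ℕ) : ℝ := Real.exp (-((n : ℝ) / ((k : ℝ) + 1))) / ((k : ℝ) + 1)

theorem Net.W_eq_wt {k : ℕ} {n : ℕ} {i : N.I} (hi : i ∈ N.shI n) : N.W k i = wt k n := by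
  rw [Net.mem_shI] at hi
  unfold Net.W wt
  rw [hi]

theorem wt_nonneg (k n : ℕ) : 0 ≤ wt k n := by unfold wt; positivity

/-- the ratio -/
noncomputable def rr (k : ℕ) : ℝ := Real.exp (-(1 / ((k : ℝ) + 1)))

theorem wt_eq (k n : ℕ) : wt k n = rr k ^ n / ((k : ℝ) + 1) := by
  unfold wt rr
  rw [← Real.exp_nat_mul]
  congr 2
  ring

theorem rr_pos (k : ℕ) : 0 < rr k := Real.exp_pos _

theorem rr_lt_one (k : ℕ) : rr k < 1 := by
  unfold rr
  rw [Real.exp_lt_one_iff]
  have : (0 : ℝ) < 1 / ((k : ℝ) + 1) := by positivity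
  linarith

theorem one_sub_rr_le (k : ℕ) : 1 - rr k ≤ 1 / ((k : ℝ) + 1) := by
  unfold rr
  have := Real.add_one_le_exp (-(1 / ((k : ℝ) + 1)))
  linarith

theorem le_one_sub_rr (k : ℕ) : 1 / (2 * ((k : ℝ) + 1)) ≤ 1 - rr k := by
  unfold rr
  set x : ℝ := 1 / ((k : ℝ) + 1) with hx
  have hk : (0 : ℝ) ≤ k := Nat.cast_nonneg k
  have hx0 : 0 < x := by positivity
  have hx1 : x ≤ 1 := by
    rw [hx, div_le_one (by positivity)]; linarith
  have h1 : Real.exp (-x) ≤ 1 - x / 2 := by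
    have h2 := Real.abs_exp_sub_one_sub_id_le (x := -x) (by rw [abs_neg, abs_of_pos hx0]; exact hx1)
    have h3 := (abs_le.mp h2).2
    have h4 : Real.exp (-x) ≤ 1 - x + x ^ 2 := by nlinarith
    -- exp(-x) ≤ 1/(1+x) ≤ 1 - x/2
    have h5 : Real.exp (-x) ≤ 1 / (1 + x) := by
      rw [Real.exp_neg, ← one_div]
      exact one_div_le_one_div_of_le (by linarith) (by linarith [Real.add_one_le_exp x])
    have h6 : 1 / (1 + x) ≤ 1 - x / 2 := by
      rw [div_le_iff₀ (by linarith)]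
      nlinarith
    linarith
  have h7 : 1 / (2 * ((k : ℝ) + 1)) = x / 2 := by rw [hx]; field_simp
  rw [h7]
  linarith

theorem sum_wt_le (k m : ℕ) : ∑ n ∈ Finset.range m, wt k n ≤ 2 := by
  have h1 := rr_lt_one k
  have h2 := le_one_sub_rr k
  have h3 := rr_pos k
  have hk : (0 : ℝ) < (k : ℝ) + 1 := by positivity
  have h4 : ∑ n ∈ Finset.range m, wt k n = (∑ n ∈ Finset.range m, rr k ^ n) / ((k : ℝ) + 1) := by
    rw [Finset.sum_div]
    exact Finset.sum_congr rfl fun n _ => wt_eq k n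
  rw [h4, geom_sum_eq (ne_of_lt h1)]
  rw [div_le_iff₀ hk]
  have h5 : (rr k ^ m - 1) / (rr k - 1) = (1 - rr k ^ m) / (1 - rr k) := by
    rw [← neg_div_neg_eq]; congr 1 <;> ring
  rw [h5, div_le_iff₀ (by linarith)]
  have h6 : 1 ≤ 2 * ((k : ℝ) + 1) * (1 - rr k) := by
    rw [div_le_iff₀ (by positivity)] at h2
    linarith
  have h7 : 0 ≤ rr k ^ m := by positivity
  linarith

theorem le_sum_wt (k K m : ℕ) (hKm : K ≤ m) :
    rr k ^ K - rr k ^ m ≤ ∑ n ∈ Finset.Ico K m, wt k n := by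
  have h1 := rr_lt_one k
  have h2 := one_sub_rr_le k
  have h3 := rr_pos k
  have hk : (0 : ℝ) < (k : ℝ) + 1 := by positivity
  have h4 : ∑ n ∈ Finset.Ico K m, wt k n = (∑ n ∈ Finset.Ico K m, rr k ^ n) / ((k : ℝ) + 1) := by
    rw [Finset.sum_div]
    exact Finset.sum_congr rfl fun n _ => wt_eq k n
  rw [h4, geom_sum_Ico (ne_of_lt h1) hKm, le_div_iff₀ hk]
  have h5 : (rr k ^ m - rr k ^ K) / (rr k - 1) = (rr k ^ K - rr k ^ m) / (1 - rr k) := by
    rw [← neg_div_neg_eq]; congr 1 <;> ring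
  rw [h5, le_div_iff₀ (by linarith)]
  have h6 : ((k : ℝ) + 1) * (1 - rr k) ≤ 1 := by
    rw [le_div_iff₀ hk] at h2
    linarith
  have h7 : 0 ≤ rr k ^ K - rr k ^ m := by
    have := pow_le_pow_of_le_one h3.le h1.le hKm
    linarith
  nlinarith

/-- bounded shell sums give bounded Abel sums -/
theorem Net.summable_of_shell {a : N.I → ℝ} (ha : ∀ i, 0 ≤ a i) {C : ℝ}
    (hC : ∀ n, ∑ i ∈ N.shI n, a i ≤ C) (k : ℕ) :
    Summable (fun i => N.W k i * a i) ∧ ∑' i, N.W k i * a i ≤ 2 * C := by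
  classical
  have hC0 : 0 ≤ C := (Finset.sum_nonneg fun i _ => ha i).trans (hC 0)
  have key : ∀ F : Finset N.I, ∑ i ∈ F, N.W k i * a i ≤ 2 * C := by
    intro F
    set m := F.sup (fun i => N.len i.1) + 1 with hm
    have hsub : F ⊆ (Finset.range m).biUnion N.shI := by
      intro i hi
      rw [Finset.mem_biUnion]
      refine ⟨N.len i.1, Finset.mem_range.mpr ?_, Net.mem_shI.mpr rfl⟩
      have := Finset.le_sup (f := fun i : N.I => N.len i.1) hi
      omega
    have hdisj : (↑(Finset.range m) : Set ℕ).PairwiseDisjoint N.shI := by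
      intro x _ y _ hxy
      rw [Function.onFun, Finset.disjoint_left]
      intro i hi hi'
      rw [Net.mem_shI] at hi hi'
      exact hxy (hi.symm.trans hi')
    calc ∑ i ∈ F, N.W k i * a i ≤ ∑ i ∈ (Finset.range m).biUnion N.shI, N.W k i * a i :=
          Finset.sum_le_sum_of_subset_of_nonneg hsub fun i _ _ =>
            mul_nonneg (N.W_nonneg k i) (ha i)
      _ = ∑ n ∈ Finset.range m, ∑ i ∈ N.shI n, N.W k i * a i := Finset.sum_biUnion hdisj
      _ ≤ ∑ n ∈ Finset.range m, wt k n * C := by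
          refine Finset.sum_le_sum fun n _ => ?_
          have : ∑ i ∈ N.shI n, N.W k i * a i = wt k n * ∑ i ∈ N.shI n, a i := by
            rw [Finset.mul_sum]
            exact Finset.sum_congr rfl fun i hi => by rw [Net.W_eq_wt hi]
          rw [this]
          exact mul_le_mul_of_nonneg_left (hC n) (wt_nonneg k n)
      _ = (∑ n ∈ Finset.range m, wt k n) * C := by rw [Finset.sum_mul]
      _ ≤ 2 * C := mul_le_mul_of_nonneg_right (sum_wt_le k m) hC0
  have hs : Summable (fun i => N.W k i * a i) :=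
    summable_of_sum_le (fun i => mul_nonneg (N.W_nonneg k i) (ha i)) key
  exact ⟨hs, hs.tsum_le_of_sum_le key⟩

/-- MEMBERSHIP CRITERION -/
theorem Net.mem_of_shell [CompactSpace Z] {u : C(Z, ℝ)} {f : G → ℝ} {B : ℝ}
    (hB : ∀ h, |f h| ≤ B)
    (hf : ∀ η > 0, ∃ K : ℕ, ∀ h, K ≤ N.len h → |f h - u (N.p h)| ≤ η) {C : ℝ}
    (hC : ∀ n, ∑ i ∈ N.shI n, (N.dd f i) ^ 2 ≤ C) :
    u ∈ N.Dom ∧ N.Gam u u 1 ≤ 2 * C := by
  have h1 := fun k => Net.summable_of_shell (N := N) (fun i => sq_nonneg (N.dd f i)) hC k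
  have hC0 : 0 ≤ C := (Finset.sum_nonneg fun i _ => sq_nonneg _).trans (hC 0)
  have hadm : N.Adm (fun _ => f) := by
    refine ⟨|B| + 2 * C, fun k h => ?_, fun k => (h1 k).1, fun k => (h1 k).2.trans ?_⟩
    · have := (hB h).trans (le_abs_self B)
      linarith
    · linarith [abs_nonneg B]
  have hconv : N.Conv (fun _ => f) u := fun η hη => by
    obtain ⟨K, hK⟩ := hf η hη
    exact ⟨K, Eventually.of_forall fun _ => hK⟩
  refine ⟨⟨_, hadm, hconv⟩, (Net.Gam_self_le hadm hconv).trans ?_⟩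
  exact le_of_tendsto' (Net.tendsto_wen hadm) fun k => (h1 k).2

/-- SHELL LEMMA -/
theorem Net.exists_shell [CompactSpace Z] {u φ : C(Z, ℝ)} (hu : u ∈ N.Dom)
    (hφ : ∀ x, 0 ≤ φ x) {ε : ℝ} (hε : 0 < ε) (K : ℕ) :
    ∃ n, K ≤ n ∧ ∃ f : G → ℝ, (∀ h, |f h - u (N.p h)| ≤ ε) ∧
      ∑ i ∈ N.shI n, φ (N.p i.1) * (N.dd f i) ^ 2 ≤ N.Gam u u φ + ε := by
  classical
  by_contra hcon
  push Not at hcon
  have a := Net.opt_spec hu
  obtain ⟨f', hf', hclose, hL⟩ := Net.modify a.1 a.2.1 hε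
  have hval : N.L f' f' (N.tz φ) = N.Gam u u φ := by
    rw [hL f' hf' _ (Net.TB_tz φ), Net.L_symm, hL _ a.1 _ (Net.TB_tz φ), Net.Gam_eq a a]
  set Γ := N.Gam u u φ with hΓ
  have hΓ0 : 0 ≤ Γ := Net.Gam_nonneg hu hφ
  -- lower bound of the Abel sums
  have key : ∀ k, (∀ h, |f' k h - u (N.p h)| ≤ ε) →
      (Γ + ε) * rr k ^ K ≤ wip (N.W k) (N.tz φ k) (N.dd (f' k)) (N.dd (f' k)) := by
    intro k hk
    have hsum := summable_wip (N.W_nonneg k) (hf'.fin k) (hf'.fin k) (b := N.tz φ k) (M := ‖φ‖)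
      (fun i => φ.norm_coe_le_norm _)
    have hnn : ∀ i, 0 ≤ N.W k i * (N.tz φ k i * (N.dd (f' k) i * N.dd (f' k) i)) := fun i =>
      mul_nonneg (N.W_nonneg k i) (mul_nonneg (hφ _) (mul_self_nonneg _))
    have h1 : ∀ m, K ≤ m → (Γ + ε) * (rr k ^ K - rr k ^ m) ≤
        wip (N.W k) (N.tz φ k) (N.dd (f' k)) (N.dd (f' k)) := by
      intro m hm
      have hdisj : (↑(Finset.Ico K m) : Set ℕ).PairwiseDisjoint N.shI := by
        intro x _ y _ hxy
        rw [Function.onFun, Finset.disjoint_left]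
        intro i hi hi'
        rw [Net.mem_shI] at hi hi'
        exact hxy (hi.symm.trans hi')
      calc (Γ + ε) * (rr k ^ K - rr k ^ m) ≤ (Γ + ε) * ∑ n ∈ Finset.Ico K m, wt k n :=
            mul_le_mul_of_nonneg_left (le_sum_wt k K m hm) (by linarith)
        _ = ∑ n ∈ Finset.Ico K m, wt k n * (Γ + ε) := by
            rw [Finset.mul_sum]
            exact Finset.sum_congr rfl fun n _ => mul_comm _ _
        _ ≤ ∑ n ∈ Finset.Ico K m, ∑ i ∈ N.shI n,
              N.W k i * (N.tz φ k i * (N.dd (f' k) i * N.dd (f' k) i)) := by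
            refine Finset.sum_le_sum fun n hn => ?_
            have h2 := hcon n (Finset.mem_Ico.mp hn).1 (f' k) hk
            have h3 : ∑ i ∈ N.shI n, N.W k i * (N.tz φ k i * (N.dd (f' k) i * N.dd (f' k) i)) =
                wt k n * ∑ i ∈ N.shI n, φ (N.p i.1) * (N.dd (f' k) i) ^ 2 := by
              rw [Finset.mul_sum]
              refine Finset.sum_congr rfl fun i hi => ?_
              rw [Net.W_eq_wt hi]
              simp only [Net.tz]
              ring
            rw [h3]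
            exact mul_le_mul_of_nonneg_left h2.le (wt_nonneg k n)
        _ = ∑ i ∈ (Finset.Ico K m).biUnion N.shI,
              N.W k i * (N.tz φ k i * (N.dd (f' k) i * N.dd (f' k) i)) :=
            (Finset.sum_biUnion hdisj).symm
        _ ≤ _ := hsum.sum_le_tsum _ fun i _ => hnn i
    have h2 : Tendsto (fun m => (Γ + ε) * (rr k ^ K - rr k ^ m)) atTop
        (𝓝 ((Γ + ε) * (rr k ^ K - 0))) :=
      (tendsto_const_nhds.sub (tendsto_pow_atTop_nhds_zero_of_lt_one (rr_pos k).le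
        (rr_lt_one k))).const_mul _
    rw [sub_zero] at h2
    exact le_of_tendsto h2 ((eventually_ge_atTop K).mono h1)
  have hrr : Tendsto (fun k => (Γ + ε) * rr k ^ K) om (𝓝 ((Γ + ε) * 1 ^ K)) := by
    have h1 : Tendsto rr atTop (𝓝 1) := by
      unfold rr
      have h1 : Tendsto (fun k : ℕ => -((1 : ℝ) / ((k : ℝ) + 1))) atTop (𝓝 (-0)) :=
        tendsto_one_div_add_atTop_nhds_zero_nat.neg
      have h2 := (Real.continuous_exp.tendsto (-0)).comp h1
      rw [neg_zero, Real.exp_zero] at h2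
      exact h2
    have h3 : Tendsto rr om (𝓝 1) :=
      h1.mono_left (by rw [← Nat.cofinite_eq_atTop]; exact hyperfilter_le_cofinite)
    exact (h3.pow K).const_mul _
  rw [one_pow, mul_one] at hrr
  have hT := Net.tendsto_L hf' hf' (Net.TB_tz φ)
  rw [hval] at hT
  have := le_of_tendsto_of_tendsto hrr hT (hclose.mono key)
  linarith

end

end Crest.Agent.R193.AF
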