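import Mathlib

/-!
# R193 (Cannon's conjecture): definitions shared by all blocks

`Setup G Z` = everything we need to know about a hyperbolic group `G` acting on its boundary `Z`.
`Tiles S`   = covers of `Z` by closed connected tiles `U g` comparable to shadows.
`SepBound`  = "1 / (combinatorial 2-modulus of the separating sets of tiles of level n) ≤ L".
`DForm S`   = closed, exactly `G`-invariant, local Dirichlet form on `C(Z, ℝ)`.
-/

set_option autoImplicit false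

noncomputable section

open Set Filter Topology MeasureTheory

namespace Crest.Agent.R193

/-- Gromov product `(g|h)` at the identity for a length function. -/
def gpOf {G : Type} [Group G] (len : G → ℕ) (g h : G) : ℝ :=
  ((len g : ℝ) + (len h : ℝ) - (len (g⁻¹ * h) : ℝ)) / 2

/-- Data extracted from a hyperbolic group `G` and its boundary `Z` (with a visual metric).
`s x g` is the Gromov product `(x|g)` of the boundary point `x` and `g`. -/
structure Setup (G Z : Type) [Group G] [MetricSpace Z] [MulAction G Z] where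
  len : G → ℕ
  len_one : len 1 = 0
  len_inv : ∀ g : G, len g⁻¹ = len g
  len_mul : ∀ g h : G, len (g * h) ≤ len g + len h
  finite_ball : ∀ n : ℕ, {g : G | len g ≤ n}.Finite
  /-- growth rate -/
  v : ℝ
  v_pos : 0 < v
  card_ball : ∀ n : ℕ, ({g : G | len g ≤ n}.ncard : ℝ) ≤ Real.exp (v * n)
  /-- geodesics in the group -/
  geod : ∀ (g : G) (k : ℕ), k ≤ len g → ∃ h : G, len h = k ∧ len (h⁻¹ * g) = len g - k
  /-- one constant for everything (large) -/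
  δ : ℝ
  one_le_δ : 1 ≤ δ
  hyp : ∀ g h k : G, min (gpOf len g h) (gpOf len h k) - δ ≤ gpOf len g k
  /-- `s x g = (x|g)` -/
  s : Z → G → ℝ
  s_nonneg : ∀ (x : Z) (g : G), 0 ≤ s x g
  s_le : ∀ (x : Z) (g : G), s x g ≤ len g
  hyp_s1 : ∀ (x : Z) (g h : G), min (s x g) (gpOf len g h) - δ ≤ s x h
  hyp_s2 : ∀ (x : Z) (g h : G), min (s x g) (s x h) - δ ≤ gpOf len g h
  /-- `(k x | k g) = (x|g) - (x|k⁻¹) - (g|k⁻¹) + |k|` up to `δ` -/
  cocycle : ∀ (x : Z) (g k : G),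
    |s (k • x) (k * g) - (s x g - s x k⁻¹ - gpOf len g k⁻¹ + len k)| ≤ δ
  /-- visual parameter: `dist x y ≍ exp (-ε (x|y))` -/
  ε : ℝ
  ε_pos : 0 < ε
  dist_le : ∀ (x y : Z) (g : G), dist x y ≤ Real.exp (-ε * (min (s x g) (s y g) - δ))
  le_s : ∀ (x y : Z) (g : G), x ≠ y → min (s x g) (-Real.log (dist x y) / ε) - δ ≤ s y g
  /-- along a geodesic ray to `x` -/
  ray : ∀ (x : Z) (n : ℕ), ∃ g : G, len g = n ∧ (n : ℝ) - δ ≤ s x g
  /-- every group element points to some boundary point -/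
  star : ∀ g : G, ∃ x : Z, (len g : ℝ) - δ ≤ s x g
  cont : ∀ g : G, Continuous (fun x : Z => g • x)

section
variable {G Z : Type} [Group G] [MetricSpace Z] [MulAction G Z]

/-- Gromov product on the group. -/
def Setup.gp (S : Setup G Z) (g h : G) : ℝ := gpOf S.len g h

/-- Sphere of radius `n` in `G` (the index set of the tiles of level `n`). -/
def Setup.sph (S : Setup G Z) (n : ℕ) : Finset G :=
  ((S.finite_ball n).subset (fun g (hg : S.len g = n) => le_of_eq hg)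
    : {g : G | S.len g = n}.Finite).toFinset

/-- Ball of radius `n` in `G`. -/
def Setup.bal (S : Setup G Z) (n : ℕ) : Finset G := (S.finite_ball n).toFinset

/-- The region of `Z` away from the pole of `g` (= direction of `g⁻¹`). -/
def Setup.Gd (S : Setup G Z) (R : ℝ) (g : G) : Set Z := {x | S.s x g⁻¹ ≤ R}

/-- The shadow of `g`. -/
def Setup.Sh (S : Setup G Z) (R : ℝ) (g : G) : Set Z := {y | (S.len g : ℝ) - R ≤ S.s y g}

/-- Tiles: closed connected sets squeezed between two shadows. -/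
structure Tiles (S : Setup G Z) where
  U : G → Set Z
  isClosed : ∀ g, IsClosed (U g)
  isConnected : ∀ g, IsConnected (U g)
  R : ℝ
  R_pos : 0 < R
  sub : ∀ g, U g ⊆ S.Sh R g
  cover : ∀ g, S.Sh S.δ g ⊆ U g

/-- Union of the tiles indexed by `A`. -/
def Tiles.un {S : Setup G Z} (T : Tiles S) (A : Finset G) : Set Z := ⋃ h ∈ A, T.U h

/-- Adjacency of tiles. -/
def Tiles.adj {S : Setup G Z} (T : Tiles S) (g h : G) : Prop := (T.U g ∩ T.U h).Nonempty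
end

/-- `K` separates `D` from `E`: every (pre)connected set meeting both meets `K`. -/
def Separates {Z : Type} [TopologicalSpace Z] (K D E : Set Z) : Prop :=
  ∀ c : Set Z, IsPreconnected c → (c ∩ D).Nonempty → (c ∩ E).Nonempty → (c ∩ K).Nonempty

/-- A planar chart of `Z` defined on the whole plane `ℝ × ℝ` (sup metric, so balls are squares). -/
structure Chart (Z : Type) [TopologicalSpace Z] where
  f : ℝ × ℝ → Z
  emb : IsOpenEmbedding f

/-- closed square of half-side `r` in the chart -/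
def Chart.D {Z : Type} [TopologicalSpace Z] (ψ : Chart Z) (r : ℝ) : Set Z :=
  ψ.f '' Metric.closedBall (0 : ℝ × ℝ) r

/-- complement of the open square of half-side `r` in the chart -/
def Chart.E {Z : Type} [TopologicalSpace Z] (ψ : Chart Z) (r : ℝ) : Set Z :=
  (ψ.f '' Metric.ball (0 : ℝ × ℝ) r)ᶜ

/-- the closed rectangle `[0,1]²` of the chart, its left and right sides, and the complement `T` of
its interior -/
def Chart.Q {Z : Type} [TopologicalSpace Z] (χ : Chart Z) : Set Z :=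
  χ.f '' (Icc (0 : ℝ) 1 ×ˢ Icc (0 : ℝ) 1)
def Chart.left {Z : Type} [TopologicalSpace Z] (χ : Chart Z) : Set Z :=
  χ.f '' ({(0 : ℝ)} ×ˢ Icc (0 : ℝ) 1)
def Chart.right {Z : Type} [TopologicalSpace Z] (χ : Chart Z) : Set Z :=
  χ.f '' ({(1 : ℝ)} ×ˢ Icc (0 : ℝ) 1)
def Chart.Qo {Z : Type} [TopologicalSpace Z] (χ : Chart Z) : Set Z :=
  χ.f '' (Ioo (0 : ℝ) 1 ×ˢ Ioo (0 : ℝ) 1)
def Chart.T {Z : Type} [TopologicalSpace Z] (χ : Chart Z) : Set Z := (χ.Qo)ᶜ

/-- the unit two-sphere -/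
abbrev S2 : Type := Metric.sphere (0 : EuclideanSpace ℝ (Fin 3)) 1

section
variable {G Z : Type} [Group G] [MetricSpace Z] [MulAction G Z]

/-- `SepBound T n D E L` : for every weight `ρ` on the tiles of level `n` some set of tiles separating
`D` from `E` has `ρ`-length at most `sqrt (L * area)`.  (So `1 / M_sep (D,E;n) ≤ L`.) -/
def SepBound {S : Setup G Z} (T : Tiles S) (n : ℕ) (D E : Set Z) (L : ℝ) : Prop :=
  ∀ ρ : G → ℝ, (∀ h, 0 ≤ ρ h) → ∃ A : Finset G, A ⊆ S.sph n ∧ Separates (T.un A) D E ∧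
    (∑ h ∈ A, ρ h) ^ 2 ≤ L * ∑ h ∈ S.sph n, (ρ h) ^ 2

/-- image of a chart under a group element -/
def Chart.smul (S : Setup G Z) (g : G) (ψ : Chart Z) : Chart Z where
  f := fun p => g • ψ.f p
  emb := by
    have h : IsOpenEmbedding (fun x : Z => g • x) := by
      have e : Z ≃ₜ Z :=
        { toFun := fun x => g • x
          invFun := fun x => g⁻¹ • x
          left_inv := fun x => by simp
          right_inv := fun x => by simp
          continuous_toFun := S.cont g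
          continuous_invFun := S.cont g⁻¹ }
      have : (fun x : Z => g • x) = ⇑(⟨⟨fun x => g • x, fun x => g⁻¹ • x, fun x => by simp,
        fun x => by simp⟩, S.cont g, S.cont g⁻¹⟩ : Z ≃ₜ Z) := rfl
      rw [this]
      exact Homeomorph.isOpenEmbedding _
    exact h.comp ψ.emb
end

/-- maximum/minimum principle ("monotone" in Lebesgue's sense) on an open set `O` -/
def MonoOn {Z : Type} [TopologicalSpace Z] (u : Z → ℝ) (O : Set Z) : Prop :=
  ∀ D : Set Z, IsOpen D → D.Nonempty → closure D ⊆ O → ∀ x ∈ D,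
    (∃ y ∈ frontier D, u x ≤ u y) ∧ (∃ y ∈ frontier D, u y ≤ u x)

/-- A closed, exactly `G`-invariant, strongly local Dirichlet form on `C(Z, ℝ)`;
`Γ u v φ` is the integral of `φ` against the energy measure of `u, v`. -/
structure DForm {G Z : Type} [Group G] [MetricSpace Z] [MulAction G Z] (S : Setup G Z) where
  Dom : Set C(Z, ℝ)
  Γ : C(Z, ℝ) → C(Z, ℝ) → C(Z, ℝ) → ℝ
  const_mem : ∀ c : ℝ, ContinuousMap.const Z c ∈ Dom
  add_mem : ∀ u ∈ Dom, ∀ v ∈ Dom, u + v ∈ Dom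
  smul_mem : ∀ c : ℝ, ∀ u ∈ Dom, c • u ∈ Dom
  mul_mem : ∀ u ∈ Dom, ∀ v ∈ Dom, u * v ∈ Dom
  symm : ∀ u ∈ Dom, ∀ v ∈ Dom, ∀ φ, Γ u v φ = Γ v u φ
  add_left : ∀ u ∈ Dom, ∀ u' ∈ Dom, ∀ v ∈ Dom, ∀ φ, Γ (u + u') v φ = Γ u v φ + Γ u' v φ
  smul_left : ∀ c : ℝ, ∀ u ∈ Dom, ∀ v ∈ Dom, ∀ φ, Γ (c • u) v φ = c * Γ u v φ
  add_test : ∀ u ∈ Dom, ∀ v ∈ Dom, ∀ φ φ' : C(Z, ℝ), Γ u v (φ + φ') = Γ u v φ + Γ u v φ'
  smul_test : ∀ c : ℝ, ∀ u ∈ Dom, ∀ v ∈ Dom, ∀ φ : C(Z, ℝ), Γ u v (c • φ) = c * Γ u v φ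
  nonneg : ∀ u ∈ Dom, ∀ φ : C(Z, ℝ), (∀ x, 0 ≤ φ x) → 0 ≤ Γ u u φ
  /-- chain rule for `C²` functions of two variables -/
  chain : ∀ (ψ : ℝ × ℝ → ℝ) (_ : ContDiff ℝ 2 ψ), ∀ u ∈ Dom, ∀ v ∈ Dom, ∀ (w' d1 d2 : C(Z, ℝ)),
    (∀ x, w' x = ψ (u x, v x)) → (∀ x, d1 x = fderiv ℝ ψ (u x, v x) (1, 0)) →
    (∀ x, d2 x = fderiv ℝ ψ (u x, v x) (0, 1)) →
    w' ∈ Dom ∧ ∀ w ∈ Dom, ∀ φ : C(Z, ℝ), Γ w' w φ = Γ u w (φ * d1) + Γ v w (φ * d2)
  /-- exact invariance -/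
  inv : ∀ (g : G) (u v φ u' v' φ' : C(Z, ℝ)), u ∈ Dom → v ∈ Dom →
    (∀ x, u' x = u (g • x)) → (∀ x, v' x = v (g • x)) → (∀ x, φ' x = φ (g • x)) →
    u' ∈ Dom ∧ Γ u' v' φ' = Γ u v φ
  /-- closedness together with weak continuity -/
  closed : ∀ (u : ℕ → C(Z, ℝ)) (w : C(Z, ℝ)) (C : ℝ), (∀ n, u n ∈ Dom) →
    Tendsto u atTop (𝓝 w) → (∀ n, Γ (u n) (u n) 1 ≤ C) →
    w ∈ Dom ∧ ∀ v ∈ Dom, ∀ φ, Tendsto (fun n => Γ (u n) v φ) atTop (𝓝 (Γ w v φ))
  /-- geometric constants -/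
  lam : ℝ
  one_lt_lam : 1 < lam
  C0 : ℝ
  C0_pos : 0 < C0
  ρ0 : ℝ
  ρ0_pos : 0 < ρ0
  /-- Courant-Lebesgue: small energy in an annulus (`φ ≥ 1` on the ANNULUS only) gives a separating
  continuum with small oscillation -/
  CL : ∀ (x : Z) (ρ : ℝ), 0 < ρ → ρ ≤ ρ0 → ∀ u ∈ Dom, ∀ φ : C(Z, ℝ), (∀ y, 0 ≤ φ y) →
    (∀ y, ρ ≤ dist y x → dist y x ≤ lam * ρ → 1 ≤ φ y) → ∀ η > 0,
      ∃ σ : Set Z, IsCompact σ ∧ IsConnected σ ∧
      (∀ y ∈ σ, ρ < dist y x ∧ dist y x < lam * ρ) ∧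
      Separates σ (Metric.closedBall x ρ) (Metric.ball x (lam * ρ))ᶜ ∧
      ∀ y ∈ σ, ∀ z ∈ σ, |u y - u z| ≤ C0 * Real.sqrt (Γ u u φ) + η
  /-- cut-off functions -/
  cutoff : ∀ (x : Z) (ρ : ℝ), 0 < ρ → ρ ≤ ρ0 → ∃ χ ∈ Dom, (∀ y, 0 ≤ χ y ∧ χ y ≤ 1) ∧
    (∀ y, dist y x ≤ ρ → χ y = 1) ∧ (∀ y, lam * ρ ≤ dist y x → χ y = 0) ∧ Γ χ χ 1 ≤ C0
  /-- two functions, all of whose linear combinations are monotone on an open set `O`, mapping a
  compact part of `O` onto a set with nonempty interior -/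
  pair : ∃ (O K : Set Z) (u₁ u₂ : C(Z, ℝ)), IsOpen O ∧ IsCompact K ∧ K ⊆ O ∧ u₁ ∈ Dom ∧ u₂ ∈ Dom ∧
    (∀ a b : ℝ, MonoOn (fun x => a * u₁ x + b * u₂ x) O) ∧
    (interior ((fun x => (u₁ x, u₂ x)) '' K)).Nonempty

/-- Laplacian of a function on the plane `ℂ` -/
def lap (ψ : ℂ → ℝ) (z : ℂ) : ℝ :=
  iteratedFDeriv ℝ 2 ψ z ![1, 1] + iteratedFDeriv ℝ 2 ψ z ![Complex.I, Complex.I]

/-- the finite part of a point of the Riemann sphere (`∞ ↦ 0`) -/
def toC (z : OnePoint ℂ) : ℂ := Option.elim z 0 id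

/-- `f : Ĉ → Ĉ` is weakly harmonic and its square too (i.e. weakly (anti)conformal) where finite -/
def WeakConf (f : OnePoint ℂ → OnePoint ℂ) : Prop :=
  ∀ ψ : ℂ → ℝ, ContDiff ℝ (⊤ : ℕ∞) ψ → HasCompactSupport ψ →
    (∀ z ∈ tsupport ψ, f (z : OnePoint ℂ) ≠ OnePoint.infty) →
    (∫ z : ℂ, toC (f z) * ((lap ψ z : ℝ) : ℂ) = 0) ∧
    (∫ z : ℂ, toC (f z) ^ 2 * ((lap ψ z : ℝ) : ℂ) = 0)

/-- Moebius map of the Riemann sphere -/
def mob (a b c d : ℂ) (w : OnePoint ℂ) : OnePoint ℂ :=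
  Option.elim w (if c = 0 then OnePoint.infty else ((a / c : ℂ) : OnePoint ℂ))
    (fun z => if c * z + d = 0 then OnePoint.infty else (((a * z + b) / (c * z + d) : ℂ) : OnePoint ℂ))

/-- complex conjugation on the Riemann sphere -/
def conjO (w : OnePoint ℂ) : OnePoint ℂ :=
  Option.elim w OnePoint.infty (fun z => ((starRingEnd ℂ z : ℂ) : OnePoint ℂ))

/-- Moebius or anti-Moebius -/
def IsMob (f : OnePoint ℂ → OnePoint ℂ) : Prop :=
  ∃ a b c d : ℂ, a * d - b * c ≠ 0 ∧ (f = mob a b c d ∨ f = fun w => mob a b c d (conjO w))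

end Crest.Agent.R193
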