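import Mathlib
import Crest.Agent.R193.Defs

/-!
# R193 CH (helper260): charts of a space homeomorphic to the sphere, finite families of charts
-/

set_option autoImplicit false

open Set Filter Topology Metric

namespace Crest.Agent.R193.CHx

open Crest.Agent.R193

/-- the stereographic chart of `S²` off a point, as an open embedding of the plane -/
theorem exists_chart_S2 (p0 : S2) : ∃ φ : ℝ × ℝ → S2, IsOpenEmbedding φ ∧ range φ = {p0}ᶜ := by
  have : Fact (Module.finrank ℝ (EuclideanSpace ℝ (Fin 3)) = 2 + 1) := ⟨by simp⟩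
  let e1 : (ℝ × ℝ) ≃ₜ (EuclideanSpace ℝ (Fin 2)) :=
    (ContinuousLinearEquiv.finTwoArrow ℝ ℝ).symm.toHomeomorph.trans
      (EuclideanSpace.equiv (Fin 2) ℝ).symm.toHomeomorph
  let s := stereographic' 2 p0
  have hs : IsOpenEmbedding s.symm := s.symm.isOpenEmbedding (by simp [s])
  refine ⟨s.symm ∘ e1, hs.comp e1.isOpenEmbedding, ?_⟩
  rw [range_comp, e1.range_coe, image_univ]
  apply subset_antisymm
  · rintro x ⟨y, rfl⟩
    have : s.symm y ∈ s.source := s.map_target (by simp [s])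
    simpa [s] using this
  · intro x hx
    refine ⟨s x, s.left_inv (by simpa [s] using hx)⟩

section General

variable {Z : Type} [TopologicalSpace Z]

theorem exists_chart (e : Z ≃ₜ S2) (p0 : Z) :
    ∃ φ : ℝ × ℝ → Z, IsOpenEmbedding φ ∧ range φ = {p0}ᶜ := by
  obtain ⟨φ, h1, h2⟩ := exists_chart_S2 (e p0)
  refine ⟨e.symm ∘ φ, e.symm.isOpenEmbedding.comp h1, ?_⟩
  rw [range_comp, h2]
  ext x
  constructor
  · rintro ⟨y, hy, rfl⟩ h
    apply hy
    have : e.symm y = p0 := h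
    rw [← this]; simp
  · intro hx
    refine ⟨e x, fun h => hx ?_, by simp⟩
    have : e x = e p0 := h
    exact e.injective this

/-- affine precomposition of a chart -/
def _root_.Crest.Agent.R193.Chart.comp (ψ : Chart Z) (e : (ℝ × ℝ) ≃ₜ (ℝ × ℝ)) : Chart Z where
  f := ψ.f ∘ e
  emb := ψ.emb.comp e.isOpenEmbedding

@[simp] lemma comp_f (ψ : Chart Z) (e : (ℝ × ℝ) ≃ₜ (ℝ × ℝ)) (x : ℝ × ℝ) :
    (ψ.comp e).f x = ψ.f (e x) := rfl

lemma exists_two_points (e : Z ≃ₜ S2) (x : Z) : ∃ y : Z, y ≠ x := by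
  refine ⟨e.symm (- e x), fun h => ?_⟩
  have h1 : -(e x) = e x := by simpa using congrArg e h
  have h2 : ((-(e x) : S2) : EuclideanSpace ℝ (Fin 3)) = (e x : EuclideanSpace ℝ (Fin 3)) := by
    rw [h1]
  rw [coe_neg_sphere] at h2
  have h3 : (e x : EuclideanSpace ℝ (Fin 3)) = 0 := by
    have h4 : (2 : ℝ) • (e x : EuclideanSpace ℝ (Fin 3)) = 0 := by
      rw [two_smul]
      nth_rewrite 1 [← h2]
      simp
    exact (smul_eq_zero.mp h4).resolve_left (by norm_num)
  have h5 : ‖(e x : EuclideanSpace ℝ (Fin 3))‖ = 1 := by simp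
  rw [h3] at h5
  simp at h5

/-- a chart centred at `x` -/
theorem exists_chart_at (e : Z ≃ₜ S2) (x : Z) : ∃ ψ : Chart Z, ψ.f 0 = x := by
  obtain ⟨y, hy⟩ := exists_two_points e x
  obtain ⟨φ, h1, h2⟩ := exists_chart e y
  have : x ∈ range φ := by rw [h2]; exact hy.symm
  obtain ⟨a, ha⟩ := this
  refine ⟨(⟨φ, h1⟩ : Chart Z).comp (Homeomorph.addRight a), ?_⟩
  simp [ha]

end General

section Family

variable {Z : Type} [MetricSpace Z]

/-- scaling homeomorphism of the plane -/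
noncomputable def scale (t : ℝ) (ht : 0 < t) : (ℝ × ℝ) ≃ₜ (ℝ × ℝ) :=
  Homeomorph.smulOfNeZero t ht.ne'

lemma scale_apply (t : ℝ) (ht : 0 < t) (x : ℝ × ℝ) : scale t ht x = t • x := rfl

/-- **finite families of small charts**: for every `ε0 > 0` and radii `r1, r2 > 0` there is a finite
family of charts and `η > 0` such that every `x` has a chart `ψ i` of the family with
`closedBall x η ⊆ ψ i (ball 0 r1)` and `ψ i (closedBall 0 r2) ⊆ closedBall x ε0`. -/
theorem exists_family_small (e : Z ≃ₜ S2) {ε0 r1 r2 : ℝ} (hε : 0 < ε0) (h1 : 0 < r1) (h2 : 0 < r2) :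
    ∃ (m : ℕ) (ψ : Fin m → Chart Z) (η : ℝ), 0 < η ∧ ∀ x : Z, ∃ i,
      closedBall x η ⊆ (ψ i).f '' ball 0 r1 ∧ (ψ i).f '' closedBall 0 r2 ⊆ closedBall x ε0 := by
  have hcpt : CompactSpace Z := e.symm.compactSpace
  -- a small chart at every point
  have key : ∀ x : Z, ∃ ψ : Chart Z, ψ.f 0 = x ∧ ψ.f '' closedBall 0 r2 ⊆ ball x (ε0 / 2) := by
    intro x
    obtain ⟨ψ, hψ⟩ := exists_chart_at e x
    have hc : ContinuousAt ψ.f 0 := ψ.emb.continuous.continuousAt
    rw [Metric.continuousAt_iff] at hc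
    obtain ⟨t, ht, htt⟩ := hc (ε0 / 2) (by positivity)
    refine ⟨ψ.comp (scale (t / (2 * r2)) (by positivity)), by simp [scale_apply, hψ], ?_⟩
    rintro z ⟨p, hp, rfl⟩
    rw [comp_f, scale_apply]
    rw [mem_closedBall, dist_zero_right] at hp
    have h3 : dist ((t / (2 * r2)) • p) 0 < t := by
      rw [dist_zero_right, norm_smul, Real.norm_of_nonneg (by positivity)]
      calc t / (2 * r2) * ‖p‖ ≤ t / (2 * r2) * r2 := by gcongr
        _ = t / 2 := by field_simp
        _ < t := by linarith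
    have := htt h3
    rw [hψ] at this
    exact mem_ball.mpr this
  choose Ψ hΨ0 hΨ using key
  -- open cover
  let U : Z → Set Z := fun x => (Ψ x).f '' ball 0 r1 ∩ ball x (ε0 / 2)
  have hUo : ∀ x, IsOpen (U x) := fun x =>
    ((Ψ x).emb.isOpenMap _ isOpen_ball).inter isOpen_ball
  have hxU : ∀ x, x ∈ U x := fun x =>
    ⟨⟨0, mem_ball_self h1, hΨ0 x⟩, mem_ball_self (by positivity)⟩
  obtain ⟨t, ht⟩ := isCompact_univ.elim_finite_subcover U hUo
    (fun x _ => mem_iUnion.mpr ⟨x, hxU x⟩)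
  obtain ⟨η, hη, hL⟩ := lebesgue_number_lemma_of_metric (s := (univ : Set Z)) (c := fun i : t => U i)
    isCompact_univ (fun i => hUo i) (fun x hx => by
      have := ht hx
      simp only [mem_iUnion] at this ⊢
      obtain ⟨i, hi, hxi⟩ := this
      exact ⟨⟨i, hi⟩, hxi⟩)
  let eq := t.equivFin
  refine ⟨t.card, fun i => Ψ (eq.symm i), η / 2, by positivity, fun x => ?_⟩
  obtain ⟨i, hi⟩ := hL x (mem_univ x)
  have hsub : closedBall x (η / 2) ⊆ U i := (closedBall_subset_ball (by linarith)).trans hi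
  refine ⟨eq i, ?_, ?_⟩
  · simp only [Equiv.symm_apply_apply]
    exact hsub.trans inter_subset_left
  · simp only [Equiv.symm_apply_apply]
    intro z hz
    have h4 := hΨ i hz
    have h5 : x ∈ ball (i : Z) (ε0 / 2) := (hsub (mem_closedBall_self (by positivity))).2
    rw [mem_ball] at h4 h5
    rw [mem_closedBall]
    calc dist z x ≤ dist z i + dist x i := dist_triangle_right _ _ _
      _ ≤ ε0 := by linarith

/-- points close to the image of a compact set come from close points of the plane -/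
theorem exists_close (ψ : Chart Z) {K : Set (ℝ × ℝ)} (hK : IsCompact K) {ε0 : ℝ} (hε : 0 < ε0) :
    ∃ η > 0, ∀ x ∈ K, ∀ z : Z, dist z (ψ.f x) < η → ∃ x', ψ.f x' = z ∧ dist x' x < ε0 := by
  have hKi : IsCompact (ψ.f '' K) := hK.image ψ.emb.continuous
  obtain ⟨η, hη, hL⟩ := lebesgue_number_lemma_of_metric (s := ψ.f '' K)
    (c := fun x : ℝ × ℝ => ψ.f '' ball x (ε0 / 2)) hKi
    (fun x => ψ.emb.isOpenMap _ isOpen_ball) (by
      rintro z ⟨x, _, rfl⟩
      exact mem_iUnion.mpr ⟨x, x, mem_ball_self (by positivity), rfl⟩)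
  refine ⟨η, hη, fun x hx z hz => ?_⟩
  obtain ⟨y, hy⟩ := hL (ψ.f x) ⟨x, hx, rfl⟩
  obtain ⟨x', hx', rfl⟩ := hy (mem_ball.mpr hz)
  obtain ⟨x'', hx'', h3⟩ := hy (mem_ball_self hη)
  have h4 : x'' = x := ψ.emb.injective h3
  subst h4
  refine ⟨x', rfl, ?_⟩
  rw [mem_ball] at hx' hx''
  calc dist x' x'' ≤ dist x' y + dist x'' y := dist_triangle_right _ _ _
    _ < ε0 := by linarith

end Family

section SetupPart

variable {G Z : Type} [Group G] [MetricSpace Z] [MulAction G Z]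

/-- the version relative to a `Setup`: charts around points of `Gd R0 g`, contained in `Gd R g`. -/
theorem exists_family (S : Setup G Z) (e : Z ≃ₜ S2) (R0 : ℝ) {r1 r2 : ℝ} (h1 : 0 < r1)
    (h2 : 0 < r2) :
    ∃ (m : ℕ) (ψ : Fin m → Chart Z) (η R : ℝ), 0 < η ∧ ∀ (g : G) (x : Z), x ∈ S.Gd R0 g → ∃ i,
      closedBall x η ⊆ (ψ i).f '' ball 0 r1 ∧ (ψ i).f '' closedBall 0 r2 ⊆ S.Gd R g := by
  set η0 : ℝ := Real.exp (-S.ε * (|R0| + 2 * S.δ + 1)) with hη0
  have hη0p : 0 < η0 := Real.exp_pos _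
  obtain ⟨m, ψ, η, hη, hfam⟩ := exists_family_small e (ε0 := η0 / 2) (by positivity) h1 h2
  have hδ := S.one_le_δ
  have hεp := S.ε_pos
  set R : ℝ := |R0| + 4 * S.δ + 2 + Real.log 2 / S.ε with hR
  have hlog2 : 0 < Real.log 2 := Real.log_pos (by norm_num)
  have hRbig : |R0| + 2 * S.δ + 1 ≤ R := by
    rw [hR]
    have : 0 ≤ Real.log 2 / S.ε := by positivity
    linarith
  refine ⟨m, ψ, η, R, hη, fun g x hx => ?_⟩
  obtain ⟨i, hi1, hi2⟩ := hfam x
  refine ⟨i, hi1, fun p hp => ?_⟩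
  have hpx : dist p x ≤ η0 / 2 := hi2 hp
  show S.s p g⁻¹ ≤ R
  by_cases hlen : (S.len g⁻¹ : ℝ) ≤ |R0| + 2 * S.δ + 1
  · exact ((S.s_le p g⁻¹).trans hlen).trans hRbig
  push Not at hlen
  obtain ⟨a, ha⟩ := S.star g⁻¹
  -- `x` is far from `a`
  have hxa : η0 ≤ dist x a := by
    by_contra hcon
    push Not at hcon
    have hx' : S.s x g⁻¹ ≤ R0 := hx
    have hR0 := le_abs_self R0
    rcases eq_or_ne a x with hax | hax
    · rw [hax] at ha
      linarith
    · have h3 := S.le_s a x g⁻¹ hax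
      have hd : 0 < dist a x := dist_pos.mpr hax
      have h4 : |R0| + 2 * S.δ + 1 < -Real.log (dist a x) / S.ε := by
        rw [lt_div_iff₀ hεp]
        have h5 : Real.log (dist a x) < Real.log η0 :=
          Real.log_lt_log hd (by rw [dist_comm]; exact hcon)
        rw [hη0, Real.log_exp] at h5
        linarith
      have h6 : |R0| + S.δ + 1 ≤ min (S.s a g⁻¹) (-Real.log (dist a x) / S.ε) := by
        apply le_min
        · linarith
        · linarith
      linarith
  -- `p` is far from `a`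
  have hpa : η0 / 2 ≤ dist p a := by
    have := dist_triangle_left x a p
    linarith
  have h7 := S.dist_le p a g⁻¹
  have h8 : Real.exp (-S.ε * (|R0| + 2 * S.δ + 1) - Real.log 2) ≤
      Real.exp (-S.ε * (min (S.s p g⁻¹) (S.s a g⁻¹) - S.δ)) := by
    refine le_trans (le_of_eq ?_) (hpa.trans h7)
    rw [Real.exp_sub, Real.exp_log (by norm_num)]
  rw [Real.exp_le_exp] at h8
  have h9 : min (S.s p g⁻¹) (S.s a g⁻¹) - S.δ ≤ |R0| + 2 * S.δ + 1 + Real.log 2 / S.ε := by
    have h10 : S.ε * (min (S.s p g⁻¹) (S.s a g⁻¹) - S.δ) ≤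
        S.ε * (|R0| + 2 * S.δ + 1 + Real.log 2 / S.ε) := by
      have : S.ε * (Real.log 2 / S.ε) = Real.log 2 := by field_simp
      nlinarith
    exact le_of_mul_le_mul_left h10 hεp
  rcases min_choice (S.s p g⁻¹) (S.s a g⁻¹) with h10 | h10
  · rw [h10] at h9
    rw [hR]
    linarith
  · rw [h10] at h9
    have h11 := S.s_le p g⁻¹
    rw [hR]
    linarith

end SetupPart

end Crest.Agent.R193.CHx
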