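import Crest.Agent.R193.CPDefs

/-!
R193, block D7: private algebra layer over `DForm` (Leibniz, one variable chain rule, locality,
cut-offs, Cauchy-Schwarz).
-/

set_option autoImplicit false

noncomputable section

open Set Filter Topology MeasureTheory Metric

namespace Crest.Agent.R193.CPa_Basic

open Crest.Agent.R193

variable {G Z : Type} [Group G] [MetricSpace Z] [MulAction G Z] {S : Setup G Z} (Q : DForm S)

/-! ### membership -/

theorem zero_mem : (0 : C(Z, ℝ)) ∈ Q.Dom := by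
  have := Q.const_mem 0
  convert this using 1
  ext x; simp

theorem one_mem : (1 : C(Z, ℝ)) ∈ Q.Dom := by
  have := Q.const_mem 1
  convert this using 1
  ext x; simp

theorem neg_mem {u : C(Z, ℝ)} (hu : u ∈ Q.Dom) : -u ∈ Q.Dom := by
  have := Q.smul_mem (-1) u hu
  simpa using this

theorem sub_mem {u v : C(Z, ℝ)} (hu : u ∈ Q.Dom) (hv : v ∈ Q.Dom) : u - v ∈ Q.Dom := by
  rw [sub_eq_add_neg]
  exact Q.add_mem u hu _ (neg_mem Q hv)

/-! ### bilinearity -/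

theorem zero_left {v : C(Z, ℝ)} (hv : v ∈ Q.Dom) (φ : C(Z, ℝ)) : Q.Γ 0 v φ = 0 := by
  have := Q.smul_left 0 0 (zero_mem Q) v hv φ
  simpa using this

theorem neg_left {u v : C(Z, ℝ)} (hu : u ∈ Q.Dom) (hv : v ∈ Q.Dom) (φ : C(Z, ℝ)) :
    Q.Γ (-u) v φ = - Q.Γ u v φ := by
  have := Q.smul_left (-1) u hu v hv φ
  simpa using this

theorem sub_left {u u' v : C(Z, ℝ)} (hu : u ∈ Q.Dom) (hu' : u' ∈ Q.Dom) (hv : v ∈ Q.Dom)
    (φ : C(Z, ℝ)) : Q.Γ (u - u') v φ = Q.Γ u v φ - Q.Γ u' v φ := by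
  rw [sub_eq_add_neg, Q.add_left u hu _ (neg_mem Q hu') v hv, neg_left Q hu' hv]
  ring

theorem add_right {u v v' : C(Z, ℝ)} (hu : u ∈ Q.Dom) (hv : v ∈ Q.Dom) (hv' : v' ∈ Q.Dom)
    (φ : C(Z, ℝ)) : Q.Γ u (v + v') φ = Q.Γ u v φ + Q.Γ u v' φ := by
  rw [Q.symm u hu _ (Q.add_mem v hv v' hv'), Q.add_left v hv v' hv' u hu, Q.symm v hv u hu,
    Q.symm v' hv' u hu]

theorem smul_right {u v : C(Z, ℝ)} (c : ℝ) (hu : u ∈ Q.Dom) (hv : v ∈ Q.Dom)
    (φ : C(Z, ℝ)) : Q.Γ u (c • v) φ = c * Q.Γ u v φ := by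
  rw [Q.symm u hu _ (Q.smul_mem c v hv), Q.smul_left c v hv u hu, Q.symm v hv u hu]

theorem neg_right {u v : C(Z, ℝ)} (hu : u ∈ Q.Dom) (hv : v ∈ Q.Dom)
    (φ : C(Z, ℝ)) : Q.Γ u (-v) φ = - Q.Γ u v φ := by
  rw [Q.symm u hu _ (neg_mem Q hv), neg_left Q hv hu, Q.symm v hv u hu]

theorem sub_right {u v v' : C(Z, ℝ)} (hu : u ∈ Q.Dom) (hv : v ∈ Q.Dom) (hv' : v' ∈ Q.Dom)
    (φ : C(Z, ℝ)) : Q.Γ u (v - v') φ = Q.Γ u v φ - Q.Γ u v' φ := by
  rw [sub_eq_add_neg, add_right Q hu hv (neg_mem Q hv'), neg_right Q hu hv']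
  ring

theorem zero_right {u : C(Z, ℝ)} (hu : u ∈ Q.Dom) (φ : C(Z, ℝ)) : Q.Γ u 0 φ = 0 := by
  rw [Q.symm u hu _ (zero_mem Q), zero_left Q hu]

theorem zero_test {u v : C(Z, ℝ)} (hu : u ∈ Q.Dom) (hv : v ∈ Q.Dom) : Q.Γ u v 0 = 0 := by
  have := Q.smul_test 0 u hu v hv 0
  simpa using this

theorem neg_test {u v : C(Z, ℝ)} (hu : u ∈ Q.Dom) (hv : v ∈ Q.Dom) (φ : C(Z, ℝ)) :
    Q.Γ u v (-φ) = - Q.Γ u v φ := by
  have := Q.smul_test (-1) u hu v hv φ
  simpa using this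

theorem sub_test {u v : C(Z, ℝ)} (hu : u ∈ Q.Dom) (hv : v ∈ Q.Dom) (φ φ' : C(Z, ℝ)) :
    Q.Γ u v (φ - φ') = Q.Γ u v φ - Q.Γ u v φ' := by
  rw [sub_eq_add_neg, Q.add_test u hu v hv, neg_test Q hu hv]
  ring

theorem sub_test_eq {u v : C(Z, ℝ)} (hu : u ∈ Q.Dom) (hv : v ∈ Q.Dom) {φ φ' φ'' : C(Z, ℝ)} :
    Q.Γ u v (φ + φ' - φ'') = Q.Γ u v φ + Q.Γ u v φ' - Q.Γ u v φ'' := by
  rw [sub_test Q hu hv, Q.add_test u hu v hv]

theorem sum_test {ι : Type} {u v : C(Z, ℝ)} (hu : u ∈ Q.Dom) (hv : v ∈ Q.Dom) (s : Finset ι)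
    (φ : ι → C(Z, ℝ)) : Q.Γ u v (∑ i ∈ s, φ i) = ∑ i ∈ s, Q.Γ u v (φ i) := by
  classical
  induction s using Finset.induction_on with
  | empty => simp [zero_test Q hu hv]
  | insert a s ha ih => rw [Finset.sum_insert ha, Finset.sum_insert ha, Q.add_test u hu v hv, ih]

/-! ### Leibniz and chain rules -/

theorem leib {u v w : C(Z, ℝ)} (hu : u ∈ Q.Dom) (hv : v ∈ Q.Dom) (hw : w ∈ Q.Dom)
    (φ : C(Z, ℝ)) : Q.Γ (u * v) w φ = Q.Γ u w (φ * v) + Q.Γ v w (φ * u) := by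
  have hd : ∀ p : ℝ × ℝ, HasFDerivAt (fun q : ℝ × ℝ => q.1 * q.2)
      (p.1 • ContinuousLinearMap.snd ℝ ℝ ℝ + p.2 • ContinuousLinearMap.fst ℝ ℝ ℝ) p := by
    intro p
    exact (hasFDerivAt_fst).mul (hasFDerivAt_snd)
  have := Q.chain (fun q : ℝ × ℝ => q.1 * q.2) (contDiff_fst.mul contDiff_snd) u hu v hv
    (u * v) v u (fun x => rfl) (fun x => by rw [(hd _).fderiv]; simp)
    (fun x => by rw [(hd _).fderiv]; simp)
  exact this.2 w hw φ

theorem leib_right {u v w : C(Z, ℝ)} (hu : u ∈ Q.Dom) (hv : v ∈ Q.Dom) (hw : w ∈ Q.Dom)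
    (φ : C(Z, ℝ)) : Q.Γ w (u * v) φ = Q.Γ w u (φ * v) + Q.Γ w v (φ * u) := by
  rw [Q.symm w hw _ (Q.mul_mem u hu v hv), leib Q hu hv hw, Q.symm u hu w hw, Q.symm v hv w hw]

theorem chain1 {η : ℝ → ℝ} (hη : ContDiff ℝ 2 η) {u : C(Z, ℝ)} (hu : u ∈ Q.Dom)
    {w' d : C(Z, ℝ)} (hw' : ∀ x, w' x = η (u x)) (hd : ∀ x, d x = deriv η (u x)) :
    w' ∈ Q.Dom ∧ ∀ w ∈ Q.Dom, ∀ φ : C(Z, ℝ), Q.Γ w' w φ = Q.Γ u w (φ * d) := by
  have hdiff : Differentiable ℝ η := hη.differentiable (by norm_num)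
  have hfd : ∀ p : ℝ × ℝ, HasFDerivAt (fun q : ℝ × ℝ => η q.1)
      (deriv η p.1 • ContinuousLinearMap.fst ℝ ℝ ℝ) p := by
    intro p
    have h1 : HasDerivAt η (deriv η p.1) p.1 := (hdiff p.1).hasDerivAt
    exact h1.comp_hasFDerivAt p hasFDerivAt_fst
  have := Q.chain (fun q : ℝ × ℝ => η q.1) (hη.comp contDiff_fst) u hu 0 (zero_mem Q)
    w' d 0 (fun x => by simpa using hw' x)
    (fun x => by rw [(hfd _).fderiv]; simpa using hd x)
    (fun x => by rw [(hfd _).fderiv]; simp)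
  refine ⟨this.1, fun w hw φ => ?_⟩
  rw [this.2 w hw φ]
  simp [zero_test Q (zero_mem Q) hw]

theorem one_left {v : C(Z, ℝ)} (hv : v ∈ Q.Dom) (φ : C(Z, ℝ)) : Q.Γ 1 v φ = 0 := by
  have := leib Q (one_mem Q) (one_mem Q) hv φ
  simp only [mul_one] at this
  linarith

theorem const_left (c : ℝ) {v : C(Z, ℝ)} (hv : v ∈ Q.Dom) (φ : C(Z, ℝ)) :
    Q.Γ (ContinuousMap.const Z c) v φ = 0 := by
  have h : (ContinuousMap.const Z c) = c • (1 : C(Z, ℝ)) := by
    ext x; simp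
  rw [h, Q.smul_left c _ (one_mem Q) v hv, one_left Q hv, mul_zero]

theorem const_right (c : ℝ) {v : C(Z, ℝ)} (hv : v ∈ Q.Dom) (φ : C(Z, ℝ)) :
    Q.Γ v (ContinuousMap.const Z c) φ = 0 := by
  rw [Q.symm v hv _ (Q.const_mem c), const_left Q c hv]

/-! ### positivity -/

theorem mono_test {u : C(Z, ℝ)} (hu : u ∈ Q.Dom) {φ φ' : C(Z, ℝ)} (h : ∀ x, φ x ≤ φ' x) :
    Q.Γ u u φ ≤ Q.Γ u u φ' := by
  have h1 := Q.nonneg u hu (φ' - φ) (fun x => by simpa using h x)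
  rw [sub_test Q hu hu] at h1
  linarith

theorem energy_add {u v : C(Z, ℝ)} (hu : u ∈ Q.Dom) (hv : v ∈ Q.Dom) (t : ℝ) (φ : C(Z, ℝ)) :
    Q.Γ (u + t • v) (u + t • v) φ = Q.Γ u u φ + 2 * t * Q.Γ u v φ + t ^ 2 * Q.Γ v v φ := by
  have htv := Q.smul_mem t v hv
  rw [Q.add_left u hu _ htv _ (Q.add_mem u hu _ htv), add_right Q hu hu htv,
    add_right Q htv hu htv, smul_right Q t hu hv, Q.smul_left t v hv u hu,
    Q.smul_left t v hv _ htv, smul_right Q t hv hv, Q.symm v hv u hu]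
  ring

theorem quad_nonneg {a b c : ℝ} (h : ∀ t : ℝ, 0 ≤ a + 2 * t * b + t ^ 2 * c) : b ^ 2 ≤ a * c := by
  have h' : ∀ t : ℝ, 0 ≤ c * (t * t) + (2 * b) * t + a := fun t => by
    have := h t; nlinarith
  have := discrim_le_zero h'
  unfold discrim at this
  nlinarith

theorem cs {u v : C(Z, ℝ)} (hu : u ∈ Q.Dom) (hv : v ∈ Q.Dom) {φ : C(Z, ℝ)}
    (hφ : ∀ x, 0 ≤ φ x) : (Q.Γ u v φ) ^ 2 ≤ Q.Γ u u φ * Q.Γ v v φ := by
  apply quad_nonneg
  intro t
  have htv := Q.smul_mem t v hv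
  have := Q.nonneg (u + t • v) (Q.add_mem u hu _ htv) φ hφ
  rwa [energy_add Q hu hv] at this

/-- if `E(u) = 0` then `Γ u v φ = 0` for `φ ≥ 0` -/
theorem eq_zero_of_energy {u v : C(Z, ℝ)} (hu : u ∈ Q.Dom) (hv : v ∈ Q.Dom) {φ : C(Z, ℝ)}
    (hφ : ∀ x, 0 ≤ φ x) (h : Q.Γ u u φ = 0) : Q.Γ u v φ = 0 := by
  have := cs Q hu hv hφ
  rw [h, zero_mul] at this
  exact pow_eq_zero_iff (two_ne_zero) |>.1 (le_antisymm this (sq_nonneg _))

theorem abs_energy_le {u : C(Z, ℝ)} (hu : u ∈ Q.Dom) {φ : C(Z, ℝ)} {M : ℝ}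
    (hφ : ∀ x, |φ x| ≤ M) : |Q.Γ u u φ| ≤ M * Q.Γ u u 1 := by
  have h1 := mono_test Q hu (φ := φ) (φ' := M • 1) (fun x => by
    simpa using (abs_le.1 (hφ x)).2)
  have h2 := mono_test Q hu (φ := (-M) • 1) (φ' := φ) (fun x => by
    simpa using (abs_le.1 (hφ x)).1)
  rw [Q.smul_test M u hu u hu] at h1
  rw [Q.smul_test (-M) u hu u hu] at h2
  rw [abs_le]
  constructor <;> linarith

theorem abs_le' {u v : C(Z, ℝ)} (hu : u ∈ Q.Dom) (hv : v ∈ Q.Dom) {φ : C(Z, ℝ)} {M : ℝ}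
    (hφ : ∀ x, |φ x| ≤ M) : |Q.Γ u v φ| ≤ M * (Q.Γ u u 1 + Q.Γ v v 1) / 2 := by
  have h1 := energy_add Q hu hv 1 φ
  have h2 := energy_add Q hu hv (-1) φ
  have h1' := energy_add Q hu hv 1 1
  have h2' := energy_add Q hu hv (-1) 1
  have b1 := abs_energy_le Q (Q.add_mem u hu _ (Q.smul_mem 1 v hv)) hφ
  have b2 := abs_energy_le Q (Q.add_mem u hu _ (Q.smul_mem (-1) v hv)) hφ
  rw [h1, h1'] at b1
  rw [h2, h2'] at b2
  rw [abs_le] at *
  constructor <;> nlinarith [b1.1, b1.2, b2.1, b2.2]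

/-- matrix positivity with a continuous coefficient -/
theorem quad_test [CompactSpace Z] {u v : C(Z, ℝ)} (hu : u ∈ Q.Dom) (hv : v ∈ Q.Dom)
    (a : C(Z, ℝ)) : 0 ≤ Q.Γ u u 1 + 2 * Q.Γ u v a + Q.Γ v v (a * a) := by
  set A := Q.Γ u u 1 + 2 * Q.Γ u v a + Q.Γ v v (a * a) with hA
  set B := Q.Γ u u 1 + Q.Γ v v 1 with hB
  have hE0 : 0 ≤ Q.Γ u u 1 := Q.nonneg u hu 1 (fun x => by simp)
  have hE1 : 0 ≤ Q.Γ v v 1 := Q.nonneg v hv 1 (fun x => by simp)
  obtain ⟨M, hM⟩ : ∃ M : ℝ, ∀ x, |a x| ≤ M := ⟨‖a‖, fun x => a.norm_coe_le_norm x⟩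
  by_contra hneg
  push Not at hneg
  -- choose δ
  have key : ∀ δ : ℝ, 0 < δ → -(δ * B + δ * (2 * |M| + δ) * Q.Γ v v 1) ≤ A := by
    intro δ hδ
    let W : Z → Set Z := fun x => {y | |a y - a x| < δ}
    have hWo : ∀ x, IsOpen (W x) := fun x =>
      isOpen_lt (by fun_prop) continuous_const
    have hWm : ∀ x, x ∈ W x := fun x => by simp [W, hδ]
    obtain ⟨t, ht⟩ := isCompact_univ.elim_finite_subcover W hWo
      (fun x _ => mem_iUnion.2 ⟨x, hWm x⟩)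
    let e := t.equivFin
    let s : Fin t.card → Set Z := fun i => W (e.symm i : Z)
    have hs : (univ : Set Z) ⊆ ⋃ i, s i := by
      intro x hx
      obtain ⟨y, hy⟩ := mem_iUnion.1 (ht hx)
      obtain ⟨hyt, hxy⟩ := mem_iUnion.1 hy
      exact mem_iUnion.2 ⟨e ⟨y, hyt⟩, by simpa [s] using hxy⟩
    obtain ⟨f, hf1, hf2, hf3, -⟩ := exists_continuous_sum_one_of_isOpen_isCompact
      (s := s) (t := univ) (fun i => hWo _) isCompact_univ hs
    let c : Fin t.card → ℝ := fun i => a (e.symm i : Z)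
    have hsum : ∀ x, ∑ i, f i x = 1 := fun x => by
      have := hf2 (mem_univ x)
      simpa using this
    have hclose : ∀ i x, f i x * |a x - c i| ≤ f i x * δ := by
      intro i x
      by_cases h0 : f i x = 0
      · simp [h0]
      · have hx : x ∈ s i := hf1 i (subset_tsupport _ h0)
        have : |a x - c i| < δ := hx
        exact mul_le_mul_of_nonneg_left this.le (hf3 i x).1
    -- sum of nonnegative terms
    have hpos : 0 ≤ ∑ i, Q.Γ (u + c i • v) (u + c i • v) (f i) :=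
      Finset.sum_nonneg fun i _ => Q.nonneg _ (Q.add_mem u hu _ (Q.smul_mem _ v hv)) _
        (fun x => (hf3 i x).1)
    have hexp : ∑ i, Q.Γ (u + c i • v) (u + c i • v) (f i)
        = Q.Γ u u (∑ i, f i) + 2 * Q.Γ u v (∑ i, c i • f i) + Q.Γ v v (∑ i, (c i ^ 2) • f i) := by
      rw [sum_test Q hu hu, sum_test Q hu hv, sum_test Q hv hv, Finset.mul_sum,
        ← Finset.sum_add_distrib, ← Finset.sum_add_distrib]
      refine Finset.sum_congr rfl fun i _ => ?_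
      rw [energy_add Q hu hv, Q.smul_test (c i) u hu v hv, Q.smul_test (c i ^ 2) v hv v hv]
      ring
    have h1 : Q.Γ u u (∑ i, f i) = Q.Γ u u 1 := by
      congr 1
      ext x
      simpa using hsum x
    have h2 : |Q.Γ u v ((∑ i, c i • f i) - a)| ≤ δ * (Q.Γ u u 1 + Q.Γ v v 1) / 2 := by
      apply abs_le' Q hu hv
      intro x
      have : ((∑ i, c i • f i) - a) x = ∑ i, f i x * (c i - a x) := by
        simp only [ContinuousMap.sub_apply, ContinuousMap.coe_sum, Finset.sum_apply,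
          ContinuousMap.coe_smul, Pi.smul_apply, smul_eq_mul]
        simp_rw [mul_sub]
        rw [Finset.sum_sub_distrib, ← Finset.sum_mul, hsum x, one_mul]
        congr 1
        exact Finset.sum_congr rfl fun i _ => mul_comm _ _
      rw [this]
      calc |∑ i, f i x * (c i - a x)| ≤ ∑ i, |f i x * (c i - a x)| :=
            Finset.abs_sum_le_sum_abs _ _
        _ ≤ ∑ i, f i x * δ := by
            refine Finset.sum_le_sum fun i _ => ?_
            rw [abs_mul, abs_of_nonneg (hf3 i x).1, abs_sub_comm]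
            exact hclose i x
        _ = δ := by rw [← Finset.sum_mul, hsum x, one_mul]
    have h3 : |Q.Γ v v ((∑ i, (c i ^ 2) • f i) - a * a)| ≤ (δ * (2 * |M| + δ)) * Q.Γ v v 1 := by
      apply abs_energy_le Q hv
      intro x
      have : ((∑ i, (c i ^ 2) • f i) - a * a) x = ∑ i, f i x * (c i ^ 2 - a x ^ 2) := by
        simp only [ContinuousMap.sub_apply, ContinuousMap.coe_sum, Finset.sum_apply,
          ContinuousMap.coe_smul, Pi.smul_apply, smul_eq_mul, ContinuousMap.mul_apply]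
        simp_rw [mul_sub]
        rw [Finset.sum_sub_distrib, ← Finset.sum_mul, hsum x, one_mul]
        congr 1
        · exact Finset.sum_congr rfl fun i _ => mul_comm _ _
        · ring
      rw [this]
      calc |∑ i, f i x * (c i ^ 2 - a x ^ 2)| ≤ ∑ i, |f i x * (c i ^ 2 - a x ^ 2)| :=
            Finset.abs_sum_le_sum_abs _ _
        _ ≤ ∑ i, f i x * (δ * (2 * |M| + δ)) := by
            refine Finset.sum_le_sum fun i _ => ?_
            rw [abs_mul, abs_of_nonneg (hf3 i x).1]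
            by_cases h0 : f i x = 0
            · simp [h0]
            · have hx : x ∈ s i := hf1 i (subset_tsupport _ h0)
              have hlt : |a x - c i| < δ := hx
              refine mul_le_mul_of_nonneg_left ?_ (hf3 i x).1
              have e1 : c i ^ 2 - a x ^ 2 = (c i - a x) * (c i + a x) := by ring
              rw [e1, abs_mul, abs_sub_comm]
              have hax : |a x| ≤ |M| := (hM x).trans (le_abs_self M)
              have e2 : |c i + a x| ≤ 2 * |M| + δ := by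
                have : c i + a x = 2 * a x - (a x - c i) := by ring
                rw [this]
                calc |2 * a x - (a x - c i)| ≤ |2 * a x| + |a x - c i| := abs_sub _ _
                  _ ≤ 2 * |M| + δ := by rw [abs_mul, abs_two]; linarith
              exact mul_le_mul hlt.le e2 (abs_nonneg _) hδ.le
        _ = δ * (2 * |M| + δ) := by rw [← Finset.sum_mul, hsum x, one_mul]
    rw [sub_test Q hu hv] at h2
    rw [sub_test Q hv hv] at h3
    rw [hexp, h1] at hpos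
    have h2' := (abs_le.1 h2).2
    have h3' := (abs_le.1 h3).2
    rw [hA, hB]
    linarith
  -- let δ → 0
  have hlim : Tendsto (fun δ : ℝ => -(δ * B + δ * (2 * |M| + δ) * Q.Γ v v 1)) (𝓝[>] 0)
      (𝓝 0) := by
    have : Tendsto (fun δ : ℝ => -(δ * B + δ * (2 * |M| + δ) * Q.Γ v v 1)) (𝓝 0)
        (𝓝 (-(0 * B + 0 * (2 * |M| + 0) * Q.Γ v v 1))) := by
      apply Continuous.tendsto
      fun_prop
    simp only [zero_mul, add_zero, neg_zero] at this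
    exact this.mono_left nhdsWithin_le_nhds
  have := le_of_tendsto hlim (b := A) (by
    filter_upwards [self_mem_nhdsWithin] with δ hδ using key δ hδ)
  linarith

/-- strong Cauchy-Schwarz -/
theorem cs_strong [CompactSpace Z] {u v : C(Z, ℝ)} (hu : u ∈ Q.Dom) (hv : v ∈ Q.Dom)
    (a : C(Z, ℝ)) : (Q.Γ u v a) ^ 2 ≤ Q.Γ u u 1 * Q.Γ v v (a * a) := by
  apply quad_nonneg
  intro t
  have := quad_test Q hu hv (t • a)
  rw [Q.smul_test t u hu v hv] at this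
  have e : (t • a) * (t • a) = (t ^ 2) • (a * a) := by
    ext x; simp; ring
  rw [e, Q.smul_test (t ^ 2) v hv v hv] at this
  linarith

/-! ### cut-offs -/

theorem one_sub_mem {u : C(Z, ℝ)} (hu : u ∈ Q.Dom) : 1 - u ∈ Q.Dom := sub_mem Q (one_mem Q) hu

/-- cut-off functions for a compact subset of an open set: `χ = 1` near `K`, `tsupport χ ⊆ O` -/
theorem cut_KO [CompactSpace Z] {K O : Set Z} (hK : IsCompact K) (hO : IsOpen O) (hKO : K ⊆ O) :
    ∃ χ ∈ Q.Dom, (∀ x, 0 ≤ χ x ∧ χ x ≤ 1) ∧ (∃ N : Set Z, IsOpen N ∧ K ⊆ N ∧ ∀ x ∈ N, χ x = 1) ∧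
      tsupport χ ⊆ O := by
  classical
  have hlam := Q.one_lt_lam
  have hlam0 : 0 < Q.lam := by linarith
  -- radii
  have hr : ∀ x ∈ K, ∃ ρ : ℝ, 0 < ρ ∧ ρ ≤ Q.ρ0 ∧ closedBall x (Q.lam * ρ) ⊆ O := by
    intro x hx
    obtain ⟨r, hr0, hr⟩ := Metric.isOpen_iff.1 hO x (hKO hx)
    refine ⟨min Q.ρ0 (r / (2 * Q.lam)), lt_min Q.ρ0_pos (by positivity), min_le_left _ _, ?_⟩
    refine (closedBall_subset_ball ?_).trans hr
    have : Q.lam * min Q.ρ0 (r / (2 * Q.lam)) ≤ Q.lam * (r / (2 * Q.lam)) :=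
      mul_le_mul_of_nonneg_left (min_le_right _ _) hlam0.le
    have h2 : Q.lam * (r / (2 * Q.lam)) = r / 2 := by field_simp
    linarith
  choose! ρ hρ0 hρ1 hρO using hr
  obtain ⟨t, htK, ht⟩ := hK.elim_nhds_subcover (fun x => ball x (ρ x))
    (fun x hx => ball_mem_nhds x (hρ0 x hx))
  have hc : ∀ x ∈ K, ∃ χ ∈ Q.Dom, (∀ y, 0 ≤ χ y ∧ χ y ≤ 1) ∧ (∀ y, dist y x ≤ ρ x → χ y = 1) ∧
      (∀ y, Q.lam * ρ x ≤ dist y x → χ y = 0) ∧ Q.Γ χ χ 1 ≤ Q.C0 := fun x hx =>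
    Q.cutoff x (ρ x) (hρ0 x hx) (hρ1 x hx)
  choose! χ hχD hχ01 hχ1 hχ0 _hχE using hc
  -- product of (1 - χ)
  have hprod : ∀ s : Finset Z, (∀ x ∈ s, x ∈ K) → (∏ x ∈ s, (1 - χ x)) ∈ Q.Dom := by
    intro s
    induction s using Finset.induction_on with
    | empty => intro _; simpa using one_mem Q
    | insert a s ha ih =>
      intro h
      rw [Finset.prod_insert ha]
      exact Q.mul_mem _ (one_sub_mem Q (hχD a (h a (Finset.mem_insert_self a s)))) _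
        (ih fun x hx => h x (Finset.mem_insert_of_mem hx))
  have hval : ∀ y, (∏ x ∈ t, (1 - χ x)) y = ∏ x ∈ t, (1 - χ x y) := by
    intro y
    simp [ContinuousMap.coe_prod]
  refine ⟨1 - ∏ x ∈ t, (1 - χ x), one_sub_mem Q (hprod t htK), ?_, ?_, ?_⟩
  · intro y
    have h1 : 0 ≤ ∏ x ∈ t, (1 - χ x y) := Finset.prod_nonneg fun x hx => by
      linarith [(hχ01 x (htK x hx) y).2]
    have h2 : ∏ x ∈ t, (1 - χ x y) ≤ 1 := Finset.prod_le_one
      (fun x hx => by linarith [(hχ01 x (htK x hx) y).2])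
      (fun x hx => by linarith [(hχ01 x (htK x hx) y).1])
    rw [ContinuousMap.sub_apply, hval]
    simp only [ContinuousMap.one_apply]
    constructor <;> linarith
  · refine ⟨⋃ x ∈ t, ball x (ρ x), isOpen_biUnion fun x _ => isOpen_ball, ht, ?_⟩
    intro y hy
    obtain ⟨x, hx, hyx⟩ := mem_iUnion₂.1 hy
    rw [ContinuousMap.sub_apply, hval, Finset.prod_eq_zero hx]
    · simp
    · rw [hχ1 x (htK x hx) y (le_of_lt hyx)]; ring
  · have hcl : IsClosed (⋃ x ∈ t, closedBall x (Q.lam * ρ x)) :=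
      t.finite_toSet.isClosed_biUnion (fun x _ => isClosed_closedBall)
    refine (closure_minimal ?_ hcl).trans (iUnion₂_subset fun x hx => hρO x (htK x hx))
    intro y hy
    by_contra hne
    apply hy
    rw [ContinuousMap.sub_apply, hval, Finset.prod_eq_one]
    · simp
    · intro x hx
      have : y ∉ closedBall x (Q.lam * ρ x) := fun h => hne (mem_iUnion₂.2 ⟨x, hx, h⟩)
      rw [mem_closedBall, not_le] at this
      rw [hχ0 x (htK x hx) y this.le]; ring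

/-! ### locality -/

theorem local_zero [CompactSpace Z] {u v φ : C(Z, ℝ)} (hu : u ∈ Q.Dom) (hv : v ∈ Q.Dom)
    {W : Set Z} (hW : IsOpen W) (h0 : ∀ x ∈ W, u x = 0) (hφ : tsupport φ ⊆ W) :
    Q.Γ u v φ = 0 := by
  obtain ⟨χ, hχ, -, ⟨N, hN, hKN, h1⟩, hsup⟩ :=
    cut_KO Q (isClosed_tsupport φ).isCompact hW hφ
  have e1 : u * χ = 0 := by
    ext x
    by_cases hx : x ∈ W
    · simp [h0 x hx]
    · have : χ x = 0 := by
        by_contra hne
        exact hx (hsup (subset_tsupport _ hne))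
      simp [this]
  have e2 : φ * χ = φ := by
    ext x
    by_cases hx : φ x = 0
    · simp [hx]
    · have : χ x = 1 := h1 x (hKN (subset_tsupport _ hx))
      simp [this]
  have e3 : φ * u = 0 := by
    ext x
    by_cases hx : φ x = 0
    · simp [hx]
    · have : u x = 0 := h0 x (hφ (subset_tsupport _ hx))
      simp [this]
  have := leib Q hu hχ hv φ
  rw [e1, e2, e3, zero_left Q hv, zero_test Q hχ hv] at this
  linarith

theorem local_congr [CompactSpace Z] {u u' v φ : C(Z, ℝ)} (hu : u ∈ Q.Dom) (hu' : u' ∈ Q.Dom)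
    (hv : v ∈ Q.Dom) {W : Set Z} (hW : IsOpen W) (h0 : ∀ x ∈ W, u x = u' x)
    (hφ : tsupport φ ⊆ W) : Q.Γ u v φ = Q.Γ u' v φ := by
  have := local_zero Q (sub_mem Q hu hu') hv hW (fun x hx => by simp [h0 x hx]) hφ
  rw [sub_left Q hu hu' hv] at this
  linarith

/-- `Γ χ v φ = 0` when `χ` is locally `0` or locally `1` near the support of `φ` -/
theorem local_01 [CompactSpace Z] {χ v φ : C(Z, ℝ)} (hχ : χ ∈ Q.Dom) (hv : v ∈ Q.Dom)
    {W : Set Z} (hW : IsOpen W) (h01 : ∀ x ∈ W, χ x = 0 ∨ χ x = 1) (hφ : tsupport φ ⊆ W) :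
    Q.Γ χ v φ = 0 := by
  -- u = χ * χ - χ vanishes on W
  have hu : χ * χ - χ ∈ Q.Dom := sub_mem Q (Q.mul_mem χ hχ χ hχ) hχ
  have h0 : ∀ ψ : C(Z, ℝ), tsupport ψ ⊆ W → Q.Γ (χ * χ - χ) v ψ = 0 := fun ψ hψ =>
    local_zero Q hu hv hW (fun x hx => by
      rcases h01 x hx with h | h <;> simp [h]) hψ
  have h1 : Q.Γ (χ * χ - χ) v (φ * (χ + χ - 1)) = 0 := by
    apply h0
    refine (closure_mono ?_).trans hφ
    intro x hx hx2
    apply hx
    simp [hx2]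
  rw [sub_left Q (Q.mul_mem χ hχ χ hχ) hχ hv, leib Q hχ hχ hv, ← sub_test_eq Q hχ hv] at h1
  have e : φ * (χ + χ - 1) * χ + φ * (χ + χ - 1) * χ - φ * (χ + χ - 1) = φ := by
    ext x
    by_cases hx : φ x = 0
    · simp [hx]
    · rcases h01 x (hφ (subset_tsupport _ hx)) with h | h <;> simp [h]
  rwa [e] at h1

end Crest.Agent.R193.CPa_Basic
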