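import Crest.Agent.R193.Defs

/-!
R193, block D7: energy measures by Riesz-Markov-Kakutani.
-/

set_option autoImplicit false

noncomputable section

open Set Filter Topology MeasureTheory
open scoped CompactlySupported

namespace Crest.Agent.R193.CPa_Measure

open Crest.Agent.R193

variable {G Z : Type} [Group G] [MetricSpace Z] [MulAction G Z] {S : Setup G Z}

/-- the functional `φ ↦ Γ u u φ` as a positive linear functional on `C_c(Z, ℝ)` -/
def funct [CompactSpace Z] (Q : DForm S) (u : C(Z, ℝ)) (hu : u ∈ Q.Dom) :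
    C_c(Z, ℝ) →ₚ[ℝ] ℝ where
  toFun φ := Q.Γ u u (φ : C(Z, ℝ))
  map_add' φ ψ := Q.add_test u hu u hu φ ψ
  map_smul' c φ := Q.smul_test c u hu u hu φ
  monotone' := by
    intro φ ψ h
    have h1 : (ψ : C(Z, ℝ)) = (φ : C(Z, ℝ)) + ((ψ : C(Z, ℝ)) - (φ : C(Z, ℝ))) := by
      abel
    have h2 : 0 ≤ Q.Γ u u ((ψ : C(Z, ℝ)) - (φ : C(Z, ℝ))) := by
      apply Q.nonneg u hu
      intro x
      have := h x
      simpa using this
    have h3 := Q.add_test u hu u hu (φ : C(Z, ℝ)) ((ψ : C(Z, ℝ)) - (φ : C(Z, ℝ)))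
    rw [← h1] at h3
    change Q.Γ u u (φ : C(Z, ℝ)) ≤ Q.Γ u u (ψ : C(Z, ℝ))
    linarith

theorem exists_measure [CompactSpace Z] [MeasurableSpace Z] [BorelSpace Z] (Q : DForm S)
    (u : C(Z, ℝ)) (hu : u ∈ Q.Dom) :
    ∃ μ : Measure Z, IsFiniteMeasure μ ∧ ∀ φ : C(Z, ℝ), ∫ x, φ x ∂μ = Q.Γ u u φ := by
  refine ⟨RealRMK.rieszMeasure (funct Q u hu), ?_, ?_⟩
  · infer_instance
  · intro φ
    have := RealRMK.integral_rieszMeasure (funct Q u hu)
      (CompactlySupportedContinuousMap.continuousMapEquiv φ)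
    exact this

end Crest.Agent.R193.CPa_Measure
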