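import Mathlib

/-!
R193, block D7 (C2): a measure on a ball `B(p,ρ)` of a finite dimensional space all of whose
distributional first derivatives vanish is a multiple of Lebesgue measure on the ball.
-/

set_option autoImplicit false
set_option linter.unusedSectionVars false

open MeasureTheory Metric Set Filter Function
open scoped Topology ENNReal NNReal ContDiff

namespace Crest.Agent.R193.D7_TransInv

variable {E : Type*} [NormedAddCommGroup E] [NormedSpace ℝ E] [FiniteDimensional ℝ E]
  [MeasurableSpace E] [BorelSpace E]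

/-- `∫ ∂_v ψ dμ = 0` for all test functions `ψ` compactly supported in `B`. -/
def Flat (μ : Measure E) (B : Set E) : Prop :=
  ∀ ψ : E → ℝ, ContDiff ℝ ∞ ψ → HasCompactSupport ψ → tsupport ψ ⊆ B →
    ∀ v : E, ∫ x, fderiv ℝ ψ x v ∂μ = 0

theorem tsupport_comp_sub (ψ : E → ℝ) (y : E) :
    tsupport (fun x => ψ (x - y)) = (fun x => x + y) '' tsupport ψ := by
  have h := tsupport_comp_eq_preimage ψ (Homeomorph.addRight (-y))
  have h2 : (ψ ∘ (Homeomorph.addRight (-y))) = fun x => ψ (x - y) := by
    ext x; simp [sub_eq_add_neg]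
  rw [h2] at h
  rw [h]
  ext x
  constructor
  · intro hx
    exact ⟨x - y, by simpa [sub_eq_add_neg] using hx, by simp⟩
  · rintro ⟨z, hz, rfl⟩
    simpa using hz

theorem hasCompactSupport_comp_sub {ψ : E → ℝ} (h : HasCompactSupport ψ) (y : E) :
    HasCompactSupport (fun x => ψ (x - y)) := by
  have := h.comp_homeomorph (Homeomorph.addRight (-y))
  convert this using 1
  ext x; simp [sub_eq_add_neg]

theorem hasDerivAt_shift (μ : Measure E) [IsFiniteMeasureOnCompacts μ] {ψ : E → ℝ}
    (hψ : ContDiff ℝ ∞ ψ) (hc : HasCompactSupport ψ) (v : E) (s₀ : ℝ) :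
    HasDerivAt (fun s : ℝ => ∫ x, ψ (x - s • v) ∂μ)
      (∫ x, - fderiv ℝ ψ (x - s₀ • v) v ∂μ) s₀ := by
  have hψ1 : ContDiff ℝ 1 ψ := hψ.of_le (by exact_mod_cast le_top)
  have hcont : Continuous (fderiv ℝ ψ) := hψ1.continuous_fderiv one_ne_zero
  have hcs : HasCompactSupport (fderiv ℝ ψ) := hc.fderiv ℝ
  obtain ⟨M, hM⟩ := hcont.bounded_above_of_compact_support hcs
  let K : Set E := (fun q : E × ℝ => q.1 + q.2 • v) '' (tsupport ψ ×ˢ closedBall s₀ 1)
  have hK : IsCompact K := by
    apply (IsCompact.prod hc.isCompact (isCompact_closedBall s₀ 1)).image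
    fun_prop
  have hcontψ : Continuous ψ := hψ.continuous
  have hmain := hasDerivAt_integral_of_dominated_loc_of_deriv_le (μ := μ) (𝕜 := ℝ)
    (F := fun s x => ψ (x - s • v)) (F' := fun s x => - fderiv ℝ ψ (x - s • v) v)
    (x₀ := s₀) (s := ball s₀ 1) (bound := K.indicator (fun _ => M * ‖v‖))
    (ball_mem_nhds _ one_pos) ?_ ?_ ?_ ?_ ?_ ?_
  · exact hmain.2
  · refine Eventually.of_forall (fun s => ?_)
    exact (hcontψ.comp (by fun_prop)).aestronglyMeasurable
  · exact (hcontψ.comp (by fun_prop : Continuous fun x => x - s₀ • v)).integrable_of_hasCompactSupport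
      (hasCompactSupport_comp_sub hc _)
  · have : Continuous (fun x => - fderiv ℝ ψ (x - s₀ • v) v) := by
      have h1 : Continuous (fun x => fderiv ℝ ψ (x - s₀ • v)) := hcont.comp (by fun_prop)
      exact (h1.clm_apply continuous_const).neg
    exact this.aestronglyMeasurable
  · refine Eventually.of_forall (fun x s hs => ?_)
    by_cases hx : x ∈ K
    · rw [indicator_of_mem hx, norm_neg]
      exact (ContinuousLinearMap.le_opNorm _ _).trans (by gcongr; exact hM _)
    · rw [indicator_of_notMem hx]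
      have : x - s • v ∉ tsupport (fderiv ℝ ψ) := by
        intro h
        apply hx
        refine ⟨(x - s • v, s), ⟨tsupport_fderiv_subset ℝ h, ball_subset_closedBall hs⟩, by simp⟩
      have h0 : fderiv ℝ ψ (x - s • v) = 0 := image_eq_zero_of_notMem_tsupport this
      simp [h0]
  · rw [integrable_indicator_iff hK.measurableSet]
    exact integrableOn_const (hK.measure_lt_top.ne)
  · refine Eventually.of_forall (fun x s _ => ?_)
    have h1 : HasFDerivAt ψ (fderiv ℝ ψ (x - s • v)) (x - s • v) :=
      (hψ1.differentiable one_ne_zero _).hasFDerivAt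
    have h2 : HasDerivAt (fun s : ℝ => x - s • v) (-v) s := by
      simpa using ((hasDerivAt_id s).smul_const v).const_sub x
    have := h1.comp_hasDerivAt s h2
    simpa [Function.comp_def] using this

/-- local translation invariance -/
theorem Flat.shift {μ : Measure E} [IsFiniteMeasureOnCompacts μ] {p : E} {ρ : ℝ}
    (h : Flat μ (ball p ρ)) {ψ : E → ℝ} (hψ : ContDiff ℝ ∞ ψ) (hc : HasCompactSupport ψ)
    (v : E) (h0 : ∀ x ∈ tsupport ψ, x ∈ ball p ρ) (h1 : ∀ x ∈ tsupport ψ, x + v ∈ ball p ρ) :
    ∫ x, ψ (x - v) ∂μ = ∫ x, ψ x ∂μ := by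
  set J : ℝ → ℝ := fun s : ℝ => ∫ x, ψ (x - s • v) ∂μ with hJ
  have hd : ∀ s ∈ Icc (0:ℝ) 1, HasDerivAt J 0 s := by
    intro s hs
    have h2 := hasDerivAt_shift μ hψ hc v s
    have h3 : ∫ x, - fderiv ℝ ψ (x - s • v) v ∂μ = 0 := by
      have hsub : ∀ x, fderiv ℝ (fun x => ψ (x - s • v)) x = fderiv ℝ ψ (x - s • v) := by
        intro x
        exact fderiv_comp_sub (f := ψ) (a := s • v) (x := x)
      have h4 := h (fun x => ψ (x - s • v)) (hψ.comp (by fun_prop))
        (hasCompactSupport_comp_sub hc _) ?_ v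
      · simp_rw [hsub] at h4
        rw [integral_neg, h4, neg_zero]
      · rw [tsupport_comp_sub]
        rintro _ ⟨x, hx, rfl⟩
        have hconv := (convex_ball p ρ) (h0 x hx) (h1 x hx) (sub_nonneg.2 hs.2) hs.1 (by ring)
        convert hconv using 1
        rw [smul_add, ← add_assoc, ← add_smul]
        simp
    rw [h3] at h2
    exact h2
  have hconst := constant_of_has_deriv_right_zero (f := J) (a := 0) (b := 1)
    (fun s hs => (hd s hs).continuousAt.continuousWithinAt)
    (fun s hs => (hd s ⟨hs.1, hs.2.le⟩).hasDerivWithinAt) 1 (by simp)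
  simpa [hJ] using hconst


variable {μ : Measure E} [IsFiniteMeasureOnCompacts μ] {lam : Measure E} [lam.IsAddHaarMeasure]

theorem mem_ball_of_add {p x z : E} {ρ ε : ℝ} (hx : x ∈ ball p (ρ - ε)) (hz : z ∈ ball (0:E) ε) :
    x + z ∈ ball p ρ := by
  rw [mem_ball_iff_norm] at hx hz ⊢
  calc ‖x + z - p‖ = ‖(x - p) + (z - 0)‖ := by congr 1; abel
    _ ≤ ‖x - p‖ + ‖z - 0‖ := norm_add_le _ _
    _ < (ρ - ε) + ε := add_lt_add hx hz
    _ = ρ := by ring

/-- Fubini computation. -/
theorem Flat.key {p : E} {ρ ε : ℝ} (h : Flat μ (ball p ρ)) {η ψ : E → ℝ}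
    (hη : ContDiff ℝ ∞ η) (hηc : HasCompactSupport η) (hηs : tsupport η ⊆ ball 0 ε)
    (hψ : ContDiff ℝ ∞ ψ) (hψc : HasCompactSupport ψ) (hψs : tsupport ψ ⊆ ball p (ρ - ε))
    (hε : 0 < ε) (hερ : ε < ρ) :
    (∫ z, η z ∂lam) * ∫ x, ψ x ∂μ = (∫ x, η (x - p) ∂μ) * ∫ y, ψ y ∂lam := by
  have hφ : ∀ y ∈ tsupport ψ, ∫ x, η (x - y) ∂μ = ∫ x, η (x - p) ∂μ := by
    intro y hy
    have h1 : ContDiff ℝ ∞ (fun x => η (x - p)) := hη.comp (by fun_prop)
    have h2 := hasCompactSupport_comp_sub hηc p
    have h3 := h.shift h1 h2 (y - p) ?_ ?_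
    · rw [← h3]
      congr 1
      ext x
      congr 1
      abel
    · rw [tsupport_comp_sub]
      rintro _ ⟨x, hx, rfl⟩
      have := mem_ball_of_add (p := p) (ρ := ρ) (ε := ε) (mem_ball_self (by linarith)) (hηs hx)
      simpa [add_comm] using this
    · rw [tsupport_comp_sub]
      rintro _ ⟨x, hx, rfl⟩
      have := mem_ball_of_add (p := p) (ρ := ρ) (ε := ε) (hψs hy) (hηs hx)
      convert this using 1
      change x + p + (y - p) = y + x
      abel
  have hA : ∫ y, ψ y * ∫ x, η (x - y) ∂μ ∂lam = (∫ x, η (x - p) ∂μ) * ∫ y, ψ y ∂lam := by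
    rw [← integral_const_mul]
    congr 1
    ext y
    by_cases hy : y ∈ tsupport ψ
    · rw [hφ y hy, mul_comm]
    · rw [image_eq_zero_of_notMem_tsupport hy]; simp
  have hB : ∫ z, η z * ∫ x, ψ (x - z) ∂μ ∂lam = (∫ z, η z ∂lam) * ∫ x, ψ x ∂μ := by
    rw [← integral_mul_const]
    congr 1
    ext z
    by_cases hz : z ∈ tsupport η
    · congr 1
      refine h.shift hψ hψc z ?_ ?_
      · intro x hx
        exact ball_subset_ball (by linarith) (hψs hx)
      · intro x hx
        exact mem_ball_of_add (hψs hx) (hηs hz)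
    · rw [image_eq_zero_of_notMem_tsupport hz]; simp
  rw [← hA, ← hB]
  simp_rw [← integral_const_mul]
  have hsw1 : ∫ y, ∫ x, ψ y * η (x - y) ∂μ ∂lam = ∫ x, ∫ y, ψ y * η (x - y) ∂lam ∂μ := by
    apply integral_integral_swap_of_hasCompactSupport
    · have := hψ.continuous
      have := hη.continuous
      simp only [Function.uncurry_def]
      fun_prop
    · apply HasCompactSupport.of_support_subset_isCompact
        (K := (fun q : E × E => (q.1, q.1 + q.2)) '' (tsupport ψ ×ˢ tsupport η))
      · exact (hψc.isCompact.prod hηc.isCompact).image (by fun_prop)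
      · rintro ⟨y, x⟩ hxy
        simp only [Function.uncurry_apply_pair, mem_support, ne_eq, mul_eq_zero, not_or] at hxy
        exact ⟨(y, x - y), ⟨subset_tsupport _ hxy.1, subset_tsupport _ hxy.2⟩, by simp⟩
  have hsw2 : ∫ z, ∫ x, η z * ψ (x - z) ∂μ ∂lam = ∫ x, ∫ z, η z * ψ (x - z) ∂lam ∂μ := by
    apply integral_integral_swap_of_hasCompactSupport
    · have := hψ.continuous
      have := hη.continuous
      simp only [Function.uncurry_def]
      fun_prop
    · apply HasCompactSupport.of_support_subset_isCompact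
        (K := (fun q : E × E => (q.1, q.1 + q.2)) '' (tsupport η ×ˢ tsupport ψ))
      · exact (hηc.isCompact.prod hψc.isCompact).image (by fun_prop)
      · rintro ⟨y, x⟩ hxy
        simp only [Function.uncurry_apply_pair, mem_support, ne_eq, mul_eq_zero, not_or] at hxy
        exact ⟨(y, x - y), ⟨subset_tsupport _ hxy.1, subset_tsupport _ hxy.2⟩, by simp⟩
  rw [hsw1, hsw2]
  congr 1
  ext x
  rw [← integral_sub_left_eq_self (fun y => ψ y * η (x - y)) lam x]
  congr 1
  ext z
  simp [mul_comm]

/-- test function form of the conclusion -/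
theorem Flat.exists_const {p : E} {ρ : ℝ} (hρ : 0 < ρ) (h : Flat μ (ball p ρ)) :
    ∃ c : ℝ, 0 ≤ c ∧ ∀ ψ : E → ℝ, ContDiff ℝ ∞ ψ → HasCompactSupport ψ → tsupport ψ ⊆ ball p ρ →
      ∫ x, ψ x ∂μ = c * ∫ x, ψ x ∂lam := by
  -- a reference bump function
  let b : ContDiffBump p := ⟨ρ / 8, ρ / 4, by linarith, by linarith⟩
  have hb : 0 < ∫ x, b x ∂lam := b.integral_pos
  have hbs : tsupport b ⊆ ball p (ρ / 2) := by
    rw [b.tsupport_eq]
    exact closedBall_subset_ball (by change ρ / 4 < ρ / 2; linarith)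
  refine ⟨(∫ x, b x ∂μ) / ∫ x, b x ∂lam, ?_, ?_⟩
  · exact div_nonneg (integral_nonneg fun x => b.nonneg) hb.le
  · intro ψ hψ hψc hψs
    obtain ⟨r, hr, hr2⟩ := exists_pos_lt_subset_ball hρ (isClosed_tsupport ψ) hψs
    set ε : ℝ := min (ρ - r) (ρ / 2) with hεdef
    have hε : 0 < ε := lt_min (by linarith [hr.2]) (by linarith)
    have hε1 : ε ≤ ρ - r := min_le_left _ _
    have hε2 : ε ≤ ρ / 2 := min_le_right _ _
    let η : ContDiffBump (0 : E) := ⟨ε / 4, ε / 2, by linarith, by linarith⟩
    have hη : 0 < ∫ x, η x ∂lam := η.integral_pos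
    have hηs : tsupport η ⊆ ball 0 ε := by
      rw [η.tsupport_eq]
      exact closedBall_subset_ball (by change ε / 2 < ε; linarith)
    have k1 := h.key (lam := lam) η.contDiff η.hasCompactSupport hηs hψ hψc
      (hr2.trans (ball_subset_ball (by linarith))) hε (by linarith)
    have k2 := h.key (lam := lam) η.contDiff η.hasCompactSupport hηs b.contDiff b.hasCompactSupport
      (hbs.trans (ball_subset_ball (by linarith))) hε (by linarith)
    rw [div_mul_eq_mul_div, eq_div_iff hb.ne']
    have : (∫ z, η z ∂lam) * ((∫ x, ψ x ∂μ) * ∫ x, b x ∂lam)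
        = (∫ z, η z ∂lam) * ((∫ x, b x ∂μ) * ∫ x, ψ x ∂lam) := by
      calc _ = ((∫ z, η z ∂lam) * (∫ x, ψ x ∂μ)) * ∫ x, b x ∂lam := by ring
        _ = ((∫ z, η z ∂lam) * (∫ x, b x ∂μ)) * ∫ x, ψ x ∂lam := by rw [k1, k2]; ring
        _ = _ := by ring
    exact mul_left_cancel₀ hη.ne' this

/-- **(C2)** the measure form: a flat measure is a multiple of Lebesgue measure on the ball. -/
theorem Flat.restrict_eq {p : E} {ρ : ℝ} (hρ : 0 < ρ) (h : Flat μ (ball p ρ)) :
    ∃ c : ℝ≥0, μ.restrict (ball p ρ) = c • lam.restrict (ball p ρ) := by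
  obtain ⟨c, hc0, hc⟩ := h.exists_const (lam := lam) hρ
  lift c to ℝ≥0 using hc0
  refine ⟨c, ?_⟩
  -- open sets with closure in the ball
  have hopen : ∀ U : Set E, IsOpen U → ∀ r < ρ, U ⊆ ball p r → μ U = c * lam U := by
    intro U hU r hr hUr
    obtain ⟨f, hf1, hf2, hf3⟩ := hU.exists_contDiff_support_eq (n := ⊤)
    have hf0 : ∀ x, 0 ≤ f x := fun x => (hf3 (mem_range_self x)).1
    let g : ℕ → E → ℝ := fun n x => Real.smoothTransition (n * f x)
    have hgs : ∀ n, support (g n) ⊆ U := by
      intro n x hx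
      rw [← hf1]
      intro h0
      apply hx
      simp only [g, h0, mul_zero]
      exact Real.smoothTransition.zero
    have hgts : ∀ n, tsupport (g n) ⊆ closedBall p r := fun n =>
      closure_minimal ((hgs n).trans (hUr.trans ball_subset_closedBall)) isClosed_closedBall
    have hgc : ∀ n, HasCompactSupport (g n) := fun n =>
      (isCompact_closedBall p r).of_isClosed_subset (isClosed_tsupport _) (hgts n)
    have hgd : ∀ n, ContDiff ℝ ∞ (g n) := fun n =>
      Real.smoothTransition.contDiff.comp (contDiff_const.mul hf2)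
    have hlim : ∀ x, Tendsto (fun n => g n x) atTop (𝓝 (U.indicator (fun _ => (1:ℝ)) x)) := by
      intro x
      by_cases hx : x ∈ U
      · rw [indicator_of_mem hx]
        have hfx : 0 < f x := lt_of_le_of_ne (hf0 x) (by
          rw [← hf1] at hx; exact (Ne.symm hx))
        obtain ⟨N, hN⟩ := exists_nat_ge (1 / f x)
        refine tendsto_const_nhds.congr' ?_
        filter_upwards [eventually_ge_atTop N] with n hn
        symm
        apply Real.smoothTransition.one_of_one_le
        have : (1 / f x) ≤ n := hN.trans (by exact_mod_cast hn)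
        rwa [div_le_iff₀ hfx] at this
      · rw [indicator_of_notMem hx]
        have : ∀ n, g n x = 0 := fun n => by
          by_contra h0
          exact hx (hgs n h0)
        simp [this]
    have hbound : ∀ n x, ‖g n x‖ ≤ (closedBall p r).indicator (fun _ => (1:ℝ)) x := by
      intro n x
      by_cases hx : x ∈ closedBall p r
      · rw [indicator_of_mem hx, Real.norm_eq_abs, abs_of_nonneg (Real.smoothTransition.nonneg _)]
        exact Real.smoothTransition.le_one _
      · rw [indicator_of_notMem hx]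
        have : g n x = 0 := by
          by_contra h0
          exact hx (hgts n (subset_tsupport _ h0))
        simp [this]
    have hint : ∀ m : Measure E, IsFiniteMeasureOnCompacts m →
        Tendsto (fun n => ∫ x, g n x ∂m) atTop (𝓝 (m U).toReal) := by
      intro m hm
      have := tendsto_integral_of_dominated_convergence (μ := m) (F := g)
        (f := U.indicator (fun _ => (1:ℝ)))
        ((closedBall p r).indicator (fun _ => (1:ℝ)))
        (fun n => (hgd n).continuous.aestronglyMeasurable)
        ((integrable_indicator_iff isClosed_closedBall.measurableSet).2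
          (integrableOn_const (isCompact_closedBall p r).measure_lt_top.ne))
        (fun n => Eventually.of_forall (hbound n)) (Eventually.of_forall hlim)
      rw [integral_indicator hU.measurableSet] at this
      simpa [Measure.real] using this
    have h1 := hint μ inferInstance
    have h2 := (hint lam inferInstance).const_mul (c:ℝ)
    have h3 : ∀ n, ∫ x, g n x ∂μ = c * ∫ x, g n x ∂lam := fun n =>
      hc (g n) (hgd n) (hgc n) ((hgts n).trans (closedBall_subset_ball hr))
    simp_rw [h3] at h1
    have h4 := tendsto_nhds_unique h1 h2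
    have hfin : ∀ m : Measure E, IsFiniteMeasureOnCompacts m → m U ≠ ⊤ := fun m _ =>
      ((measure_mono (hUr.trans ball_subset_closedBall)).trans_lt
        (isCompact_closedBall p r).measure_lt_top).ne
    rw [← ENNReal.ofReal_toReal (hfin μ inferInstance), h4,
      ENNReal.ofReal_mul (NNReal.coe_nonneg c), ENNReal.ofReal_toReal (hfin lam inferInstance),
      ENNReal.ofReal_coe_nnreal]
  -- exhaust
  have hballs : ∀ r, 0 < r → r < ρ → μ.restrict (ball p r) = c • lam.restrict (ball p r) := by
    intro r hr0 hr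
    have hfinμ : μ (ball p r) < ⊤ := (measure_mono ball_subset_closedBall).trans_lt
        (isCompact_closedBall p r).measure_lt_top
    have : IsFiniteMeasure (μ.restrict (ball p r)) := ⟨by simpa using hfinμ⟩
    refine ext_of_generate_finite {s : Set E | IsOpen s} ?_ ?_ ?_ ?_
    · exact (BorelSpace.measurable_eq)
    · exact isPiSystem_isOpen
    · intro s hs
      rw [Measure.restrict_apply (IsOpen.measurableSet hs), Measure.smul_apply,
        Measure.restrict_apply (IsOpen.measurableSet hs),
        hopen (s ∩ ball p r) (IsOpen.inter hs isOpen_ball) r hr inter_subset_right]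
      rfl
    · rw [Measure.smul_apply, Measure.restrict_apply_univ, Measure.restrict_apply_univ,
        hopen (ball p r) isOpen_ball r hr le_rfl]
      rfl
  have hU : ball p ρ = ⋃ n : ℕ, ball p (ρ - ρ / (n + 2)) := by
    ext x
    simp only [mem_iUnion, mem_ball]
    constructor
    · intro hx
      obtain ⟨n, hn⟩ := exists_nat_gt (ρ / (ρ - dist x p))
      refine ⟨n, ?_⟩
      have h1 : 0 < ρ - dist x p := by linarith
      rw [div_lt_iff₀ h1] at hn
      have h2 : ρ / (n + 2) < ρ - dist x p := by
        rw [div_lt_iff₀ (by positivity)]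
        nlinarith
      linarith
    · rintro ⟨n, hn⟩
      have : 0 < ρ / ((n:ℝ) + 2) := by positivity
      linarith
  rw [hU, ← Measure.restrict_smul, Measure.restrict_iUnion_congr]
  intro n
  rw [Measure.restrict_smul]
  apply hballs
  · have : ρ / ((n:ℝ) + 2) < ρ := by
      rw [div_lt_iff₀ (by positivity)]
      nlinarith [(Nat.cast_nonneg n : (0:ℝ) ≤ n)]
    linarith
  · have : 0 < ρ / ((n:ℝ) + 2) := by positivity
    linarith

end Crest.Agent.R193.D7_TransInv
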