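import Crest.Agent.R193.CPa_Conf
import Crest.Agent.R193.CPa_Measure
import Crest.Agent.R193.D7_TransInv

/-!
R193, block D7: (C2), the push-forward of the energy measure is `c • volume`.
-/

set_option autoImplicit false

noncomputable section

open Set Filter Topology MeasureTheory Metric
open scoped ContDiff

namespace Crest.Agent.R193.CPa_C2

open Crest.Agent.R193 Crest.Agent.R193.CPa_Basic Crest.Agent.R193.CPa_Harm
  Crest.Agent.R193.CPa_Loop Crest.Agent.R193.CPa_Conf

variable {G Z : Type} [Group G] [MetricSpace Z] [MulAction G Z] {S : Setup G Z} (Q : DForm S)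

/-- `f ∘ F` on `W`, zero off `W`, for `f` supported in the square -/
theorem continuous_ext {W : Set Z} (hW : IsOpen W) {U V : C(Z, ℝ)} {p : ℝ × ℝ} {ρ : ℝ}
    (hfr : ∀ x ∈ frontier W, (U x, V x) ∉ ball p ρ) {f : ℝ × ℝ → ℝ} (hf : Continuous f)
    (hfs : tsupport f ⊆ ball p ρ) :
    Continuous (W.indicator fun x => f (U x, V x)) := by
  classical
  rw [continuous_iff_continuousAt]
  intro x
  have hc : Continuous fun x => f (U x, V x) := hf.comp (by fun_prop)
  by_cases hx : x ∈ W
  · have : (W.indicator fun x => f (U x, V x)) =ᶠ[𝓝 x] fun x => f (U x, V x) := by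
      filter_upwards [hW.mem_nhds hx] with y hy using indicator_of_mem hy _
    exact hc.continuousAt.congr this.symm
  · have : (W.indicator fun x => f (U x, V x)) =ᶠ[𝓝 x] fun _ => 0 := by
      by_cases hxc : x ∈ closure W
      · have hxf : (U x, V x) ∉ tsupport f := fun h => hfr x ⟨hxc, by rwa [hW.interior_eq]⟩ (hfs h)
        have : {y | (U y, V y) ∈ (tsupport f)ᶜ} ∈ 𝓝 x :=
          (Continuous.continuousAt (by fun_prop : Continuous fun y => (U y, V y))).preimage_mem_nhds
            ((isClosed_tsupport f).isOpen_compl.mem_nhds hxf)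
        filter_upwards [this] with y hy
        by_cases hyW : y ∈ W
        · rw [indicator_of_mem hyW]
          exact image_eq_zero_of_notMem_tsupport hy
        · exact indicator_of_notMem hyW _
      · filter_upwards [isClosed_closure.isOpen_compl.mem_nhds hxc] with y hy
        exact indicator_of_notMem (fun h => hy (subset_closure h)) _
    exact continuousAt_const.congr this.symm

/-- **(C2)** -/
theorem inC2 [CompactSpace Z] : InC2 Q := by
  intro O U V hO h W hW hWO p ρ hρ hfr
  classical
  obtain ⟨hU, hV, hharm, hconf⟩ := h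
  let _ : MeasurableSpace Z := borel Z
  have _ : BorelSpace Z := ⟨rfl⟩
  obtain ⟨μ, hμ, hμΓ⟩ := CPa_Measure.exists_measure Q U hU
  let F : Z → ℝ × ℝ := fun x => (U x, V x)
  have hF : Continuous F := by fun_prop
  let ν : Measure (ℝ × ℝ) := (μ.restrict W).map F
  have hνfin : IsFiniteMeasure ν := by
    dsimp only [ν]
    infer_instance
  -- integral against ν
  have hint : ∀ (f : ℝ × ℝ → ℝ), Continuous f → ∀ φ : C(Z, ℝ),
      (∀ x, φ x = W.indicator (fun x => f (U x, V x)) x) → ∫ y, f y ∂ν = Q.Γ U U φ := by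
    intro f hf φ hφ
    rw [← hμΓ φ, integral_map hF.measurable.aemeasurable hf.aestronglyMeasurable,
      ← integral_indicator hW.measurableSet]
    exact integral_congr_ae (Eventually.of_forall fun x => (hφ x).symm)
  -- flatness
  have hflat : D7_TransInv.Flat ν (ball p ρ) := by
    intro ψ hψ hψc hψs v
    have hψ2 : ContDiff ℝ 2 ψ := contDiff_infty.1 hψ 2
    have hψ1 : ContDiff ℝ 1 ψ := hψ.of_le (by exact_mod_cast le_top)
    have hfd : Continuous (fderiv ℝ ψ) := hψ1.continuous_fderiv one_ne_zero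
    let ψ₁ : ℝ × ℝ → ℝ := fun y => fderiv ℝ ψ y (1, 0)
    let ψ₂ : ℝ × ℝ → ℝ := fun y => fderiv ℝ ψ y (0, 1)
    have hc1 : Continuous ψ₁ := hfd.clm_apply continuous_const
    have hc2 : Continuous ψ₂ := hfd.clm_apply continuous_const
    have hts1 : tsupport ψ₁ ⊆ tsupport ψ := by
      refine closure_minimal (fun y hy => ?_) (isClosed_tsupport ψ)
      apply tsupport_fderiv_subset ℝ
      apply subset_tsupport
      intro h0
      apply hy
      change fderiv ℝ ψ y (1, 0) = 0
      rw [h0]; rfl
    have hts2 : tsupport ψ₂ ⊆ tsupport ψ := by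
      refine closure_minimal (fun y hy => ?_) (isClosed_tsupport ψ)
      apply tsupport_fderiv_subset ℝ
      apply subset_tsupport
      intro h0
      apply hy
      change fderiv ℝ ψ y (0, 1) = 0
      rw [h0]; rfl
    -- the compact set and cut-off
    set K : Set Z := closure W ∩ {x | F x ∈ tsupport ψ} with hK
    have hKc : IsCompact K :=
      (isClosed_closure.inter ((isClosed_tsupport ψ).preimage hF)).isCompact
    have hKW : K ⊆ W := by
      rintro x ⟨hx1, hx2⟩
      by_contra hne
      exact hfr x ⟨hx1, by rwa [hW.interior_eq]⟩ (hψs hx2)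
    obtain ⟨χ, hχ, hχ01, ⟨N, hN, hKN, hN1⟩, hχs⟩ := cut_KO Q hKc hW hKW
    have hWO' : W ⊆ O := subset_closure.trans hWO
    -- `χ ≡ 0` or `1` near the set where ψ ∘ F ≠ 0
    set W' : Set Z := N ∪ (tsupport χ)ᶜ with hW'
    have hW'o : IsOpen W' := hN.union (isClosed_tsupport χ).isOpen_compl
    have hW'01 : ∀ z ∈ W', χ z = 0 ∨ χ z = 1 := by
      rintro z (hz | hz)
      · exact Or.inr (hN1 z hz)
      · left
        by_contra hne
        exact hz (subset_tsupport _ hne)
    have hsupp : F ⁻¹' (tsupport ψ) ⊆ W' := by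
      intro z hz
      by_cases hzV : z ∈ W
      · exact Or.inl (hKN ⟨subset_closure hzV, hz⟩)
      · exact Or.inr fun h => hzV (hχs h)
    set P : C(Z, ℝ) := cmp ψ hψ2.continuous U V with hP
    obtain ⟨hPD, hPΓ⟩ := chain2 Q hψ2 hc1 hc2 (fun y => rfl) (fun y => rfl) hU hV
    have hPs : ∀ φ : C(Z, ℝ), tsupport (φ * P : C(Z, ℝ)) ⊆ W' := by
      intro φ
      refine (closure_minimal ?_ ((isClosed_tsupport ψ).preimage hF)).trans hsupp
      intro z hz
      by_contra hne
      apply hz
      have : P z = 0 := image_eq_zero_of_notMem_tsupport (f := ψ) hne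
      simp [this]
    have hg : χ * P ∈ Q.Dom := Q.mul_mem χ hχ P hPD
    have hgs : tsupport (χ * P : C(Z, ℝ)) ⊆ O := by
      refine (closure_mono ?_).trans (hχs.trans hWO')
      intro x hx h0
      apply hx
      simp [h0]
    have hχφs : ∀ φ : C(Z, ℝ), tsupport (χ * φ : C(Z, ℝ)) ⊆ O := by
      intro φ
      refine (closure_mono ?_).trans (hχs.trans hWO')
      intro x hx h0
      apply hx
      simp [h0]
    obtain ⟨g1, g2⟩ := hharm _ hg hgs
    have z1 : Q.Γ U χ P = 0 := by
      rw [Q.symm U hU χ hχ]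
      have := hPs 1
      rw [one_mul] at this
      exact local_01 Q hχ hU hW'o hW'01 this
    have z2 : Q.Γ V χ P = 0 := by
      rw [Q.symm V hV χ hχ]
      have := hPs 1
      rw [one_mul] at this
      exact local_01 Q hχ hV hW'o hW'01 this
    rw [leib_right Q hχ hPD hU, one_mul, one_mul, z1, zero_add, Q.symm U hU P hPD, hPΓ U hU,
      Q.symm V hV U hU, (hconf _ (hχφs _)).1, add_zero] at g1
    rw [leib_right Q hχ hPD hV, one_mul, one_mul, z2, zero_add, Q.symm V hV P hPD, hPΓ V hV,
      (hconf _ (hχφs _)).1, zero_add, ← (hconf _ (hχφs _)).2] at g2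
    -- identify the test functions
    have hval : ∀ (f : ℝ × ℝ → ℝ) (hf : Continuous f), tsupport f ⊆ tsupport ψ →
        ∀ x, (χ * cmp f hf U V : C(Z, ℝ)) x = W.indicator (fun x => f (U x, V x)) x := by
      intro f hf hfs x
      simp only [ContinuousMap.mul_apply, cmp_apply]
      by_cases hx : x ∈ W
      · rw [indicator_of_mem hx]
        by_cases h0 : f (U x, V x) = 0
        · rw [h0, mul_zero]
        · have : x ∈ K := ⟨subset_closure hx, hfs (subset_tsupport _ h0)⟩
          rw [hN1 x (hKN this), one_mul]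
      · rw [indicator_of_notMem hx]
        have : χ x = 0 := by
          by_contra hne
          exact hx (hχs (subset_tsupport _ hne))
        rw [this, zero_mul]
    have i1 : ∫ y, ψ₁ y ∂ν = 0 := by rw [hint ψ₁ hc1 _ (hval ψ₁ hc1 hts1), g1]
    have i2 : ∫ y, ψ₂ y ∂ν = 0 := by rw [hint ψ₂ hc2 _ (hval ψ₂ hc2 hts2), g2]
    have hv : ∀ y, fderiv ℝ ψ y v = v.1 * ψ₁ y + v.2 * ψ₂ y := by
      intro y
      have : v = v.1 • ((1, 0) : ℝ × ℝ) + v.2 • ((0, 1) : ℝ × ℝ) := by
        ext <;> simp
      conv_lhs => rw [this]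
      rw [map_add, map_smul, map_smul]
      rfl
    simp_rw [hv]
    have hcs1 : HasCompactSupport ψ₁ := hψc.of_isClosed_subset (isClosed_tsupport _) hts1
    have hcs2 : HasCompactSupport ψ₂ := hψc.of_isClosed_subset (isClosed_tsupport _) hts2
    have j1 : Integrable ψ₁ ν := hc1.integrable_of_hasCompactSupport hcs1
    have j2 : Integrable ψ₂ ν := hc2.integrable_of_hasCompactSupport hcs2
    rw [integral_add (j1.const_mul _) (j2.const_mul _), integral_const_mul, integral_const_mul,
      i1, i2]
    ring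
  obtain ⟨c, hc⟩ := hflat.restrict_eq (lam := (volume : Measure (ℝ × ℝ))) hρ
  refine ⟨c, c.2, ?_⟩
  intro ψ hψ hψs φ hφ1 hφ2
  have e1 : ∀ x, φ x = W.indicator (fun x => ψ (U x, V x)) x := by
    intro x
    by_cases hx : x ∈ W
    · rw [indicator_of_mem hx, hφ1 x hx]
    · rw [indicator_of_notMem hx, hφ2 x hx]
  rw [← hint ψ hψ φ e1]
  have hz : ∀ y, y ∉ ball p ρ → ψ y = 0 := fun y hy =>
    image_eq_zero_of_notMem_tsupport (fun h => hy (hψs h))
  have e2 : ∫ y, ψ y ∂ν = ∫ y in ball p ρ, ψ y ∂ν :=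
    (setIntegral_eq_integral_of_forall_compl_eq_zero hz).symm
  have e3 : ∫ y, ψ y = ∫ y in ball p ρ, ψ y :=
    (setIntegral_eq_integral_of_forall_compl_eq_zero hz).symm
  rw [e2, e3, hc, integral_smul_nnreal_measure]
  rfl

end Crest.Agent.R193.CPa_C2
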