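import Crest.Agent.R193.CPa_Loop

/-!
R193, block D7: (C1) and (C3) for conformal pairs.
-/

set_option autoImplicit false

noncomputable section

open Set Filter Topology MeasureTheory Metric

namespace Crest.Agent.R193.CPa_Conf

open Crest.Agent.R193 Crest.Agent.R193.CPa_Basic Crest.Agent.R193.CPa_Harm
  Crest.Agent.R193.CPa_Loop

variable {G Z : Type} [Group G] [MetricSpace Z] [MulAction G Z] {S : Setup G Z} (Q : DForm S)

/-- composition of a continuous function of two variables with a pair -/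
def cmp (ψ : ℝ × ℝ → ℝ) (hψ : Continuous ψ) (U V : C(Z, ℝ)) : C(Z, ℝ) :=
  ⟨fun x => ψ (U x, V x), hψ.comp (U.continuous.prodMk V.continuous)⟩

@[simp] theorem cmp_apply (ψ : ℝ × ℝ → ℝ) (hψ : Continuous ψ) (U V : C(Z, ℝ)) (x : Z) :
    cmp ψ hψ U V x = ψ (U x, V x) := rfl

theorem chain2 {ψ ψ₁ ψ₂ : ℝ × ℝ → ℝ} (hψ : ContDiff ℝ 2 ψ) (h1 : Continuous ψ₁)
    (h2 : Continuous ψ₂) (hd1 : ∀ p, fderiv ℝ ψ p (1, 0) = ψ₁ p)
    (hd2 : ∀ p, fderiv ℝ ψ p (0, 1) = ψ₂ p) {U V : C(Z, ℝ)} (hU : U ∈ Q.Dom) (hV : V ∈ Q.Dom) :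
    cmp ψ hψ.continuous U V ∈ Q.Dom ∧ ∀ w ∈ Q.Dom, ∀ φ : C(Z, ℝ),
      Q.Γ (cmp ψ hψ.continuous U V) w φ =
        Q.Γ U w (φ * cmp ψ₁ h1 U V) + Q.Γ V w (φ * cmp ψ₂ h2 U V) :=
  Q.chain ψ hψ U hU V hV _ _ _ (fun _ => rfl) (fun _ => (hd1 _).symm) (fun _ => (hd2 _).symm)

/-- **(C1)** -/
theorem c1 [CompactSpace Z] {O : Set Z} {U V : C(Z, ℝ)} (h : ConfOn Q O U V)
    {ψ ψ₁ ψ₂ ψ₁₁ ψ₁₂ ψ₂₁ ψ₂₂ : ℝ × ℝ → ℝ} (hψ : ContDiff ℝ 2 ψ) (hψ₁ : ContDiff ℝ 2 ψ₁)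
    (hψ₂ : ContDiff ℝ 2 ψ₂) (c11 : Continuous ψ₁₁) (c12 : Continuous ψ₁₂) (c21 : Continuous ψ₂₁)
    (c22 : Continuous ψ₂₂) (hd1 : ∀ p, fderiv ℝ ψ p (1, 0) = ψ₁ p)
    (hd2 : ∀ p, fderiv ℝ ψ p (0, 1) = ψ₂ p) (hd11 : ∀ p, fderiv ℝ ψ₁ p (1, 0) = ψ₁₁ p)
    (hd12 : ∀ p, fderiv ℝ ψ₁ p (0, 1) = ψ₁₂ p) (hd21 : ∀ p, fderiv ℝ ψ₂ p (1, 0) = ψ₂₁ p)
    (hd22 : ∀ p, fderiv ℝ ψ₂ p (0, 1) = ψ₂₂ p) {w : C(Z, ℝ)} (hw : w ∈ Q.Dom)
    (hws : tsupport w ⊆ O) :
    Q.Γ (cmp ψ hψ.continuous U V) w 1 = - Q.Γ U U (w * (cmp ψ₁₁ c11 U V + cmp ψ₂₂ c22 U V)) := by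
  obtain ⟨hU, hV, hharm, hconf⟩ := h
  obtain ⟨hD, hΓ⟩ := chain2 Q hψ hψ₁.continuous hψ₂.continuous hd1 hd2 hU hV
  obtain ⟨hD1, hΓ1⟩ := chain2 Q hψ₁ c11 c12 hd11 hd12 hU hV
  obtain ⟨hD2, hΓ2⟩ := chain2 Q hψ₂ c21 c22 hd21 hd22 hU hV
  set P1 := cmp ψ₁ hψ₁.continuous U V with hP1
  set P2 := cmp ψ₂ hψ₂.continuous U V with hP2
  have hs : ∀ f : C(Z, ℝ), tsupport (w * f : C(Z, ℝ)) ⊆ O := fun f => by
    refine (closure_mono ?_).trans hws
    intro x hx h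
    apply hx
    simp [h]
  rw [hΓ w hw, one_mul, one_mul]
  have e1 := (hharm (w * P1) (Q.mul_mem w hw P1 hD1) (hs _)).1
  have e2 := (hharm (w * P2) (Q.mul_mem w hw P2 hD2) (hs _)).2
  rw [leib_right Q hw hD1 hU, one_mul, one_mul, Q.symm U hU P1 hD1, hΓ1 U hU,
    Q.symm V hV U hU, (hconf _ (hs _)).1, add_zero] at e1
  rw [leib_right Q hw hD2 hV, one_mul, one_mul, Q.symm V hV P2 hD2, hΓ2 V hV,
    (hconf _ (hs _)).1, zero_add, ← (hconf _ (hs _)).2] at e2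
  rw [mul_add, Q.add_test U hU U hU]
  linarith

/-! ### the logarithmic potential -/

/-- `R = |y - p|² + s²` -/
def lR (p : ℝ × ℝ) (s : ℝ) (y : ℝ × ℝ) : ℝ := (y.1 - p.1) ^ 2 + (y.2 - p.2) ^ 2 + s ^ 2

theorem lR_pos (p : ℝ × ℝ) {s : ℝ} (hs : 0 < s) (y : ℝ × ℝ) : 0 < lR p s y := by
  unfold lR; positivity

theorem hasFDerivAt_lR (p : ℝ × ℝ) (s : ℝ) (y : ℝ × ℝ) :
    HasFDerivAt (lR p s) ((2 * (y.1 - p.1)) • ContinuousLinearMap.fst ℝ ℝ ℝ +
      (2 * (y.2 - p.2)) • ContinuousLinearMap.snd ℝ ℝ ℝ) y := by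
  have h1 : HasFDerivAt (fun y : ℝ × ℝ => y.1 - p.1) (ContinuousLinearMap.fst ℝ ℝ ℝ) y :=
    hasFDerivAt_fst.sub_const _
  have h2 : HasFDerivAt (fun y : ℝ × ℝ => y.2 - p.2) (ContinuousLinearMap.snd ℝ ℝ ℝ) y :=
    hasFDerivAt_snd.sub_const _
  refine (((h1.pow 2).add (h2.pow 2)).add_const (s ^ 2)).congr_fderiv ?_
  ext <;> simp

theorem contDiff_lR (p : ℝ × ℝ) (s : ℝ) {n : WithTop ℕ∞} : ContDiff ℝ n (lR p s) := by
  unfold lR
  fun_prop

/-- `ψ = - (1/2) log R` -/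
def lψ (p : ℝ × ℝ) (s : ℝ) (y : ℝ × ℝ) : ℝ := -(1 / 2) * Real.log (lR p s y)
def lψ₁ (p : ℝ × ℝ) (s : ℝ) (y : ℝ × ℝ) : ℝ := -((y.1 - p.1) * (lR p s y)⁻¹)
def lψ₂ (p : ℝ × ℝ) (s : ℝ) (y : ℝ × ℝ) : ℝ := -((y.2 - p.2) * (lR p s y)⁻¹)
def lψ₁₁ (p : ℝ × ℝ) (s : ℝ) (y : ℝ × ℝ) : ℝ :=
  -(lR p s y)⁻¹ + 2 * (y.1 - p.1) ^ 2 * ((lR p s y)⁻¹) ^ 2
def lψ₂₂ (p : ℝ × ℝ) (s : ℝ) (y : ℝ × ℝ) : ℝ :=
  -(lR p s y)⁻¹ + 2 * (y.2 - p.2) ^ 2 * ((lR p s y)⁻¹) ^ 2
def lψ₁₂ (p : ℝ × ℝ) (s : ℝ) (y : ℝ × ℝ) : ℝ :=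
  2 * (y.1 - p.1) * (y.2 - p.2) * ((lR p s y)⁻¹) ^ 2

section
variable (p : ℝ × ℝ) {s : ℝ} (hs : 0 < s)
include hs

theorem contDiff_inv {n : WithTop ℕ∞} : ContDiff ℝ n (fun y => (lR p s y)⁻¹) :=
  (contDiff_lR p s).inv fun y => (lR_pos p hs y).ne'

theorem contDiff_lψ {n : WithTop ℕ∞} : ContDiff ℝ n (lψ p s) := by
  unfold lψ
  exact contDiff_const.mul ((contDiff_lR p s).log fun y => (lR_pos p hs y).ne')

theorem contDiff_lψ₁ {n : WithTop ℕ∞} : ContDiff ℝ n (lψ₁ p s) := by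
  unfold lψ₁
  exact ((contDiff_fst.sub contDiff_const).mul (contDiff_inv p hs)).neg

theorem contDiff_lψ₂ {n : WithTop ℕ∞} : ContDiff ℝ n (lψ₂ p s) := by
  unfold lψ₂
  exact ((contDiff_snd.sub contDiff_const).mul (contDiff_inv p hs)).neg

theorem hasFDerivAt_inv (y : ℝ × ℝ) : HasFDerivAt (fun y => (lR p s y)⁻¹)
    ((-((lR p s y)⁻¹) ^ 2) • ((2 * (y.1 - p.1)) • ContinuousLinearMap.fst ℝ ℝ ℝ +
      (2 * (y.2 - p.2)) • ContinuousLinearMap.snd ℝ ℝ ℝ)) y := by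
  refine ((hasDerivAt_inv (lR_pos p hs y).ne').comp_hasFDerivAt y
    (hasFDerivAt_lR p s y)).congr_fderiv ?_
  rw [inv_pow]

theorem d1_lψ (y : ℝ × ℝ) : fderiv ℝ (lψ p s) y (1, 0) = lψ₁ p s y ∧
    fderiv ℝ (lψ p s) y (0, 1) = lψ₂ p s y := by
  have h := (((hasFDerivAt_lR p s y).log (lR_pos p hs y).ne').const_mul (-(1 / 2) : ℝ))
  have e : fderiv ℝ (lψ p s) y = _ := h.fderiv
  rw [e]
  constructor
  · simp [lψ₁]; ring
  · simp [lψ₂]; ring

theorem d2_lψ₁ (y : ℝ × ℝ) : fderiv ℝ (lψ₁ p s) y (1, 0) = lψ₁₁ p s y ∧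
    fderiv ℝ (lψ₁ p s) y (0, 1) = lψ₁₂ p s y := by
  have h1 : HasFDerivAt (fun y : ℝ × ℝ => y.1 - p.1) (ContinuousLinearMap.fst ℝ ℝ ℝ) y :=
    hasFDerivAt_fst.sub_const _
  have h := (h1.mul (hasFDerivAt_inv p hs y)).neg
  have e : fderiv ℝ (lψ₁ p s) y = _ := h.fderiv
  rw [e]
  constructor
  · simp [lψ₁₁]; ring
  · simp [lψ₁₂]; ring

theorem d2_lψ₂ (y : ℝ × ℝ) : fderiv ℝ (lψ₂ p s) y (1, 0) = lψ₁₂ p s y ∧
    fderiv ℝ (lψ₂ p s) y (0, 1) = lψ₂₂ p s y := by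
  have h1 : HasFDerivAt (fun y : ℝ × ℝ => y.2 - p.2) (ContinuousLinearMap.snd ℝ ℝ ℝ) y :=
    hasFDerivAt_snd.sub_const _
  have h := (h1.mul (hasFDerivAt_inv p hs y)).neg
  have e : fderiv ℝ (lψ₂ p s) y = _ := h.fderiv
  rw [e]
  constructor
  · simp [lψ₁₂]; ring
  · simp [lψ₂₂]; ring

theorem lap_nonpos (y : ℝ × ℝ) : lψ₁₁ p s y + lψ₂₂ p s y ≤ 0 := by
  have hR := lR_pos p hs y
  have e : lψ₁₁ p s y + lψ₂₂ p s y = -(2 * s ^ 2) * ((lR p s y)⁻¹) ^ 2 := by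
    unfold lψ₁₁ lψ₂₂
    field_simp
    unfold lR
    ring
  rw [e]
  have : 0 ≤ ((lR p s y)⁻¹) ^ 2 := sq_nonneg _
  nlinarith [sq_nonneg s]

theorem continuous_stuff : Continuous (lψ₁₁ p s) ∧ Continuous (lψ₂₂ p s) ∧
    Continuous (lψ₁₂ p s) := by
  have h := (contDiff_inv p hs (n := 0)).continuous
  unfold lψ₁₁ lψ₂₂ lψ₁₂
  refine ⟨?_, ?_, ?_⟩ <;> fun_prop

end

/-- `-(1/2) log (|F - p|² + s²)` is superharmonic -/
theorem supH_log [CompactSpace Z] {O : Set Z} {U V : C(Z, ℝ)} (h : ConfOn Q O U V) (p : ℝ × ℝ)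
    {s : ℝ} (hs : 0 < s) : SupH Q O (cmp (lψ p s) (contDiff_lψ p hs (n := 2)).continuous U V) := by
  obtain ⟨c11, c22, c12⟩ := continuous_stuff p hs
  refine ⟨(chain2 Q (contDiff_lψ p hs) (contDiff_lψ₁ p hs (n := 2)).continuous
    (contDiff_lψ₂ p hs (n := 2)).continuous (fun y => (d1_lψ p hs y).1)
    (fun y => (d1_lψ p hs y).2) h.1 h.2.1).1, fun w hw hw0 hws => ?_⟩
  rw [c1 Q h (contDiff_lψ p hs) (contDiff_lψ₁ p hs) (contDiff_lψ₂ p hs) c11 c12 c12 c22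
    (fun y => (d1_lψ p hs y).1) (fun y => (d1_lψ p hs y).2) (fun y => (d2_lψ₁ p hs y).1)
    (fun y => (d2_lψ₁ p hs y).2) (fun y => (d2_lψ₂ p hs y).1) (fun y => (d2_lψ₂ p hs y).2) hw hws,
    ← neg_test Q h.1 h.1]
  apply Q.nonneg U h.1
  intro x
  have h1 := lap_nonpos p hs (U x, V x)
  have h2 := hw0 x
  simp only [ContinuousMap.neg_apply, ContinuousMap.mul_apply, ContinuousMap.add_apply, cmp_apply]
  nlinarith

/-- key step of (C3) and (C4): if for every `r > 0` a connected set crossing the annulus carries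
points... then `F = p` on the small ball. -/
theorem const_of_cross [CompactSpace Z] [LocallyConnectedSpace Z] (hirr : Irr Q) {O : Set Z}
    (hO : IsOpen O) {U V : C(Z, ℝ)} (h : ConfOn Q O U V) {p : ℝ × ℝ} {x : Z} {ρ : ℝ} (hρ : 0 < ρ)
    (hρ0 : Q.lam * ρ ≤ Q.ρ0) (hball : closedBall x (Q.lam * (Q.lam * ρ)) ⊆ O)
    (hsmall : ∀ z ∈ closedBall x (Q.lam * (Q.lam * ρ)), (U z - p.1) ^ 2 + (V z - p.2) ^ 2 < 1 / 2)
    (hE : ∀ r : ℝ, 0 < r → ∃ E : Set Z, IsPreconnected E ∧ (E ∩ closedBall x ρ).Nonempty ∧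
      (E ∩ (ball x (Q.lam * ρ))ᶜ).Nonempty ∧
      ∀ z ∈ E ∩ ball x (Q.lam * ρ), |U z - p.1| ≤ r ∧ |V z - p.2| ≤ r) :
    ∀ z ∈ closedBall x ρ, (U z, V z) = p := by
  have hlam := Q.one_lt_lam
  have hlam0 : 0 < Q.lam := by linarith
  set O' : Set Z := O ∩ {z | (U z - p.1) ^ 2 + (V z - p.2) ^ 2 < 1 / 2} with hO'
  have hO'o : IsOpen O' := hO.inter (isOpen_lt (by fun_prop) continuous_const)
  have hball' : closedBall x (Q.lam * (Q.lam * ρ)) ⊆ O' := fun z hz => ⟨hball hz, hsmall z hz⟩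
  have hC0 := hC_pos Q
  -- main estimate
  have key : ∀ T : ℝ, 1 ≤ T → ∀ z ∈ closedBall x ρ,
      (U z - p.1) ^ 2 + (V z - p.2) ^ 2 ≤ Real.exp (-2 * ((T - Real.log 3 / 2) / hC Q)) := by
    intro T hT z hz
    set s := Real.exp (-T) with hs
    have hs0 : 0 < s := Real.exp_pos _
    have hs2 : s ^ 2 < 1 / 2 := by
      have h0 : s ^ 2 = Real.exp (-T + -T) := by rw [hs, Real.exp_add]; ring
      have h1 : Real.exp (-T + -T) ≤ Real.exp (-2) := by
        apply Real.exp_le_exp.2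
        linarith
      have h2 : Real.exp (-2) < 1 / 2 := by
        rw [Real.exp_neg, inv_lt_comm₀ (Real.exp_pos _) (by norm_num)]
        have := Real.add_one_lt_exp (show (2:ℝ) ≠ 0 by norm_num)
        linarith
      linarith
    have hSup := (supH_log Q h p hs0).mono (inter_subset_left : O' ⊆ O)
    set w := cmp (lψ p s) (contDiff_lψ p hs0 (n := 2)).continuous U V with hw
    have hwpos : ∀ y ∈ O', 0 < w y := by
      intro y hy
      have h1 : lR p s (U y, V y) < 1 := by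
        have : (U y - p.1) ^ 2 + (V y - p.2) ^ 2 < 1 / 2 := hy.2
        unfold lR
        simp only
        linarith
      have h2 := Real.log_neg (lR_pos p hs0 (U y, V y)) h1
      rw [hw, cmp_apply, lψ]
      linarith
    obtain ⟨σ, W, hσc, hσn, hσb, hσs, hW, hWne, hbW, hWb, hfW, hosc⟩ :=
      harnack_inside Q hirr hO'o hSup hwpos hρ hρ0 hball'
    obtain ⟨E, hEc, hE1, hE2, hE3⟩ := hE s hs0
    obtain ⟨y, hyE, hyσ⟩ := hσs E hEc hE1 hE2
    obtain ⟨b1, b2⟩ := hE3 y ⟨hyE, hσb hyσ⟩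
    have hwy : T - Real.log 3 / 2 ≤ w y := by
      have h1 : lR p s (U y, V y) ≤ 3 * s ^ 2 := by
        unfold lR
        have c1 := sq_le_sq' (abs_le.1 b1).1 (abs_le.1 b1).2
        have c2 := sq_le_sq' (abs_le.1 b2).1 (abs_le.1 b2).2
        simp only
        linarith
      have h2 := Real.log_le_log (lR_pos p hs0 (U y, V y)) h1
      rw [Real.log_mul (by norm_num) (by positivity), Real.log_pow, hs, Real.log_exp] at h2
      rw [hw, cmp_apply, lψ]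
      push_cast at h2
      rw [hs]
      linarith
    have h3 := hosc y hyσ z (Or.inl (hbW hz))
    have h4 : (T - Real.log 3 / 2) / hC Q ≤ w z := by
      rw [div_le_iff₀ hC0, mul_comm]
      linarith
    rw [hw, cmp_apply, lψ] at h4
    have h5 : Real.log (lR p s (U z, V z)) ≤ -2 * ((T - Real.log 3 / 2) / hC Q) := by linarith
    have h6 := Real.exp_le_exp.2 h5
    rw [Real.exp_log (lR_pos p hs0 _)] at h6
    unfold lR at h6
    simp only at h6
    nlinarith [sq_nonneg s]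
  intro z hz
  have hlim : Tendsto (fun T : ℝ => Real.exp (-2 * ((T - Real.log 3 / 2) / hC Q))) atTop (𝓝 0) := by
    apply Real.tendsto_exp_atBot.comp
    apply Tendsto.const_mul_atTop_of_neg (by norm_num)
    apply Tendsto.atTop_div_const hC0
    exact tendsto_atTop_add_const_right _ _ tendsto_id
  have h0 : (U z - p.1) ^ 2 + (V z - p.2) ^ 2 ≤ 0 := by
    refine ge_of_tendsto hlim ?_
    filter_upwards [eventually_ge_atTop 1] with T hT using key T hT z hz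
  have h1 : U z - p.1 = 0 := by nlinarith [sq_nonneg (U z - p.1), sq_nonneg (V z - p.2)]
  have h2 : V z - p.2 = 0 := by nlinarith [sq_nonneg (U z - p.1), sq_nonneg (V z - p.2)]
  apply Prod.ext
  · simp only; linarith
  · simp only; linarith

/-- choice of a radius -/
theorem exists_radius {z : Z} {N : Set Z} (hN : N ∈ 𝓝 z) {r : ℝ} (hr : 0 < r) :
    ∃ ρ : ℝ, 0 < ρ ∧ Q.lam * ρ ≤ Q.ρ0 ∧ Q.lam * ρ < r ∧
      closedBall z (Q.lam * (Q.lam * ρ)) ⊆ N := by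
  have hlam := Q.one_lt_lam
  have hlam0 : 0 < Q.lam := by linarith
  obtain ⟨r', hr'0, hr'⟩ := Metric.mem_nhds_iff.1 hN
  have hρ0' := Q.ρ0_pos
  set M := min (min Q.ρ0 (r / 2)) (r' / 2) with hM
  have hMpos : 0 < M := by positivity
  have h2 : 0 < Q.lam * Q.lam := by positivity
  refine ⟨M / (Q.lam * Q.lam), by positivity, ?_, ?_, ?_⟩
  · have e : Q.lam * (M / (Q.lam * Q.lam)) = M / Q.lam := by field_simp
    rw [e]
    have : M / Q.lam ≤ M := div_le_self hMpos.le hlam.le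
    exact this.trans ((min_le_left _ _).trans (min_le_left _ _))
  · have e : Q.lam * (M / (Q.lam * Q.lam)) = M / Q.lam := by field_simp
    rw [e]
    have : M / Q.lam ≤ M := div_le_self hMpos.le hlam.le
    have h3 : M ≤ r / 2 := (min_le_left _ _).trans (min_le_right _ _)
    linarith
  · have e : Q.lam * (Q.lam * (M / (Q.lam * Q.lam))) = M := by field_simp
    rw [e]
    have h3 : M ≤ r' / 2 := min_le_right _ _
    exact (closedBall_subset_ball (by linarith)).trans hr'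

/-- the condition `|F - p|² < 1/2` near a point where `F = p` -/
theorem small_nhds {U V : C(Z, ℝ)} {p : ℝ × ℝ} {z : Z} (hz : (U z, V z) = p) :
    {y | (U y - p.1) ^ 2 + (V y - p.2) ^ 2 < 1 / 2} ∈ 𝓝 z := by
  apply IsOpen.mem_nhds (isOpen_lt (by fun_prop) continuous_const)
  rw [← hz]
  norm_num

/-- a nontrivial connected set on which `F = p` consists of interior points of `{F = p}` -/
theorem mem_interior_of_conn [CompactSpace Z] [LocallyConnectedSpace Z] (hirr : Irr Q) {O : Set Z}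
    (hO : IsOpen O) {U V : C(Z, ℝ)} (h : ConfOn Q O U V) {p : ℝ × ℝ} {E : Set Z}
    (hE : IsPreconnected E) (hEp : ∀ x ∈ E, (U x, V x) = p) {z z' : Z} (hz : z ∈ E) (hz' : z' ∈ E)
    (hne : z ≠ z') (hzO : z ∈ O) : z ∈ interior {x | (U x, V x) = p} := by
  obtain ⟨ρ, hρ, hρ0, hρr, hball⟩ := exists_radius Q
    (inter_mem (hO.mem_nhds hzO) (small_nhds (hEp z hz))) (dist_pos.2 hne)
  rw [mem_interior_iff_mem_nhds]
  refine mem_of_superset (closedBall_mem_nhds z hρ) ?_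
  apply const_of_cross Q hirr hO h hρ hρ0 (fun y hy => (hball hy).1) (fun y hy => (hball hy).2)
  intro r hr
  refine ⟨E, hE, ⟨z, hz, mem_closedBall_self hρ.le⟩, ⟨z', hz', ?_⟩, fun y hy => ?_⟩
  · intro h1
    rw [mem_ball, dist_comm] at h1
    linarith
  · have := hEp y hy.1
    rw [Prod.ext_iff] at this
    simp only at this
    rw [this.1, this.2]
    simp [hr.le]

/-- **(C3)** -/
theorem inC3 [CompactSpace Z] [LocallyConnectedSpace Z] [PreconnectedSpace Z] (hirr : Irr Q) :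
    InC3 Q := by
  intro O U V hO hOc h E hEO hE hEn p hEp
  set A : Set Z := {x | (U x, V x) = p} with hA
  have hAc : IsClosed A := isClosed_eq (by fun_prop) continuous_const
  suffices hsub : O ⊆ interior A from fun x hx =>
    (show x ∈ A from interior_subset (hsub hx))
  obtain ⟨z, hz, z', hz', hne⟩ := hEn
  apply hOc.subset_of_closure_inter_subset isOpen_interior
  · exact ⟨z, hEO hz, mem_interior_of_conn Q hirr hO h hE hEp hz hz' hne (hEO hz)⟩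
  · rintro x ⟨hx, hxO⟩
    have hxA : (U x, V x) = p := by
      have : x ∈ A := hAc.closure_eq ▸ closure_mono interior_subset hx
      exact this
    obtain ⟨ρ, hρ, hρ0, -, hball⟩ := exists_radius Q
      (inter_mem (hO.mem_nhds hxO) (small_nhds hxA)) one_pos
    obtain ⟨y, hyb, hyA⟩ := mem_closure_iff.1 hx _ isOpen_ball (mem_ball_self hρ)
    set Y := connectedComponentIn (interior A) y with hY
    have hYo : IsOpen Y := isOpen_interior.connectedComponentIn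
    have hyY : y ∈ Y := mem_connectedComponentIn hyA
    have hYA : Y ⊆ interior A := connectedComponentIn_subset _ _
    have hYc : IsPreconnected Y := isPreconnected_connectedComponentIn
    by_cases hcase : Y ⊆ ball x (Q.lam * ρ)
    · by_cases hYu : Y = univ
      · exact hYA (by rw [hYu]; trivial)
      exfalso
      have hfr : (frontier Y).Nonempty := by
        rw [nonempty_iff_ne_empty]
        intro h0
        rcases isClopen_iff.1 (isClopen_iff_frontier_eq_empty.2 h0) with h1 | h1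
        · rw [h1] at hyY; exact hyY
        · exact hYu h1
      obtain ⟨y', hy'⟩ := hfr
      have hy'c : y' ∈ closure Y := hy'.1
      have hy'Y : y' ∉ Y := by
        have := hy'.2
        rwa [hYo.interior_eq] at this
      have hlam := Q.one_lt_lam
      have hlam0 : 0 < Q.lam := by linarith
      have hy'O : y' ∈ O := by
        have h1 : closure Y ⊆ closedBall x (Q.lam * ρ) :=
          (closure_mono (hcase.trans ball_subset_closedBall)).trans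
            isClosed_closedBall.closure_eq.le
        have h2 : closedBall x (Q.lam * ρ) ⊆ closedBall x (Q.lam * (Q.lam * ρ)) :=
          closedBall_subset_closedBall (by nlinarith [mul_pos hlam0 hρ])
        exact (hball (h2 (h1 hy'c))).1
      have hcl : ∀ v ∈ closure Y, (U v, V v) = p := fun v hv => by
        have : v ∈ A := hAc.closure_eq ▸ closure_mono (hYA.trans interior_subset) hv
        exact this
      have hint : y' ∈ interior A := mem_interior_of_conn Q hirr hO h hYc.closure hcl hy'c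
        (subset_closure hyY) (fun h0 => hy'Y (h0 ▸ hyY)) hy'O
      obtain ⟨v, hv1, hv2⟩ := mem_closure_iff.1 hy'c _
        (isOpen_interior.connectedComponentIn (x := y')) (mem_connectedComponentIn hint)
      apply hy'Y
      rw [hY, connectedComponentIn_eq hv2, ← connectedComponentIn_eq hv1]
      exact mem_connectedComponentIn hint
    · obtain ⟨v, hvY, hvb⟩ := not_subset.1 hcase
      rw [mem_interior_iff_mem_nhds]
      refine mem_of_superset (closedBall_mem_nhds x hρ) ?_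
      apply const_of_cross Q hirr hO h hρ hρ0 (fun y hy => (hball hy).1)
        (fun y hy => (hball hy).2)
      intro r hr
      refine ⟨Y, hYc, ⟨y, hyY, ball_subset_closedBall hyb⟩, ⟨v, hvY, hvb⟩, fun u hu => ?_⟩
      have : (U u, V u) = p := (show u ∈ A from interior_subset (hYA hu.1))
      rw [Prod.ext_iff] at this
      simp only at this
      rw [this.1, this.2]
      simp [hr.le]

end Crest.Agent.R193.CPa_Conf
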