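import Crest.Agent.R193.CPa_Basic

/-!
R193, block D7: sub- and superharmonic functions over a `DForm`: maximum principle,
log-Caccioppoli, Harnack loops, strong maximum principle.
-/

set_option autoImplicit false

noncomputable section

open Set Filter Topology MeasureTheory Metric

namespace Crest.Agent.R193.CPa_Harm

open Crest.Agent.R193 Crest.Agent.R193.CPa_Basic

variable {G Z : Type} [Group G] [MetricSpace Z] [MulAction G Z] {S : Setup G Z} (Q : DForm S)

/-- irreducibility: zero energy implies constant -/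
def Irr (Q : DForm S) : Prop := ∀ f ∈ Q.Dom, Q.Γ f f 1 = 0 → ∀ x y, f x = f y

/-- `u` is subharmonic on `O` -/
def SubH (Q : DForm S) (O : Set Z) (u : C(Z, ℝ)) : Prop :=
  u ∈ Q.Dom ∧ ∀ w ∈ Q.Dom, (∀ x, 0 ≤ w x) → tsupport w ⊆ O → Q.Γ u w 1 ≤ 0

/-- `u` is superharmonic on `O` -/
def SupH (Q : DForm S) (O : Set Z) (u : C(Z, ℝ)) : Prop :=
  u ∈ Q.Dom ∧ ∀ w ∈ Q.Dom, (∀ x, 0 ≤ w x) → tsupport w ⊆ O → 0 ≤ Q.Γ u w 1

theorem SupH.neg {Q : DForm S} {O : Set Z} {u : C(Z, ℝ)} (h : SupH Q O u) : SubH Q O (-u) :=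
  ⟨neg_mem Q h.1, fun w hw h0 hs => by rw [neg_left Q h.1 hw]; linarith [h.2 w hw h0 hs]⟩

theorem SubH.neg {Q : DForm S} {O : Set Z} {u : C(Z, ℝ)} (h : SubH Q O u) : SupH Q O (-u) :=
  ⟨neg_mem Q h.1, fun w hw h0 hs => by rw [neg_left Q h.1 hw]; linarith [h.2 w hw h0 hs]⟩

theorem SupH.mono {Q : DForm S} {O O' : Set Z} {u : C(Z, ℝ)} (h : SupH Q O u) (hO : O' ⊆ O) :
    SupH Q O' u := ⟨h.1, fun w hw h0 hs => h.2 w hw h0 (hs.trans hO)⟩

theorem SubH.mono {Q : DForm S} {O O' : Set Z} {u : C(Z, ℝ)} (h : SubH Q O u) (hO : O' ⊆ O) :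
    SubH Q O' u := ⟨h.1, fun w hw h0 hs => h.2 w hw h0 (hs.trans hO)⟩

theorem harm_subH {Q : DForm S} {O : Set Z} {u : C(Z, ℝ)} (h : Harm Q O u) : SubH Q O u :=
  ⟨h.1, fun w hw _ hs => (h.2 w hw hs).le⟩

theorem harm_supH {Q : DForm S} {O : Set Z} {u : C(Z, ℝ)} (h : Harm Q O u) : SupH Q O u :=
  ⟨h.1, fun w hw _ hs => (h.2 w hw hs).ge⟩

theorem harm_neg {Q : DForm S} {O : Set Z} {u : C(Z, ℝ)} (h : Harm Q O u) : Harm Q O (-u) :=
  ⟨neg_mem Q h.1, fun w hw hs => by rw [neg_left Q h.1 hw, h.2 w hw hs, neg_zero]⟩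

/-! ### a smooth function vanishing on `(-∞, 0]`, increasing on `[0, ∞)` -/

/-- `η t = t³` for `t ≥ 0`, `0` otherwise: a `C²` function -/
def cub (t : ℝ) : ℝ := if 0 ≤ t then t ^ 3 else 0

/-- its derivative -/
def cub' (t : ℝ) : ℝ := if 0 ≤ t then 3 * t ^ 2 else 0

/-- its second derivative -/
def cub'' (t : ℝ) : ℝ := if 0 ≤ t then 6 * t else 0

theorem hasDerivAt_piece {f g : ℝ → ℝ} (hf : ∀ t, HasDerivAt f (g t) t) (hf0 : f 0 = 0)
    (hg0 : g 0 = 0) (t : ℝ) :
    HasDerivAt (fun t => if 0 ≤ t then f t else 0) (if 0 ≤ t then g t else 0) t := by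
  rcases lt_trichotomy t 0 with h | h | h
  · rw [if_neg (not_le.2 h)]
    have : (fun t => if 0 ≤ t then f t else 0) =ᶠ[𝓝 t] fun _ => (0:ℝ) := by
      filter_upwards [Iio_mem_nhds h] with s hs
      rw [if_neg (not_le.2 hs)]
    exact (hasDerivAt_const t (0:ℝ)).congr_of_eventuallyEq this
  · subst h
    rw [if_pos le_rfl, hg0]
    have h1 := hf 0
    rw [hg0] at h1
    rw [hasDerivAt_iff_isLittleO] at h1 ⊢
    simp only [hf0, sub_zero, smul_zero, if_pos le_rfl] at h1 ⊢
    refine Asymptotics.IsLittleO.congr' ?_ EventuallyEq.rfl EventuallyEq.rfl (f₁ := fun x => if 0 ≤ x then f x else 0)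
    refine (Asymptotics.IsBigO.of_bound 1 (Eventually.of_forall fun x => ?_)).trans_isLittleO h1
    split_ifs <;> simp
  · rw [if_pos h.le]
    have : (fun t => if 0 ≤ t then f t else 0) =ᶠ[𝓝 t] f := by
      filter_upwards [Ioi_mem_nhds h] with s hs
      rw [if_pos (le_of_lt hs)]
    exact (hf t).congr_of_eventuallyEq this

theorem hasDerivAt_cub (t : ℝ) : HasDerivAt cub (cub' t) t := by
  have := hasDerivAt_piece (f := fun t => t ^ 3) (g := fun t => 3 * t ^ 2)
    (fun t => by simpa using hasDerivAt_pow 3 t) (by norm_num) (by norm_num) t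
  exact this

theorem hasDerivAt_cub' (t : ℝ) : HasDerivAt cub' (cub'' t) t := by
  have := hasDerivAt_piece (f := fun t => 3 * t ^ 2) (g := fun t => 6 * t)
    (fun t => by
      have := (hasDerivAt_pow 2 t).const_mul 3
      have e : (3:ℝ) * (((2:ℕ):ℝ) * t ^ (2 - 1)) = 6 * t := by norm_num; ring
      rw [e] at this
      exact this) (by norm_num) (by norm_num) t
  exact this

theorem deriv_cub : deriv cub = cub' := funext fun t => (hasDerivAt_cub t).deriv

theorem deriv_cub' : deriv cub' = cub'' := funext fun t => (hasDerivAt_cub' t).deriv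

theorem continuous_cub'' : Continuous cub'' := by
  unfold cub''
  exact Continuous.if_le (by fun_prop) continuous_const continuous_const continuous_id
    (fun x hx => by rw [← hx]; norm_num)

theorem contDiff_cub : ContDiff ℝ 2 cub := by
  have h2 : (2 : WithTop ℕ∞) = 1 + 1 := by norm_num
  rw [h2, contDiff_succ_iff_deriv]
  refine ⟨fun t => (hasDerivAt_cub t).differentiableAt, by simp, ?_⟩
  rw [deriv_cub, contDiff_one_iff_deriv]
  refine ⟨fun t => (hasDerivAt_cub' t).differentiableAt, ?_⟩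
  rw [deriv_cub']
  exact continuous_cub''

theorem continuous_cub' : Continuous cub' :=
  continuous_iff_continuousAt.2 fun t => (hasDerivAt_cub' t).continuousAt

theorem continuous_cub : Continuous cub :=
  continuous_iff_continuousAt.2 fun t => (hasDerivAt_cub t).continuousAt

theorem cub_nonneg (t : ℝ) : 0 ≤ cub t := by unfold cub; split_ifs <;> positivity
theorem cub'_nonneg (t : ℝ) : 0 ≤ cub' t := by unfold cub'; split_ifs <;> positivity
theorem cub_eq_zero_iff (t : ℝ) : cub t = 0 ↔ t ≤ 0 := by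
  unfold cub
  split_ifs with h
  · constructor
    · intro h2
      exact (pow_eq_zero_iff (by norm_num)).1 h2 |>.le
    · intro h2
      rw [le_antisymm h2 h]; norm_num
  · simp only [true_iff]; exact (not_le.1 h).le

/-- **Maximum principle** for subharmonic functions. -/
theorem max_principle [CompactSpace Z] (hirr : Irr Q) {O V : Set Z} {u : C(Z, ℝ)}
    (hu : SubH Q O u) (hV : IsOpen V) (hVO : V ⊆ O) (hVne : V ≠ univ) {M : ℝ}
    (hM : ∀ y ∈ frontier V, u y ≤ M) : ∀ x ∈ V, u x ≤ M := by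
  -- it suffices to show `u x ≤ M'` for all `M' > M`
  intro x hx
  refine le_of_forall_gt_imp_ge_of_dense fun M' hM' => ?_
  set K : Set Z := closure V ∩ {y | M' ≤ u y} with hK
  have hKc : IsCompact K :=
    (isClosed_closure.inter (isClosed_le continuous_const u.continuous)).isCompact
  have hKV : K ⊆ V := by
    rintro y ⟨hy1, hy2⟩
    by_contra hne
    have : y ∈ frontier V := ⟨hy1, by rwa [hV.interior_eq]⟩
    have h1 := hM y this
    have h2 : M' ≤ u y := hy2
    linarith
  obtain ⟨χ, hχ, hχ01, ⟨N, hN, hKN, hN1⟩, hχs⟩ := cut_KO Q hKc hV hKV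
  -- η ∘ (u - M')
  let η : ℝ → ℝ := fun t => cub (t - M')
  have hη : ContDiff ℝ 2 η := contDiff_cub.comp (contDiff_id.sub contDiff_const)
  have hηd : ∀ t, deriv η t = cub' (t - M') := fun t => by
    exact ((hasDerivAt_cub (t - M')).comp_sub_const t M').deriv
  let e : C(Z, ℝ) := ⟨fun z => cub (u z - M'), continuous_cub.comp (by fun_prop)⟩
  let d : C(Z, ℝ) := ⟨fun z => cub' (u z - M'), continuous_cub'.comp (by fun_prop)⟩
  have hch := chain1 Q hη hu.1 (w' := e) (d := d) (fun z => rfl) (fun z => (hηd _).symm)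
  obtain ⟨heD, heΓ⟩ := hch
  have he0 : ∀ z, 0 ≤ e z := fun z => cub_nonneg _
  have hd0 : ∀ z, 0 ≤ d z := fun z => cub'_nonneg _
  -- `χ` is locally constant (0 or 1) near the support of `e`
  set W : Set Z := N ∪ (tsupport χ)ᶜ with hW
  have hWo : IsOpen W := hN.union (isClosed_tsupport χ).isOpen_compl
  have hW01 : ∀ z ∈ W, χ z = 0 ∨ χ z = 1 := by
    rintro z (hz | hz)
    · exact Or.inr (hN1 z hz)
    · left
      by_contra hne
      exact hz (subset_tsupport _ hne)
  have hsupp : {z | M' ≤ u z} ⊆ W := by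
    intro z hz
    by_cases hzV : z ∈ V
    · exact Or.inl (hKN ⟨subset_closure hzV, hz⟩)
    · exact Or.inr fun h => hzV (hχs h)
  have hes : tsupport e ⊆ W := by
    refine (closure_minimal ?_ (isClosed_le continuous_const u.continuous)).trans hsupp
    intro z hz
    by_contra hne
    have h1 : ¬ M' ≤ u z := hne
    apply hz
    change cub (u z - M') = 0
    rw [cub_eq_zero_iff]
    push Not at h1
    linarith
  have hds : ∀ φ : C(Z, ℝ), tsupport (φ * d : C(Z, ℝ)) ⊆ W := by
    intro φ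
    refine (closure_minimal ?_ (isClosed_le continuous_const u.continuous)).trans hsupp
    intro z hz
    by_contra hne
    have h1 : ¬ M' ≤ u z := hne
    apply hz
    push Not at h1
    have : d z = 0 := by
      change cub' (u z - M') = 0
      unfold cub'
      rw [if_neg (by linarith)]
    simp [this]
  -- test function
  have hwD : χ * e ∈ Q.Dom := Q.mul_mem χ hχ e heD
  have hws : tsupport (χ * e : C(Z, ℝ)) ⊆ O := by
    refine (closure_mono ?_).trans (hχs.trans hVO)
    intro z hz h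
    apply hz
    simp [h]
  have hw0 : ∀ z, 0 ≤ (χ * e) z := fun z => mul_nonneg (hχ01 z).1 (he0 z)
  have h1 := hu.2 (χ * e) hwD hw0 hws
  have h2 : Q.Γ u (χ * e) 1 = Q.Γ u u (χ * d) := by
    rw [leib_right Q hχ heD hu.1, one_mul, one_mul, Q.symm u hu.1 χ hχ,
      local_01 Q hχ hu.1 hWo hW01 hes, zero_add, Q.symm u hu.1 e heD, heΓ u hu.1]
  rw [h2] at h1
  have h3 : Q.Γ u u (χ * d) = 0 :=
    le_antisymm h1 (Q.nonneg u hu.1 _ fun z => mul_nonneg (hχ01 z).1 (hd0 z))
  -- energy of `χ * e`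
  obtain ⟨B, hB⟩ : ∃ B : ℝ, ∀ z, |(χ * d) z| ≤ B := ⟨‖χ * d‖, fun z => (χ * d).norm_coe_le_norm z⟩
  have hE : Q.Γ (χ * e) (χ * e) 1 = Q.Γ u u ((χ * d) * (χ * d)) := by
    rw [leib Q hχ heD hwD, one_mul, one_mul, leib_right Q hχ heD hχ, leib_right Q hχ heD heD,
      Q.symm e heD χ hχ, heΓ e heD, Q.symm u hu.1 e heD, heΓ u hu.1]
    have z1 : Q.Γ χ χ (e * e) = 0 := by
      apply local_01 Q hχ hχ hWo hW01
      refine (closure_mono ?_).trans hes
      intro z hz h
      apply hz
      simp [h]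
    have z2 : Q.Γ χ e (e * χ) = 0 := by
      apply local_01 Q hχ heD hWo hW01
      refine (closure_mono ?_).trans hes
      intro z hz h
      apply hz
      simp [h]
    have z3 : Q.Γ χ e (χ * e) = 0 := by rw [mul_comm]; exact z2
    rw [z1, z2, z3]
    simp only [zero_add]
    congr 1
    ext z
    simp only [ContinuousMap.mul_apply]
    ring
  have hE0 : Q.Γ (χ * e) (χ * e) 1 = 0 := by
    apply le_antisymm
    · rw [hE]
      calc Q.Γ u u ((χ * d) * (χ * d)) ≤ Q.Γ u u (B • (χ * d)) := by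
            apply mono_test Q hu.1
            intro z
            have h0 : 0 ≤ (χ * d) z := mul_nonneg (hχ01 z).1 (hd0 z)
            have := (le_abs_self _).trans (hB z)
            simp only [ContinuousMap.mul_apply, ContinuousMap.smul_apply, smul_eq_mul] at *
            exact mul_le_mul_of_nonneg_right this h0
        _ = 0 := by rw [Q.smul_test B u hu.1 u hu.1, h3, mul_zero]
    · exact Q.nonneg _ hwD 1 (fun z => by simp)
  -- conclusion
  obtain ⟨y, hy⟩ := (ne_univ_iff_exists_notMem V).1 hVne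
  have hχy : χ y = 0 := by
    by_contra hne
    exact hy (hχs (subset_tsupport _ hne))
  have h5 := hirr _ hwD hE0 x y
  have h6 : (χ * e) x = 0 := by rw [h5]; simp [hχy]
  by_contra hcon
  push Not at hcon
  have hxK : x ∈ K := ⟨subset_closure hx, hcon.le⟩
  have hχx : χ x = 1 := hN1 x (hKN hxK)
  have hex : e x = 0 := by simpa [hχx] using h6
  have := (cub_eq_zero_iff _).1 hex
  linarith

/-- **Minimum principle** for superharmonic functions. -/
theorem min_principle [CompactSpace Z] (hirr : Irr Q) {O V : Set Z} {u : C(Z, ℝ)}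
    (hu : SupH Q O u) (hV : IsOpen V) (hVO : V ⊆ O) (hVne : V ≠ univ) {M : ℝ}
    (hM : ∀ y ∈ frontier V, M ≤ u y) : ∀ x ∈ V, M ≤ u x := by
  intro x hx
  have := max_principle Q hirr hu.neg hV hVO hVne (M := -M)
    (fun y hy => by simpa using hM y hy) x hx
  simpa using this

end Crest.Agent.R193.CPa_Harm
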