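import Crest.Agent.R193.CPa_Harm

/-!
R193, block D7: loops.  The inside of a separating set; log-Caccioppoli; Harnack loops; strong
maximum principle.
-/

set_option autoImplicit false

noncomputable section

open Set Filter Topology MeasureTheory Metric

namespace Crest.Agent.R193.CPa_Loop

open Crest.Agent.R193 Crest.Agent.R193.CPa_Basic Crest.Agent.R193.CPa_Harm

/-! ### inside of a separator -/
section top
variable {Z : Type} [TopologicalSpace Z]

/-- union of the components of the complement of `σ` that meet `D` -/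
def inside (σ D : Set Z) : Set Z := ⋃ z ∈ D \ σ, connectedComponentIn σᶜ z

theorem isOpen_inside [LocallyConnectedSpace Z] {σ : Set Z} (hσ : IsClosed σ) (D : Set Z) :
    IsOpen (inside σ D) :=
  isOpen_biUnion fun _ _ => hσ.isOpen_compl.connectedComponentIn

theorem diff_subset_inside (σ D : Set Z) : D \ σ ⊆ inside σ D := fun z hz =>
  mem_iUnion₂.2 ⟨z, hz, mem_connectedComponentIn hz.2⟩

theorem inside_inter {σ D E : Set Z} (h : Separates σ D E) : inside σ D ∩ E = ∅ := by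
  by_contra hne
  obtain ⟨y, hy, hyE⟩ := nonempty_iff_ne_empty.2 hne
  obtain ⟨z, hz, hyz⟩ := mem_iUnion₂.1 hy
  obtain ⟨x, hx, hxσ⟩ := h _ isPreconnected_connectedComponentIn
    ⟨z, mem_connectedComponentIn (F := σᶜ) hz.2, hz.1⟩ ⟨y, hyz, hyE⟩
  exact connectedComponentIn_subset _ _ hx hxσ

theorem inside_inter_self (σ D : Set Z) : inside σ D ∩ σ = ∅ := by
  by_contra hne
  obtain ⟨y, hy, hyE⟩ := nonempty_iff_ne_empty.2 hne
  obtain ⟨z, hz, hyz⟩ := mem_iUnion₂.1 hy
  exact connectedComponentIn_subset _ _ hyz hyE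

theorem frontier_inside [LocallyConnectedSpace Z] {σ : Set Z} (hσ : IsClosed σ) (D : Set Z) :
    frontier (inside σ D) ⊆ σ := by
  intro y hy
  by_contra hyσ
  have hC : IsOpen (connectedComponentIn σᶜ y) := hσ.isOpen_compl.connectedComponentIn
  obtain ⟨x, hx1, hx2⟩ := mem_closure_iff.1 hy.1 _ hC (mem_connectedComponentIn hyσ)
  obtain ⟨z, hz, hxz⟩ := mem_iUnion₂.1 hx2
  have e1 := connectedComponentIn_eq hx1
  have e2 := connectedComponentIn_eq hxz
  have : y ∈ inside σ D := by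
    refine mem_iUnion₂.2 ⟨z, hz, ?_⟩
    rw [e2, ← e1]
    exact mem_connectedComponentIn hyσ
  apply hy.2
  rwa [(isOpen_inside hσ D).interior_eq]

end top

variable {G Z : Type} [Group G] [MetricSpace Z] [MulAction G Z] {S : Setup G Z} (Q : DForm S)

/-! ### locality, second form -/

theorem local_zero' [CompactSpace Z] {u f : C(Z, ℝ)} (hu : u ∈ Q.Dom) (hf : f ∈ Q.Dom)
    {W : Set Z} (hW : IsOpen W) (h0 : ∀ x ∈ W, u x = 0) (hs : tsupport f ⊆ W) (φ : C(Z, ℝ)) :
    Q.Γ u f φ = 0 := by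
  obtain ⟨κ, hκ, -, ⟨N, hN, hKN, h1⟩, hsup⟩ :=
    cut_KO Q (isClosed_tsupport f).isCompact hW hs
  have e : φ = φ * κ + φ * (1 - κ) := by ring
  rw [e, Q.add_test u hu f hf]
  have a1 : Q.Γ u f (φ * κ) = 0 := by
    apply local_zero Q hu hf hW h0
    refine (closure_mono ?_).trans hsup
    intro x hx h
    apply hx
    simp [h]
  have a2 : Q.Γ u f (φ * (1 - κ)) = 0 := by
    rw [Q.symm u hu f hf]
    apply local_zero Q hf hu (isClosed_tsupport f).isOpen_compl
    · intro x hx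
      by_contra hne
      exact hx (subset_tsupport _ hne)
    · have : tsupport (φ * (1 - κ) : C(Z, ℝ)) ⊆ Nᶜ := by
        refine closure_minimal ?_ hN.isClosed_compl
        intro x hx hxN
        apply hx
        simp [h1 x hxN]
      exact this.trans (compl_subset_compl.2 hKN)
  rw [a1, a2, add_zero]

theorem local_congr' [CompactSpace Z] {u u' f : C(Z, ℝ)} (hu : u ∈ Q.Dom) (hu' : u' ∈ Q.Dom)
    (hf : f ∈ Q.Dom) {W : Set Z} (hW : IsOpen W) (h0 : ∀ x ∈ W, u x = u' x)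
    (hs : tsupport f ⊆ W) (φ : C(Z, ℝ)) : Q.Γ u f φ = Q.Γ u' f φ := by
  have := local_zero' Q (sub_mem Q hu hu') hf hW (fun x hx => by simp [h0 x hx]) hs φ
  rw [sub_left Q hu hu' hf] at this
  linarith

/-! ### smooth extension of the logarithm -/

theorem exists_log_ext {m : ℝ} (hm : 0 < m) : ∃ η ι : ℝ → ℝ, ContDiff ℝ 2 η ∧ ContDiff ℝ 2 ι ∧
    (∀ t, m ≤ t → η t = Real.log t ∧ deriv η t = t⁻¹ ∧ ι t = t⁻¹ ∧ deriv ι t = -(t⁻¹ * t⁻¹)) := by
  let s : ℝ → ℝ := fun t => Real.smoothTransition ((t - m / 4) / (m / 4))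
  let h : ℝ → ℝ := fun t => s t * t + (1 - s t) * (m / 4)
  have hs : ContDiff ℝ 2 s := Real.smoothTransition.contDiff.comp (by fun_prop)
  have hs0 : ∀ t, 0 ≤ s t := fun t => Real.smoothTransition.nonneg _
  have hs1 : ∀ t, s t ≤ 1 := fun t => Real.smoothTransition.le_one _
  have hh : ContDiff ℝ 2 h := by
    apply ContDiff.add
    · exact hs.mul contDiff_id
    · exact (contDiff_const.sub hs).mul contDiff_const
  have hpos : ∀ t, 0 < h t := by
    intro t
    by_cases ht : t ≤ m / 4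
    · have : s t = 0 := Real.smoothTransition.zero_of_nonpos (by
        apply div_nonpos_of_nonpos_of_nonneg <;> linarith)
      simp only [h, this]
      linarith
    · push Not at ht
      have h1 := hs0 t
      have h2 := hs1 t
      simp only [h]
      nlinarith
  have hid : ∀ t, m / 2 ≤ t → h t = t := by
    intro t ht
    have : s t = 1 := Real.smoothTransition.one_of_one_le (by
      rw [le_div_iff₀ (by linarith)]; linarith)
    simp only [h, this]
    ring
  refine ⟨fun t => Real.log (h t), fun t => (h t)⁻¹, hh.log fun t => (hpos t).ne',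
    hh.inv fun t => (hpos t).ne', ?_⟩
  intro t ht
  have htm : m / 2 < t := by linarith
  have ht0 : 0 < t := by linarith
  have e : (fun t => h t) =ᶠ[𝓝 t] fun t => t := by
    filter_upwards [Ioi_mem_nhds htm] with r hr using hid r (le_of_lt hr)
  have e1 : (fun t => Real.log (h t)) =ᶠ[𝓝 t] Real.log := by
    filter_upwards [e] with r hr
    exact congrArg Real.log hr
  have e2 : (fun t => (h t)⁻¹) =ᶠ[𝓝 t] fun t => t⁻¹ := by
    filter_upwards [e] with r hr
    exact congrArg (fun t : ℝ => t⁻¹) hr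
  refine ⟨congrArg Real.log (hid t htm.le), ?_, congrArg (fun t : ℝ => t⁻¹) (hid t htm.le), ?_⟩
  · rw [e1.deriv_eq, Real.deriv_log]
  · rw [e2.deriv_eq, deriv_inv]
    ring

/-- **log-Caccioppoli** -/
theorem log_cacc [CompactSpace Z] {O : Set Z} {w : C(Z, ℝ)} (hw : SupH Q O w) {m : ℝ}
    (hm : 0 < m) (hwm : ∀ x, m ≤ w x) {χ : C(Z, ℝ)} (hχ : χ ∈ Q.Dom) (hχs : tsupport χ ⊆ O) :
    ∃ L ∈ Q.Dom, (∀ x, L x = Real.log (w x)) ∧ Q.Γ L L (χ * χ) ≤ 4 * Q.Γ χ χ 1 := by
  obtain ⟨η, ι, hη, hι, hext⟩ := exists_log_ext hm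
  let L : C(Z, ℝ) := ⟨fun x => Real.log (w x),
    w.continuous.log fun x => (lt_of_lt_of_le hm (hwm x)).ne'⟩
  let I : C(Z, ℝ) := ⟨fun x => (w x)⁻¹,
    w.continuous.inv₀ fun x => (lt_of_lt_of_le hm (hwm x)).ne'⟩
  obtain ⟨hL, hLΓ⟩ := chain1 Q hη hw.1 (w' := L) (d := I)
    (fun x => (hext _ (hwm x)).1.symm) (fun x => (hext _ (hwm x)).2.1.symm)
  obtain ⟨hI, hIΓ⟩ := chain1 Q hι hw.1 (w' := I) (d := -(I * I))
    (fun x => (hext _ (hwm x)).2.2.1.symm) (fun x => (hext _ (hwm x)).2.2.2.symm)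
  refine ⟨L, hL, fun x => rfl, ?_⟩
  have hχχ := Q.mul_mem χ hχ χ hχ
  have hI0 : ∀ x, 0 ≤ I x := fun x => inv_nonneg.2 ((hm.le).trans (hwm x))
  -- test with χ² / w
  have h1 := hw.2 (χ * χ * I) (Q.mul_mem _ hχχ I hI)
    (fun x => mul_nonneg (mul_self_nonneg _) (hI0 x)) (by
      refine (closure_mono ?_).trans hχs
      intro x hx h
      apply hx
      simp [h])
  have h2 : Q.Γ w (χ * χ * I) 1 = 2 * Q.Γ χ L χ - Q.Γ L L (χ * χ) := by
    rw [leib_right Q hχχ hI hw.1, leib_right Q hχ hχ hw.1, Q.symm w hw.1 I hI, hIΓ w hw.1,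
      Q.symm χ hχ L hL, hLΓ χ hχ, hLΓ L hL, Q.symm w hw.1 L hL, hLΓ w hw.1]
    have e1 : (1 : C(Z, ℝ)) * (χ * χ) * -(I * I) = -(χ * χ * I * I) := by ring
    have e2 : (1 : C(Z, ℝ)) * I * χ = χ * I := by ring
    rw [e1, e2, neg_test Q hw.1 hw.1]
    ring
  rw [h2] at h1
  set A := Q.Γ L L (χ * χ) with hA
  set E := Q.Γ χ χ 1 with hE
  have hA0 : 0 ≤ A := Q.nonneg L hL _ (fun x => mul_self_nonneg _)
  have hE0 : 0 ≤ E := Q.nonneg χ hχ _ (fun x => by simp)
  have h3 := cs_strong Q hχ hL χ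
  rw [← hA, ← hE] at h3
  have h4 : A ≤ 2 * Q.Γ χ L χ := by linarith
  by_cases hA1 : A = 0
  · rw [hA1]; linarith
  · have hA2 : 0 < A := lt_of_le_of_ne hA0 (Ne.symm hA1)
    have h5 : A ^ 2 ≤ 4 * (E * A) := by
      have : A ^ 2 ≤ (2 * Q.Γ χ L χ) ^ 2 := pow_le_pow_left₀ hA0 h4 2
      nlinarith
    nlinarith

/-- Harnack constant -/
def hC (Q : DForm S) : ℝ := Real.exp (Q.C0 * Real.sqrt (4 * Q.C0) + 1)

theorem hC_pos : 0 < hC Q := Real.exp_pos _

/-- **Harnack loop** -/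
theorem harnack_loop [CompactSpace Z] [LocallyConnectedSpace Z] {O : Set Z} (hO : IsOpen O)
    {w : C(Z, ℝ)}
    (hw : SupH Q O w) (hpos : ∀ z ∈ O, 0 < w z) {x : Z} {ρ : ℝ} (hρ : 0 < ρ)
    (hρ0 : Q.lam * ρ ≤ Q.ρ0) (hball : closedBall x (Q.lam * (Q.lam * ρ)) ⊆ O) :
    ∃ σ V : Set Z, IsCompact σ ∧ σ.Nonempty ∧ σ ⊆ ball x (Q.lam * ρ) ∧
      Separates σ (closedBall x ρ) (ball x (Q.lam * ρ))ᶜ ∧ IsOpen V ∧ V ≠ univ ∧
      closedBall x ρ ⊆ V ∧ V ⊆ ball x (Q.lam * ρ) ∧ frontier V ⊆ σ ∧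
      ∀ y ∈ σ, ∀ z ∈ σ, w y ≤ hC Q * w z := by
  have hlam := Q.one_lt_lam
  have hlam0 : 0 < Q.lam := by linarith
  have hlρ : 0 < Q.lam * ρ := by positivity
  have hρρ : ρ ≤ Q.lam * ρ := by nlinarith
  obtain ⟨κ, hκ, hκ01, ⟨N, hN, hKN, hN1⟩, hκs⟩ :=
    cut_KO Q (isCompact_of_isClosed_isBounded isClosed_closedBall isBounded_closedBall) hO hball
  obtain ⟨χ, hχ, hχ01, hχ1, hχ0, hχE⟩ := Q.cutoff x (Q.lam * ρ) hlρ hρ0
  -- patched function
  set w' : C(Z, ℝ) := κ * w + (1 - κ) with hw'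
  have hw'D : w' ∈ Q.Dom := Q.add_mem _ (Q.mul_mem κ hκ w hw.1) _ (one_sub_mem Q hκ)
  have hw'pos : ∀ z, 0 < w' z := by
    intro z
    have e : w' z = κ z * w z + (1 - κ z) := by simp [hw']
    rw [e]
    by_cases hz : z ∈ O
    · have h1 := hpos z hz
      have h2 := (hκ01 z).1
      have h3 := (hκ01 z).2
      rcases eq_or_lt_of_le h3 with h4 | h4
      · rw [h4]; linarith
      · have := mul_nonneg h2 h1.le
        linarith
    · have : κ z = 0 := by
        by_contra hne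
        exact hz (hκs (subset_tsupport _ hne))
      rw [this]; norm_num
  obtain ⟨m, hm, hmw⟩ : ∃ m : ℝ, 0 < m ∧ ∀ z, m ≤ w' z := by
    obtain ⟨z, -, hz⟩ := isCompact_univ.exists_isMinOn (s := (univ : Set Z)) ⟨x, mem_univ x⟩
      w'.continuous.continuousOn
    exact ⟨w' z, hw'pos z, fun y => hz (mem_univ y)⟩
  have hww' : ∀ z ∈ N, w' z = w z := fun z hz => by simp [hw', hN1 z hz]
  have hsup : SupH Q (N ∩ O) w' := by
    refine ⟨hw'D, fun f hf hf0 hfs => ?_⟩
    rw [local_congr' Q hw'D hw.1 hf hN hww' (hfs.trans inter_subset_left)]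
    exact hw.2 f hf hf0 (hfs.trans inter_subset_right)
  have hχs : tsupport χ ⊆ N ∩ O := by
    have : tsupport χ ⊆ closedBall x (Q.lam * (Q.lam * ρ)) := by
      refine closure_minimal ?_ isClosed_closedBall
      intro y hy
      by_contra hne
      rw [mem_closedBall, not_le] at hne
      exact hy (hχ0 y hne.le)
    exact subset_inter (this.trans hKN) (this.trans hball)
  obtain ⟨L, hL, hLlog, hLE⟩ := log_cacc Q hsup hm hmw hχ hχs
  obtain ⟨σ, hσc, hσconn, hσann, hσsep, hσosc⟩ := Q.CL x ρ hρ (hρρ.trans hρ0) L hL (χ * χ)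
    (fun y => mul_self_nonneg _) (fun y _ hy => by simp [hχ1 y hy]) 1 one_pos
  have hσball : σ ⊆ ball x (Q.lam * ρ) := fun y hy => (hσann y hy).2
  refine ⟨σ, inside σ (closedBall x ρ), hσc, hσconn.nonempty, hσball, hσsep,
    isOpen_inside hσc.isClosed _, ?_, ?_, ?_, frontier_inside hσc.isClosed _, ?_⟩
  · intro h
    obtain ⟨y, hy⟩ := hσconn.nonempty
    have : y ∈ inside σ (closedBall x ρ) ∩ σ := ⟨by rw [h]; trivial, hy⟩
    rw [inside_inter_self] at this
    exact this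
  · intro y hy
    refine diff_subset_inside _ _ ⟨hy, fun hyσ => ?_⟩
    have := (hσann y hyσ).1
    rw [mem_closedBall] at hy
    linarith
  · intro y hy
    by_contra hne
    have : y ∈ inside σ (closedBall x ρ) ∩ (ball x (Q.lam * ρ))ᶜ := ⟨hy, hne⟩
    rw [inside_inter hσsep] at this
    exact this
  · intro y hy z hz
    have hbN : ball x (Q.lam * ρ) ⊆ N := (ball_subset_closedBall.trans
      (closedBall_subset_closedBall (by nlinarith))).trans hKN
    have e1 : w' y = w y := hww' y (hbN (hσball hy))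
    have e2 : w' z = w z := hww' z (hbN (hσball hz))
    have hwy : 0 < w y := by rw [← e1]; exact hw'pos y
    have hwz : 0 < w z := by rw [← e2]; exact hw'pos z
    have h1 := (le_abs_self _).trans (hσosc y hy z hz)
    rw [hLlog, hLlog, e1, e2] at h1
    have h2 : Real.sqrt (Q.Γ L L (χ * χ)) ≤ Real.sqrt (4 * Q.C0) := by
      apply Real.sqrt_le_sqrt
      linarith
    have h3 : Real.log (w y) ≤ Q.C0 * Real.sqrt (4 * Q.C0) + 1 + Real.log (w z) := by
      have := mul_le_mul_of_nonneg_left h2 Q.C0_pos.le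
      linarith
    have h4 := Real.exp_le_exp.2 h3
    rw [Real.exp_log hwy, Real.exp_add, Real.exp_log hwz] at h4
    exact h4

/-- **Harnack**: inside the loop the function is bounded below by its values on the loop -/
theorem harnack_inside [CompactSpace Z] [LocallyConnectedSpace Z] (hirr : Irr Q) {O : Set Z}
    (hO : IsOpen O) {w : C(Z, ℝ)}
    (hw : SupH Q O w) (hpos : ∀ z ∈ O, 0 < w z) {x : Z} {ρ : ℝ} (hρ : 0 < ρ)
    (hρ0 : Q.lam * ρ ≤ Q.ρ0) (hball : closedBall x (Q.lam * (Q.lam * ρ)) ⊆ O) :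
    ∃ σ V : Set Z, IsCompact σ ∧ σ.Nonempty ∧ σ ⊆ ball x (Q.lam * ρ) ∧
      Separates σ (closedBall x ρ) (ball x (Q.lam * ρ))ᶜ ∧ IsOpen V ∧ V ≠ univ ∧
      closedBall x ρ ⊆ V ∧ V ⊆ ball x (Q.lam * ρ) ∧ frontier V ⊆ σ ∧
      ∀ y ∈ σ, ∀ z ∈ V ∪ σ, w y ≤ hC Q * w z := by
  obtain ⟨σ, V, hσc, hσn, hσb, hσs, hV, hVne, hbV, hVb, hfV, hosc⟩ :=
    harnack_loop Q hO hw hpos hρ hρ0 hball
  refine ⟨σ, V, hσc, hσn, hσb, hσs, hV, hVne, hbV, hVb, hfV, ?_⟩
  have hC0 := hC_pos Q
  have hlam := Q.one_lt_lam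
  have hVO : V ⊆ O := hVb.trans ((ball_subset_closedBall.trans
      (closedBall_subset_closedBall (by nlinarith [mul_pos (by linarith : (0:ℝ) < Q.lam) hρ]))).trans
      hball)
  intro y hy z hz
  rcases hz with hz | hz
  · have := min_principle Q hirr hw hV hVO hVne (M := w y / hC Q) (fun v hv => by
      rw [div_le_iff₀ hC0, mul_comm]
      exact hosc y hy v (hfV hv)) z hz
    rw [div_le_iff₀ hC0, mul_comm] at this
    exact this
  · exact hosc y hy z hz

/-- **Strong maximum principle** -/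
theorem inSMax [CompactSpace Z] [LocallyConnectedSpace Z] (hirr : Irr Q) : InSMax Q := by
  intro O U hO hU y hy hev
  have hlam := Q.one_lt_lam
  have hlam0 : 0 < Q.lam := by linarith
  obtain ⟨r, hr0, hr⟩ := Metric.eventually_nhds_iff_ball.1
    (hev.and (hO.mem_nhds hy))
  -- choose ρ
  set ρ : ℝ := min (Q.ρ0 / Q.lam) (r / (2 * (Q.lam * Q.lam))) with hρdef
  have hρ : 0 < ρ := lt_min (div_pos Q.ρ0_pos hlam0) (by positivity)
  have hρ0 : Q.lam * ρ ≤ Q.ρ0 := by
    have : ρ ≤ Q.ρ0 / Q.lam := min_le_left _ _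
    rw [le_div_iff₀ hlam0] at this
    linarith
  have hρr : Q.lam * (Q.lam * ρ) < r := by
    have : ρ ≤ r / (2 * (Q.lam * Q.lam)) := min_le_right _ _
    rw [le_div_iff₀ (by positivity)] at this
    nlinarith
  set M := U y with hM
  set O' : Set Z := ball y r with hO'
  have hball : closedBall y (Q.lam * (Q.lam * ρ)) ⊆ O' := closedBall_subset_ball hρr
  have hUO' : Harm Q O' U := hU.mono fun z hz => (hr z hz).2
  have hUle : ∀ z ∈ O', U z ≤ M := fun z hz => (hr z hz).1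
  have key : ∀ ε : ℝ, 0 < ε → ∀ z ∈ closedBall y ρ, M + ε - hC Q * ε ≤ U z := by
    intro ε hε
    set w : C(Z, ℝ) := ContinuousMap.const Z (M + ε) - U with hw
    have hwD : w ∈ Q.Dom := sub_mem Q (Q.const_mem _) hU.1
    have hwS : SupH Q O' w := by
      refine ⟨hwD, fun f hf _ hfs => ?_⟩
      rw [hw, sub_left Q (Q.const_mem _) hU.1 hf, const_left Q _ hf, hUO'.2 f hf hfs]
      simp
    have hwpos : ∀ z ∈ O', 0 < w z := fun z hz => by
      have := hUle z hz
      simp only [hw, ContinuousMap.sub_apply, ContinuousMap.const_apply]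
      linarith
    obtain ⟨σ, V, hσc, hσn, hσb, hσs, hV, hVne, hbV, hVb, hfV, hosc⟩ :=
      harnack_inside Q hirr isOpen_ball hwS hwpos hρ hρ0 hball
    have hyV : y ∈ V := hbV (mem_closedBall_self hρ.le)
    have h1 : ∀ v ∈ σ, M + ε - hC Q * ε ≤ U v := by
      intro v hv
      have := hosc v hv y (Or.inl hyV)
      simp only [hw, ContinuousMap.sub_apply, ContinuousMap.const_apply] at this
      have e : M + ε - U y = ε := by rw [hM]; ring
      rw [e] at this
      linarith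
    have hVO : V ⊆ O' := (hVb.trans (ball_subset_closedBall.trans
      (closedBall_subset_closedBall (by nlinarith [mul_pos hlam0 hρ])))).trans hball
    intro z hz
    exact min_principle Q hirr (harm_supH hUO') hV hVO hVne (fun v hv => h1 v (hfV hv)) z (hbV hz)
  filter_upwards [closedBall_mem_nhds y hρ] with z hz
  apply le_antisymm
  · apply hUle
    exact hball (closedBall_subset_closedBall (by nlinarith [mul_pos hlam0 hρ]) hz)
  · have hlim : Tendsto (fun ε : ℝ => M + ε - hC Q * ε) (𝓝[>] 0) (𝓝 M) := by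
      have : Tendsto (fun ε : ℝ => M + ε - hC Q * ε) (𝓝 0) (𝓝 (M + 0 - hC Q * 0)) := by
        apply Continuous.tendsto
        fun_prop
      simp only [mul_zero, add_zero, sub_zero] at this
      exact this.mono_left nhdsWithin_le_nhds
    refine le_of_tendsto hlim ?_
    filter_upwards [self_mem_nhdsWithin] with ε hε using key ε hε z hz

/-- harmonic functions are monotone -/
theorem monoOn_of_harm [CompactSpace Z] [PreconnectedSpace Z] (hirr : Irr Q) {O : Set Z}
    {U : C(Z, ℝ)} (hO : O ≠ univ) (hU : Harm Q O U) : MonoOn U O := by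
  intro D hD hDne hDO x hx
  have hDO' : D ⊆ O := subset_closure.trans hDO
  have hDu : D ≠ univ := fun h => hO (univ_subset_iff.1 (h ▸ hDO'))
  have hfr : (frontier D).Nonempty := by
    rw [nonempty_iff_ne_empty]
    intro h
    rcases isClopen_iff.1 (isClopen_iff_frontier_eq_empty.2 h) with h1 | h1
    · exact hDne.ne_empty h1
    · exact hDu h1
  have hfc : IsCompact (frontier D) := isClosed_frontier.isCompact
  obtain ⟨y1, hy1, hmax⟩ := hfc.exists_isMaxOn hfr U.continuous.continuousOn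
  obtain ⟨y2, hy2, hmin⟩ := hfc.exists_isMinOn hfr U.continuous.continuousOn
  exact ⟨⟨y1, hy1, max_principle Q hirr (harm_subH hU) hD hDO' hDu (fun y hy => hmax hy) x hx⟩,
    ⟨y2, hy2, min_principle Q hirr (harm_supH hU) hD hDO' hDu (fun y hy => hmin hy) x hx⟩⟩

end Crest.Agent.R193.CPa_Loop
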