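import Mathlib
import Crest.Agent.R193.CPDefs

/-!
# R193, block D: common definitions on top of `CPDefs` (charts, Laplacian on `ℝ × ℝ`)
-/

set_option autoImplicit false

noncomputable section

open Set Filter Topology MeasureTheory

namespace Crest.Agent.R193

variable {G Z : Type} [Group G] [MetricSpace Z] [MulAction G Z] {S : Setup G Z}

/-- Laplacian of a function on `ℝ × ℝ` -/
def lap2 (ψ : ℝ × ℝ → ℝ) (z : ℝ × ℝ) : ℝ :=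
  iteratedFDeriv ℝ 2 ψ z ![(1, 0), (1, 0)] + iteratedFDeriv ℝ 2 ψ z ![(0, 1), (0, 1)]

/-- (C1) `Γ (ψ ∘ F) w = - ∫ w (Δ ψ)(F) dν` for `w` supported where the pair is conformal. -/
def InC1 (Q : DForm S) : Prop :=
  ∀ (O : Set Z) (U V : C(Z, ℝ)), IsOpen O → ConfOn Q O U V → ∀ ψ : ℝ × ℝ → ℝ,
    ContDiff ℝ (⊤ : ℕ∞) ψ → ∀ P L : C(Z, ℝ), (∀ x, P x = ψ (U x, V x)) →
    (∀ x, L x = lap2 ψ (U x, V x)) →
    P ∈ Q.Dom ∧ ∀ w ∈ Q.Dom, tsupport w ⊆ O → Q.Γ P w 1 = - Q.Γ U U (w * L)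

/-- (LOEW, unit scale) -/
def InLoewUnit (Q : DForm S) : Prop :=
  ∀ d : ℝ, 0 < d → ∃ c > 0, ∀ A B : Set Z,
    IsPreconnected A → IsPreconnected B → ∀ a ∈ A, ∀ a' ∈ A, ∀ b ∈ B, ∀ b' ∈ B, d ≤ dist a a' →
    d ≤ dist b b' → ∀ w ∈ Q.Dom, (∀ x ∈ A, 1 ≤ w x) → (∀ x ∈ B, w x ≤ 0) → c ≤ Q.Γ w w 1

/-- (OSC) small scale oscillation of monotone functions is controlled by the energy -/
def InOsc (Q : DForm S) : Prop :=
  ∀ (x : Z) (O : Set Z), O ∈ 𝓝 x → ∀ η : ℝ, 0 < η → ∃ r > 0, ∀ u ∈ Q.Dom, MonoOn u O →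
    ∀ φ : C(Z, ℝ), (∀ y, 0 ≤ φ y) → (∀ y ∈ O, 1 ≤ φ y) →
      ∀ y ∈ Metric.closedBall x r, ∀ z ∈ Metric.closedBall x r,
        (u y - u z) ^ 2 ≤ η * Q.Γ u u φ

/-- (ZOOM) zooming at `z` : `g k → z` locally uniformly off `a` (along an ultrafilter) -/
def InZoom (G Z : Type) [Group G] [MetricSpace Z] [MulAction G Z] : Prop :=
  ∀ z : Z, ∃ (a : Z) (g : ℕ → G), ∀ K : Set Z, IsCompact K →
    a ∉ K → ∀ U ∈ 𝓝 z, ∀ᶠ k in (hyperfilter ℕ : Filter ℕ), ∀ x ∈ K, g k • x ∈ U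

/-- output of D5 + D6 -/
def OutPair (Q : DForm S) : Prop :=
  ∃ (a : Z) (F : Z → ℝ × ℝ),
    (∀ K : Set Z, IsCompact K → a ∉ K → ∃ O : Set Z, IsOpen O ∧ K ⊆ O ∧ ∃ U V : C(Z, ℝ),
      ConfOn Q O U V ∧ ∀ x ∈ O, F x = (U x, V x)) ∧
    ¬ ∃ c, ∀ x, x ≠ a → F x = c

/-- An injective conformal chart: `F = (U, V)` maps the open set `W` bijectively onto the open
square `ball p ρ`, the boundary of `W` is mapped off the square, and `F_* ν = c · Leb`. -/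
structure ConfChart (Q : DForm S) where
  O : Set Z
  O_open : IsOpen O
  U : C(Z, ℝ)
  V : C(Z, ℝ)
  conf : ConfOn Q O U V
  W : Set Z
  W_open : IsOpen W
  W_sub : closure W ⊆ O
  W_ne : Wᶜ.Nonempty
  p : ℝ × ℝ
  ρ : ℝ
  ρ_pos : 0 < ρ
  inj : InjOn (fun x => (U x, V x)) W
  img : (fun x => (U x, V x)) '' W = Metric.ball p ρ
  bdry : ∀ x ∈ frontier W, (U x, V x) ∉ Metric.ball p ρ
  c : ℝ
  c_pos : 0 < c
  push : PushC Q U V W p ρ c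

end Crest.Agent.R193
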