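import Mathlib

/-! Row 193 (helper96), block H4: properties of the action of a hyperbolic group on its boundary
that are consumed by Part K (cocompactness and properness on distinct triples, convergence
property).  Abstract over a small structure `BAct`. -/

set_option autoImplicit false

namespace Crest.Agent.R193.H4

open Topology Filter Set

/-- minimal data about a hyperbolic group acting on its boundary: `bb x y = (x|y)` for distinct
boundary points, `bg x g = (x|g)`. -/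
structure BAct (G Z : Type*) [Group G] [TopologicalSpace Z] [MulAction G Z] where
  len : G → ℕ
  bb : Z → Z → ℝ
  bg : Z → G → ℝ
  C : ℝ
  hC : 0 ≤ C
  fin : ∀ n : ℕ, {g : G | len g ≤ n}.Finite
  len_inv : ∀ g, len g⁻¹ = len g
  bb_comm : ∀ x y, bb x y = bb y x
  bb_nonneg : ∀ x y, x ≠ y → 0 ≤ bb x y
  h1 : ∀ x y z, x ≠ y → y ≠ z → x ≠ z → min (bb x y) (bb y z) - C ≤ bb x z
  h2 : ∀ x y g, x ≠ y → min (bg x g) (bg y g) - C ≤ bb x y
  h3 : ∀ x y g, x ≠ y → min (bb x y) (bg y g) - C ≤ bg x g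
  id : ∀ x y g, x ≠ y → |bb (g • x) (g • y) - (bb x y - bg x g⁻¹ - bg y g⁻¹ + len g)| ≤ C
  ray : ∀ (x : Z) (n : ℕ), ∃ g, len g = n ∧ n - C ≤ bg x g
  nhds1 : ∀ x, ∀ W ∈ 𝓝 x, ∃ N : ℝ, ∀ y, y ≠ x → N < bb x y → y ∈ W
  nhds2 : ∀ x (N : ℝ), ∃ W ∈ 𝓝 x, ∀ y ∈ W, y ≠ x → N < bb x y

namespace BAct

variable {G Z : Type*} [Group G] [TopologicalSpace Z] [MulAction G Z] (A : BAct G Z)

include A

theorem center_aux {x y z : Z} (hxy : x ≠ y) (hxz : x ≠ z) (hyz : y ≠ z)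
    (h1 : A.bb x z ≤ A.bb x y) (h2 : A.bb y z ≤ A.bb x y) :
    ∃ g : G, A.bb (g • x) (g • y) ≤ 1 + 6 * A.C ∧ A.bb (g • x) (g • z) ≤ 1 + 6 * A.C ∧
      A.bb (g • y) (g • z) ≤ 1 + 6 * A.C := by
  have hC := A.hC
  set n : ℕ := ⌊A.bb x y⌋₊ with hn
  have hn1 : (n : ℝ) ≤ A.bb x y := Nat.floor_le (A.bb_nonneg x y hxy)
  have hn2 : A.bb x y < n + 1 := Nat.lt_floor_add_one _
  obtain ⟨p, hp, hxp⟩ := A.ray x n
  have hyp : n - 2 * A.C ≤ A.bg y p := by
    have := A.h3 y x p hxy.symm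
    rw [A.bb_comm y x] at this
    have h4 : n - A.C ≤ min (A.bb x y) (A.bg x p) := le_min (by linarith) hxp
    linarith
  have hzp1 : A.bb x z - 1 - 2 * A.C ≤ A.bg z p := by
    have := A.h3 z x p hxz.symm
    rw [A.bb_comm z x] at this
    have h4 : A.bb x z - 1 - A.C ≤ min (A.bb x z) (A.bg x p) := le_min (by linarith) (by linarith)
    linarith
  have hzp2 : A.bb y z - 1 - 3 * A.C ≤ A.bg z p := by
    have := A.h3 z y p hyz.symm
    rw [A.bb_comm z y] at this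
    have h4 : A.bb y z - 1 - 2 * A.C ≤ min (A.bb y z) (A.bg y p) := le_min (by linarith) (by linarith)
    linarith
  have e1 := (abs_le.mp (A.id x y p⁻¹ hxy)).2
  have e2 := (abs_le.mp (A.id x z p⁻¹ hxz)).2
  have e3 := (abs_le.mp (A.id y z p⁻¹ hyz)).2
  rw [inv_inv, A.len_inv, hp] at e1 e2 e3
  refine ⟨p⁻¹, ?_, ?_, ?_⟩ <;> linarith

/-- cocompactness on triples, in terms of the products -/
theorem center {x y z : Z} (hxy : x ≠ y) (hxz : x ≠ z) (hyz : y ≠ z) :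
    ∃ g : G, A.bb (g • x) (g • y) ≤ 1 + 6 * A.C ∧ A.bb (g • x) (g • z) ≤ 1 + 6 * A.C ∧
      A.bb (g • y) (g • z) ≤ 1 + 6 * A.C := by
  rcases le_total (A.bb x z) (A.bb x y) with h1 | h1
  · rcases le_total (A.bb y z) (A.bb x y) with h2 | h2
    · exact A.center_aux hxy hxz hyz h1 h2
    · -- `bb y z` is the largest
      obtain ⟨g, e1, e2, e3⟩ := A.center_aux (x := y) (y := z) (z := x) hyz hxy.symm hxz.symm
        (by rw [A.bb_comm y x]; exact h2) (by rw [A.bb_comm z x]; exact h1.trans h2)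
      exact ⟨g, by rw [A.bb_comm]; exact e2, by rw [A.bb_comm]; exact e3, e1⟩
  · rcases le_total (A.bb y z) (A.bb x z) with h2 | h2
    · -- `bb x z` is the largest
      obtain ⟨g, e1, e2, e3⟩ := A.center_aux (x := x) (y := z) (z := y) hxz hxy hyz.symm
        h1 (by rw [A.bb_comm z y]; exact h2)
      exact ⟨g, e2, e1, by rw [A.bb_comm]; exact e3⟩
    · obtain ⟨g, e1, e2, e3⟩ := A.center_aux (x := y) (y := z) (z := x) hyz hxy.symm hxz.symm
        (by rw [A.bb_comm y x]; exact h1.trans h2) (by rw [A.bb_comm z x]; exact h2)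
      exact ⟨g, by rw [A.bb_comm]; exact e2, by rw [A.bb_comm]; exact e3, e1⟩

/-- points with large product are close -/
theorem exists_bound_of_open [CompactSpace Z] (W : Set (Z × Z)) (hW : IsOpen W)
    (hd : ∀ x, (x, x) ∈ W) : ∃ N : ℝ, ∀ x y, x ≠ y → N < A.bb x y → (x, y) ∈ W := by
  classical
  have key : ∀ ξ : Z, ∃ U ∈ 𝓝 ξ, ∃ N : ℝ, ∀ x ∈ U, ∀ y, x ≠ y → N < A.bb x y → (x, y) ∈ W := by
    intro ξ
    have hW' : W ∈ 𝓝 (ξ, ξ) := hW.mem_nhds (hd ξ)
    rw [nhds_prod_eq] at hW'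
    obtain ⟨V1, hV1, V2, hV2, hV⟩ := Filter.mem_prod_iff.mp hW'
    obtain ⟨N, hN⟩ := A.nhds1 ξ (V1 ∩ V2) (Filter.inter_mem hV1 hV2)
    obtain ⟨U, hU, hUN⟩ := A.nhds2 ξ (N + A.C)
    refine ⟨U, hU, N + A.C, ?_⟩
    have hC := A.hC
    intro x hx y hxy hNxy
    apply hV
    have hxV : x ∈ V1 ∩ V2 := by
      by_cases hxξ : x = ξ
      · subst hxξ; exact ⟨mem_of_mem_nhds hV1, mem_of_mem_nhds hV2⟩
      · exact hN x hxξ (by have := hUN x hx hxξ; linarith)
    have hyV : y ∈ V1 ∩ V2 := by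
      by_cases hyξ : y = ξ
      · subst hyξ; exact ⟨mem_of_mem_nhds hV1, mem_of_mem_nhds hV2⟩
      · by_cases hxξ : x = ξ
        · subst hxξ; exact hN y hyξ (by linarith)
        · refine hN y hyξ ?_
          have h4 := A.h1 ξ x y (Ne.symm hxξ) hxy (Ne.symm hyξ)
          have h5 := hUN x hx hxξ
          have h6 : N + A.C < min (A.bb ξ x) (A.bb x y) := lt_min h5 hNxy
          linarith
    exact ⟨hxV.1, hyV.2⟩
  choose U hU N hN using key
  obtain ⟨t, ht⟩ := isCompact_univ.elim_nhds_subcover U (fun x _ => hU x)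
  by_cases hne : t.Nonempty
  · refine ⟨t.sup' hne N, fun x y hxy h => ?_⟩
    obtain ⟨ξ, hξ, hx⟩ := Set.mem_iUnion₂.mp (ht.2 (Set.mem_univ x))
    exact hN ξ x hx y hxy (lt_of_le_of_lt (Finset.le_sup' N hξ) h)
  · refine ⟨0, fun x y _ _ => ?_⟩
    rw [Finset.not_nonempty_iff_eq_empty] at hne
    have := ht.2 (Set.mem_univ x)
    rw [hne] at this
    simp at this

/-- products are bounded on compact sets off the diagonal -/
theorem exists_bound_of_compact [CompactSpace Z] [T2Space Z] (K : Set (Z × Z)) (hK : IsCompact K)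
    (hd : ∀ p ∈ K, p.1 ≠ p.2) : ∃ N : ℝ, ∀ p ∈ K, A.bb p.1 p.2 ≤ N := by
  obtain ⟨N, hN⟩ := A.exists_bound_of_open Kᶜ hK.isClosed.isOpen_compl
    (fun x hx => hd (x, x) hx rfl)
  refine ⟨N, fun p hp => ?_⟩
  by_contra hcon
  push Not at hcon
  exact hN p.1 p.2 (hd p hp) hcon hp

/-- the closure of the set of pairs with bounded product misses the diagonal -/
theorem closure_off_diag (R : ℝ) (p : Z × Z)
    (hp : p ∈ closure {q : Z × Z | q.1 ≠ q.2 ∧ A.bb q.1 q.2 ≤ R}) : p.1 ≠ p.2 := by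
  intro h
  obtain ⟨x, y⟩ := p
  simp only at h
  subst h
  obtain ⟨W, hW, hWN⟩ := A.nhds2 x (R + A.C)
  have hC := A.hC
  have hWW : W ×ˢ W ∈ 𝓝 (x, x) := prod_mem_nhds hW hW
  obtain ⟨⟨u, v⟩, ⟨hu, hv⟩, huv, hR⟩ := mem_closure_iff_nhds.mp hp _ hWW
  simp only at hu hv huv hR
  by_cases hux : u = x
  · subst hux
    have := hWN v hv (Ne.symm huv)
    linarith
  · by_cases hvx : v = x
    · subst hvx
      have := hWN u hu huv
      rw [A.bb_comm] at this
      linarith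
    · have h1 := hWN u hu hux
      have h2 := hWN v hv hvx
      have h3 := A.h1 u x v hux (Ne.symm hvx) huv
      rw [A.bb_comm u x] at h3
      have h4 : R + A.C < min (A.bb x u) (A.bb x v) := lt_min h1 h2
      linarith

/-- cocompactness on distinct triples -/
theorem cocompact [CompactSpace Z] : ∃ K : Set (Z × Z), IsCompact K ∧ (∀ p ∈ K, p.1 ≠ p.2) ∧
    ∀ x y z : Z, x ≠ y → x ≠ z → y ≠ z →
      ∃ g : G, (g • x, g • y) ∈ K ∧ (g • x, g • z) ∈ K ∧ (g • y, g • z) ∈ K := by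
  refine ⟨closure {q : Z × Z | q.1 ≠ q.2 ∧ A.bb q.1 q.2 ≤ 1 + 6 * A.C},
    isClosed_closure.isCompact, fun p hp => A.closure_off_diag _ p hp, ?_⟩
  intro x y z hxy hxz hyz
  obtain ⟨g, e1, e2, e3⟩ := A.center hxy hxz hyz
  have inj : Function.Injective (fun x : Z => g • x) := MulAction.injective g
  exact ⟨g, subset_closure ⟨fun h => hxy (inj h), e1⟩, subset_closure ⟨fun h => hxz (inj h), e2⟩,
    subset_closure ⟨fun h => hyz (inj h), e3⟩⟩

/-- among three points with bounded products two have bounded product with `g` -/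
theorem two_small {R : ℝ} {x y z : Z} (g : G) (hxy : x ≠ y) (hxz : x ≠ z) (hyz : y ≠ z)
    (h1 : A.bb x y ≤ R) (h2 : A.bb x z ≤ R) (h3 : A.bb y z ≤ R) :
    (A.bg x g ≤ R + A.C ∧ A.bg y g ≤ R + A.C) ∨ (A.bg x g ≤ R + A.C ∧ A.bg z g ≤ R + A.C) ∨
      (A.bg y g ≤ R + A.C ∧ A.bg z g ≤ R + A.C) := by
  have key : ∀ u v : Z, u ≠ v → A.bb u v ≤ R → A.bg u g ≤ R + A.C ∨ A.bg v g ≤ R + A.C := by
    intro u v huv hR
    by_contra hcon
    push Not at hcon
    have h4 := A.h2 u v g huv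
    have h5 : R + A.C < min (A.bg u g) (A.bg v g) := lt_min hcon.1 hcon.2
    linarith
  rcases key x y hxy h1 with hx | hy
  · rcases key y z hyz h3 with hy | hz
    · exact Or.inl ⟨hx, hy⟩
    · exact Or.inr (Or.inl ⟨hx, hz⟩)
  · rcases key x z hxz h2 with hx | hz
    · exact Or.inl ⟨hx, hy⟩
    · exact Or.inr (Or.inr ⟨hy, hz⟩)

/-- properness on distinct triples -/
theorem proper [CompactSpace Z] [T2Space Z] (K : Set (Z × Z)) (hK : IsCompact K)
    (hd : ∀ p ∈ K, p.1 ≠ p.2) :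
    {g : G | ∃ x y z : Z, (x, y) ∈ K ∧ (x, z) ∈ K ∧ (y, z) ∈ K ∧ (g • x, g • y) ∈ K ∧
      (g • x, g • z) ∈ K ∧ (g • y, g • z) ∈ K}.Finite := by
  obtain ⟨N, hN⟩ := A.exists_bound_of_compact K hK hd
  refine (A.fin ⌈3 * N + 3 * A.C⌉₊).subset ?_
  rintro g ⟨x, y, z, k1, k2, k3, k4, k5, k6⟩
  show A.len g ≤ _
  have hxy := hd _ k1
  have hxz := hd _ k2
  have hyz := hd _ k3
  simp only at hxy hxz hyz
  have key : ∀ u v : Z, u ≠ v → A.bb (g • u) (g • v) ≤ N → A.bb u v ≤ N →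
      A.bg u g⁻¹ ≤ N + A.C → A.bg v g⁻¹ ≤ N + A.C → A.len g ≤ ⌈3 * N + 3 * A.C⌉₊ := by
    intro u v huv h1 h2 h3 h4
    have h5 := (abs_le.mp (A.id u v g huv)).1
    have h6 := A.bb_nonneg u v huv
    have : (A.len g : ℝ) ≤ 3 * N + 3 * A.C := by linarith
    have h7 : (A.len g : ℝ) ≤ (⌈3 * N + 3 * A.C⌉₊ : ℝ) := this.trans (Nat.le_ceil _)
    exact_mod_cast h7
  rcases A.two_small g⁻¹ hxy hxz hyz (hN _ k1) (hN _ k2) (hN _ k3) with h | h | h
  · exact key x y hxy (hN _ k4) (hN _ k1) h.1 h.2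
  · exact key x z hxz (hN _ k5) (hN _ k2) h.1 h.2
  · exact key y z hyz (hN _ k6) (hN _ k3) h.1 h.2

/-- an infinite set of group elements collapses some pair out of three given points -/
theorem collapse' (T : Set G) (hT : T.Infinite) (N : ℝ) {x y z : Z} (hxy : x ≠ y) (hxz : x ≠ z)
    (hyz : y ≠ z) :
    ∃ g ∈ T, N < A.bb (g • x) (g • y) ∨ N < A.bb (g • x) (g • z) ∨ N < A.bb (g • y) (g • z) := by
  set R : ℝ := max (A.bb x y) (max (A.bb x z) (A.bb y z)) with hR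
  have r1 : A.bb x y ≤ R := le_max_left _ _
  have r2 : A.bb x z ≤ R := (le_max_left _ _).trans (le_max_right _ _)
  have r3 : A.bb y z ≤ R := (le_max_right _ _).trans (le_max_right _ _)
  -- an element of large length
  obtain ⟨g, hgT, hg⟩ : ∃ g ∈ T, g ∉ {g : G | A.len g ≤ ⌈N + 2 * R + 4 * A.C⌉₊} := by
    by_contra hcon
    push Not at hcon
    exact hT ((A.fin _).subset hcon)
  have hlen : N + 2 * R + 4 * A.C < A.len g := by
    simp only [Set.mem_ofPred_eq, not_le] at hg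
    exact lt_of_le_of_lt (Nat.le_ceil _) (by exact_mod_cast hg)
  have hC := A.hC
  have key : ∀ u v : Z, u ≠ v → A.bg u g⁻¹ ≤ R + A.C → A.bg v g⁻¹ ≤ R + A.C →
      N < A.bb (g • u) (g • v) := by
    intro u v huv h3 h4
    have h5 := (abs_le.mp (A.id u v g huv)).1
    have h6 := A.bb_nonneg u v huv
    linarith
  refine ⟨g, hgT, ?_⟩
  rcases A.two_small g⁻¹ hxy hxz hyz r1 r2 r3 with h | h | h
  · exact Or.inl (key x y hxy h.1 h.2)
  · exact Or.inr (Or.inl (key x z hxz h.1 h.2))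
  · exact Or.inr (Or.inr (key y z hyz h.1 h.2))

/-- an infinite set of group elements collapses some pair out of three given points -/
theorem collapse [CompactSpace Z] (T : Set G) (hT : T.Infinite) (W : Set (Z × Z)) (hW : IsOpen W)
    (hd : ∀ x, (x, x) ∈ W) {x y z : Z} (hxy : x ≠ y) (hxz : x ≠ z) (hyz : y ≠ z) :
    ∃ g ∈ T, (g • x, g • y) ∈ W ∨ (g • x, g • z) ∈ W ∨ (g • y, g • z) ∈ W := by
  obtain ⟨N, hN⟩ := A.exists_bound_of_open W hW hd
  obtain ⟨g, hg, h⟩ := A.collapse' T hT N hxy hxz hyz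
  have inj : Function.Injective (fun x : Z => g • x) := MulAction.injective g
  refine ⟨g, hg, ?_⟩
  rcases h with h | h | h
  · exact Or.inl (hN _ _ (fun e => hxy (inj e)) h)
  · exact Or.inr (Or.inl (hN _ _ (fun e => hxz (inj e)) h))
  · exact Or.inr (Or.inr (hN _ _ (fun e => hyz (inj e)) h))

end BAct

end Crest.Agent.R193.H4
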