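import Mathlib
import Crest.Agent.R193.Defs
import Crest.Agent.R193.H4_Core

/-! Row 193 (helper96), block H4: from `Setup` to properness / cocompactness on distinct triples and
the collapsing property (`KT1`, `KT2`). -/

set_option autoImplicit false

noncomputable section

open Set Filter Topology

namespace Crest.Agent.R193.K_Triples

open Crest.Agent.R193

variable {G Z : Type} [Group G] [MetricSpace Z] [MulAction G Z] (S : Setup G Z)

/-- `(x|y)` in terms of the visual metric -/
def bb (S : Setup G Z) (x y : Z) : ℝ := -Real.log (dist x y) / S.ε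

theorem bb_comm (x y : Z) : bb S x y = bb S y x := by unfold bb; rw [dist_comm]

theorem gp_le_left (g h : G) : gpOf S.len g h ≤ S.len g := by
  unfold gpOf
  have h1 : S.len h ≤ S.len g + S.len (g⁻¹ * h) := by
    have := S.len_mul g (g⁻¹ * h)
    rwa [mul_inv_cancel_left] at this
  have h2 : (S.len h : ℝ) ≤ S.len g + S.len (g⁻¹ * h) := by exact_mod_cast h1
  linarith

theorem gp_comm (g h : G) : gpOf S.len g h = gpOf S.len h g := by
  unfold gpOf
  have : S.len (g⁻¹ * h) = S.len (h⁻¹ * g) := by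
    rw [← S.len_inv (g⁻¹ * h), mul_inv_rev, inv_inv]
  rw [this]; ring

theorem gp_le_right (g h : G) : gpOf S.len g h ≤ S.len h := by
  rw [gp_comm]; exact gp_le_left S h g

theorem gp_nonneg (g h : G) : 0 ≤ gpOf S.len g h := by
  unfold gpOf
  have h1 := S.len_mul g⁻¹ h
  rw [S.len_inv] at h1
  have h2 : (S.len (g⁻¹ * h) : ℝ) ≤ S.len g + S.len h := by exact_mod_cast h1
  linarith

theorem min_s_le (x y : Z) (hxy : x ≠ y) (g : G) : min (S.s x g) (S.s y g) - S.δ ≤ bb S x y := by
  have h1 := S.dist_le x y g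
  have h2 : 0 < dist x y := dist_pos.mpr hxy
  have h3 := Real.log_le_log h2 h1
  rw [Real.log_exp] at h3
  unfold bb
  rw [le_div_iff₀ S.ε_pos]
  nlinarith [S.ε_pos]

theorem bb_ge (x y : Z) (hxy : x ≠ y) : -S.δ ≤ bb S x y := by
  have h1 := min_s_le S x y hxy 1
  have h2 := S.s_nonneg x 1
  have h3 := S.s_nonneg y 1
  have h4 : 0 ≤ min (S.s x 1) (S.s y 1) := le_min h2 h3
  linarith

/-- along the ray to `y`, `(x|h) ≈ (x|y)` -/
theorem ray_approx (x y : Z) (hxy : x ≠ y) (h : G) (hh : bb S x y + S.δ < S.s y h) :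
    |S.s x h - bb S x y| ≤ S.δ := by
  have hδ := S.one_le_δ
  have h1 := min_s_le S x y hxy h
  have h2 := S.le_s y x h hxy.symm
  have h2' : min (S.s y h) (bb S x y) - S.δ ≤ S.s x h := by
    rw [bb_comm]; exact h2
  have h3 : min (S.s y h) (bb S x y) = bb S x y := min_eq_right (by linarith)
  rw [h3] at h2'
  rw [abs_le]
  constructor
  · linarith
  · rcases le_total (S.s x h) (S.s y h) with h4 | h4
    · rw [min_eq_left h4] at h1; linarith
    · rw [min_eq_right h4] at h1; linarith

theorem gp_approx (y : Z) (h k : G) (hh : (S.len k : ℝ) ≤ S.s y h) :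
    |gpOf S.len h k - S.s y k| ≤ S.δ := by
  have h1 := S.hyp_s1 y h k
  have h2 := S.hyp_s2 y h k
  have h3 := gp_le_right S h k
  have h4 := S.s_le y k
  rw [min_eq_right (by linarith)] at h1
  rw [min_eq_right (by linarith)] at h2
  rw [abs_le]
  constructor <;> linarith

/-- the cocycle identity for pairs of boundary points -/
theorem bb_smul (x y : Z) (hxy : x ≠ y) (k : G) :
    |bb S (k • x) (k • y) - (bb S x y - S.s x k⁻¹ - S.s y k⁻¹ + S.len k)| ≤ 4 * S.δ := by
  have hδ := S.one_le_δ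
  have inj : k • x ≠ k • y := fun h => hxy (MulAction.injective k h)
  -- choose a far point on the ray to `y`
  set B : ℝ := |bb S x y| + |bb S (k • x) (k • y)| + 4 * S.len k + 10 * S.δ with hB
  obtain ⟨h, hlen, hs⟩ := S.ray y ⌈B⌉₊
  have hs' : B - S.δ ≤ S.s y h := by
    have := Nat.le_ceil B
    linarith
  have hk0 : (0 : ℝ) ≤ S.len k := Nat.cast_nonneg _
  have a1 := abs_nonneg (bb S x y)
  have a2 := abs_nonneg (bb S (k • x) (k • y))
  have a3 := le_abs_self (bb S x y)
  have a4 := le_abs_self (bb S (k • x) (k • y))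
  have e1 := ray_approx S x y hxy h (by linarith)
  have e2 := gp_approx S y h k⁻¹ (by rw [S.len_inv]; linarith)
  have e3 := S.cocycle x h k
  have e4 := S.cocycle y h k
  have hyk := S.s_le y k⁻¹
  rw [S.len_inv] at hyk
  have hgk := gp_le_right S h k⁻¹
  rw [S.len_inv] at hgk
  have e5 : bb S (k • x) (k • y) + S.δ < S.s (k • y) (k * h) := by
    have := (abs_le.mp e4).1
    linarith
  have e6 := ray_approx S (k • x) (k • y) inj (k * h) e5
  rw [abs_le] at *
  constructor <;> linarith [e1.1, e1.2, e2.1, e2.2, e3.1, e3.2, e6.1, e6.2]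

/-- hyperbolicity for three boundary points -/
theorem bb_hyp (x y z : Z) (hxy : x ≠ y) (hyz : y ≠ z) (hxz : x ≠ z) :
    min (bb S x y) (bb S y z) - 3 * S.δ ≤ bb S x z := by
  have hδ := S.one_le_δ
  set B : ℝ := |bb S x y| + |bb S y z| + 2 * S.δ with hB
  obtain ⟨h, hlen, hs⟩ := S.ray y ⌈B⌉₊
  have hs' : B - S.δ ≤ S.s y h := by
    have := Nat.le_ceil B
    linarith
  have a1 := abs_nonneg (bb S x y)
  have a2 := abs_nonneg (bb S y z)
  have a3 := le_abs_self (bb S x y)
  have a4 := le_abs_self (bb S y z)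
  have e1 := S.le_s y x h hxy.symm
  have e2 := S.le_s y z h hyz
  have b1 : bb S y x ≤ S.s y h := by rw [bb_comm]; linarith
  have b2 : bb S y z ≤ S.s y h := by linarith
  have e1' : bb S x y - S.δ ≤ S.s x h := by
    have : min (S.s y h) (-Real.log (dist y x) / S.ε) = bb S y x := min_eq_right b1
    rw [this, bb_comm] at e1; exact e1
  have e2' : bb S y z - S.δ ≤ S.s z h := by
    have : min (S.s y h) (-Real.log (dist y z) / S.ε) = bb S y z := min_eq_right b2
    rw [this] at e2; exact e2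
  have e3 := min_s_le S x z hxz h
  have e4 : min (bb S x y) (bb S y z) - S.δ ≤ min (S.s x h) (S.s z h) :=
    le_min (by linarith [min_le_left (bb S x y) (bb S y z)])
      (by linarith [min_le_right (bb S x y) (bb S y z)])
  linarith

theorem lt_bb_iff (x y : Z) (hxy : x ≠ y) (N : ℝ) :
    N < bb S x y ↔ dist x y < Real.exp (-S.ε * N) := by
  have h2 : 0 < dist x y := dist_pos.mpr hxy
  unfold bb
  rw [lt_div_iff₀ S.ε_pos, ← Real.log_lt_iff_lt_exp h2]
  constructor <;> intro h <;> linarith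

theorem bb_le_iff (x y : Z) (hxy : x ≠ y) (N : ℝ) :
    bb S x y ≤ N ↔ Real.exp (-S.ε * N) ≤ dist x y := by
  rw [← not_lt, lt_bb_iff S x y hxy, not_lt]

/-- the abstract data used in `H4_Core` -/
def toBAct : H4.BAct G Z where
  len := S.len
  bb := fun x y => bb S x y + S.δ
  bg := S.s
  C := 5 * S.δ
  hC := by linarith [S.one_le_δ]
  fin := S.finite_ball
  len_inv := S.len_inv
  bb_comm := fun x y => by rw [bb_comm]
  bb_nonneg := fun x y hxy => by linarith [bb_ge S x y hxy]
  h1 := fun x y z hxy hyz hxz => by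
    have := bb_hyp S x y z hxy hyz hxz
    have hδ := S.one_le_δ
    rw [min_add_add_right]
    linarith
  h2 := fun x y g hxy => by
    have := min_s_le S x y hxy g
    have hδ := S.one_le_δ
    linarith
  h3 := fun x y g hxy => by
    have h := S.le_s y x g hxy.symm
    have hδ := S.one_le_δ
    have h' : min (bb S x y) (S.s y g) - S.δ ≤ S.s x g := by
      rw [min_comm, bb_comm]; exact h
    have h4 : min (bb S x y + S.δ) (S.s y g) ≤ min (bb S x y) (S.s y g) + S.δ := by
      rw [← min_add_add_right]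
      exact min_le_min le_rfl (by linarith)
    linarith
  id := fun x y g hxy => by
    have h := bb_smul S x y hxy g
    rw [abs_le] at h ⊢
    have hδ := S.one_le_δ
    constructor <;> linarith [h.1, h.2]
  ray := fun x n => by
    obtain ⟨g, h1, h2⟩ := S.ray x n
    exact ⟨g, h1, by linarith [S.one_le_δ]⟩
  nhds1 := fun x W hW => by
    obtain ⟨r, hr, hrW⟩ := Metric.mem_nhds_iff.mp hW
    refine ⟨-Real.log r / S.ε + S.δ, fun y hyx h => hrW ?_⟩
    have h1 : -Real.log r / S.ε < bb S x y := by linarith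
    rw [lt_bb_iff S x y hyx.symm] at h1
    rw [Metric.mem_ball, dist_comm]
    refine lt_of_lt_of_le h1 (le_of_eq ?_)
    have : -S.ε * (-Real.log r / S.ε) = Real.log r := by
      have := S.ε_pos.ne'
      field_simp
    rw [this, Real.exp_log hr]
  nhds2 := fun x N => by
    refine ⟨Metric.ball x (Real.exp (-S.ε * N)), Metric.ball_mem_nhds _ (Real.exp_pos _),
      fun y hy hyx => ?_⟩
    have h1 : N < bb S x y := by
      rw [lt_bb_iff S x y hyx.symm]
      rwa [Metric.mem_ball, dist_comm] at hy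
    linarith [S.one_le_δ]

/-- KT1: an infinite set of group elements collapses some pair out of three points -/
theorem KT1 {G Z : Type} [Group G] [MetricSpace Z] [MulAction G Z] (S : Setup G Z) (a b c : Z)
    (hab : a ≠ b) (hbc : b ≠ c) (hac : a ≠ c) (T : Set G) (hT : T.Infinite) (r : ℝ) (hr : 0 < r) :
    ∃ g ∈ T, ∃ x y : Z, (x = a ∨ x = b) ∧ (y = b ∨ y = c) ∧ x ≠ y ∧ dist (g • x) (g • y) ≤ r := by
  obtain ⟨g, hg, h⟩ := (toBAct S).collapse' T hT (-Real.log r / S.ε + S.δ) hab hac hbc
  have key : ∀ u v : Z, u ≠ v → -Real.log r / S.ε + S.δ < (toBAct S).bb (g • u) (g • v) →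
      dist (g • u) (g • v) ≤ r := by
    intro u v huv h
    have hne : g • u ≠ g • v := fun e => huv (MulAction.injective g e)
    have h1 : -Real.log r / S.ε < bb S (g • u) (g • v) := by
      have : (toBAct S).bb (g • u) (g • v) = bb S (g • u) (g • v) + S.δ := rfl
      linarith
    rw [lt_bb_iff S _ _ hne] at h1
    refine (lt_of_lt_of_le h1 (le_of_eq ?_)).le
    have : -S.ε * (-Real.log r / S.ε) = Real.log r := by
      have := S.ε_pos.ne'
      field_simp
    rw [this, Real.exp_log hr]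
  rcases h with h | h | h
  · exact ⟨g, hg, a, b, Or.inl rfl, Or.inl rfl, hab, key a b hab h⟩
  · exact ⟨g, hg, a, c, Or.inl rfl, Or.inr rfl, hac, key a c hac h⟩
  · exact ⟨g, hg, b, c, Or.inr rfl, Or.inr rfl, hbc, key b c hbc h⟩

/-- KT2: every distinct triple can be moved to a uniformly separated one -/
theorem KT2 {G Z : Type} [Group G] [MetricSpace Z] [MulAction G Z] (S : Setup G Z) :
    ∃ c > 0, ∀ x y z : Z, x ≠ y → y ≠ z → x ≠ z → ∃ g : G,
      c ≤ dist (g • x) (g • y) ∧ c ≤ dist (g • y) (g • z) ∧ c ≤ dist (g • x) (g • z) := by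
  refine ⟨Real.exp (-S.ε * (1 + 30 * S.δ)), Real.exp_pos _, ?_⟩
  intro x y z hxy hyz hxz
  obtain ⟨g, e1, e2, e3⟩ := (toBAct S).center hxy hxz hyz
  have key : ∀ u v : Z, u ≠ v → (toBAct S).bb (g • u) (g • v) ≤ 1 + 6 * (toBAct S).C →
      Real.exp (-S.ε * (1 + 30 * S.δ)) ≤ dist (g • u) (g • v) := by
    intro u v huv h
    have hne : g • u ≠ g • v := fun e => huv (MulAction.injective g e)
    rw [← bb_le_iff S _ _ hne]
    have h1 : (toBAct S).bb (g • u) (g • v) = bb S (g • u) (g • v) + S.δ := rfl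
    have h2 : (toBAct S).C = 5 * S.δ := rfl
    have hδ := S.one_le_δ
    rw [h1, h2] at h
    linarith
  exact ⟨g, key x y hxy e1, key y z hyz e3, key x z hxz e2⟩

/-- properness on distinct triples -/
theorem hconv {G Z : Type} [Group G] [MetricSpace Z] [MulAction G Z] (S : Setup G Z)
    [CompactSpace Z] (K : Set (Z × Z)) (hK : IsCompact K) (hd : ∀ p ∈ K, p.1 ≠ p.2) :
    {g : G | ∃ x y z : Z, (x, y) ∈ K ∧ (x, z) ∈ K ∧ (y, z) ∈ K ∧ (g • x, g • y) ∈ K ∧
      (g • x, g • z) ∈ K ∧ (g • y, g • z) ∈ K}.Finite :=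
  (toBAct S).proper K hK hd

/-- cocompactness on distinct triples -/
theorem hcoc {G Z : Type} [Group G] [MetricSpace Z] [MulAction G Z] (S : Setup G Z)
    [CompactSpace Z] : ∃ K : Set (Z × Z), IsCompact K ∧ (∀ p ∈ K, p.1 ≠ p.2) ∧
    ∀ x y z : Z, x ≠ y → x ≠ z → y ≠ z →
      ∃ g : G, (g • x, g • y) ∈ K ∧ (g • x, g • z) ∈ K ∧ (g • y, g • z) ∈ K :=
  (toBAct S).cocompact

end Crest.Agent.R193.K_Triples
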