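import Crest.Agent.R193.Defs

/-!
# R193: basic API on top of `Setup`
-/

set_option autoImplicit false

noncomputable section

open Set Filter Topology

namespace Crest.Agent.R193.S_Basic

variable {G Z : Type} [Group G] [MetricSpace Z] [MulAction G Z] (S : Setup G Z)

/-! ### the Gromov product on the group -/

theorem gp_eq (g h : G) :
    S.gp g h = ((S.len g : ℝ) + (S.len h : ℝ) - (S.len (g⁻¹ * h) : ℝ)) / 2 := rfl

theorem δ_pos : 0 < S.δ := lt_of_lt_of_le one_pos S.one_le_δ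

theorem len_inv_mul_comm (g h : G) : S.len (g⁻¹ * h) = S.len (h⁻¹ * g) := by
  rw [← S.len_inv (g⁻¹ * h)]
  congr 1
  group

theorem len_inv_mul_le (g h : G) : (S.len (g⁻¹ * h) : ℝ) ≤ S.len g + S.len h := by
  have := S.len_mul g⁻¹ h
  rw [S.len_inv] at this
  exact_mod_cast this

theorem len_le_add_right (g h : G) : (S.len h : ℝ) ≤ S.len g + S.len (g⁻¹ * h) := by
  have := S.len_mul g (g⁻¹ * h)
  rw [mul_inv_cancel_left] at this
  exact_mod_cast this

theorem len_le_add_left (g h : G) : (S.len g : ℝ) ≤ S.len h + S.len (g⁻¹ * h) := by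
  rw [len_inv_mul_comm]
  exact len_le_add_right S h g

theorem gp_symm (g h : G) : S.gp g h = S.gp h g := by
  rw [gp_eq, gp_eq, len_inv_mul_comm]
  ring

theorem gp_nonneg (g h : G) : 0 ≤ S.gp g h := by
  rw [gp_eq]
  have := len_inv_mul_le S g h
  linarith

theorem gp_le_left (g h : G) : S.gp g h ≤ S.len g := by
  rw [gp_eq]
  have := len_le_add_right S g h
  linarith

theorem gp_le_right (g h : G) : S.gp g h ≤ S.len h := by
  rw [gp_symm]
  exact gp_le_left S h g

theorem gp_one_left (h : G) : S.gp 1 h = 0 := by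
  apply le_antisymm
  · have := gp_le_left S 1 h
    rw [S.len_one] at this
    simpa using this
  · exact gp_nonneg S 1 h

theorem gp_one_right (h : G) : S.gp h 1 = 0 := by
  rw [gp_symm, gp_one_left]

theorem gp_self (g : G) : S.gp g g = S.len g := by
  rw [gp_eq, inv_mul_cancel, S.len_one]
  push_cast
  ring

theorem len_inv_mul_eq (g h : G) :
    (S.len (g⁻¹ * h) : ℝ) = S.len g + S.len h - 2 * S.gp g h := by
  rw [gp_eq]
  ring

/-- `(g|h)` and `(g⁻¹ | g⁻¹ h)` add up to `|g|`. -/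
theorem gp_add_gp_inv (g h : G) : S.gp g h + S.gp g⁻¹ (g⁻¹ * h) = S.len g := by
  rw [gp_eq, gp_eq, S.len_inv, inv_inv, mul_inv_cancel_left]
  ring

/-- `(f⁻¹|b) = |a⁻¹ b|... ` for `f = a b⁻¹`: `(f|a) = (f⁻¹|b)` when `|a| = |b|`, both equal `|f|/2`. -/
theorem gp_mul_inv_eq (a b : G) (hab : S.len a = S.len b) :
    S.gp (a * b⁻¹) a = S.len (a * b⁻¹) / 2 ∧ S.gp (a * b⁻¹)⁻¹ b = S.len (a * b⁻¹) / 2 := by
  constructor
  · rw [gp_eq]
    have : (a * b⁻¹)⁻¹ * a = b := by group
    rw [this, hab]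
    ring
  · rw [gp_eq]
    have : (a * b⁻¹)⁻¹⁻¹ * b = a := by group
    rw [this, S.len_inv, hab]
    ring

theorem hyp (g h k : G) : min (S.gp g h) (S.gp h k) - S.δ ≤ S.gp g k := S.hyp g h k

/-! ### products of a boundary point and a group element -/

theorem s_one (x : Z) : S.s x 1 = 0 := by
  apply le_antisymm
  · have := S.s_le x 1
    rw [S.len_one] at this
    simpa using this
  · exact S.s_nonneg x 1

theorem hyp_s1 (x : Z) (g h : G) : min (S.s x g) (S.gp g h) - S.δ ≤ S.s x h := S.hyp_s1 x g h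

theorem hyp_s2 (x : Z) (g h : G) : min (S.s x g) (S.s x h) - S.δ ≤ S.gp g h := S.hyp_s2 x g h

theorem cocycle (x : Z) (g k : G) :
    |S.s (k • x) (k * g) - (S.s x g - S.s x k⁻¹ - S.gp g k⁻¹ + S.len k)| ≤ S.δ :=
  S.cocycle x g k

/-- lower cocycle bound -/
theorem cocycle_lb (x : Z) (g k : G) :
    S.s x g - S.s x k⁻¹ - S.gp g k⁻¹ + S.len k - S.δ ≤ S.s (k • x) (k * g) := by
  have := (abs_le.1 (cocycle S x g k)).1
  linarith

/-- upper cocycle bound -/
theorem cocycle_ub (x : Z) (g k : G) :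
    S.s (k • x) (k * g) ≤ S.s x g - S.s x k⁻¹ - S.gp g k⁻¹ + S.len k + S.δ := by
  have := (abs_le.1 (cocycle S x g k)).2
  linarith

theorem s_smul_self (x : Z) (g : G) : |S.s (g • x) g - (S.len g - S.s x g⁻¹)| ≤ S.δ := by
  have h := cocycle S x 1 g
  rw [s_one, gp_one_left, mul_one] at h
  convert h using 2
  ring

theorem s_smul_self_lb (x : Z) (g : G) : S.len g - S.s x g⁻¹ - S.δ ≤ S.s (g • x) g := by
  have := (abs_le.1 (s_smul_self S x g)).1
  linarith

theorem s_smul_self_ub (x : Z) (g : G) : S.s (g • x) g ≤ S.len g - S.s x g⁻¹ + S.δ := by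
  have := (abs_le.1 (s_smul_self S x g)).2
  linarith

/-! ### `Gd` and `Sh` -/

theorem mem_Gd {R : ℝ} {g : G} {x : Z} : x ∈ S.Gd R g ↔ S.s x g⁻¹ ≤ R := Iff.rfl

theorem mem_Sh {R : ℝ} {g : G} {x : Z} : x ∈ S.Sh R g ↔ (S.len g : ℝ) - R ≤ S.s x g := Iff.rfl

theorem Gd_mono {R R' : ℝ} (h : R ≤ R') (g : G) : S.Gd R g ⊆ S.Gd R' g :=
  fun _ hx => le_trans hx h

theorem Sh_mono {R R' : ℝ} (h : R ≤ R') (g : G) : S.Sh R g ⊆ S.Sh R' g := by
  intro x hx
  rw [mem_Sh] at hx ⊢
  linarith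

theorem smul_mem_Sh {R : ℝ} {g : G} {x : Z} (hx : x ∈ S.Gd R g) : g • x ∈ S.Sh (R + S.δ) g := by
  rw [mem_Gd] at hx
  rw [mem_Sh]
  have := s_smul_self_lb S x g
  linarith

theorem inv_smul_mem_Gd {R : ℝ} {g : G} {y : Z} (hy : y ∈ S.Sh R g) :
    g⁻¹ • y ∈ S.Gd (R + S.δ) g := by
  rw [mem_Sh] at hy
  rw [mem_Gd]
  have := s_smul_self_ub S (g⁻¹ • y) g
  rw [smul_inv_smul] at this
  linarith

theorem mem_Gd_of_smul_mem_Sh {R : ℝ} {g : G} {x : Z} (hx : g • x ∈ S.Sh R g) :
    x ∈ S.Gd (R + S.δ) g := by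
  have := inv_smul_mem_Gd S hx
  rwa [inv_smul_smul] at this

/-- every point is in the shadow of `g` up to `len g` -/
theorem mem_Sh_len (g : G) (x : Z) : x ∈ S.Sh (S.len g) g := by
  rw [mem_Sh, sub_self]
  exact S.s_nonneg x g

theorem mem_Gd_len (g : G) (x : Z) : x ∈ S.Gd (S.len g) g := by
  rw [mem_Gd]
  have := S.s_le x g⁻¹
  rwa [S.len_inv] at this

/-! ### the metric -/

/-- the Gromov product of two boundary points, read off from the metric -/
def bb (x y : Z) : ℝ := -Real.log (dist x y) / S.ε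

theorem bb_comm (x y : Z) : bb S x y = bb S y x := by
  unfold bb
  rw [dist_comm]

theorem dist_eq_exp {x y : Z} (h : x ≠ y) : dist x y = Real.exp (-S.ε * bb S x y) := by
  have hd : 0 < dist x y := dist_pos.2 h
  have : -S.ε * bb S x y = Real.log (dist x y) := by
    unfold bb
    field_simp [S.ε_pos.ne']
  rw [this, Real.exp_log hd]

theorem bb_le_iff {x y : Z} (h : x ≠ y) (t : ℝ) :
    bb S x y ≤ t ↔ Real.exp (-S.ε * t) ≤ dist x y := by
  rw [dist_eq_exp S h, Real.exp_le_exp]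
  constructor
  · intro hh
    nlinarith [S.ε_pos]
  · intro hh
    by_contra hc
    push Not at hc
    nlinarith [S.ε_pos]

theorem le_bb_iff {x y : Z} (h : x ≠ y) (t : ℝ) :
    t ≤ bb S x y ↔ dist x y ≤ Real.exp (-S.ε * t) := by
  rw [dist_eq_exp S h, Real.exp_le_exp]
  constructor
  · intro hh
    nlinarith [S.ε_pos]
  · intro hh
    by_contra hc
    push Not at hc
    nlinarith [S.ε_pos]

theorem min_s_le_bb {x y : Z} (h : x ≠ y) (g : G) : min (S.s x g) (S.s y g) - S.δ ≤ bb S x y :=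
  (le_bb_iff S h _).2 (S.dist_le x y g)

theorem le_s {x y : Z} (h : x ≠ y) (g : G) : min (S.s x g) (bb S x y) - S.δ ≤ S.s y g :=
  S.le_s x y g h

/-- `dist x y ≤ exp (-ε t)` implies `min (s x g) t - δ ≤ s y g` (also for `x = y`). -/
theorem s_ge_of_dist_le {x y : Z} {t : ℝ} (h : dist x y ≤ Real.exp (-S.ε * t)) (g : G) :
    min (S.s x g) t - S.δ ≤ S.s y g := by
  by_cases hxy : x = y
  · subst hxy
    have := min_le_left (S.s x g) t
    have := δ_pos S
    linarith
  · have h1 := (le_bb_iff S hxy t).2 h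
    have h2 := le_s S hxy g
    have : min (S.s x g) t ≤ min (S.s x g) (bb S x y) := min_le_min le_rfl h1
    linarith

/-- `(x|y)` is realised by group elements. -/
theorem exists_min_s_ge {x y : Z} (h : x ≠ y) :
    ∃ g : G, bb S x y - 1 - 2 * S.δ ≤ min (S.s x g) (S.s y g) ∧
      (S.len g : ℝ) ≤ max (bb S x y) 0 := by
  obtain ⟨g, hg, hs⟩ := S.ray x ⌊bb S x y⌋₊
  refine ⟨g, ?_, ?_⟩
  · have hfl : bb S x y - 1 ≤ (⌊bb S x y⌋₊ : ℝ) := by
      have := Nat.lt_floor_add_one (bb S x y)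
      linarith
    have h2 := le_s S h g
    have hδ := δ_pos S
    have h1 : bb S x y - 1 - S.δ ≤ S.s x g := by linarith
    refine le_min (by linarith) ?_
    have h3 : bb S x y - 1 - S.δ ≤ min (S.s x g) (bb S x y) := le_min h1 (by linarith)
    linarith
  · rw [hg]
    by_cases h0 : 0 ≤ bb S x y
    · exact le_trans (Nat.floor_le h0) (le_max_left _ _)
    · push Not at h0
      rw [Nat.floor_of_nonpos h0.le]
      simp

/-! ### distortion -/

/-- `(x|y) ≥ (gx|gy) - |g| - C`. -/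
theorem bb_ge_of_smul {x y : Z} (h : x ≠ y) (g : G) :
    bb S (g • x) (g • y) - S.len g - 1 - 4 * S.δ ≤ bb S x y := by
  have h' : g • x ≠ g • y := fun hh => h ((smul_left_cancel_iff g).1 hh)
  obtain ⟨k, hk, -⟩ := exists_min_s_ge S h'
  have key : ∀ z : Z, S.s (g • z) k - S.len g - S.δ ≤ S.s z (g⁻¹ * k) := by
    intro z
    have h1 := cocycle_lb S (g • z) k g⁻¹
    rw [inv_smul_smul, inv_inv, S.len_inv] at h1
    have h2 := S.s_le (g • z) g
    have h3 := gp_le_right S k g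
    linarith
  have hx := key x
  have hy := key y
  have h4 := min_s_le_bb S h (g⁻¹ * k)
  have h5 : min (S.s (g • x) k) (S.s (g • y) k) - S.len g - S.δ ≤
      min (S.s x (g⁻¹ * k)) (S.s y (g⁻¹ * k)) := by
    refine le_min ?_ ?_
    · have := min_le_left (S.s (g • x) k) (S.s (g • y) k)
      linarith
    · have := min_le_right (S.s (g • x) k) (S.s (g • y) k)
      linarith
  linarith

/-- `(gx|gy) ≥ (x|y) + |g| - C` for `x, y` away from the pole of `g`. -/
theorem bb_smul_ge {x y : Z} (h : x ≠ y) {R : ℝ} {g : G} (hx : x ∈ S.Gd R g)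
    (hy : y ∈ S.Gd R g) :
    bb S x y + S.len g - 2 * R - 1 - 5 * S.δ ≤ bb S (g • x) (g • y) := by
  have h' : g • x ≠ g • y := fun hh => h ((smul_left_cancel_iff g).1 hh)
  have hδ := δ_pos S
  obtain ⟨k, hk, -⟩ := exists_min_s_ge S h
  rw [mem_Gd] at hx hy
  by_cases hc : S.gp k g⁻¹ ≤ R + S.δ
  · have key : ∀ z : Z, S.s z g⁻¹ ≤ R → S.s z k - 2 * R - 2 * S.δ + S.len g ≤
        S.s (g • z) (g * k) := by
      intro z hz
      have h1 := cocycle_lb S z k g
      linarith
    have h1 := key x hx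
    have h2 := key y hy
    have h4 := min_s_le_bb S h' (g * k)
    have h5 : min (S.s x k) (S.s y k) - 2 * R - 2 * S.δ + S.len g ≤
        min (S.s (g • x) (g * k)) (S.s (g • y) (g * k)) := by
      refine le_min ?_ ?_
      · have := min_le_left (S.s x k) (S.s y k)
        linarith
      · have := min_le_right (S.s x k) (S.s y k)
        linarith
    linarith
  · push Not at hc
    have h1 : S.s x k ≤ R + S.δ := by
      have := hyp_s1 S x k g⁻¹
      by_contra hcc
      push Not at hcc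
      have : R + S.δ < min (S.s x k) (S.gp k g⁻¹) := lt_min hcc hc
      linarith
    have h2 : bb S x y ≤ R + 1 + 3 * S.δ := by
      have := min_le_left (S.s x k) (S.s y k)
      linarith
    have h3 := s_smul_self_lb S x g
    have h4 := s_smul_self_lb S y g
    have h5 := min_s_le_bb S h' g
    have h6 : (S.len g : ℝ) - R - S.δ ≤ min (S.s (g • x) g) (S.s (g • y) g) :=
      le_min (by linarith) (by linarith)
    linarith

/-- expansion is at most `exp (ε |g|)` -/
theorem dist_le_smul (x y : Z) (g : G) :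
    dist x y ≤ Real.exp (S.ε * (1 + 4 * S.δ)) * Real.exp (S.ε * S.len g) *
      dist (g • x) (g • y) := by
  by_cases h : x = y
  · subst h
    simp
  · have h' : g • x ≠ g • y := fun hh => h ((smul_left_cancel_iff g).1 hh)
    have h1 := bb_ge_of_smul S h g
    rw [dist_eq_exp S h, dist_eq_exp S h', ← Real.exp_add, ← Real.exp_add, Real.exp_le_exp]
    nlinarith [S.ε_pos]

/-- contraction at most `exp (-ε |g|)` -/
theorem le_dist_smul (x y : Z) (g : G) :
    Real.exp (-S.ε * (1 + 4 * S.δ)) * Real.exp (-S.ε * S.len g) * dist x y ≤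
      dist (g • x) (g • y) := by
  have h := dist_le_smul S x y g
  have e1 : Real.exp (-S.ε * (1 + 4 * S.δ)) * Real.exp (-S.ε * S.len g) *
      (Real.exp (S.ε * (1 + 4 * S.δ)) * Real.exp (S.ε * S.len g)) = 1 := by
    rw [← Real.exp_add, ← Real.exp_add, ← Real.exp_add, Real.exp_eq_one_iff]
    ring
  have hpos : 0 < Real.exp (-S.ε * (1 + 4 * S.δ)) * Real.exp (-S.ε * S.len g) := by positivity
  calc Real.exp (-S.ε * (1 + 4 * S.δ)) * Real.exp (-S.ε * S.len g) * dist x y
      ≤ Real.exp (-S.ε * (1 + 4 * S.δ)) * Real.exp (-S.ε * S.len g) *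
        (Real.exp (S.ε * (1 + 4 * S.δ)) * Real.exp (S.ε * S.len g) * dist (g • x) (g • y)) :=
        mul_le_mul_of_nonneg_left h hpos.le
    _ = (Real.exp (-S.ε * (1 + 4 * S.δ)) * Real.exp (-S.ε * S.len g) *
      (Real.exp (S.ε * (1 + 4 * S.δ)) * Real.exp (S.ε * S.len g))) * dist (g • x) (g • y) := by
        ring
    _ = dist (g • x) (g • y) := by rw [e1, one_mul]

/-- any group element expands at most by `exp (ε |g|)` -/
theorem dist_smul_le (x y : Z) (g : G) :
    dist (g • x) (g • y) ≤ Real.exp (S.ε * (1 + 4 * S.δ)) * Real.exp (S.ε * S.len g) *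
      dist x y := by
  have := dist_le_smul S (g • x) (g • y) g⁻¹
  rwa [inv_smul_smul, inv_smul_smul, S.len_inv] at this

/-- DISTORTION, upper bound: away from the pole `g` contracts by `exp (-ε |g|)` -/
theorem dist_smul_le_of_Gd {R : ℝ} {x y : Z} {g : G} (hx : x ∈ S.Gd R g)
    (hy : y ∈ S.Gd R g) :
    dist (g • x) (g • y) ≤ Real.exp (S.ε * (2 * R + 1 + 5 * S.δ)) *
      Real.exp (-S.ε * S.len g) * dist x y := by
  by_cases h : x = y
  · subst h
    simp
  · have h' : g • x ≠ g • y := fun hh => h ((smul_left_cancel_iff g).1 hh)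
    have h1 := bb_smul_ge S h hx hy
    rw [dist_eq_exp S h, dist_eq_exp S h', ← Real.exp_add, ← Real.exp_add, Real.exp_le_exp]
    nlinarith [S.ε_pos]

/-! ### shadows and balls -/

theorem dist_le_of_mem_Sh {R : ℝ} {g : G} {x y : Z} (hx : x ∈ S.Sh R g) (hy : y ∈ S.Sh R g) :
    dist x y ≤ Real.exp (-S.ε * (S.len g - R - S.δ)) := by
  refine (S.dist_le x y g).trans (Real.exp_le_exp.2 ?_)
  rw [mem_Sh] at hx hy
  have : (S.len g : ℝ) - R ≤ min (S.s x g) (S.s y g) := le_min hx hy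
  nlinarith [S.ε_pos]

theorem Sh_subset_closedBall {R : ℝ} {g : G} {x : Z} (hx : x ∈ S.Sh R g) :
    S.Sh R g ⊆ Metric.closedBall x (Real.exp (-S.ε * (S.len g - R - S.δ))) := by
  intro y hy
  rw [Metric.mem_closedBall]
  exact dist_le_of_mem_Sh S hy hx

theorem closedBall_subset_Sh {R : ℝ} {g : G} {x : Z} (hx : x ∈ S.Sh R g) :
    Metric.closedBall x (Real.exp (-S.ε * (S.len g - R))) ⊆ S.Sh (R + S.δ) g := by
  intro y hy
  rw [Metric.mem_closedBall, dist_comm] at hy
  rw [mem_Sh] at hx ⊢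
  have := s_ge_of_dist_le S hy g
  rw [min_eq_right hx] at this
  linarith

theorem closure_Sh_subset {R : ℝ} {g : G} : closure (S.Sh R g) ⊆ S.Sh (R + S.δ) g := by
  intro y hy
  rw [Metric.mem_closure_iff] at hy
  obtain ⟨z, hz, hd⟩ := hy (Real.exp (-S.ε * (S.len g - R))) (Real.exp_pos _)
  exact closedBall_subset_Sh S hz (Metric.mem_closedBall.2 hd.le)

theorem Sh_subset_interior {R : ℝ} {g : G} : S.Sh R g ⊆ interior (S.Sh (R + S.δ) g) := by
  intro x hx
  rw [mem_interior_iff_mem_nhds]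
  exact Filter.mem_of_superset (Metric.closedBall_mem_nhds x (Real.exp_pos _))
    (closedBall_subset_Sh S hx)

/-- if `y` is close to a point of `Gd R g`, it is in `Gd (R + δ) g`. -/
theorem mem_Gd_of_dist {R : ℝ} {g : G} {x y : Z} (hx : x ∈ S.Gd R g)
    (hd : dist x y < Real.exp (-S.ε * (R + S.δ))) : y ∈ S.Gd (R + S.δ) g := by
  rw [mem_Gd] at hx ⊢
  by_contra hc
  push Not at hc
  by_cases hxy : x = y
  · subst hxy
    have := δ_pos S
    linarith
  · have h1 : R + S.δ < bb S x y := by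
      by_contra hcc
      push Not at hcc
      have := (bb_le_iff S hxy _).1 hcc
      linarith
    have h2 := le_s S (Ne.symm hxy) g⁻¹
    rw [bb_comm] at h2
    have : R + S.δ < min (S.s y g⁻¹) (bb S x y) := lt_min hc h1
    linarith

theorem closure_Gd_subset {R : ℝ} {g : G} : closure (S.Gd R g) ⊆ S.Gd (R + S.δ) g := by
  intro y hy
  rw [Metric.mem_closure_iff] at hy
  obtain ⟨z, hz, hd⟩ := hy (Real.exp (-S.ε * (R + S.δ))) (Real.exp_pos _)
  rw [dist_comm] at hd
  exact mem_Gd_of_dist S hz hd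

theorem Gd_subset_interior {R : ℝ} {g : G} : S.Gd R g ⊆ interior (S.Gd (R + S.δ) g) := by
  intro x hx
  rw [mem_interior_iff_mem_nhds]
  refine Filter.mem_of_superset (Metric.ball_mem_nhds x (Real.exp_pos (-S.ε * (R + S.δ)))) ?_
  intro y hy
  rw [Metric.mem_ball, dist_comm] at hy
  exact mem_Gd_of_dist S hx hy

/-- points of the complement of `Gd R g` are close to each other -/
theorem dist_le_of_not_mem_Gd {R : ℝ} {g : G} {x y : Z} (hx : x ∉ S.Gd R g) (hy : y ∉ S.Gd R g) :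
    dist x y ≤ Real.exp (-S.ε * (R - S.δ)) := by
  rw [mem_Gd] at hx hy
  push Not at hx hy
  refine (S.dist_le x y g⁻¹).trans (Real.exp_le_exp.2 ?_)
  have : R ≤ min (S.s x g⁻¹) (S.s y g⁻¹) := le_min hx.le hy.le
  nlinarith [S.ε_pos]

/-- one of two distinct points is always away from the pole of `g` -/
theorem mem_Gd_or {x y : Z} {R : ℝ} (h : Real.exp (-S.ε * (R - S.δ)) < dist x y) (g : G) :
    x ∈ S.Gd R g ∨ y ∈ S.Gd R g := by
  by_contra hc
  push Not at hc
  exact absurd (dist_le_of_not_mem_Gd S hc.1 hc.2) (not_le.2 h)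

/-- the radius `R` of `mem_Gd_or` exists -/
theorem exists_R_of_pos {r : ℝ} (hr : 0 < r) :
    ∃ R : ℝ, 0 ≤ R ∧ ∀ R', R ≤ R' → Real.exp (-S.ε * (R' - S.δ)) < r := by
  refine ⟨max 0 (S.δ + 1 - Real.log r / S.ε), le_max_left _ _, fun R' hR' => ?_⟩
  have h1 : S.δ + 1 - Real.log r / S.ε ≤ R' := le_trans (le_max_right _ _) hR'
  rw [← Real.lt_log_iff_exp_lt hr]
  have h2 : S.ε * (Real.log r / S.ε) = Real.log r := by
    field_simp [S.ε_pos.ne']
  nlinarith [S.ε_pos]

/-! ### distances in the group from common points of shadows -/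

theorem gp_ge_of_mem_Sh {R R' : ℝ} {g h : G} {x : Z} (hg : x ∈ S.Sh R g) (hh : x ∈ S.Sh R' h) :
    min ((S.len g : ℝ) - R) (S.len h - R') - S.δ ≤ S.gp g h := by
  have h1 := hyp_s2 S x g h
  have h2 : min ((S.len g : ℝ) - R) (S.len h - R') ≤ min (S.s x g) (S.s x h) :=
    min_le_min hg hh
  linarith

theorem len_le_of_mem_Sh {R R' : ℝ} {g h : G} {x : Z} (hg : x ∈ S.Sh R g) (hh : x ∈ S.Sh R' h) :
    (S.len (g⁻¹ * h) : ℝ) ≤ |(S.len g : ℝ) - S.len h| + 2 * max R R' + 2 * S.δ := by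
  have h1 := gp_ge_of_mem_Sh S hg hh
  rw [len_inv_mul_eq]
  have h2 := le_max_left R R'
  have h3 := le_max_right R R'
  rcases le_total (S.len g : ℝ) (S.len h) with h4 | h4
  · rw [abs_of_nonpos (by linarith)]
    have : (S.len g : ℝ) - max R R' ≤ min ((S.len g : ℝ) - R) (S.len h - R') :=
      le_min (by linarith) (by linarith)
    linarith
  · rw [abs_of_nonneg (by linarith)]
    have : (S.len h : ℝ) - max R R' ≤ min ((S.len g : ℝ) - R) (S.len h - R') :=
      le_min (by linarith) (by linarith)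
    linarith

theorem len_le_of_mem_Sh_of_eq {R : ℝ} {g h : G} {x : Z} (hl : S.len g = S.len h)
    (hg : x ∈ S.Sh R g) (hh : x ∈ S.Sh R h) :
    (S.len (g⁻¹ * h) : ℝ) ≤ 2 * R + 2 * S.δ := by
  have := len_le_of_mem_Sh S hg hh
  rw [hl, sub_self, abs_zero, max_self] at this
  linarith

/-- if a shadow of `h` (of a longer element) meets a shadow of `g`, then `g` is almost on the way
to `h` -/
theorem gp_ge_len_of_mem_Sh {R : ℝ} {g h : G} {x : Z} (hl : S.len g ≤ S.len h)
    (hg : x ∈ S.Sh R g) (hh : x ∈ S.Sh R h) :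
    (S.len g : ℝ) - R - S.δ ≤ S.gp g h := by
  have h1 := gp_ge_of_mem_Sh S hg hh
  have hl' : (S.len g : ℝ) ≤ S.len h := by exact_mod_cast hl
  rw [min_eq_left (by linarith)] at h1
  linarith

/-- shadows of longer elements which meet a shadow are contained in a larger shadow -/
theorem Sh_subset_Sh {R R' : ℝ} {g h : G} {x : Z} (hRR : R' ≤ R) (hl : S.len g ≤ S.len h)
    (hg : x ∈ S.Sh R g) (hh : x ∈ S.Sh R' h) : S.Sh R' h ⊆ S.Sh (R + 2 * S.δ) g := by
  intro y hy
  have hl' : (S.len g : ℝ) ≤ S.len h := by exact_mod_cast hl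
  have h1 := gp_ge_of_mem_Sh S hg hh
  rw [min_eq_left (by linarith)] at h1
  have h2 := hyp_s1 S y h g
  rw [gp_symm] at h2
  rw [mem_Sh] at hy ⊢
  have h3 : (S.len g : ℝ) - R - S.δ ≤ min (S.s y h) (S.gp g h) := by
    have := δ_pos S
    exact le_min (by linarith) h1
  linarith

/-- shadows of neighbours -/
theorem Sh_subset_Sh_of_len {R : ℝ} (g k : G) :
    S.Sh R (g * k) ⊆ S.Sh (R + S.len k + S.δ) g := by
  intro y hy
  rw [mem_Sh] at hy ⊢
  have h1 := hyp_s1 S y (g * k) g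
  have h2 : (S.len g : ℝ) ≤ S.len (g * k) + S.len k := by
    have := S.len_mul (g * k) k⁻¹
    rw [mul_inv_cancel_right, S.len_inv] at this
    exact_mod_cast this
  have h3 : (S.len g : ℝ) - S.len k ≤ S.gp (g * k) g := by
    rw [gp_eq]
    have e : (g * k)⁻¹ * g = k⁻¹ := by group
    rw [e, S.len_inv]
    linarith
  have hδ := δ_pos S
  by_cases hR : 0 ≤ R
  · have h4 : (S.len g : ℝ) - R - S.len k ≤ min (S.s y (g * k)) (S.gp (g * k) g) :=
      le_min (by linarith) (by linarith)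
    linarith
  · push Not at hR
    exfalso
    have := S.s_le y (g * k)
    linarith

/-- number of elements of a sphere whose shadow contains a given point -/
theorem mem_bal {n : ℕ} {g : G} : g ∈ S.bal n ↔ S.len g ≤ n := by
  unfold Setup.bal
  rw [Set.Finite.mem_toFinset]
  rfl

theorem mem_sph {n : ℕ} {g : G} : g ∈ S.sph n ↔ S.len g = n := by
  unfold Setup.sph
  rw [Set.Finite.mem_toFinset]
  rfl

theorem card_bal_le (n : ℕ) : ((S.bal n).card : ℝ) ≤ Real.exp (S.v * n) := by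
  have h := S.card_ball n
  have e : ({g : G | S.len g ≤ n}).ncard = (S.bal n).card := by
    unfold Setup.bal
    exact Set.ncard_eq_toFinset_card _ (S.finite_ball n)
  rw [← e]
  exact h

theorem card_sph_le (n : ℕ) : ((S.sph n).card : ℝ) ≤ Real.exp (S.v * n) := by
  refine le_trans ?_ (card_bal_le S n)
  exact_mod_cast Finset.card_le_card (fun g hg => (mem_bal S).2 ((mem_sph S).1 hg).le)

/-- finiteness and uniform bound of the set of `h` with `len (g⁻¹ h) ≤ C` -/
theorem card_filter_near_le [DecidableEq G] (g : G) (C : ℕ) (A : Finset G)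
    (hA : ∀ h ∈ A, S.len (g⁻¹ * h) ≤ C) : (A.card : ℝ) ≤ Real.exp (S.v * C) := by
  refine le_trans ?_ (card_bal_le S C)
  have : A.card ≤ (S.bal C).card := by
    refine Finset.card_le_card_of_injOn (fun h => g⁻¹ * h) ?_ ?_
    · intro h hh
      exact Finset.mem_coe.2 ((mem_bal S).2 (hA h hh))
    · intro a _ b _ hab
      exact mul_left_cancel hab
  exact_mod_cast this

/-- overlap of the shadows at level `n` through a point -/
theorem card_Sh_point_le [DecidableEq G] {R : ℝ} (n : ℕ) (x : Z) (A : Finset G)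
    (hA : ∀ h ∈ A, S.len h = n ∧ x ∈ S.Sh R h) :
    (A.card : ℝ) ≤ Real.exp (S.v * ⌊2 * R + 2 * S.δ⌋₊) := by
  rcases A.eq_empty_or_nonempty with rfl | ⟨g, hg⟩
  · simp [Real.exp_nonneg]
  · refine card_filter_near_le S g _ A (fun h hh => ?_)
    have h1 := len_le_of_mem_Sh_of_eq S ((hA g hg).1.trans (hA h hh).1.symm) (hA g hg).2
      (hA h hh).2
    exact Nat.le_floor h1

/-- number of shadows at level `n` meeting a given one -/
theorem card_Sh_meet_le [DecidableEq G] {R : ℝ} (n : ℕ) (g : G) (hgn : S.len g = n)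
    (A : Finset G) (hA : ∀ h ∈ A, S.len h = n ∧ (S.Sh R g ∩ S.Sh R h).Nonempty) :
    (A.card : ℝ) ≤ Real.exp (S.v * ⌊2 * R + 2 * S.δ⌋₊) := by
  refine card_filter_near_le S g _ A (fun h hh => ?_)
  obtain ⟨x, hx1, hx2⟩ := (hA h hh).2
  have h1 := len_le_of_mem_Sh_of_eq S (hgn.trans (hA h hh).1.symm) hx1 hx2
  exact Nat.le_floor h1

end Crest.Agent.R193.S_Basic
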