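import Mathlib
import Crest.Agent.R193.D_Defs
import Crest.Agent.R193.Planar4
import Crest.Agent.R193.GEO_Levels
import Crest.Agent.R193.S_Basic

/-!
# R193, block D: assembly of `D_main` from the interfaces (this file is sorry-free, the inputs
are hypotheses).

chain:  `OutPair` (D5+D6, helper120)  →  `OutC6` (C4-C6, helper990)
        →  `ChartMain` (C7, C8, D8W, helper245)  →  `D_main`.
-/

set_option autoImplicit false

noncomputable section

open Set Filter Topology MeasureTheory

namespace Crest.Agent.R193.D_Spec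

open Crest.Agent.R193

variable {G Z : Type} [Group G] [MetricSpace Z] [MulAction G Z] {S : Setup G Z}

/-- conclusion of block D -/
def DMain (G Z : Type) [Group G] [MetricSpace Z] [MulAction G Z] : Prop :=
  ∃ F : Z ≃ₜ OnePoint ℂ, ∀ g : G, WeakConf (fun w => F (g • F.symm w))

theorem locallyConnected (Φ : Z ≃ₜ S2) : LocallyConnectedSpace Z := by
  have : LocallyConnectedSpace Planar.S2 := inferInstance
  exact (show IsOpenEmbedding (Φ : Z → Planar.S2) from Φ.isOpenEmbedding).locallyConnectedSpace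

theorem nontrivial (Φ : Z ≃ₜ S2) : Nontrivial Z := by
  obtain ⟨x, hx⟩ := (GEO_Levels.compl_singleton_connected Φ
    (Φ.symm ⟨EuclideanSpace.single 0 1, by simp⟩)).nonempty
  exact ⟨x, _, hx⟩

/-- the zoom sequence -/
theorem zoom (S : Setup G Z) [CompactSpace Z] : InZoom G Z := by
  intro z
  choose g hg1 hg2 using S.ray z
  obtain ⟨a, h1, -⟩ := GEO_Levels.exists_pole S (hyperfilter ℕ) g (by
    simp only [hg1]
    exact tendsto_id'.mpr Nat.hyperfilter_le_atTop)
  refine ⟨a, g, fun K hK haK U hU => ?_⟩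
  obtain ⟨R, hR, hev⟩ := h1 K hK.isClosed haK
  obtain ⟨r, hr, hball⟩ := Metric.mem_nhds_iff.mp hU
  have hε := S.ε_pos
  have hlim : Tendsto (fun k : ℕ => Real.exp (-S.ε * ((k : ℝ) - (R + S.δ) - S.δ)))
      (hyperfilter ℕ : Filter ℕ) (𝓝 0) := by
    apply Tendsto.mono_left _ Nat.hyperfilter_le_atTop
    apply Real.tendsto_exp_atBot.comp
    apply Tendsto.const_mul_atTop_of_neg (by linarith)
    have := tendsto_natCast_atTop_atTop (R := ℝ)
    exact tendsto_atTop_add_const_right _ _ (tendsto_atTop_add_const_right _ _ this)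
  filter_upwards [hev, hlim.eventually_lt_const hr] with k hk1 hk2 x hx
  apply hball
  rw [Metric.mem_ball]
  refine lt_of_le_of_lt ?_ hk2
  refine (S.dist_le (g k • x) z (g k)).trans ?_
  apply Real.exp_le_exp.mpr
  have h3 : (k : ℝ) - (R + S.δ) ≤ S.s (g k • x) (g k) := by
    have := GEO_Levels.mem_Sh_of_mem_Gd S (hk1 x hx)
    have h4 : (S.len (g k) : ℝ) - (R + S.δ) ≤ S.s (g k • x) (g k) := this
    rwa [hg1] at h4
  have h5 := hg2 k
  have h6 : (k : ℝ) - (R + S.δ) ≤ min (S.s (g k • x) (g k)) (S.s z (g k)) :=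
    le_min h3 (by linarith)
  nlinarith

theorem exists_chart (Q : DForm S) (Φ : Z ≃ₜ S2)
    (h1 : OutPair Q) (h2 : OutC6 Q) : Nonempty (ConfChart Q) := by
  have hconn : ∀ a : Z, IsPreconnected ({a}ᶜ : Set Z) := fun a =>
    (GEO_Levels.compl_singleton_connected Φ a).isPreconnected
  have : LocallyConnectedSpace Z := locallyConnected Φ
  have : Nontrivial Z := nontrivial Φ
  obtain ⟨a, F, hF, hnc⟩ := h1
  -- some connected open set on which the pair is conformal and non constant
  have key : ∃ (O : Set Z) (U V : C(Z, ℝ)), IsOpen O ∧ IsConnected O ∧ ConfOn Q O U V ∧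
      ¬ ∃ p : ℝ × ℝ, ∀ x ∈ O, (U x, V x) = p := by
    by_contra hcon
    push Not at hcon
    apply hnc
    -- `F` is locally constant on `{a}ᶜ`
    have hloc : ∀ x : Z, x ≠ a → ∃ N ∈ 𝓝 x, ∀ y ∈ N, F y = F x := by
      intro x hx
      obtain ⟨O, hO, hxO, U, V, hc, hFO⟩ := hF {x} isCompact_singleton
        (fun h => hx (by simpa using h.symm))
      have hxO' : x ∈ O := hxO rfl
      let O1 := connectedComponentIn O x
      have hO1 : IsOpen O1 := hO.connectedComponentIn
      have hxO1 : x ∈ O1 := mem_connectedComponentIn hxO'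
      have hsub : O1 ⊆ O := connectedComponentIn_subset O x
      obtain ⟨p, hp⟩ := hcon O1 U V hO1 ⟨⟨x, hxO1⟩, isPreconnected_connectedComponentIn⟩
        (hc.mono hsub)
      refine ⟨O1, hO1.mem_nhds hxO1, fun y hy => ?_⟩
      rw [hFO y (hsub hy), hFO x hxO', hp y hy, hp x hxO1]
    obtain ⟨x0, hx0⟩ := exists_ne a
    refine ⟨F x0, fun y hy => ?_⟩
    have hpc : IsPreconnected ({a}ᶜ : Set Z) := hconn a
    have hA : IsOpen {x : Z | x ≠ a ∧ F x = F x0} := by
      rw [isOpen_iff_mem_nhds]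
      rintro x ⟨hx, hxF⟩
      obtain ⟨N, hN, hNF⟩ := hloc x hx
      filter_upwards [hN, isOpen_compl_singleton.mem_nhds hx] with y hy hya
      exact ⟨hya, by rw [hNF y hy, hxF]⟩
    have hB : IsOpen {x : Z | x ≠ a ∧ F x ≠ F x0} := by
      rw [isOpen_iff_mem_nhds]
      rintro x ⟨hx, hxF⟩
      obtain ⟨N, hN, hNF⟩ := hloc x hx
      filter_upwards [hN, isOpen_compl_singleton.mem_nhds hx] with y hy hya
      exact ⟨hya, by rw [hNF y hy]; exact hxF⟩
    by_contra hne
    obtain ⟨z, -, hz1, hz2⟩ := hpc _ _ hA hB (fun x hx => by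
      by_cases h : F x = F x0
      · exact Or.inl ⟨hx, h⟩
      · exact Or.inr ⟨hx, h⟩) ⟨x0, hx0, hx0, rfl⟩ ⟨y, hy, hy, hne⟩
    exact hz2.2 hz1.2
  obtain ⟨O, U, V, hO, hOc, hc, hne⟩ := key
  obtain ⟨c, hc0, z, hz, ρ, hρ, W, hW, hWc, hzW, hWO, hWcc, hinj, himg, hfr, hpush⟩ :=
    h2 O U V hO hOc.isPreconnected hc hne O hO hOc.nonempty subset_rfl
  exact ⟨{ O := O, O_open := hO, U := U, V := V, conf := hc, W := W, W_open := hW, W_sub := hWO,
           W_ne := hWcc.nonempty, p := (U z, V z), ρ := ρ, ρ_pos := hρ, inj := hinj,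
           img := himg,
           bdry := fun x hx h => by
             have h1 := hfr x hx
             rw [Metric.mem_sphere] at h1
             rw [Metric.mem_ball] at h
             linarith,
           c := c, c_pos := hc0, push := hpush }⟩

/-- statement of C7 + C8 + D8W (helper245) -/
def ChartMain (Q : DForm S) : Prop :=
  InC1 Q → InMax Q → InLoewUnit Q → InOsc Q → InZoom G Z → Nonempty (ConfChart Q) → DMain G Z

end Crest.Agent.R193.D_Spec
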