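import Mathlib

/-!
# R193, block P (helper990): components, boundary bumping, nested continua, holes, limits of sets

General topology used in Parts M and D: nothing here depends on the sphere.
-/

set_option autoImplicit false

open Set Filter Topology

namespace Crest.Agent.R193.P_Comp

variable {Z : Type*} [TopologicalSpace Z]

/-! ### components -/

lemma comp_disjoint_or_eq (F : Set Z) (x y : Z) :
    Disjoint (connectedComponentIn F x) (connectedComponentIn F y) ∨
      connectedComponentIn F x = connectedComponentIn F y := by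
  by_cases h : (connectedComponentIn F x ∩ connectedComponentIn F y).Nonempty
  · obtain ⟨z, hz1, hz2⟩ := h
    right
    rw [connectedComponentIn_eq hz1, connectedComponentIn_eq hz2]
  · left
    rw [disjoint_iff_inter_eq_empty]
    exact not_nonempty_iff_eq_empty.1 h

/-- a preconnected subset of `F` meeting a component of `F` is inside it -/
lemma subset_comp_of_inter {F S : Set Z} {x : Z} (hS : IsPreconnected S) (hSF : S ⊆ F)
    (h : (S ∩ connectedComponentIn F x).Nonempty) : S ⊆ connectedComponentIn F x := by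
  obtain ⟨z, hzS, hz⟩ := h
  rw [connectedComponentIn_eq hz]
  exact hS.subset_connectedComponentIn hzS hSF

lemma isClosed_comp {F : Set Z} (hF : IsClosed F) (x : Z) :
    IsClosed (connectedComponentIn F x) := by
  by_cases hx : x ∈ F
  · refine isClosed_of_closure_subset ?_
    exact isPreconnected_connectedComponentIn.closure.subset_connectedComponentIn
      (subset_closure (mem_connectedComponentIn hx))
      (closure_minimal (connectedComponentIn_subset _ _) hF)
  · rw [connectedComponentIn_eq_empty hx]
    exact isClosed_empty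

lemma isCompact_comp [T2Space Z] {F : Set Z} (hF : IsCompact F) (x : Z) :
    IsCompact (connectedComponentIn F x) :=
  hF.of_isClosed_subset (isClosed_comp hF.isClosed x) (connectedComponentIn_subset _ _)

/-- the frontier of a component of an open set `U` is inside the frontier of `U` -/
theorem frontier_comp_subset [LocallyConnectedSpace Z] {U : Set Z} (hU : IsOpen U) (x : Z) :
    frontier (connectedComponentIn U x) ⊆ frontier U := by
  intro z hz
  have hCo : IsOpen (connectedComponentIn U x) := hU.connectedComponentIn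
  rw [hCo.frontier_eq] at hz
  rw [hU.frontier_eq]
  refine ⟨closure_mono (connectedComponentIn_subset _ _) hz.1, fun hzU => hz.2 ?_⟩
  have hDo : IsOpen (connectedComponentIn U z) := hU.connectedComponentIn
  obtain ⟨w, hw1, hw2⟩ := mem_closure_iff.1 hz.1 _ hDo (mem_connectedComponentIn hzU)
  rw [connectedComponentIn_eq hw2, ← connectedComponentIn_eq hw1]
  exact mem_connectedComponentIn hzU

/-- the closure of a component of a proper open subset of a connected space meets its frontier -/
theorem closure_comp_inter_frontier [PreconnectedSpace Z] [LocallyConnectedSpace Z] {U : Set Z}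
    (hU : IsOpen U) (hne : U ≠ univ) {x : Z} (hx : x ∈ U) :
    (closure (connectedComponentIn U x) ∩ frontier U).Nonempty := by
  by_contra hn
  have hfe : frontier (connectedComponentIn U x) = ∅ := by
    rw [← not_nonempty_iff_eq_empty]
    rintro ⟨z, hz⟩
    exact hn ⟨z, frontier_subset_closure hz, frontier_comp_subset hU x hz⟩
  have hcl : IsClopen (connectedComponentIn U x) := isClopen_iff_frontier_eq_empty.2 hfe
  rcases isClopen_iff.1 hcl with h | h
  · have := mem_connectedComponentIn hx
    rw [h] at this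
    exact this
  · exact hne (eq_univ_of_univ_subset (h ▸ connectedComponentIn_subset U x))

/-- components of a directed union of open sets -/
theorem exists_mem_comp_of_directed [LocallyConnectedSpace Z] {ι : Type*} {U : ι → Set Z}
    (hU : ∀ i, IsOpen (U i)) (hd : Directed (· ⊆ ·) U) {x y : Z}
    (hy : y ∈ connectedComponentIn (⋃ i, U i) x) : ∃ i, y ∈ connectedComponentIn (U i) x := by
  set C := connectedComponentIn (⋃ i, U i) x with hC
  have hx : x ∈ ⋃ i, U i := connectedComponentIn_nonempty_iff.1 ⟨y, hy⟩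
  set V : Set Z := ⋃ i, connectedComponentIn (U i) x with hV
  set W : Set Z := ⋃ z ∈ C \ V, ⋃ j, connectedComponentIn (U j) z with hW
  have hVo : IsOpen V := isOpen_iUnion fun i => (hU i).connectedComponentIn
  have hWo : IsOpen W := isOpen_biUnion fun z _ => isOpen_iUnion fun j => (hU j).connectedComponentIn
  have hcov : C ⊆ V ∪ W := by
    intro z hz
    by_cases hzV : z ∈ V
    · exact Or.inl hzV
    · right
      obtain ⟨j, hj⟩ := mem_iUnion.1 (connectedComponentIn_subset _ _ hz)
      exact mem_biUnion (x := z) ⟨hz, hzV⟩ (mem_iUnion.2 ⟨j, mem_connectedComponentIn hj⟩)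
  have hdis : Disjoint V W := by
    rw [disjoint_left]
    intro w hwV hwW
    obtain ⟨i, hi⟩ := mem_iUnion.1 hwV
    simp only [hW, mem_iUnion, exists_prop] at hwW
    obtain ⟨z, ⟨hzC, hzV⟩, j, hj⟩ := hwW
    obtain ⟨k, hik, hjk⟩ := hd i j
    apply hzV
    refine mem_iUnion.2 ⟨k, ?_⟩
    have h1 : w ∈ connectedComponentIn (U k) x := connectedComponentIn_mono x hik hi
    have h2 : w ∈ connectedComponentIn (U k) z := connectedComponentIn_mono z hjk hj
    rw [connectedComponentIn_eq h1, ← connectedComponentIn_eq h2]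
    have hz : z ∈ U j := connectedComponentIn_nonempty_iff.1 ⟨w, hj⟩
    exact mem_connectedComponentIn (hjk hz)
  have hCp : IsPreconnected C := isPreconnected_connectedComponentIn
  rcases hCp.subset_or_subset hVo hWo hdis hcov with h | h
  · exact mem_iUnion.1 (h hy)
  · exfalso
    have hxC : x ∈ C := mem_connectedComponentIn hx
    obtain ⟨i, hi⟩ := mem_iUnion.1 hx
    exact disjoint_left.1 hdis (mem_iUnion.2 ⟨i, mem_connectedComponentIn hi⟩) (h hxC)

/-! ### splitting compact sets along unions of components -/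

lemma exists_isClopen_of_comp_disjoint {X : Type*} [TopologicalSpace X] [CompactSpace X]
    [T2Space X] {F : Set X} (hF : IsClosed F) {x : X} (h : Disjoint (connectedComponent x) F) :
    ∃ s : Set X, IsClopen s ∧ x ∈ s ∧ Disjoint s F := by
  rw [connectedComponent_eq_iInter_isClopen] at h
  have hdir : Directed (· ⊇ ·) (fun s : { s : Set X // IsClopen s ∧ x ∈ s } => (s : Set X)) := by
    rintro ⟨s, hs, hxs⟩ ⟨t, ht, hxt⟩
    exact ⟨⟨s ∩ t, hs.inter ht, hxs, hxt⟩, inter_subset_left, inter_subset_right⟩
  have : Nonempty { s : Set X // IsClopen s ∧ x ∈ s } := ⟨⟨univ, isClopen_univ, mem_univ x⟩⟩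
  obtain ⟨⟨s, hs, hxs⟩, hsF⟩ := exists_subset_nhds_of_compactSpace hdir (fun s => s.2.1.1)
    (U := Fᶜ) (fun z hz => hF.isOpen_compl.mem_nhds fun hzF => disjoint_left.1 h hz hzF)
  exact ⟨s, hs, hxs, subset_compl_iff_disjoint_right.1 hsF⟩

lemma exists_isClopen_of_comp_disjoint' {X : Type*} [TopologicalSpace X] [CompactSpace X]
    [T2Space X] {E F : Set X} (hE : IsClosed E) (hF : IsClosed F)
    (h : ∀ x ∈ E, Disjoint (connectedComponent x) F) :
    ∃ s : Set X, IsClopen s ∧ E ⊆ s ∧ Disjoint s F := by
  choose! s hs hxs hsF using fun x hx => exists_isClopen_of_comp_disjoint hF (h x hx)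
  obtain ⟨t, htE, ht⟩ := hE.isCompact.elim_nhds_subcover s
    fun x hx => (hs x hx).isOpen.mem_nhds (hxs x hx)
  refine ⟨⋃ x ∈ t, s x, isClopen_biUnion_finset fun x hx => hs x (htE x hx), ht, ?_⟩
  rw [disjoint_iUnion₂_left]
  exact fun x hx => hsF x (htE x hx)

/-- **Splitting lemma** ("cut wire"). In a compact subset `L` of a Hausdorff space, if no component
of `L` meets both closed sets `E` and `F` then `L` is a disjoint union of two closed sets, one
containing `L ∩ E`, the other `L ∩ F`. -/
theorem exists_closed_split [T2Space Z] {L E F : Set Z} (hL : IsCompact L) (hE : IsClosed E)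
    (hF : IsClosed F) (h : ∀ x ∈ L ∩ E, Disjoint (connectedComponentIn L x) F) :
    ∃ A B : Set Z, IsCompact A ∧ IsCompact B ∧ A ∪ B = L ∧ Disjoint A B ∧ L ∩ E ⊆ A ∧
      L ∩ F ⊆ B := by
  have : CompactSpace L := isCompact_iff_compactSpace.1 hL
  obtain ⟨s, hs, hEs, hsF⟩ := exists_isClopen_of_comp_disjoint' (X := L)
    (E := Subtype.val ⁻¹' E) (F := Subtype.val ⁻¹' F) (hE.preimage continuous_subtype_val)
    (hF.preimage continuous_subtype_val) (by
      rintro ⟨x, hxL⟩ hxE
      have h1 := h x ⟨hxL, hxE⟩
      rw [connectedComponentIn_eq_image hxL] at h1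
      rw [disjoint_left] at h1 ⊢
      intro z hz hzF
      exact h1 (mem_image_of_mem _ hz) hzF)
  refine ⟨Subtype.val '' s, Subtype.val '' sᶜ, hs.1.isCompact.image continuous_subtype_val,
    hs.compl.1.isCompact.image continuous_subtype_val, ?_, ?_, ?_, ?_⟩
  · rw [← image_union, union_compl_self, image_univ, Subtype.range_coe]
  · exact (disjoint_compl_right (a := s)).image Subtype.val_injective.injOn (subset_univ _)
      (subset_univ _)
  · rintro x ⟨hxL, hxE⟩
    exact ⟨⟨x, hxL⟩, hEs hxE, rfl⟩
  · rintro x ⟨hxL, hxF⟩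
    exact ⟨⟨x, hxL⟩, fun h' => disjoint_left.1 hsF h' hxF, rfl⟩

/-- **Boundary bumping.** `K` compact connected, `U` open, `x ∈ K ∩ U`, `K` not inside `U`: the
component of `x` in `K ∩ closure U` reaches the frontier of `U`. -/
theorem boundary_bumping [T2Space Z] {K U : Set Z} (hK : IsCompact K) (hKc : IsPreconnected K)
    (hU : IsOpen U) {x : Z} (hxK : x ∈ K) (hxU : x ∈ U) (hne : ¬ K ⊆ U) :
    (connectedComponentIn (K ∩ closure U) x ∩ frontier U).Nonempty := by
  by_contra hn
  have hL : IsCompact (K ∩ closure U) := hK.inter_right isClosed_closure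
  have hxL : x ∈ K ∩ closure U := ⟨hxK, subset_closure hxU⟩
  obtain ⟨A, B, hA, hB, hAB, hd, hEA, hFB⟩ := exists_closed_split hL (isClosed_singleton (x := x))
    (isClosed_frontier (s := U)) (by
      rintro y ⟨hyL, hyx⟩
      rw [mem_singleton_iff] at hyx
      subst hyx
      rw [disjoint_iff_inter_eq_empty]
      exact not_nonempty_iff_eq_empty.1 hn)
  have hxA : x ∈ A := hEA ⟨hxL, rfl⟩
  have hAL : A ⊆ K ∩ closure U := hAB ▸ subset_union_left
  have hAU : A ⊆ U := by
    intro z hz
    have hzL := hAL hz
    by_contra hzU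
    have : z ∈ frontier U := by
      rw [hU.frontier_eq]
      exact ⟨hzL.2, hzU⟩
    exact disjoint_left.1 hd hz (hFB ⟨hzL, this⟩)
  have hB' : IsClosed (B ∪ (K \ U)) := hB.isClosed.union (hK.diff hU).isClosed
  have hcov : K ⊆ A ∪ (B ∪ (K \ U)) := by
    intro z hz
    by_cases hzU : z ∈ U
    · have : z ∈ A ∪ B := by
        rw [hAB]
        exact ⟨hz, subset_closure hzU⟩
      rcases this with h | h
      · exact Or.inl h
      · exact Or.inr (Or.inl h)
    · exact Or.inr (Or.inr ⟨hz, hzU⟩)
  obtain ⟨y, hyK, hyU⟩ := not_subset.1 hne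
  obtain ⟨z, hzK, hzA, hzB⟩ := (isPreconnected_closed_iff.1 hKc) A (B ∪ (K \ U)) hA.isClosed hB'
    hcov ⟨x, hxK, hxA⟩ ⟨y, hyK, Or.inr ⟨hyK, hyU⟩⟩
  rcases hzB with h | h
  · exact disjoint_left.1 hd hzA h
  · exact h.2 (hAU hzA)

/-- metric form: a continuum through `x` not inside `ball x r` contains a continuum through `x`
inside `closedBall x r` reaching the sphere of radius `r` -/
theorem exists_mem_comp_dist_eq {Z : Type*} [MetricSpace Z] {K : Set Z} (hK : IsCompact K)
    (hKc : IsPreconnected K) {x : Z} {r : ℝ} (hr : 0 < r) (hxK : x ∈ K)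
    (hne : ¬ K ⊆ Metric.ball x r) :
    ∃ y ∈ connectedComponentIn (K ∩ Metric.closedBall x r) x, dist y x = r := by
  obtain ⟨y, hy1, hy2⟩ := boundary_bumping hK hKc Metric.isOpen_ball hxK
    (Metric.mem_ball_self hr) hne
  refine ⟨y, connectedComponentIn_mono x
    (inter_subset_inter_right K Metric.closure_ball_subset_closedBall) hy1, ?_⟩
  have := Metric.frontier_ball_subset_sphere hy2
  exact this

/-! ### nested intersections -/

/-- a directed intersection of compact connected sets is connected -/
theorem isPreconnected_iInter_of_directed [T2Space Z] {ι : Type*} [Nonempty ι] {K : ι → Set Z}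
    (hd : Directed (· ⊇ ·) K) (hc : ∀ i, IsCompact (K i)) (hp : ∀ i, IsPreconnected (K i)) :
    IsPreconnected (⋂ i, K i) := by
  have hcl : IsClosed (⋂ i, K i) := isClosed_iInter fun i => (hc i).isClosed
  obtain ⟨i0⟩ := ‹Nonempty ι›
  have : Nonempty ι := ⟨i0⟩
  have hcpt : IsCompact (⋂ i, K i) := (hc i0).of_isClosed_subset hcl (iInter_subset _ i0)
  rw [isPreconnected_iff_subset_of_fully_disjoint_closed hcl]
  intro a b ha hb hab hdis
  obtain ⟨u, v, hu, hv, hau, hbv, huv⟩ := SeparatedNhds.of_isCompact_isCompact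
    (hcpt.inter_right ha) (hcpt.inter_right hb) (hdis.mono inter_subset_right inter_subset_right)
  obtain ⟨i, hi⟩ := exists_subset_nhds_of_isCompact hd hc (U := u ∪ v) (fun z hz => by
    refine (hu.union hv).mem_nhds ?_
    rcases hab hz with h | h
    · exact Or.inl (hau ⟨hz, h⟩)
    · exact Or.inr (hbv ⟨hz, h⟩))
  rcases (hp i).subset_or_subset hu hv huv hi with h | h
  · left
    intro z hz
    rcases hab hz with h' | h'
    · exact h'
    · exact absurd (hbv ⟨hz, h'⟩) (disjoint_left.1 huv (h (mem_iInter.1 hz i)))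
  · right
    intro z hz
    rcases hab hz with h' | h'
    · exact absurd (h (mem_iInter.1 hz i)) (disjoint_left.1 huv (hau ⟨hz, h'⟩))
    · exact h'

/-- a directed intersection of nonempty compact connected sets is nonempty and connected -/
theorem isConnected_iInter_of_directed [T2Space Z] {ι : Type*} [Nonempty ι] {K : ι → Set Z}
    (hd : Directed (· ⊇ ·) K) (hc : ∀ i, IsCompact (K i)) (hp : ∀ i, IsConnected (K i)) :
    IsConnected (⋂ i, K i) :=
  ⟨IsCompact.nonempty_iInter_of_directed_nonempty_isCompact_isClosed K hd (fun i => (hp i).1) hc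
    fun i => (hc i).isClosed, isPreconnected_iInter_of_directed hd hc fun i => (hp i).2⟩

/-! ### complements -/

/-- if the frontier of an open subset of a connected space is connected, so is the complement -/
theorem isPreconnected_compl_of_frontier [PreconnectedSpace Z] {U : Set Z} (hU : IsOpen U)
    (hf : IsPreconnected (frontier U)) : IsPreconnected Uᶜ := by
  have hcl : IsClosed Uᶜ := hU.isClosed_compl
  have hfU : frontier U ⊆ Uᶜ := by
    rw [hU.frontier_eq]
    exact fun z hz => hz.2
  rw [isPreconnected_iff_subset_of_fully_disjoint_closed hcl]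
  -- the part not containing the frontier is clopen
  have key : ∀ A B : Set Z, IsClosed A → IsClosed B → Disjoint A B → Uᶜ ⊆ A ∪ B →
      frontier U ⊆ A → Uᶜ ⊆ A ∨ Uᶜ ⊆ B := by
    intro A B hA hB hd hcov hfA
    have h1 : IsClosed (Uᶜ ∩ B) := hcl.inter hB
    have h2 : (Uᶜ ∩ B)ᶜ = closure U ∪ A := by
      ext z
      simp only [mem_compl_iff, mem_inter_iff, mem_union, not_and]
      constructor
      · intro h
        by_cases hz : z ∈ U
        · exact Or.inl (subset_closure hz)
        · right
          exact (hcov hz).resolve_right (h hz)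
      · rintro (h | h) hzU hzB
        · have : z ∈ frontier U := by
            rw [hU.frontier_eq]
            exact ⟨h, hzU⟩
          exact disjoint_left.1 hd (hfA this) hzB
        · exact disjoint_left.1 hd h hzB
    have h3 : IsClopen (Uᶜ ∩ B) := ⟨h1, by
      rw [← isClosed_compl_iff, h2]
      exact isClosed_closure.union hA⟩
    rcases isClopen_iff.1 h3 with h | h
    · left
      intro z hz
      refine (hcov hz).resolve_right fun hzB => ?_
      have : z ∈ Uᶜ ∩ B := ⟨hz, hzB⟩
      rw [h] at this
      exact this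
    · right
      intro z _
      have : z ∈ Uᶜ ∩ B := by
        rw [h]
        trivial
      exact this.2
  intro A B hA hB hcov hd
  rcases (isPreconnected_iff_subset_of_fully_disjoint_closed isClosed_frontier).1 hf A B hA hB
    (hfU.trans hcov) hd with h | h
  · exact key A B hA hB hd hcov h
  · exact (key B A hB hA hd.symm (by rw [union_comm B A]; exact hcov) h).symm

/-- the outer component of the complement of an open connected set has connected complement -/
theorem isPreconnected_compl_comp_compl [PreconnectedSpace Z] {V : Set Z} (hV : IsOpen V)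
    (hVc : IsPreconnected V) (q : Z) : IsPreconnected (connectedComponentIn Vᶜ q)ᶜ := by
  by_cases hq : q ∈ Vᶜ
  swap
  · rw [connectedComponentIn_eq_empty hq, compl_empty]
    exact isPreconnected_univ
  set K := connectedComponentIn Vᶜ q with hK
  have hKcl : IsClosed K := isClosed_comp hV.isClosed_compl q
  have hKV : K ⊆ Vᶜ := connectedComponentIn_subset _ _
  have hqK : q ∈ K := mem_connectedComponentIn hq
  have hKc : IsPreconnected K := isPreconnected_connectedComponentIn
  -- if `Kᶜ = M ⊔ N` with `V ⊆ M` then `N = ∅`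
  have key : ∀ M N : Set Z, IsOpen M → IsOpen N → Disjoint M N → M ∪ N = Kᶜ → V ⊆ M → N = ∅ := by
    intro M N hM hN hd hMN hVM
    have hc1 : (K ∪ N) = Mᶜ := by
      ext z
      constructor
      · rintro (h | h) hzM
        · have : z ∈ Kᶜ := hMN ▸ Or.inl hzM
          exact this h
        · exact disjoint_left.1 hd hzM h
      · intro hzM
        by_cases hzK : z ∈ K
        · exact Or.inl hzK
        · right
          have : z ∈ M ∪ N := by rw [hMN]; exact hzK
          exact this.resolve_left hzM
    have hKN : IsPreconnected (K ∪ N) := by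
      have hcl : IsClosed (K ∪ N) := by
        rw [hc1]
        exact hM.isClosed_compl
      rw [isPreconnected_iff_subset_of_fully_disjoint_closed hcl]
      have key2 : ∀ P Q : Set Z, IsClosed P → IsClosed Q → Disjoint P Q → K ∪ N ⊆ P ∪ Q →
          K ⊆ P → K ∪ N ⊆ P := by
        intro P Q hP hQ hPQ hcov hKP
        have h1 : IsClosed ((K ∪ N) ∩ Q) := hcl.inter hQ
        have h2 : (K ∪ N) ∩ Q = N ∩ Pᶜ := by
          ext z
          constructor
          · rintro ⟨h, hzQ⟩
            have hzP : z ∉ P := fun h' => disjoint_left.1 hPQ h' hzQ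
            exact ⟨h.resolve_left fun hzK => hzP (hKP hzK), hzP⟩
          · rintro ⟨hzN, hzP⟩
            exact ⟨Or.inr hzN, (hcov (Or.inr hzN)).resolve_left hzP⟩
        have h3 : IsClopen ((K ∪ N) ∩ Q) := ⟨h1, by
          rw [h2]
          exact hN.inter hP.isOpen_compl⟩
        rcases isClopen_iff.1 h3 with h | h
        · intro z hz
          refine (hcov hz).resolve_right fun hzQ => ?_
          have : z ∈ (K ∪ N) ∩ Q := ⟨hz, hzQ⟩
          rw [h] at this
          exact this
        · exfalso
          have : q ∈ (K ∪ N) ∩ Q := by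
            rw [h]
            trivial
          exact disjoint_left.1 hPQ (hKP hqK) this.2
      intro P Q hP hQ hcov hPQ
      rcases (isPreconnected_iff_subset_of_fully_disjoint_closed hKcl).1 hKc P Q hP hQ
        (subset_union_left.trans hcov) hPQ with h | h
      · exact Or.inl (key2 P Q hP hQ hPQ hcov h)
      · exact Or.inr (key2 Q P hQ hP hPQ.symm (by rw [union_comm Q P]; exact hcov) h)
    have hsub : K ∪ N ⊆ K := hKN.subset_connectedComponentIn (Or.inl hqK) (by
      rw [hc1]
      exact compl_subset_compl.2 hVM)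
    rw [eq_empty_iff_forall_notMem]
    intro z hz
    have h1 : z ∈ K := hsub (Or.inr hz)
    have h2 : z ∈ Kᶜ := hMN ▸ Or.inr hz
    exact h2 h1
  have hKco : IsOpen Kᶜ := hKcl.isOpen_compl
  have hVK : V ⊆ Kᶜ := fun z hz hzK => hKV hzK hz
  rw [isPreconnected_iff_subset_of_disjoint]
  intro u v hu hv hcov huv
  have hM : IsOpen (Kᶜ ∩ u) := hKco.inter hu
  have hN : IsOpen (Kᶜ ∩ v) := hKco.inter hv
  have hd : Disjoint (Kᶜ ∩ u) (Kᶜ ∩ v) := by
    rw [disjoint_left]
    rintro z ⟨h1, h2⟩ ⟨-, h3⟩
    have : z ∈ Kᶜ ∩ (u ∩ v) := ⟨h1, h2, h3⟩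
    rw [huv] at this
    exact this
  have hMN : (Kᶜ ∩ u) ∪ (Kᶜ ∩ v) = Kᶜ := by
    rw [← inter_union_distrib_left]
    exact inter_eq_left.2 hcov
  have hVcov : V ⊆ (Kᶜ ∩ u) ∪ (Kᶜ ∩ v) := by
    rw [hMN]
    exact hVK
  rcases hVc.subset_or_subset hM hN hd hVcov with h | h
  · left
    have h1 := key _ _ hM hN hd hMN h
    rw [h1, union_empty] at hMN
    exact fun z hz => (hMN.symm ▸ hz : z ∈ Kᶜ ∩ u).2
  · right
    have h1 := key _ _ hN hM hd.symm (by rw [union_comm]; exact hMN) h
    rw [h1, empty_union] at hMN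
    exact fun z hz => (hMN.symm ▸ hz : z ∈ Kᶜ ∩ v).2

/-- the frontier of a component of the complement of an open set `V` is inside the frontier
of `V` -/
theorem frontier_comp_compl_subset [LocallyConnectedSpace Z] {V : Set Z} (hV : IsOpen V) (q : Z) :
    frontier (connectedComponentIn Vᶜ q) ⊆ frontier V := by
  intro y hy
  have hcl : IsClosed (connectedComponentIn Vᶜ q) := isClosed_comp hV.isClosed_compl q
  have hyK : y ∈ connectedComponentIn Vᶜ q := hcl.frontier_subset hy
  have hyV : y ∈ Vᶜ := connectedComponentIn_subset _ _ hyK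
  rw [hV.frontier_eq]
  refine ⟨?_, hyV⟩
  by_contra hyc
  have ho : IsOpen (connectedComponentIn (closure V)ᶜ y) :=
    isClosed_closure.isOpen_compl.connectedComponentIn
  have hyo : y ∈ connectedComponentIn (closure V)ᶜ y := mem_connectedComponentIn hyc
  have hsub : connectedComponentIn (closure V)ᶜ y ⊆ connectedComponentIn Vᶜ q :=
    subset_comp_of_inter isPreconnected_connectedComponentIn
      ((connectedComponentIn_subset _ _).trans (compl_subset_compl.2 subset_closure))
      ⟨y, hyo, hyK⟩
  have : y ∈ interior (connectedComponentIn Vᶜ q) := mem_interior.2 ⟨_, hsub, ho, hyo⟩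
  exact hy.2 this

/-- a preconnected set meeting `V` and not inside `V` meets the frontier of `V` -/
lemma inter_frontier_nonempty {S V : Set Z} (hS : IsPreconnected S) (h1 : (S ∩ V).Nonempty)
    (h2 : ¬ S ⊆ V) : (S ∩ frontier V).Nonempty := by
  by_contra hn
  have hcov : S ⊆ interior V ∪ (closure V)ᶜ := by
    intro z hz
    by_cases h : z ∈ interior V
    · exact Or.inl h
    · right
      intro hzc
      exact hn ⟨z, hz, hzc, h⟩
  have hd : Disjoint (interior V) (closure V)ᶜ :=
    disjoint_left.2 fun z hz hz' => hz' (subset_closure (interior_subset hz))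
  rcases hS.subset_or_subset isOpen_interior isClosed_closure.isOpen_compl hd hcov with h | h
  · exact h2 (h.trans interior_subset)
  · obtain ⟨z, hzS, hzV⟩ := h1
    exact h hzS (subset_closure hzV)

/-- **Filling holes.** `V` open connected nonempty, `q ∉ V`, `K` the component of `q` in the
complement, `V' = Kᶜ` (`= V` with all its holes filled). Then `V'` is open, connected, contains `V`,
its frontier is inside the frontier of `V`; either `V' = V` (and the complement of `V` is
connected) or some point of the frontier of `V` is (interior) in `V'`. -/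
theorem fill_holes [PreconnectedSpace Z] [LocallyConnectedSpace Z] {V : Set Z} (hV : IsOpen V)
    (hVc : IsPreconnected V) (hne : V.Nonempty) (q : Z) :
    IsOpen (connectedComponentIn Vᶜ q)ᶜ ∧ IsPreconnected (connectedComponentIn Vᶜ q)ᶜ ∧
      V ⊆ (connectedComponentIn Vᶜ q)ᶜ ∧ frontier (connectedComponentIn Vᶜ q)ᶜ ⊆ frontier V ∧
      (IsPreconnected Vᶜ ∨ ∃ y ∈ frontier V, y ∈ (connectedComponentIn Vᶜ q)ᶜ) := by
  have h0 : V ⊆ (connectedComponentIn Vᶜ q)ᶜ := fun z hz hzK => connectedComponentIn_subset _ _ hzK hz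
  refine ⟨(isClosed_comp hV.isClosed_compl q).isOpen_compl,
    isPreconnected_compl_comp_compl hV hVc q, h0, ?_, ?_⟩
  · rw [frontier_compl]
    exact frontier_comp_compl_subset hV q
  · by_cases h : (connectedComponentIn Vᶜ q)ᶜ ⊆ V
    · left
      have : Vᶜ = connectedComponentIn Vᶜ q :=
        subset_antisymm (fun z hz => by
          by_contra h'
          exact hz (h h')) (connectedComponentIn_subset _ _)
      rw [this]
      exact isPreconnected_connectedComponentIn
    · right
      obtain ⟨v, hv⟩ := hne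
      obtain ⟨y, hy1, hy2⟩ := inter_frontier_nonempty (isPreconnected_compl_comp_compl hV hVc q)
        ⟨v, h0 hv, hv⟩ h
      exact ⟨y, hy2, hy1⟩

/-- holes of a set inside `B` with connected complement stay inside `B` -/
lemma compl_comp_compl_subset {V B : Set Z} (hVB : V ⊆ B) (hB : IsPreconnected Bᶜ) {q : Z}
    (hq : q ∉ B) : (connectedComponentIn Vᶜ q)ᶜ ⊆ B := by
  intro z hz
  by_contra hzB
  exact hz (hB.subset_connectedComponentIn hq (compl_subset_compl.2 hVB) hzB)

/-! ### limits of sets along a filter -/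

/-- the limit of a family of sets along a filter `f`: all points all of whose neighbourhoods meet
`K i` frequently (for an ultrafilter: for `f`-almost all `i`). -/
def setLim {ι : Type*} (f : Filter ι) (K : ι → Set Z) : Set Z :=
  {z | ∀ U ∈ 𝓝 z, ∃ᶠ i in f, (U ∩ K i).Nonempty}

lemma mem_setLim {ι : Type*} {f : Filter ι} {K : ι → Set Z} {z : Z} :
    z ∈ setLim f K ↔ ∀ U ∈ 𝓝 z, ∃ᶠ i in f, (U ∩ K i).Nonempty := Iff.rfl

lemma isClosed_setLim {ι : Type*} (f : Filter ι) (K : ι → Set Z) : IsClosed (setLim f K) := by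
  rw [← isOpen_compl_iff, isOpen_iff_mem_nhds]
  intro z hz
  have : ∃ U ∈ 𝓝 z, ¬ ∃ᶠ i in f, (U ∩ K i).Nonempty := by
    by_contra h
    push Not at h
    exact hz fun U hU => h U hU
  obtain ⟨U, hU, hU'⟩ := this
  obtain ⟨V, hVU, hVo, hzV⟩ := _root_.mem_nhds_iff.1 hU
  filter_upwards [hVo.mem_nhds hzV] with w hw hwl
  exact hU' ((hwl V (hVo.mem_nhds hw)).mono fun i hi => hi.mono (inter_subset_inter_left _ hVU))

/-- a compact set missing the limit misses almost all members -/
lemma eventually_disjoint_of_isCompact {ι : Type*} {f : Filter ι} {K : ι → Set Z} {S : Set Z}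
    (hS : IsCompact S) (hd : Disjoint S (setLim f K)) : ∀ᶠ i in f, Disjoint S (K i) := by
  have h1 : ∀ z ∈ S, ∃ U ∈ 𝓝 z, ∀ᶠ i in f, ¬ (U ∩ K i).Nonempty := by
    intro z hz
    have hz' : z ∉ setLim f K := fun h => disjoint_left.1 hd hz h
    by_contra h
    push Not at h
    refine hz' fun U hU => ?_
    exact h U hU
  choose! U hU hU' using h1
  obtain ⟨t, htS, ht⟩ := hS.elim_nhds_subcover U hU
  have h2 : ∀ᶠ i in f, ∀ z ∈ t, ¬ (U z ∩ K i).Nonempty :=
    (Filter.eventually_all_finset t).2 fun z hz => hU' z (htS z hz)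
  filter_upwards [h2] with i hi
  rw [disjoint_left]
  intro w hwS hwK
  obtain ⟨z, hz, hwz⟩ := mem_iUnion₂.1 (ht hwS)
  exact hi z hz ⟨w, hwz, hwK⟩

/-- points chosen in the sets accumulate in the limit set -/
lemma mem_setLim_of_tendsto {ι : Type*} {f : Filter ι} [f.NeBot] {K : ι → Set Z} {p : ι → Z}
    {z : Z} (hp : ∀ᶠ i in f, p i ∈ K i) (hz : Tendsto p f (𝓝 z)) : z ∈ setLim f K := by
  intro U hU
  have h : ∀ᶠ i in f, (U ∩ K i).Nonempty := by
    filter_upwards [hp, hz hU] with i h1 h2
    exact ⟨p i, h2, h1⟩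
  exact h.frequently

/-- the limit of connected sets along an ultrafilter is connected (compact Hausdorff space) -/
theorem isPreconnected_setLim [CompactSpace Z] [T2Space Z] {ι : Type*} (f : Ultrafilter ι)
    {K : ι → Set Z} (hK : ∀ᶠ i in f, IsPreconnected (K i)) : IsPreconnected (setLim (f : Filter ι) K) := by
  have hcl := isClosed_setLim (f : Filter ι) K
  rw [isPreconnected_iff_subset_of_fully_disjoint_closed hcl]
  intro a b ha hb hab hdis
  obtain ⟨u, v, hu, hv, hau, hbv, huv⟩ := normal_separation ha hb hdis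
  by_contra hcon
  rw [not_or, not_subset, not_subset] at hcon
  obtain ⟨⟨z1, hz1, hz1a⟩, ⟨z2, hz2, hz2b⟩⟩ := hcon
  have hz1v : z1 ∈ v := hbv ((hab hz1).resolve_left hz1a)
  have hz2u : z2 ∈ u := hau ((hab hz2).resolve_right hz2b)
  have e1 : ∀ᶠ i in (f : Filter ι), (v ∩ K i).Nonempty :=
    Ultrafilter.frequently_iff_eventually.1 (hz1 v (hv.mem_nhds hz1v))
  have e2 : ∀ᶠ i in (f : Filter ι), (u ∩ K i).Nonempty :=
    Ultrafilter.frequently_iff_eventually.1 (hz2 u (hu.mem_nhds hz2u))
  have e3 : ∀ᶠ i in (f : Filter ι), Disjoint (u ∪ v)ᶜ (K i) :=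
    eventually_disjoint_of_isCompact (hu.union hv).isClosed_compl.isCompact (by
      rw [disjoint_left]
      intro z hz hzl
      rcases hab hzl with h | h
      · exact hz (Or.inl (hau h))
      · exact hz (Or.inr (hbv h)))
  obtain ⟨i, h1, h2, h3, h4⟩ := (((e1.and (e2.and (e3.and hK))).exists) :
    ∃ i, (v ∩ K i).Nonempty ∧ (u ∩ K i).Nonempty ∧ Disjoint (u ∪ v)ᶜ (K i) ∧ IsPreconnected (K i))
  rcases h4.subset_or_subset hu hv huv (by
    intro z hz
    by_contra h
    exact disjoint_left.1 h3 h hz) with h | h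
  · obtain ⟨w, hw1, hw2⟩ := h1
    exact disjoint_left.1 huv (h hw2) hw1
  · obtain ⟨w, hw1, hw2⟩ := h2
    exact disjoint_left.1 huv hw1 (h hw2)

/-- the limit along an ultrafilter of nonempty sets in a compact space is nonempty -/
theorem nonempty_setLim [CompactSpace Z] {ι : Type*} (f : Ultrafilter ι)
    {K : ι → Set Z} (hK : ∀ᶠ i in f, (K i).Nonempty) : (setLim (f : Filter ι) K).Nonempty := by
  by_contra h
  have h0 : setLim (f : Filter ι) K = ∅ := not_nonempty_iff_eq_empty.1 h
  have e := eventually_disjoint_of_isCompact (f := (f : Filter ι)) (K := K) (S := univ)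
    isCompact_univ (by rw [h0]; exact disjoint_empty _)
  obtain ⟨i, h1, h2⟩ := (hK.and e).exists
  obtain ⟨z, hz⟩ := h1
  exact disjoint_left.1 h2 (mem_univ z) hz

/-- two points of a connected open subset of a locally compact, locally connected Hausdorff space
lie in a compact connected subset of it -/
theorem exists_isCompact_isPreconnected [T2Space Z] [LocallyCompactSpace Z]
    [LocallyConnectedSpace Z] {W : Set Z} (hW : IsOpen W) (hWc : IsPreconnected W) {x y : Z}
    (hx : x ∈ W) (hy : y ∈ W) :
    ∃ S ⊆ W, IsCompact S ∧ IsPreconnected S ∧ x ∈ S ∧ y ∈ S := by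
  -- small connected neighbourhoods with compact closure in `W`
  have hloc : ∀ z ∈ W, ∃ N : Set Z, IsOpen N ∧ z ∈ N ∧ IsPreconnected N ∧ IsCompact (closure N) ∧
      closure N ⊆ W := by
    intro z hz
    obtain ⟨L, hL, hLW, hLc⟩ := local_compact_nhds (hW.mem_nhds hz)
    refine ⟨connectedComponentIn (interior L) z, isOpen_interior.connectedComponentIn,
      mem_connectedComponentIn (mem_interior_iff_mem_nhds.2 hL),
      isPreconnected_connectedComponentIn, ?_, ?_⟩
    · exact hLc.of_isClosed_subset isClosed_closure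
        (closure_minimal ((connectedComponentIn_subset _ _).trans interior_subset) hLc.isClosed)
    · exact (closure_minimal ((connectedComponentIn_subset _ _).trans interior_subset)
        hLc.isClosed).trans hLW
  set P : Z → Prop := fun z => ∃ S ⊆ W, IsCompact S ∧ IsPreconnected S ∧ x ∈ S ∧ z ∈ S with hP
  have hstep : ∀ N : Set Z, IsPreconnected N → IsCompact (closure N) → closure N ⊆ W →
      ∀ z ∈ N, ∀ w ∈ N, P z → P w := by
    rintro N hN hNc hNW z hz w hw ⟨S, hSW, hSc, hSp, hxS, hzS⟩
    exact ⟨S ∪ closure N, union_subset hSW hNW, hSc.union hNc,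
      hSp.union z hzS (subset_closure hz) hN.closure, Or.inl hxS, Or.inr (subset_closure hw)⟩
  have ho1 : IsOpen {z | z ∈ W ∧ P z} := by
    rw [isOpen_iff_mem_nhds]
    rintro z ⟨hzW, hz⟩
    obtain ⟨N, hNo, hzN, hN, hNc, hNW⟩ := hloc z hzW
    filter_upwards [hNo.mem_nhds hzN] with w hw
    exact ⟨hNW (subset_closure hw), hstep N hN hNc hNW z hzN w hw hz⟩
  have ho2 : IsOpen {z | z ∈ W ∧ ¬ P z} := by
    rw [isOpen_iff_mem_nhds]
    rintro z ⟨hzW, hz⟩
    obtain ⟨N, hNo, hzN, hN, hNc, hNW⟩ := hloc z hzW
    filter_upwards [hNo.mem_nhds hzN] with w hw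
    exact ⟨hNW (subset_closure hw), fun h => hz (hstep N hN hNc hNW w hw z hzN h)⟩
  have hd : Disjoint {z | z ∈ W ∧ P z} {z | z ∈ W ∧ ¬ P z} :=
    disjoint_left.2 fun z h1 h2 => h2.2 h1.2
  rcases hWc.subset_or_subset ho1 ho2 hd (fun z hz => by
    by_cases h : P z
    · exact Or.inl ⟨hz, h⟩
    · exact Or.inr ⟨hz, h⟩) with h | h
  · exact (h hy).2
  · exact absurd (⟨{x}, singleton_subset_iff.2 hx, isCompact_singleton, isPreconnected_singleton,
      rfl, rfl⟩ : P x) (h hx).2

end Crest.Agent.R193.P_Comp
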