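import Crest.Agent.R193.Defs
import Crest.Agent.R193.Planar4
import Crest.Agent.R193.P_Comp

/-!
# R193, block LOEW, unit scale (helper508)

`loew_unit`: a function of the domain that is `≥ 1` on a connected set of size `≥ d` and `≤ 0` on a
connected set of size `≥ d` has energy at least `c(d) > 0`.

Proof: level sets have large components (planar topology), two of `N+1` equally spaced level
components come close to each other, and the Courant-Lebesgue loop around such a place meets both.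
-/

set_option autoImplicit false

open Set Filter Topology Metric

namespace Crest.Agent.R193.L_Unit

open Crest.Agent.R193 Crest.Agent.R193.Planar

/-! ### complements of small caps on the sphere are connected -/

/-- the complement of an open cone around the direction `p`, without the origin, is preconnected -/
theorem cone_preconnected {E : Type*} [NormedAddCommGroup E] [InnerProductSpace ℝ E] {p : E}
    (hp : ‖p‖ = 1) {c : ℝ} (h0 : 0 ≤ c) (h1 : c < 1) :
    IsPreconnected {x : E | x ≠ 0 ∧ inner ℝ x p ≤ c * ‖x‖} := by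
  have hpp : inner ℝ p p = (1 : ℝ) := by rw [real_inner_self_eq_norm_sq, hp]; norm_num
  set H : Set E := {x : E | inner ℝ x p < 0} with hH
  have hHc : Convex ℝ H := by
    intro x hx y hy a b ha hb hab
    simp only [hH, mem_ofPred_eq] at hx hy ⊢
    rw [inner_add_left, inner_smul_left, inner_smul_left]
    simp only [conj_trivial]
    rcases ha.lt_or_eq with ha' | ha'
    · nlinarith
    · rw [← ha'] at hab ⊢
      have : b = 1 := by linarith
      rw [this]; linarith
  have hHp : IsPreconnected H := hHc.isPreconnected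
  have hmp : -p ∈ H := by
    simp only [hH, mem_ofPred_eq, inner_neg_left, hpp]; norm_num
  -- the half line from `x` in direction `-p`
  have key : ∀ x ∈ {x : E | x ≠ 0 ∧ inner ℝ x p ≤ c * ‖x‖}, ∃ T : Set E,
      T ⊆ {x : E | x ≠ 0 ∧ inner ℝ x p ≤ c * ‖x‖} ∧ -p ∈ T ∧ x ∈ T ∧ IsPreconnected T := by
    rintro x ⟨hx0, hxc⟩
    refine ⟨(fun s : ℝ => x - s • p) '' Ici 0 ∪ H, ?_, Or.inr hmp, Or.inl ⟨0, mem_Ici.2 le_rfl, by simp⟩,
      ?_⟩
    · rintro y (⟨s, hs, rfl⟩ | hy)
      · have hs' : 0 ≤ s := hs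
        refine ⟨?_, ?_⟩
        · intro h
          have hx : x = s • p := sub_eq_zero.1 h
          rw [hx, inner_smul_left, hpp, norm_smul, hp] at hxc
          simp only [conj_trivial, Real.norm_eq_abs, abs_of_nonneg hs', mul_one] at hxc
          have : s = 0 := by nlinarith
          rw [this, zero_smul] at hx
          exact hx0 hx
        · have h2 : ‖x‖ ≤ ‖x - s • p‖ + s := by
            calc ‖x‖ = ‖(x - s • p) + s • p‖ := by rw [sub_add_cancel]
              _ ≤ ‖x - s • p‖ + ‖s • p‖ := norm_add_le _ _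
              _ = ‖x - s • p‖ + s := by rw [norm_smul, hp, mul_one, Real.norm_eq_abs,
                    abs_of_nonneg hs']
          show inner ℝ (x - s • p) p ≤ c * ‖x - s • p‖
          rw [inner_sub_left, inner_smul_left, hpp]
          simp only [conj_trivial, mul_one]
          nlinarith
      · refine ⟨?_, ?_⟩
        · rintro rfl
          simp only [hH, mem_ofPred_eq, inner_zero_left, lt_self_iff_false] at hy
        · exact (le_of_lt hy).trans (mul_nonneg h0 (norm_nonneg _))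
    · have hc : IsPreconnected ((fun s : ℝ => x - s • p) '' Ici 0) :=
        isPreconnected_Ici.image _ (by fun_prop)
      have hsx : 0 ≤ |inner ℝ x p| + 1 := by positivity
      refine hc.union (x - (|inner ℝ x p| + 1) • p) ⟨_, hsx, rfl⟩ ?_ hHp
      simp only [hH, mem_ofPred_eq]
      rw [inner_sub_left, inner_smul_left, hpp]
      simp only [conj_trivial, mul_one]
      have := le_abs_self (inner ℝ x p)
      linarith
  refine isPreconnected_of_forall (-p) fun y hy => ?_
  obtain ⟨T, h1, h2, h3, h4⟩ := key y hy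
  exact ⟨T, h1, h2, h3, h4⟩

/-- complement of a small open ball on the unit sphere is preconnected -/
theorem sphere_compl_ball_preconnected (p : S2) {r : ℝ} (hr0 : 0 < r) (hr1 : r ≤ 1) :
    IsPreconnected {q : S2 | r ≤ dist q p} := by
  have hp : ‖(p : EuclideanSpace ℝ (Fin 3))‖ = 1 := norm_eq_of_mem_sphere p
  set c : ℝ := 1 - r ^ 2 / 2 with hc
  have hc0 : 0 ≤ c := by rw [hc]; nlinarith
  have hc1 : c < 1 := by rw [hc]; nlinarith [sq_pos_of_pos hr0]
  have hK := cone_preconnected hp hc0 hc1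
  -- dist and inner product on the sphere
  have hdist : ∀ q : S2, dist q p ^ 2 = 2 - 2 * inner ℝ (q : EuclideanSpace ℝ (Fin 3)) p := by
    intro q
    have hq : ‖(q : EuclideanSpace ℝ (Fin 3))‖ = 1 := norm_eq_of_mem_sphere q
    rw [Subtype.dist_eq, dist_eq_norm, @norm_sub_sq_real, hq, hp]
    ring
  have hiff : ∀ q : S2, r ≤ dist q p ↔ inner ℝ (q : EuclideanSpace ℝ (Fin 3)) p ≤ c := by
    intro q
    have h := hdist q
    have hd := dist_nonneg (x := q) (y := p)
    constructor
    · intro hrq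
      have : r ^ 2 ≤ dist q p ^ 2 := by gcongr
      rw [hc]; linarith
    · intro hq
      by_contra hlt
      push Not at hlt
      have : dist q p ^ 2 < r ^ 2 := by gcongr
      rw [hc] at hq
      linarith
  -- normalisation map from the cone to the sphere
  have hcont : ContinuousOn (fun x : EuclideanSpace ℝ (Fin 3) => ‖x‖⁻¹ • x)
      {x | x ≠ 0 ∧ inner ℝ x (p : EuclideanSpace ℝ (Fin 3)) ≤ c * ‖x‖} := by
    refine ContinuousOn.smul (ContinuousOn.inv₀ continuous_norm.continuousOn ?_) continuousOn_id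
    rintro x ⟨hx, -⟩
    exact norm_ne_zero_iff.2 hx
  have himg := hK.image _ hcont
  have heq : Subtype.val '' {q : S2 | r ≤ dist q p} =
      (fun x : EuclideanSpace ℝ (Fin 3) => ‖x‖⁻¹ • x) ''
        {x | x ≠ 0 ∧ inner ℝ x (p : EuclideanSpace ℝ (Fin 3)) ≤ c * ‖x‖} := by
    ext y
    constructor
    · rintro ⟨q, hq, rfl⟩
      have hq1 : ‖(q : EuclideanSpace ℝ (Fin 3))‖ = 1 := norm_eq_of_mem_sphere q
      refine ⟨q, ⟨?_, ?_⟩, ?_⟩
      · intro h
        rw [h, norm_zero] at hq1
        exact zero_ne_one hq1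
      · rw [hq1, mul_one]; exact (hiff q).1 hq
      · simp only [hq1, inv_one, one_smul]
    · rintro ⟨x, ⟨hx0, hx⟩, rfl⟩
      have hn : 0 < ‖x‖ := norm_pos_iff.2 hx0
      have hmem : ‖x‖⁻¹ • x ∈ sphere (0 : EuclideanSpace ℝ (Fin 3)) 1 := by
        rw [mem_sphere_zero_iff_norm, norm_smul, norm_inv, norm_norm, inv_mul_cancel₀ hn.ne']
      refine ⟨⟨_, hmem⟩, ?_, rfl⟩
      show r ≤ dist (⟨‖x‖⁻¹ • x, hmem⟩ : S2) p
      rw [hiff]
      show inner ℝ (‖x‖⁻¹ • x) (p : EuclideanSpace ℝ (Fin 3)) ≤ c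
      rw [inner_smul_left]
      simp only [conj_trivial]
      rw [inv_mul_le_iff₀ hn, mul_comm]
      exact hx
  have h3 : IsPreconnected (Subtype.val '' {q : S2 | r ≤ dist q p}) := by rw [heq]; exact himg
  exact (Topology.IsInducing.subtypeVal.isPreconnected_image).1 h3


section
variable {G Z : Type} [Group G] [MetricSpace Z] [MulAction G Z]

/-- **(SM)** small sets do not separate large ones: for `d > 0` there is `τ > 0` such that every
ball of radius `τ` misses a preconnected set containing everything at distance `≥ d / 2`. -/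
theorem exists_small (Φ : Z ≃ₜ S2) [CompactSpace Z] {d : ℝ} (hd : 0 < d) :
    ∃ τ : ℝ, 0 < τ ∧ ∀ z : Z, ∃ V : Set Z, IsPreconnected V ∧ (∀ x ∈ V, τ ≤ dist x z) ∧
      ∀ x, d / 2 ≤ dist x z → x ∈ V := by
  have hu1 : UniformContinuous Φ.symm :=
    CompactSpace.uniformContinuous_of_continuous Φ.symm.continuous
  have hu2 : UniformContinuous Φ := CompactSpace.uniformContinuous_of_continuous Φ.continuous
  obtain ⟨r0, hr0, h1⟩ := Metric.uniformContinuous_iff.1 hu1 (d / 2) (by linarith)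
  set r := min r0 1 with hr
  have hrpos : 0 < r := lt_min hr0 one_pos
  obtain ⟨τ, hτ, h2⟩ := Metric.uniformContinuous_iff.1 hu2 r hrpos
  refine ⟨τ, hτ, fun z => ⟨Φ.symm '' {q : S2 | r ≤ dist q (Φ z)}, ?_, ?_, ?_⟩⟩
  · exact (sphere_compl_ball_preconnected (Φ z) hrpos (min_le_right _ _)).image _
      Φ.symm.continuous.continuousOn
  · rintro x ⟨q, hq, rfl⟩
    by_contra hlt
    push Not at hlt
    have := h2 hlt
    rw [Φ.apply_symm_apply] at this
    exact absurd hq (not_le.2 this)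
  · intro x hx
    refine ⟨Φ x, ?_, Φ.symm_apply_apply x⟩
    show r ≤ dist (Φ x) (Φ z)
    by_contra hlt
    push Not at hlt
    have := h1 (hlt.trans_le (min_le_left _ _))
    rw [Φ.symm_apply_apply, Φ.symm_apply_apply] at this
    linarith

/-- a compact set all of whose components have small diameter is a finite disjoint union of small
compact sets -/
theorem exists_partition [CompactSpace Z] {L : Set Z} (hL : IsClosed L) {τ : ℝ}
    (h : ∀ z ∈ L, connectedComponentIn L z ⊆ ball z τ) :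
    ∃ (n : ℕ) (A : Fin n → Set Z), (∀ i, IsClosed (A i)) ∧ (⋃ i, A i) = L ∧
      (∀ i j, i ≠ j → Disjoint (A i) (A j)) ∧ ∀ i, ∃ z, A i ⊆ ball z τ := by
  classical
  have hLc : IsCompact L := hL.isCompact
  have : CompactSpace L := isCompact_iff_compactSpace.1 hLc
  -- clopen neighbourhoods
  have hs : ∀ z : L, ∃ s : Set L, IsClopen s ∧ z ∈ s ∧ Subtype.val '' s ⊆ ball (z : Z) τ := by
    intro z
    obtain ⟨s, hs, hzs, hd⟩ := P_Comp.exists_isClopen_of_comp_disjoint (X := L)
      (F := Subtype.val ⁻¹' (ball (z : Z) τ)ᶜ)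
      ((isOpen_ball.isClosed_compl).preimage continuous_subtype_val) (x := z) (by
        have h1 := h z z.2
        rw [connectedComponentIn_eq_image z.2] at h1
        rw [disjoint_left]
        intro y hy hyF
        exact hyF (h1 (mem_image_of_mem _ hy)))
    refine ⟨s, hs, hzs, ?_⟩
    rintro _ ⟨y, hy, rfl⟩
    by_contra hcon
    exact disjoint_left.1 hd hy hcon
  choose s hs hzs hsb using hs
  obtain ⟨t, ht⟩ := isCompact_univ.elim_finite_subcover (U := s) (fun z => (hs z).isOpen)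
    (fun z _ => mem_iUnion.2 ⟨z, hzs z⟩)
  -- enumerate
  obtain ⟨n, ⟨e⟩⟩ : ∃ n : ℕ, Nonempty (Fin n ≃ t) := ⟨t.card, ⟨t.equivFin.symm⟩⟩
  set B : Fin n → Set L := fun i => s (e i) with hB
  have hBc : ∀ i, IsClopen (B i) := fun i => hs _
  set A' : Fin n → Set L := fun i => B i \ ⋃ j ∈ Finset.univ.filter (fun j => j < i), B j with hA'
  have hA'c : ∀ i, IsClopen (A' i) := fun i =>
    (hBc i).diff (isClopen_biUnion_finset fun j _ => hBc j)
  refine ⟨n, fun i => Subtype.val '' A' i, fun i => ?_, ?_, ?_, fun i => ⟨(e i : L), ?_⟩⟩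
  · exact ((hA'c i).1.isCompact.image continuous_subtype_val).isClosed
  · rw [← image_iUnion]
    have : (⋃ i, A' i) = univ := by
      rw [eq_univ_iff_forall]
      intro z
      have hz : ∃ i : Fin n, z ∈ B i := by
        obtain ⟨y, hy, hzy⟩ := mem_iUnion₂.1 (ht (mem_univ z))
        exact ⟨e.symm ⟨y, hy⟩, by rw [hB]; simpa using hzy⟩
      have hne : (Finset.univ.filter fun i : Fin n => z ∈ B i).Nonempty := by
        obtain ⟨i, hi⟩ := hz
        exact ⟨i, by simp [hi]⟩
      set i0 := (Finset.univ.filter fun i : Fin n => z ∈ B i).min' hne with hi0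
      have hi0m := Finset.min'_mem _ hne
      rw [← hi0, Finset.mem_filter] at hi0m
      refine mem_iUnion.2 ⟨i0, hi0m.2, ?_⟩
      simp only [mem_iUnion, Finset.mem_filter, Finset.mem_univ, true_and, exists_prop, not_exists,
        not_and]
      intro j hj hzj
      have := Finset.min'_le (Finset.univ.filter fun i : Fin n => z ∈ B i) j (by simp [hzj])
      rw [← hi0] at this
      exact absurd hj (not_lt.2 this)
    rw [this, image_univ, Subtype.range_coe]
  · intro i j hij
    refine (?_ : Disjoint (A' i) (A' j)).image Subtype.val_injective.injOn (subset_univ _)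
      (subset_univ _)
    rw [disjoint_left]
    intro z hzi hzj
    rcases lt_or_gt_of_ne hij with hlt | hlt
    · exact hzj.2 (mem_iUnion₂.2 ⟨i, by simp [hlt], hzi.1⟩)
    · exact hzi.2 (mem_iUnion₂.2 ⟨j, by simp [hlt], hzj.1⟩)
  · rintro _ ⟨y, hy, rfl⟩
    exact hsb _ (mem_image_of_mem _ hy.1)


/-- **(LP)** level sets between two large connected sets have large components -/
theorem exists_level_comp (Φ : Z ≃ₜ S2) [CompactSpace Z] {d : ℝ} (hd : 0 < d) :
    ∃ τ : ℝ, 0 < τ ∧ ∀ (w : Z → ℝ), Continuous w → ∀ A B : Set Z, IsPreconnected A →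
      IsPreconnected B → ∀ a ∈ A, ∀ a' ∈ A, ∀ b ∈ B, ∀ b' ∈ B, d ≤ dist a a' → d ≤ dist b b' →
      (∀ x ∈ A, 1 ≤ w x) → (∀ x ∈ B, w x ≤ 0) → ∀ t : ℝ, 0 < t → t < 1 →
      ∃ K : Set Z, IsPreconnected K ∧ (∀ x ∈ K, w x = t) ∧ ∃ z ∈ K, ∃ y ∈ K, τ ≤ dist y z := by
  obtain ⟨τ, hτ, hV⟩ := exists_small Φ hd
  refine ⟨τ, hτ, fun w hw A B hA hB a ha a' ha' b hb b' hb' hda hdb hwA hwB t ht0 ht1 => ?_⟩
  have hlc : LocallyConnectedSpace Z := Φ.isOpenEmbedding.locallyConnectedSpace
  have hcs : ConnectedSpace Z := by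
    have := S2_connected
    exact Φ.symm.surjective.connectedSpace Φ.symm.continuous
  have hX : Splits Z := splits_S2.of_homeo Φ
  set L : Set Z := {x | w x = t} with hL
  have hLc : IsClosed L := isClosed_singleton.preimage hw
  by_contra hcon
  push Not at hcon
  -- all components are small
  have hsmall : ∀ z ∈ L, connectedComponentIn L z ⊆ ball z τ := by
    intro z hz y hy
    refine hcon (connectedComponentIn L z) isPreconnected_connectedComponentIn (fun x hx => ?_)
      z (mem_connectedComponentIn hz) y hy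
    exact (connectedComponentIn_subset L z hx : x ∈ L)
  obtain ⟨n, U, hUc, hUL, hUd, hUb⟩ := exists_partition hLc hsmall
  have haL : a ∉ L := fun h => by
    have := hwA a ha
    rw [hL] at h
    have h' : w a = t := h
    linarith
  have hbL : b ∉ L := fun h => by
    have := hwB b hb
    have h' : w b = t := h
    linarith
  have hsep : FSep (⋃ i ∈ (Finset.univ : Finset (Fin n)), U i) a b := by
    have he : (⋃ i ∈ (Finset.univ : Finset (Fin n)), U i) = L := by simp [hUL]
    rw [he]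
    refine fsep_of_forall hLc haL hbL fun S hS haS hbS => ?_
    obtain ⟨x, hxS, hx⟩ := hS.intermediate_value hbS haS hw.continuousOn
      (show t ∈ Icc (w b) (w a) from ⟨(hwB b hb).trans ht0.le, ht1.le.trans (hwA a ha)⟩)
    exact ⟨x, hxS, hx⟩
  obtain ⟨c, -, hc, hfam⟩ := hX.exists_famConn U hUc Finset.univ hsep
  -- `c` has at most one element
  have hcase : c = ∅ ∨ ∃ i, c = {i} := by
    rcases c.eq_empty_or_nonempty with h | ⟨i, hi⟩
    · exact Or.inl h
    · right
      refine ⟨i, ?_⟩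
      by_contra hne
      obtain ⟨h1, hh1, h2, -, hh2, hmeet⟩ := hfam {i} (by simpa using hi) ⟨i, by simp⟩
        (fun h' => hne h'.symm)
      rw [Finset.mem_singleton] at hh1
      have hne2 : h1 ≠ h2 := fun h' => hh2 (by rw [Finset.mem_singleton, ← h', hh1])
      obtain ⟨x, hx1, hx2⟩ := hmeet
      exact disjoint_left.1 (hUd h1 h2 hne2) hx1 hx2
  -- in both cases there is a ball of radius `τ` around some point containing the union
  have hball : ∃ z, (⋃ i ∈ c, U i) ⊆ ball z τ := by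
    rcases hcase with h | ⟨i, h⟩
    · exact ⟨a, by rw [h]; simp⟩
    · obtain ⟨z, hz⟩ := hUb i
      exact ⟨z, by rw [h]; simpa using hz⟩
  obtain ⟨z, hz⟩ := hball
  obtain ⟨V, hVp, hV1, hV2⟩ := hV z
  have hAV : (A ∩ V).Nonempty := by
    rcases le_or_gt (d / 2) (dist a z) with h | h
    · exact ⟨a, ha, hV2 a h⟩
    · refine ⟨a', ha', hV2 a' ?_⟩
      have := dist_triangle a z a'
      rw [dist_comm z a'] at this
      linarith
  have hBV : (B ∩ V).Nonempty := by
    rcases le_or_gt (d / 2) (dist b z) with h | h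
    · exact ⟨b, hb, hV2 b h⟩
    · refine ⟨b', hb', hV2 b' ?_⟩
      have := dist_triangle b z b'
      rw [dist_comm z b'] at this
      linarith
  have hW : IsPreconnected (A ∪ V ∪ B) := by
    obtain ⟨x, hxA, hxV⟩ := hAV
    obtain ⟨y, hyB, hyV⟩ := hBV
    exact (hA.union x hxA hxV hVp).union y (Or.inr hyV) hyB hB
  obtain ⟨x, hxW, hxU⟩ := hc.inter_nonempty hW (Or.inl (Or.inl ha)) (Or.inr hb)
  have hxL : x ∈ L := by
    rw [← hUL]
    obtain ⟨i, -, hi⟩ := mem_iUnion₂.1 hxU
    exact mem_iUnion.2 ⟨i, hi⟩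
  have hwx : w x = t := hxL
  rcases hxW with (hx | hx) | hx
  · have := hwA x hx; linarith
  · exact absurd (hz hxU) (not_lt.2 (hV1 x hx))
  · have := hwB x hx; linarith

/-- **Loewner inequality at unit scale.** -/
theorem loew_unit (S : Setup G Z) (Q : DForm S) (Φ : Z ≃ₜ S2) (d : ℝ) (hd : 0 < d) :
    ∃ c > 0, ∀ A B : Set Z, IsPreconnected A → IsPreconnected B → ∀ a ∈ A, ∀ a' ∈ A, ∀ b ∈ B,
      ∀ b' ∈ B, d ≤ dist a a' → d ≤ dist b b' → ∀ w ∈ Q.Dom, (∀ x ∈ A, 1 ≤ w x) →
      (∀ x ∈ B, w x ≤ 0) → c ≤ Q.Γ w w 1 := by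
  have hcomp : CompactSpace Z := Φ.symm.compactSpace
  obtain ⟨τ, hτ, hLP⟩ := exists_level_comp Φ hd
  have hlam : 0 < Q.lam := one_pos.trans Q.one_lt_lam
  set ρ : ℝ := min Q.ρ0 (τ / (4 * Q.lam)) with hρ
  have hρpos : 0 < ρ := lt_min Q.ρ0_pos (by positivity)
  have hlamρ : Q.lam * ρ ≤ τ / 4 := by
    calc Q.lam * ρ ≤ Q.lam * (τ / (4 * Q.lam)) :=
          mul_le_mul_of_nonneg_left (min_le_right _ _) hlam.le
      _ = τ / 4 := by field_simp
  -- a finite net
  obtain ⟨F, hFfin, hF⟩ := Metric.totallyBounded_iff.1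
    (isCompact_univ : IsCompact (univ : Set Z)).totallyBounded (ρ / 2) (by linarith)
  set N := hFfin.toFinset.card with hN
  have hC0 := Q.C0_pos
  refine ⟨(1 / (Q.C0 * (N + 2))) ^ 2, by positivity, ?_⟩
  intro A B hA hB a ha a' ha' b hb b' hb' hda hdb w hw hwA hwB
  -- level components
  have hlev : ∀ i : Fin (N + 1), ∃ K : Set Z, IsPreconnected K ∧
      (∀ x ∈ K, w x = ((i : ℕ) + 1 : ℝ) / (N + 2)) ∧ ∃ z ∈ K, ∃ y ∈ K, τ ≤ dist y z := by
    intro i
    have hi : ((i : ℕ) : ℝ) ≤ N := by exact_mod_cast Nat.lt_succ_iff.1 i.2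
    refine hLP w w.continuous A B hA hB a ha a' ha' b hb b' hb' hda hdb hwA hwB _ (by positivity) ?_
    rw [div_lt_one (by positivity)]
    linarith
  choose K hKp hKw z hz y hy hzy using hlev
  -- nearest net points
  have hnet : ∀ i, ∃ f ∈ hFfin.toFinset, dist (z i) f < ρ / 2 := by
    intro i
    obtain ⟨f, hf, hzf⟩ := mem_iUnion₂.1 (hF (mem_univ (z i)))
    exact ⟨f, hFfin.mem_toFinset.2 hf, hzf⟩
  choose f hfF hf using hnet
  obtain ⟨i, -, j, -, hij, hfij⟩ := Finset.exists_ne_map_eq_of_card_lt_of_maps_to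
    (s := (Finset.univ : Finset (Fin (N + 1)))) (t := hFfin.toFinset) (by simp [← hN])
    (f := f) (fun i _ => hfF i)
  have hclose : dist (z j) (z i) ≤ ρ := by
    have h1 := hf i
    have h2 := hf j
    rw [← hfij] at h2
    have := dist_triangle (z j) (f i) (z i)
    rw [dist_comm (f i) (z i)] at this
    linarith
  -- both level components meet the ball and leave it
  have hleave : ∀ k : Fin (N + 1), dist (z k) (z i) ≤ ρ →
      (K k ∩ closedBall (z i) ρ).Nonempty ∧ (K k ∩ (ball (z i) (Q.lam * ρ))ᶜ).Nonempty := by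
    intro k hk
    refine ⟨⟨z k, hz k, hk⟩, ⟨y k, hy k, ?_⟩⟩
    rw [mem_compl_iff, mem_ball, not_lt]
    have h1 := dist_triangle (y k) (z i) (z k)
    rw [dist_comm (z i) (z k)] at h1
    have h2 := hzy k
    have h3 : ρ ≤ Q.lam * ρ := by nlinarith [Q.one_lt_lam]
    linarith
  have hmain : ∀ η > 0, 1 / ((N : ℝ) + 2) ≤ Q.C0 * Real.sqrt (Q.Γ w w 1) + η := by
    intro η hη
    obtain ⟨σ, -, -, -, hσs, hσo⟩ := Q.CL (z i) ρ hρpos (min_le_left _ _) w hw 1
      (fun _ => by simp) (fun _ _ _ => by simp) η hη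
    obtain ⟨hi1, hi2⟩ := hleave i (by rw [dist_self]; exact hρpos.le)
    obtain ⟨hj1, hj2⟩ := hleave j hclose
    obtain ⟨p, hpK, hpσ⟩ := hσs (K i) (hKp i) hi1 hi2
    obtain ⟨q, hqK, hqσ⟩ := hσs (K j) (hKp j) hj1 hj2
    refine le_trans ?_ (hσo p hpσ q hqσ)
    rw [hKw i p hpK, hKw j q hqK, ← sub_div, abs_div, abs_of_pos (show (0 : ℝ) < N + 2 by positivity)]
    apply div_le_div_of_nonneg_right _ (by positivity)
    have hne : ((i : ℕ) : ℤ) - ((j : ℕ) : ℤ) ≠ 0 := by
      intro h
      apply hij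
      ext
      omega
    have h1 : (1 : ℤ) ≤ |((i : ℕ) : ℤ) - ((j : ℕ) : ℤ)| := Int.one_le_abs hne
    have h2 : (1 : ℝ) ≤ |((i : ℕ) : ℝ) - ((j : ℕ) : ℝ)| := by exact_mod_cast h1
    have h3 : (((i : ℕ) : ℝ) + 1 - (((j : ℕ) : ℝ) + 1)) = ((i : ℕ) : ℝ) - ((j : ℕ) : ℝ) := by ring
    rw [h3]
    exact h2
  have hfin : 1 / ((N : ℝ) + 2) ≤ Q.C0 * Real.sqrt (Q.Γ w w 1) :=
    le_of_forall_pos_le_add fun η hη => hmain η hη
  have hΓ : 0 ≤ Q.Γ w w 1 := Q.nonneg w hw 1 fun _ => by simp
  have h4 : 1 / (Q.C0 * (N + 2)) ≤ Real.sqrt (Q.Γ w w 1) := by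
    rw [div_le_iff₀ (by positivity)] at hfin ⊢
    linarith
  calc (1 / (Q.C0 * (N + 2))) ^ 2 ≤ (Real.sqrt (Q.Γ w w 1)) ^ 2 := by
        gcongr
    _ = Q.Γ w w 1 := Real.sq_sqrt hΓ

end

end Crest.Agent.R193.L_Unit
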