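import Crest.Agent.R193.Defs
import Crest.Agent.R193.D_Defs
import Crest.Agent.R193.L_Unit
import Crest.Agent.R193.S_Basic

/-!
# R193, block LOEW, all scales (helper508)

`loew : InLoew Q` = Loewner inequality at all scales: `loew_unit` transported by group elements.
-/

set_option autoImplicit false

open Set Filter Topology Metric

namespace Crest.Agent.R193.L_Main

open Crest.Agent.R193 Crest.Agent.R193.S_Basic

variable {G Z : Type} [Group G] [MetricSpace Z] [MulAction G Z]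

/-- zooming in at a point of the shadow of `g` : points at distance `≥ exp (-ε (|g| + 1))` from it get
separated by a definite amount -/
theorem dist_inv_smul_ge (S : Setup G Z) {R0 : ℝ} {g : G} {x y : Z}
    (hR0 : 0 ≤ R0) (hx : x ∈ S.Sh R0 g)
    (hxy : Real.exp (-S.ε * (S.len g + 1)) ≤ dist x y) :
    Real.exp (-S.ε * (2 * R0 + 4 + 13 * S.δ)) ≤ dist (g⁻¹ • x) (g⁻¹ • y) := by
  have hδ := δ_pos S
  have hε := S.ε_pos
  set R1 : ℝ := R0 + 3 * S.δ + 1 with hR1
  have hx' : g⁻¹ • x ∈ S.Gd (R0 + S.δ) g := inv_smul_mem_Gd S hx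
  by_cases hy : y ∈ S.Sh R1 g
  · have hy' : g⁻¹ • y ∈ S.Gd (R1 + S.δ) g := inv_smul_mem_Gd S hy
    have hx'' : g⁻¹ • x ∈ S.Gd (R1 + S.δ) g := Gd_mono S (by linarith) g hx'
    have h := dist_smul_le_of_Gd S hx'' hy'
    rw [smul_inv_smul, smul_inv_smul, ← Real.exp_add] at h
    have h1 := hxy.trans h
    have h2 : Real.exp (-S.ε * (S.len g + 1)) =
        Real.exp (S.ε * (2 * (R1 + S.δ) + 1 + 5 * S.δ) + -S.ε * S.len g) *
        Real.exp (-S.ε * (2 * (R1 + S.δ) + 2 + 5 * S.δ)) := by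
      rw [← Real.exp_add]; congr 1; ring
    rw [h2] at h1
    have h3 := le_of_mul_le_mul_left h1 (Real.exp_pos _)
    refine le_trans (Real.exp_le_exp.2 ?_) h3
    rw [hR1]
    nlinarith
  · rw [mem_Sh] at hy
    push Not at hy
    by_contra hc
    push Not at hc
    have h1 : dist (g⁻¹ • y) (g⁻¹ • x) ≤ Real.exp (-S.ε * (2 * R0 + 4 + 13 * S.δ)) := by
      rw [dist_comm]; exact hc.le
    have h2 := s_ge_of_dist_le S h1 g⁻¹
    rw [mem_Gd] at hx'
    have h3 := s_smul_self_ub S y g⁻¹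
    have h4 := s_smul_self_lb S y g⁻¹
    rw [inv_inv, S.len_inv] at h4
    have h5 : R0 + 2 * S.δ < S.s (g⁻¹ • y) g⁻¹ := by
      rw [hR1] at hy; linarith
    have h6 : R0 + 2 * S.δ < min (S.s (g⁻¹ • y) g⁻¹) (2 * R0 + 4 + 13 * S.δ) :=
      lt_min h5 (by linarith)
    linarith

/-- the scaling lemma -/
theorem exists_zoom (S : Setup G Z) (M : ℝ) (hM : 0 < M) :
    ∃ d : ℝ, 0 < d ∧ ∀ s : ℝ, 0 < s → ∀ a a' b b' : Z, s ≤ dist a a' → s ≤ dist b b' →
      dist a b ≤ M * s → ∃ g : G, d ≤ dist (g⁻¹ • a) (g⁻¹ • a') ∧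
        d ≤ dist (g⁻¹ • b) (g⁻¹ • b') := by
  have hδ := δ_pos S
  have hε := S.ε_pos
  -- `M ≤ exp (ε m)`
  set m : ℝ := max 0 (Real.log M / S.ε) with hm
  have hm0 : 0 ≤ m := le_max_left _ _
  have hMm : M ≤ Real.exp (S.ε * m) := by
    rw [← Real.log_le_iff_le_exp hM]
    have h1 : Real.log M / S.ε ≤ m := le_max_right _ _
    rw [div_le_iff₀ hε] at h1
    linarith
  set R0 : ℝ := max S.δ m + S.δ with hR0
  have hR00 : 0 ≤ R0 := by
    have : m ≤ max S.δ m := le_max_right _ _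
    linarith
  refine ⟨Real.exp (-S.ε * (2 * R0 + 4 + 13 * S.δ)), Real.exp_pos _, ?_⟩
  intro s hs a a' b b' haa hbb hab
  set t : ℝ := -Real.log s / S.ε with ht
  have hst : s = Real.exp (-S.ε * t) := by
    have : -S.ε * t = Real.log s := by rw [ht]; field_simp
    rw [this, Real.exp_log hs]
  obtain ⟨g, hg, hga⟩ := S.ray a ⌊t⌋₊
  have hlen : (S.len g : ℝ) = (⌊t⌋₊ : ℝ) := by rw [hg]
  have hlt : t < S.len g + 1 := by rw [hlen]; exact Nat.lt_floor_add_one t
  have hs1 : Real.exp (-S.ε * (S.len g + 1)) ≤ s := by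
    rw [hst]
    exact Real.exp_le_exp.2 (by nlinarith)
  have ha : a ∈ S.Sh S.δ g := by rw [mem_Sh, hlen]; exact hga
  have ha0 : a ∈ S.Sh R0 g := by
    refine Sh_mono S ?_ g ha
    have : S.δ ≤ max S.δ m := le_max_left _ _
    linarith
  have hb0 : b ∈ S.Sh R0 g := by
    rcases le_or_gt 0 t with h0 | h0
    · have hfl : (S.len g : ℝ) ≤ t := by rw [hlen]; exact Nat.floor_le h0
      have h1 : a ∈ S.Sh (max S.δ m) g := Sh_mono S (le_max_left _ _) g ha
      apply closedBall_subset_Sh S h1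
      rw [mem_closedBall, dist_comm]
      refine hab.trans ?_
      calc M * s ≤ Real.exp (S.ε * m) * Real.exp (-S.ε * t) := by
            rw [← hst]; exact mul_le_mul_of_nonneg_right hMm hs.le
        _ = Real.exp (S.ε * m + -S.ε * t) := by rw [Real.exp_add]
        _ ≤ Real.exp (-S.ε * (S.len g - max S.δ m)) := by
            refine Real.exp_le_exp.2 ?_
            have : m ≤ max S.δ m := le_max_right _ _
            nlinarith
    · have hfl : ⌊t⌋₊ = 0 := Nat.floor_of_nonpos h0.le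
      rw [mem_Sh, hlen, hfl]
      have := S.s_nonneg b g
      push_cast
      linarith
  exact ⟨g, dist_inv_smul_ge S hR00 ha0 (hs1.trans haa), dist_inv_smul_ge S hR00 hb0 (hs1.trans hbb)⟩

/-- Loewner inequality at all scales (`CPDefs.InLoew`). -/
theorem loew (S : Setup G Z) (Q : DForm S) (Φ : Z ≃ₜ S2) : InLoew Q := by
  intro M hM
  obtain ⟨d, hd, hzoom⟩ := exists_zoom S M hM
  obtain ⟨c, hc, hL⟩ := L_Unit.loew_unit S Q Φ d hd
  refine ⟨c, hc, ?_⟩
  intro A B s hs hA hB a ha a' ha' b hb b' hb' haa hbb hab w hw h1 h0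
  obtain ⟨g, hga, hgb⟩ := hzoom s hs a a' b b' haa hbb hab
  have hcont : Continuous (fun x : Z => g⁻¹ • x) := S.cont g⁻¹
  have hcont' : Continuous (fun x : Z => g • x) := S.cont g
  set w' : C(Z, ℝ) := ⟨fun x => w (g • x), w.continuous.comp hcont'⟩ with hw'
  obtain ⟨hwD, hwE⟩ := Q.inv g w w 1 w' w' 1 hw hw (fun x => rfl) (fun x => rfl) (fun x => rfl)
  rw [← hwE]
  refine hL ((fun x : Z => g⁻¹ • x) '' A) ((fun x : Z => g⁻¹ • x) '' B)
    (hA.image _ hcont.continuousOn) (hB.image _ hcont.continuousOn) _ (mem_image_of_mem _ ha)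
    _ (mem_image_of_mem _ ha') _ (mem_image_of_mem _ hb) _ (mem_image_of_mem _ hb') hga hgb w' hwD
    ?_ ?_
  · rintro _ ⟨x, hx, rfl⟩
    change 1 ≤ w (g • g⁻¹ • x)
    rw [smul_inv_smul]
    exact h1 x hx
  · rintro _ ⟨x, hx, rfl⟩
    change w (g • g⁻¹ • x) ≤ 0
    rw [smul_inv_smul]
    exact h0 x hx

/-- Loewner inequality at unit scale (`D_Defs.InLoewUnit`). -/
theorem loewUnit (S : Setup G Z) (Q : DForm S) (Φ : Z ≃ₜ S2) : InLoewUnit Q :=
  fun d hd => L_Unit.loew_unit S Q Φ d hd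

end Crest.Agent.R193.L_Main
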