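import Mathlib
import Crest.Agent.R193.D_Spec
import Crest.Agent.R193.L_Main
import Crest.Agent.R193.CPa_Loop
import Crest.Agent.R193.CPa_Conf
import Crest.Agent.R193.CPa_C2

/-!
# R193, block CP-a (helper996): the interfaces `InMax`, `InSMax`, `InC1`, `InC2`, `InC3` of block D

Everything here is unconditional, given a homeomorphism `Φ : Z ≃ₜ S2`.
-/

set_option autoImplicit false

noncomputable section

open Set Filter Topology MeasureTheory Metric

namespace Crest.Agent.R193.CPa_Main

open Crest.Agent.R193 Crest.Agent.R193.CPa_Basic Crest.Agent.R193.CPa_Harm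
  Crest.Agent.R193.CPa_Loop Crest.Agent.R193.CPa_Conf Crest.Agent.R193.CPa_C2

variable {G Z : Type} [Group G] [MetricSpace Z] [MulAction G Z] {S : Setup G Z}

/-- irreducibility of the form, from the Loewner inequality -/
theorem irr_of_loewUnit [LocallyConnectedSpace Z] [PreconnectedSpace Z] (Q : DForm S)
    (hL : InLoewUnit Q) : Irr Q := by
  -- the open case
  have key : ∀ f ∈ Q.Dom, Q.Γ f f 1 = 0 → ∀ x y, ¬ f y < f x := by
    intro f hf hf0 x y hxy
    set α : ℝ := f x - f y with hα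
    have hαpos : 0 < α := by rw [hα]; linarith
    set c : ℝ := 2 / α with hc
    set k : ℝ := -(c * (f y + α / 4)) with hk
    set w : C(Z, ℝ) := c • f + ContinuousMap.const Z k with hw
    have hwa : ∀ z, w z = c * (f z - f y) - 1 / 2 := by
      intro z
      have : c * (α / 4) = 1 / 2 := by rw [hc]; field_simp; norm_num
      simp only [hw, ContinuousMap.add_apply, ContinuousMap.smul_apply, smul_eq_mul,
        ContinuousMap.const_apply, hk]
      linear_combination -this
    have hwx : 1 < w x := by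
      rw [hwa, ← hα, hc, div_mul_cancel₀ _ hαpos.ne']
      norm_num
    have hwy : w y < 0 := by
      rw [hwa]
      norm_num
    have hcf : c • f ∈ Q.Dom := Q.smul_mem c f hf
    have hwD : w ∈ Q.Dom := Q.add_mem _ hcf _ (Q.const_mem k)
    have e1 : ∀ v ∈ Q.Dom, Q.Γ w v 1 = c * Q.Γ f v 1 := by
      intro v hv
      rw [hw, Q.add_left _ hcf _ (Q.const_mem k) v hv, Q.smul_left c f hf v hv,
        const_left Q k hv, add_zero]
    have hE : Q.Γ w w 1 = 0 := by
      rw [e1 w hwD, Q.symm f hf w hwD, e1 f hf, hf0]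
      simp
    -- two small connected sets
    have small : ∀ (N : Set Z) (z z' : Z), IsOpen N → z ∈ N → z' ∉ N →
        ∃ A : Set Z, IsPreconnected A ∧ z ∈ A ∧ A ⊆ N ∧ ∃ a ∈ A, a ≠ z := by
      intro N z z' hN hz hz'
      refine ⟨connectedComponentIn N z, isPreconnected_connectedComponentIn,
        mem_connectedComponentIn hz, connectedComponentIn_subset _ _, ?_⟩
      by_contra hcon
      push Not at hcon
      have hA : connectedComponentIn N z = {z} := by
        ext a
        refine ⟨fun ha => hcon a ha, ?_⟩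
        rintro rfl
        exact mem_connectedComponentIn hz
      have ho : IsOpen ({z} : Set Z) := hA ▸ hN.connectedComponentIn
      have hcl : IsClopen ({z} : Set Z) := ⟨isClosed_singleton, ho⟩
      rcases isClopen_iff.1 hcl with h | h
      · exact singleton_ne_empty z h
      · exact hz' (connectedComponentIn_subset N z (by rw [hA, h]; trivial))
    obtain ⟨A, hA, hxA, hAN, a, ha, hax⟩ := small {z | 1 < w z} x y
      (isOpen_lt continuous_const w.continuous) hwx (by simp only [mem_ofPred_eq, not_lt]; linarith)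
    obtain ⟨B, hB, hyB, hBN, b, hb, hby⟩ := small {z | w z < 0} y x
      (isOpen_lt w.continuous continuous_const) hwy (by simp only [mem_ofPred_eq, not_lt]; linarith)
    have hd : 0 < min (dist a x) (dist b y) := lt_min (dist_pos.2 hax) (dist_pos.2 hby)
    obtain ⟨c0, hc0, hmain⟩ := hL _ hd
    have := hmain A B hA hB a ha x hxA b hb y hyB (min_le_left _ _) (min_le_right _ _) w hwD
      (fun z hz => (show 1 < w z from hAN hz).le) (fun z hz => (show w z < 0 from hBN hz).le)
    linarith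
  intro f hf hf0 x y
  exact le_antisymm (not_lt.1 (key f hf hf0 x y)) (not_lt.1 (key f hf hf0 y x))

theorem preconnectedSpace (Φ : Z ≃ₜ S2) : PreconnectedSpace Z := by
  have h : ConnectedSpace Planar.S2 := Planar.S2_connected
  refine ⟨?_⟩
  have h1 : IsPreconnected (univ : Set S2) := h.isPreconnected_univ
  have h2 := h1.image Φ.symm Φ.symm.continuous.continuousOn
  rwa [image_univ, Φ.symm.surjective.range_eq] at h2

theorem irr (S : Setup G Z) (Q : DForm S) (Φ : Z ≃ₜ S2) : Irr Q := by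
  have := D_Spec.locallyConnected Φ
  have := preconnectedSpace Φ
  exact irr_of_loewUnit Q (L_Main.loewUnit S Q Φ)

/-- (MAX) -/
theorem inMax (S : Setup G Z) (Q : DForm S) (Φ : Z ≃ₜ S2) : InMax Q := by
  have : CompactSpace Z := Φ.symm.compactSpace
  have := preconnectedSpace Φ
  intro O U _ hO hU
  exact monoOn_of_harm Q (irr S Q Φ) hO hU

/-- (SMAX) -/
theorem inSMax (S : Setup G Z) (Q : DForm S) (Φ : Z ≃ₜ S2) : InSMax Q := by
  have : CompactSpace Z := Φ.symm.compactSpace
  have := D_Spec.locallyConnected Φ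
  exact CPa_Loop.inSMax Q (irr S Q Φ)

/-- (C1) -/
theorem inC1 (S : Setup G Z) (Q : DForm S) (Φ : Z ≃ₜ S2) : InC1 Q := by
  have : CompactSpace Z := Φ.symm.compactSpace
  intro O U V _ h ψ hψ P L hP hL
  have h2 : (2 : WithTop ℕ∞) ≤ ((⊤ : ℕ∞) : WithTop ℕ∞) := by
    have : ((2 : ℕ∞) : WithTop ℕ∞) ≤ ((⊤ : ℕ∞) : WithTop ℕ∞) := WithTop.coe_le_coe.2 le_top
    exact this
  have hψ2 : ContDiff ℝ 2 ψ := hψ.of_le h2
  have hf : ContDiff ℝ (⊤ : ℕ∞) (fderiv ℝ ψ) := hψ.fderiv_right (by exact_mod_cast le_top)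
  have hev : ∀ v : ℝ × ℝ, ContDiff ℝ (⊤ : ℕ∞) (fun p => fderiv ℝ ψ p v) := fun v =>
    hf.clm_apply contDiff_const
  have hcont : ∀ u v : ℝ × ℝ, Continuous (fun p => fderiv ℝ (fun q => fderiv ℝ ψ q v) p u) :=
    fun u v => ((hev v).continuous_fderiv (by simp)).clm_apply continuous_const
  have hlap : ∀ z, lap2 ψ z = fderiv ℝ (fun q => fderiv ℝ ψ q (1, 0)) z (1, 0) +
      fderiv ℝ (fun q => fderiv ℝ ψ q (0, 1)) z (0, 1) := by
    intro z
    have hdf : DifferentiableAt ℝ (fderiv ℝ ψ) z := (hf.differentiable (by simp)) z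
    have e : ∀ u v : ℝ × ℝ, fderiv ℝ (fun q => fderiv ℝ ψ q v) z u
        = fderiv ℝ (fderiv ℝ ψ) z u v := by
      intro u v
      rw [fderiv_clm_apply hdf (differentiableAt_const v)]
      simp
    rw [e, e]
    simp [lap2, iteratedFDeriv_two_apply]
  have hP' : P = cmp ψ hψ2.continuous U V := by
    ext x; rw [hP, cmp_apply]
  have hL' : L = cmp _ (hcont (1, 0) (1, 0)) U V + cmp _ (hcont (0, 1) (0, 1)) U V := by
    ext x; rw [hL, hlap]; simp
  refine ⟨?_, fun w hw hws => ?_⟩
  · rw [hP']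
    exact (chain2 Q hψ2 (hev (1, 0)).continuous (hev (0, 1)).continuous
      (fun _ => rfl) (fun _ => rfl) h.1 h.2.1).1
  · rw [hP', hL']
    exact c1 Q h hψ2 ((hev (1, 0)).of_le h2) ((hev (0, 1)).of_le h2) (hcont (1, 0) (1, 0))
      (hcont (0, 1) (1, 0)) (hcont (1, 0) (0, 1)) (hcont (0, 1) (0, 1)) (fun _ => rfl)
      (fun _ => rfl) (fun _ => rfl) (fun _ => rfl) (fun _ => rfl) (fun _ => rfl) hw hws

/-- (C2) -/
theorem inC2 (S : Setup G Z) (Q : DForm S) (Φ : Z ≃ₜ S2) : InC2 Q := by
  have : CompactSpace Z := Φ.symm.compactSpace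
  exact CPa_C2.inC2 Q

/-- (C3) -/
theorem inC3 (S : Setup G Z) (Q : DForm S) (Φ : Z ≃ₜ S2) : InC3 Q := by
  have : CompactSpace Z := Φ.symm.compactSpace
  have := D_Spec.locallyConnected Φ
  have := preconnectedSpace Φ
  exact CPa_Conf.inC3 Q (irr S Q Φ)

end Crest.Agent.R193.CPa_Main
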