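import Mathlib
import Crest.Agent.R193.CPDefs
import Crest.Agent.R193.P_Comp
import Crest.Agent.R193.Planar4

/-!
# R193, block D7 (C4)-(C6), part 1 (helper990): disc neighbourhoods, cells, push-forward algebra
-/

set_option autoImplicit false

noncomputable section

open Set Filter Topology MeasureTheory Metric

namespace Crest.Agent.R193.CPb1

open Crest.Agent.R193 Crest.Agent.R193.P_Comp

/-! ### disc neighbourhoods in a topological sphere -/

section Disc

variable {Z : Type} [TopologicalSpace Z]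

/-- every point of an open set of a topological sphere has an open neighbourhood with closure in
the set, with connected complement; the complement contains two points -/
theorem exists_disc_nhds (Φ : Z ≃ₜ Crest.Agent.R193.S2) {O : Set Z} (hO : IsOpen O) {z : Z}
    (hz : z ∈ O) :
    ∃ N : Set Z, IsOpen N ∧ IsPreconnected N ∧ z ∈ N ∧ closure N ⊆ O ∧ IsPreconnected Nᶜ ∧
      Nᶜ.Nontrivial := by
  have hS2 : ConnectedSpace Crest.Agent.R193.S2 := Planar.S2_connected
  have hZT2 : T2Space Z := Φ.isEmbedding.t2Space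
  have hZc : PreconnectedSpace Z := by
    refine ⟨?_⟩
    have := (isPreconnected_univ (α := Crest.Agent.R193.S2)).image Φ.symm Φ.symm.continuous.continuousOn
    rwa [image_univ, Φ.symm.surjective.range_eq] at this
  -- the chart centred at the antipode of `Φ z`
  set p : Crest.Agent.R193.S2 := -(Φ z) with hp
  have hpz : Φ z ≠ p := by
    intro h
    have h1 : (Φ z : EuclideanSpace ℝ (Fin 3)) = -(Φ z : EuclideanSpace ℝ (Fin 3)) := by
      conv_lhs => rw [h]
      rfl
    have h2 : (Φ z : EuclideanSpace ℝ (Fin 3)) = 0 := by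
      have h4 : (2 : ℝ) • (Φ z : EuclideanSpace ℝ (Fin 3)) = 0 := by
        rw [two_smul]
        exact eq_neg_iff_add_eq_zero.1 h1
      exact (smul_eq_zero.1 h4).resolve_left two_ne_zero
    have h3 : ‖(Φ z : EuclideanSpace ℝ (Fin 3))‖ = 1 := by
      have := (Φ z).2
      rwa [mem_sphere_zero_iff_norm] at this
    rw [h2, norm_zero] at h3
    exact zero_ne_one h3
  set e := stereographic' 2 p with he
  have hsrc : e.source = {p}ᶜ := stereographic'_source p
  have htgt : e.target = univ := stereographic'_target p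
  have hsymm : Continuous e.symm := by
    have := e.continuousOn_symm
    rw [htgt] at this
    exact continuousOn_univ.1 this
  set ι : EuclideanSpace ℝ (Fin 2) → Z := fun w => Φ.symm (e.symm w) with hι
  have hιc : Continuous ι := Φ.symm.continuous.comp hsymm
  have hinj : Function.Injective ι := by
    intro a b hab
    have h1 : e.symm a = e.symm b := Φ.symm.injective hab
    have ha : e (e.symm a) = a := e.right_inv (by rw [htgt]; trivial)
    have hb : e (e.symm b) = b := e.right_inv (by rw [htgt]; trivial)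
    rw [← ha, ← hb, h1]
  have hopen : ∀ V : Set (EuclideanSpace ℝ (Fin 2)), IsOpen V → IsOpen (ι '' V) := by
    intro V hV
    have h1 : IsOpen (e.symm '' V) := by
      have := e.symm.isOpen_image_of_subset_source (s := V) hV (by
        rw [e.symm_source, htgt]
        exact subset_univ _)
      exact this
    have h2 : ι '' V = Φ.symm '' (e.symm '' V) := by rw [← image_comp]; rfl
    rw [h2]
    exact Φ.symm.isOpen_image.2 h1
  set x0 := e (Φ z) with hx0
  have hιx0 : ι x0 = z := by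
    show Φ.symm (e.symm (e (Φ z))) = z
    rw [e.left_inv (by rw [hsrc]; exact hpz), Φ.symm_apply_apply]
  obtain ⟨r, hr, hrO⟩ : ∃ r > 0, closedBall x0 r ⊆ ι ⁻¹' O :=
    nhds_basis_closedBall.mem_iff.1 (hιc.continuousAt.preimage_mem_nhds (by
      rw [hιx0]
      exact hO.mem_nhds hz))
  have hcl : closure (ι '' ball x0 r) = ι '' closedBall x0 r := by
    apply subset_antisymm
    · refine closure_minimal (image_mono ball_subset_closedBall) ?_
      exact ((isCompact_closedBall x0 r).image hιc).isClosed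
    · rw [← closure_ball x0 hr.ne']
      exact image_closure_subset_closure_image hιc
  have hrank : 1 < Module.rank ℝ (EuclideanSpace ℝ (Fin 2)) := by
    rw [← Module.finrank_eq_rank, finrank_euclideanSpace]
    norm_num
  refine ⟨ι '' ball x0 r, hopen _ isOpen_ball,
    (convex_ball x0 r).isPreconnected.image ι hιc.continuousOn,
    ⟨x0, mem_ball_self hr, hιx0⟩, ?_, ?_, ?_⟩
  · rw [hcl]
    rintro _ ⟨w, hw, rfl⟩
    exact hrO hw
  · refine isPreconnected_compl_of_frontier (hopen _ isOpen_ball) ?_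
    rw [(hopen _ isOpen_ball).frontier_eq, hcl, ← image_sdiff hinj, closedBall_sdiff_ball]
    exact (isPreconnected_sphere hrank x0 r).image ι hιc.continuousOn
  · obtain ⟨v, hv⟩ := exists_ne (0 : EuclideanSpace ℝ (Fin 2))
    have hvn : 0 < ‖v‖ := norm_pos_iff.2 hv
    have hns : ∀ t : ℝ, r ≤ |t| * ‖v‖ → ι (x0 + t • v) ∈ (ι '' ball x0 r)ᶜ := by
      rintro t ht ⟨w, hw, hwe⟩
      have h1 : w = x0 + t • v := hinj hwe
      rw [h1, mem_ball, dist_eq_norm, add_sub_cancel_left, norm_smul, Real.norm_eq_abs] at hw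
      linarith
    refine ⟨ι (x0 + (r / ‖v‖) • v), hns _ ?_, ι (x0 + (2 * r / ‖v‖) • v), hns _ ?_, ?_⟩
    · rw [abs_of_pos (div_pos hr hvn), div_mul_cancel₀ _ hvn.ne']
    · rw [abs_of_pos (div_pos (by linarith) hvn), div_mul_cancel₀ _ hvn.ne']
      linarith
    · intro h
      have h1 := hinj h
      have h2 : (r / ‖v‖) • v = (2 * r / ‖v‖) • v := add_left_cancel h1
      have h3 : (r / ‖v‖ - 2 * r / ‖v‖) • v = 0 := by rw [sub_smul, h2, sub_self]
      rcases smul_eq_zero.1 h3 with h4 | h4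
      · have h5 : r / ‖v‖ - 2 * r / ‖v‖ = -(r / ‖v‖) := by ring
        rw [h5] at h4
        have : 0 < r / ‖v‖ := div_pos hr hvn
        linarith
      · exact hv h4

end Disc

/-! ### cells -/

section Cells

variable {Z : Type} [MetricSpace Z]

/-- the map `Z → ℝ × ℝ` of a pair of functions -/
def Fm (U V : C(Z, ℝ)) : Z → ℝ × ℝ := fun x => (U x, V x)

lemma continuous_Fm (U V : C(Z, ℝ)) : Continuous (Fm U V) := U.continuous.prodMk V.continuous

/-- the component of `{F ∈ ball (F z) ρ}` containing `z` -/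
def cell (U V : C(Z, ℝ)) (z : Z) (ρ : ℝ) : Set Z :=
  connectedComponentIn (Fm U V ⁻¹' ball (Fm U V z) ρ) z

variable {U V : C(Z, ℝ)} {z y : Z} {ρ ρ' : ℝ}

lemma mem_cell (hρ : 0 < ρ) : z ∈ cell U V z ρ :=
  mem_connectedComponentIn (mem_ball_self hρ)

lemma isPreconnected_cell : IsPreconnected (cell U V z ρ) := isPreconnected_connectedComponentIn

lemma cell_subset : cell U V z ρ ⊆ Fm U V ⁻¹' ball (Fm U V z) ρ := connectedComponentIn_subset _ _

lemma isOpen_cell [LocallyConnectedSpace Z] : IsOpen (cell U V z ρ) :=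
  (isOpen_ball.preimage (continuous_Fm U V)).connectedComponentIn

lemma frontier_cell [LocallyConnectedSpace Z] {x : Z} (hx : x ∈ frontier (cell U V z ρ)) :
    Fm U V x ∈ sphere (Fm U V z) ρ :=
  frontier_ball_subset_sphere ((continuous_Fm U V).frontier_preimage_subset _
    (frontier_comp_subset (isOpen_ball.preimage (continuous_Fm U V)) z hx))

/-- a cell of a point `y` of a cell, with smaller square, is inside -/
lemma cell_subset_cell (hρ' : 0 < ρ') (hy : y ∈ cell U V z ρ)
    (hb : ball (Fm U V y) ρ' ⊆ ball (Fm U V z) ρ) : cell U V y ρ' ⊆ cell U V z ρ :=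
  subset_comp_of_inter isPreconnected_cell (cell_subset.trans (preimage_mono hb))
    ⟨y, mem_cell hρ', hy⟩

/-- **(C4)** If `F` is not constant on any nontrivial connected subset of the open set `O ∋ z` then
the cells of `z` shrink to `z`. -/
theorem cell_small [CompactSpace Z] {O : Set Z} (hO : IsOpen O) (hz : z ∈ O)
    (hC3 : ∀ E : Set Z, E ⊆ O → IsPreconnected E → E.Nontrivial →
      ¬ ∀ x ∈ E, Fm U V x = Fm U V z)
    {N : Set Z} (hN : IsOpen N) (hzN : z ∈ N) :
    ∃ ρ0 > 0, ∀ ρ, ρ ≤ ρ0 → closure (cell U V z ρ) ⊆ N := by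
  set K : {r : ℝ // 0 < r} → Set Z := fun r =>
    connectedComponentIn (Fm U V ⁻¹' closedBall (Fm U V z) r) z with hK
  have hcl : ∀ r : {r : ℝ // 0 < r}, IsClosed (Fm U V ⁻¹' closedBall (Fm U V z) (r : ℝ)) :=
    fun r => isClosed_closedBall.preimage (continuous_Fm U V)
  have hzK : ∀ r, z ∈ K r := fun r => mem_connectedComponentIn (mem_closedBall_self r.2.le)
  have hKc : ∀ r, IsCompact (K r) := fun r => (isClosed_comp (hcl r) z).isCompact
  have hmono : ∀ r r' : {r : ℝ // 0 < r}, (r : ℝ) ≤ r' → K r ⊆ K r' := fun r r' h =>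
    connectedComponentIn_mono z (preimage_mono (closedBall_subset_closedBall h))
  have hdir : Directed (· ⊇ ·) K := by
    intro r r'
    refine ⟨⟨min r r', lt_min r.2 r'.2⟩, hmono _ _ (min_le_left _ _), hmono _ _ (min_le_right _ _)⟩
  have : Nonempty {r : ℝ // 0 < r} := ⟨⟨1, one_pos⟩⟩
  have hK0c : IsPreconnected (⋂ r, K r) :=
    isPreconnected_iInter_of_directed hdir hKc fun r => isPreconnected_connectedComponentIn
  have hK0cpt : IsCompact (⋂ r, K r) :=
    (isClosed_iInter fun r => (hKc r).isClosed).isCompact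
  have hFK0 : ∀ x ∈ ⋂ r, K r, Fm U V x = Fm U V z := by
    intro x hx
    by_contra hne
    have h1 : 0 < dist (Fm U V x) (Fm U V z) := dist_pos.2 hne
    have h2 := mem_iInter.1 hx ⟨dist (Fm U V x) (Fm U V z) / 2, half_pos h1⟩
    have h3' : x ∈ Fm U V ⁻¹' closedBall (Fm U V z) (dist (Fm U V x) (Fm U V z) / 2) :=
      connectedComponentIn_subset _ _ h2
    have h3 : Fm U V x ∈ closedBall (Fm U V z) (dist (Fm U V x) (Fm U V z) / 2) := h3'
    rw [mem_closedBall] at h3
    linarith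
  have hsingle : (⋂ r, K r) ⊆ {z} := by
    intro x hx
    by_contra hne
    have hxz : x ≠ z := hne
    -- a small neighbourhood
    obtain ⟨N', hN'o, hzN', hN'⟩ : ∃ N', IsOpen N' ∧ z ∈ N' ∧ closure N' ⊆ O ∩ {x}ᶜ := by
      have hnh : O ∩ {x}ᶜ ∈ 𝓝 z := (hO.inter isOpen_compl_singleton).mem_nhds ⟨hz, hxz.symm⟩
      obtain ⟨t, ht, htc, hts⟩ := exists_mem_nhds_isClosed_subset hnh
      refine ⟨interior t, isOpen_interior, mem_interior_iff_mem_nhds.2 ht, ?_⟩
      exact (closure_minimal interior_subset htc).trans hts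
    have hzK0 : z ∈ ⋂ r, K r := mem_iInter.2 hzK
    obtain ⟨w, hw1, hw2⟩ := boundary_bumping hK0cpt hK0c hN'o hzK0 hzN'
      (fun h => (hN' (subset_closure (h hx))).2 rfl)
    set E := connectedComponentIn ((⋂ r, K r) ∩ closure N') z with hE
    have hEsub : E ⊆ (⋂ r, K r) ∩ closure N' := connectedComponentIn_subset _ _
    have hzE : z ∈ E := mem_connectedComponentIn ⟨hzK0, subset_closure hzN'⟩
    have hwz : w ≠ z := by
      rintro rfl
      rw [hN'o.frontier_eq] at hw2
      exact hw2.2 hzN'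
    exact hC3 E (hEsub.trans (inter_subset_right.trans (hN'.trans inter_subset_left)))
      isPreconnected_connectedComponentIn ⟨w, hw1, z, hzE, hwz⟩ fun y hy => hFK0 y (hEsub hy).1
  obtain ⟨r, hr⟩ := exists_subset_nhds_of_isCompact hdir hKc (U := N) (fun x hx => by
    have : x = z := hsingle hx
    rw [this]
    exact hN.mem_nhds hzN)
  refine ⟨r, r.2, fun ρ hρ => ?_⟩
  refine Subset.trans ?_ hr
  refine closure_minimal ?_ (hKc r).isClosed
  exact connectedComponentIn_mono z (preimage_mono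
    (ball_subset_closedBall.trans (closedBall_subset_closedBall hρ)))

/-- the function equal to `ψ ∘ F` on `W` and `0` elsewhere -/
lemma exists_cut {W : Set Z} {ψ : ℝ × ℝ → ℝ} (hψ : Continuous ψ)
    (hs : ∀ x ∈ frontier W, ψ (Fm U V x) = 0) :
    ∃ φ : C(Z, ℝ), (∀ x ∈ W, φ x = ψ (Fm U V x)) ∧ (∀ x, x ∉ W → φ x = 0) := by
  classical
  have hc : Continuous (W.indicator fun x => ψ (Fm U V x)) :=
    continuous_indicator hs (hψ.comp (continuous_Fm U V)).continuousOn
  refine ⟨⟨W.indicator fun x => ψ (Fm U V x), hc⟩, fun x hx => ?_, fun x hx => ?_⟩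
  · show W.indicator (fun x => ψ (Fm U V x)) x = _
    exact indicator_of_mem hx _
  · show W.indicator (fun x => ψ (Fm U V x)) x = _
    exact indicator_of_notMem hx _

end Cells

/-! ### the push-forward constant -/

section Push

variable {G Z : Type} [Group G] [MetricSpace Z] [MulAction G Z] {S : Setup G Z} {Q : DForm S}
  {U V : C(Z, ℝ)}

lemma gamma_mono {u : C(Z, ℝ)} (hu : u ∈ Q.Dom) {φ φ' : C(Z, ℝ)} (h : ∀ x, φ x ≤ φ' x) :
    Q.Γ u u φ ≤ Q.Γ u u φ' := by
  have h1 : Q.Γ u u (φ + (φ' + (-1 : ℝ) • φ)) = Q.Γ u u φ + (Q.Γ u u φ' + (-1) * Q.Γ u u φ) := by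
    rw [Q.add_test u hu u hu, Q.add_test u hu u hu, Q.smul_test (-1) u hu u hu]
  have h2 : 0 ≤ Q.Γ u u (φ' + (-1 : ℝ) • φ) := Q.nonneg u hu _ fun x => by
    have h3 : (φ' + (-1 : ℝ) • φ) x = φ' x - φ x := by
      simp [sub_eq_add_neg]
    rw [h3]
    linarith [h x]
  rw [Q.add_test u hu u hu, Q.smul_test (-1) u hu u hu] at h2
  linarith

lemma gamma_zero {u v : C(Z, ℝ)} (hu : u ∈ Q.Dom) (hv : v ∈ Q.Dom) : Q.Γ u v 0 = 0 := by
  have := Q.smul_test 0 u hu v hv 0
  rwa [zero_smul, zero_mul] at this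

/-- a bump function on the plane -/
lemma exists_bump (q : ℝ × ℝ) {r R : ℝ} (hr : 0 < r) (hrR : r < R) :
    ∃ ψ : ℝ × ℝ → ℝ, Continuous ψ ∧ ContDiff ℝ 2 ψ ∧ HasCompactSupport ψ ∧ (∀ y, 0 ≤ ψ y) ∧
      (∀ y, ψ y ≤ 1) ∧
      (∀ y ∈ closedBall q r, ψ y = 1) ∧ tsupport ψ ⊆ closedBall q R ∧ 0 < ∫ y, ψ y := by
  let f : ContDiffBump q := ⟨r, R, hr, hrR⟩
  refine ⟨f, f.continuous, f.contDiff, f.hasCompactSupport, fun y => f.nonneg, fun y => f.le_one,
    fun y hy => f.one_of_mem_closedBall hy, ?_, f.integral_pos⟩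
  rw [f.tsupport_eq]

lemma integral_bump_le {ψ : ℝ × ℝ → ℝ} (h1 : ∀ y, ψ y ≤ 1) (h0 : ∀ y, 0 ≤ ψ y) {q : ℝ × ℝ} {R : ℝ}
    (hR : 0 ≤ R) (hs : ∀ y, y ∉ closedBall q R → ψ y = 0) : ∫ y, ψ y ≤ (2 * R) ^ 2 := by
  have hvol : volume (closedBall q R) = ENNReal.ofReal ((2 * R) ^ 2) := by
    obtain ⟨a, b⟩ := q
    rw [← closedBall_prod_same, Measure.volume_eq_prod, Measure.prod_prod, Real.volume_closedBall,
      Real.volume_closedBall, ← ENNReal.ofReal_mul (by linarith), sq]
  calc ∫ y, ψ y ≤ ∫ y, (closedBall q R).indicator (fun _ => (1 : ℝ)) y := by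
        refine integral_mono_of_nonneg (Eventually.of_forall h0) ?_ (Eventually.of_forall ?_)
        · exact (integrable_indicator_iff measurableSet_closedBall).2
            ((integrableOn_const_iff).2 (Or.inr (by
              rw [hvol]
              exact ENNReal.ofReal_lt_top)))
        · intro y
          by_cases hy : y ∈ closedBall q R
          · simp only [indicator_of_mem hy]
            exact h1 y
          · simp only [indicator_of_notMem hy]
            exact (hs y hy).le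
    _ = (2 * R) ^ 2 := by
        rw [integral_indicator measurableSet_closedBall, setIntegral_const, smul_eq_mul, mul_one,
          Measure.real, hvol, ENNReal.toReal_ofReal (by positivity)]

/-- monotonicity and superadditivity of the push-forward constants -/
theorem pushC_add_le (hU : U ∈ Q.Dom) {W W₁ W₂ : Set Z} (h1 : W₁ ⊆ W) (h2 : W₂ ⊆ W)
    (hd : Disjoint W₁ W₂) {p q : ℝ × ℝ} {ρ ρ' c c₁ c₂ : ℝ} (hρ' : 0 < ρ')
    (hb : ball q ρ' ⊆ ball p ρ) (hf : ∀ x ∈ frontier W, Fm U V x ∉ ball p ρ)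
    (hf1 : ∀ x ∈ frontier W₁, Fm U V x ∉ ball q ρ') (hf2 : ∀ x ∈ frontier W₂, Fm U V x ∉ ball q ρ')
    (hc : PushC Q U V W p ρ c) (hc1 : PushC Q U V W₁ q ρ' c₁) (hc2 : PushC Q U V W₂ q ρ' c₂) :
    c₁ + c₂ ≤ c := by
  obtain ⟨ψ, hψc, -, -, hψ0, hψ1, -, hψs, hψi⟩ := exists_bump q (r := ρ' / 4) (R := ρ' / 2)
    (by linarith) (by linarith)
  have hs : tsupport ψ ⊆ ball q ρ' := hψs.trans (closedBall_subset_ball (by linarith))
  have hz : ∀ y, y ∉ ball q ρ' → ψ y = 0 := fun y hy => by
    by_contra h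
    exact hy (hs (subset_tsupport ψ h))
  obtain ⟨φ, hφ, hφ0⟩ := exists_cut (U := U) (V := V) (W := W) hψc
    (fun x hx => hz _ fun h => hf x hx (hb h))
  obtain ⟨φ₁, hφ1, hφ10⟩ := exists_cut (U := U) (V := V) (W := W₁) hψc
    (fun x hx => hz _ (hf1 x hx))
  obtain ⟨φ₂, hφ2, hφ20⟩ := exists_cut (U := U) (V := V) (W := W₂) hψc
    (fun x hx => hz _ (hf2 x hx))
  have e := hc ψ hψc (hs.trans hb) φ hφ hφ0
  have e1 := hc1 ψ hψc hs φ₁ hφ1 hφ10
  have e2 := hc2 ψ hψc hs φ₂ hφ2 hφ20
  have hle : ∀ x, (φ₁ + φ₂) x ≤ φ x := by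
    intro x
    rw [ContinuousMap.add_apply]
    by_cases hx1 : x ∈ W₁
    · have hx2 : x ∉ W₂ := fun h => disjoint_left.1 hd hx1 h
      rw [hφ1 x hx1, hφ20 x hx2, hφ x (h1 hx1), add_zero]
    · by_cases hx2 : x ∈ W₂
      · rw [hφ10 x hx1, hφ2 x hx2, hφ x (h2 hx2), zero_add]
      · rw [hφ10 x hx1, hφ20 x hx2, add_zero]
        by_cases hx : x ∈ W
        · rw [hφ x hx]
          exact hψ0 _
        · rw [hφ0 x hx]
  have h3 := gamma_mono hU hle
  rw [Q.add_test U hU U hU, e1, e2, e, ← add_mul] at h3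
  exact le_of_mul_le_mul_right h3 hψi

/-- the image of `W` is the whole square if the constant is positive -/
theorem pushC_surj [CompactSpace Z] (hU : U ∈ Q.Dom) {W : Set Z} {p : ℝ × ℝ} {ρ c : ℝ}
    (hf : ∀ x ∈ frontier W, Fm U V x ∉ ball p ρ) (hcp : 0 < c) (hc : PushC Q U V W p ρ c)
    {q : ℝ × ℝ} (hq : q ∈ ball p ρ) : ∃ x ∈ W, Fm U V x = q := by
  by_contra hcon
  push Not at hcon
  have hqc : q ∉ Fm U V '' closure W := by
    rintro ⟨x, hx, hxq⟩
    by_cases hxW : x ∈ W
    · exact hcon x hxW hxq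
    · have : x ∈ frontier W := ⟨hx, fun h => hxW (interior_subset h)⟩
      exact hf x this (hxq ▸ hq)
  have hcl : IsClosed (Fm U V '' closure W) :=
    (isClosed_closure.isCompact.image (continuous_Fm U V)).isClosed
  obtain ⟨r, hr, hrs⟩ := Metric.isOpen_iff.1 (hcl.isOpen_compl.inter isOpen_ball) q ⟨hqc, hq⟩
  obtain ⟨ψ, hψc, -, -, hψ0, hψ1, -, hψs, hψi⟩ := exists_bump q (r := r / 4) (R := r / 2)
    (by linarith) (by linarith)
  have hs : tsupport ψ ⊆ ball q r := hψs.trans (closedBall_subset_ball (by linarith))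
  have e := hc ψ hψc (hs.trans (hrs.trans inter_subset_right)) 0 (fun x hx => by
    rw [ContinuousMap.zero_apply]
    by_contra h
    have h1 : (U x, V x) ∈ tsupport ψ := subset_tsupport ψ (Ne.symm h)
    exact (hrs (hs h1)).1 ⟨x, subset_closure hx, rfl⟩) (fun x _ => rfl)
  rw [gamma_zero hU hU] at e
  have := mul_pos hcp hψi
  linarith

end Push

end Crest.Agent.R193.CPb1
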