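import Mathlib
import Crest.Agent.R193.Defs
import Crest.Agent.R193.CH_Chart

/-!
# R193 OSC (helper256): oscillation estimates from `DForm.CL` and the maximum principle
-/

set_option autoImplicit false

open Set Filter Topology Metric

namespace Crest.Agent.R193.OSC

open Crest.Agent.R193

section Top

variable {Z : Type} [TopologicalSpace Z]

theorem locConn (e : Z ≃ₜ S2) : LocallyConnectedSpace Z := by
  have : Fact (Module.finrank ℝ (EuclideanSpace ℝ (Fin 3)) = 2 + 1) := ⟨by simp⟩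
  have h : LocallyConnectedSpace S2 :=
    ChartedSpace.locallyConnectedSpace (EuclideanSpace ℝ (Fin 2)) S2
  exact e.isOpenEmbedding.locallyConnectedSpace

theorem frontier_comp [LocallyConnectedSpace Z] {σ : Set Z} (hσ : IsClosed σ) (y : Z) :
    frontier (connectedComponentIn σᶜ y) ⊆ σ := by
  intro p hp
  by_contra hpσ
  have hopen : IsOpen (connectedComponentIn σᶜ y) := hσ.isOpen_compl.connectedComponentIn
  have hpo : IsOpen (connectedComponentIn σᶜ p) := hσ.isOpen_compl.connectedComponentIn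
  have hmem : p ∈ connectedComponentIn σᶜ p := mem_connectedComponentIn hpσ
  obtain ⟨z, hz1, hz2⟩ := mem_closure_iff.1 hp.1 _ hpo hmem
  have h : connectedComponentIn σᶜ p = connectedComponentIn σᶜ y := by
    rw [connectedComponentIn_eq hz1, connectedComponentIn_eq hz2]
  rw [frontier, hopen.interior_eq] at hp
  exact hp.2 (h ▸ hmem)

theorem MonoOn.comp_homeo {u : Z → ℝ} {O : Set Z} (hm : MonoOn u O) (h : Z ≃ₜ Z) :
    MonoOn (fun x => u (h x)) (h ⁻¹' O) := by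
  intro D hD hne hcl x hx
  have h1 : IsOpen (h '' D) := h.isOpenMap D hD
  have h2 : closure (h '' D) ⊆ O := by
    rw [← h.image_closure]
    rintro _ ⟨p, hp, rfl⟩
    exact hcl hp
  obtain ⟨⟨y, hy, hy'⟩, ⟨z, hz, hz'⟩⟩ := hm (h '' D) h1 (hne.image _) h2 (h x) ⟨x, hx, rfl⟩
  rw [← h.image_frontier] at hy hz
  obtain ⟨y', hy1, rfl⟩ := hy
  obtain ⟨z', hz1, rfl⟩ := hz
  exact ⟨⟨y', hy1, hy'⟩, ⟨z', hz1, hz'⟩⟩

theorem MonoOn.mono {u : Z → ℝ} {O O' : Set Z} (hm : MonoOn u O) (h : O' ⊆ O) : MonoOn u O' :=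
  fun D hD hne hcl x hx => hm D hD hne (hcl.trans h) x hx

end Top

section Form

variable {G Z : Type} [Group G] [MetricSpace Z] [MulAction G Z] {S : Setup G Z}

/-- oscillation on a ball from the energy in ONE annulus round it. -/
theorem osc_annulus (Q : DForm S) [LocallyConnectedSpace Z] {x : Z} {ρ : ℝ} (h0 : 0 < ρ)
    (h1 : ρ ≤ Q.ρ0) {u : C(Z, ℝ)} (hu : u ∈ Q.Dom) {O : Set Z}
    (hO : closedBall x (Q.lam * ρ) ⊆ O) (hm : MonoOn u O)
    {φ : C(Z, ℝ)} (hφ : ∀ y, 0 ≤ φ y)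
    (hφ1 : ∀ y, ρ ≤ dist y x → dist y x ≤ Q.lam * ρ → 1 ≤ φ y)
    {y z : Z} (hy : dist y x ≤ ρ) (hz : dist z x ≤ ρ) :
    |u y - u z| ≤ Q.C0 * Real.sqrt (Q.Γ u u φ) := by
  apply le_of_forall_pos_le_add
  intro η hη
  obtain ⟨σ, hσc, -, hσa, hσs, hσo⟩ := Q.CL x ρ h0 h1 u hu φ hφ hφ1 η hη
  have key : ∀ w : Z, dist w x ≤ ρ → (∃ a ∈ σ, u w ≤ u a) ∧ (∃ b ∈ σ, u b ≤ u w) := by
    intro w hw
    have hwσ : w ∉ σ := fun h => by
      have := (hσa w h).1
      linarith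
    set D := connectedComponentIn σᶜ w with hD
    have hwD : w ∈ D := mem_connectedComponentIn hwσ
    have hDo : IsOpen D := hσc.isClosed.isOpen_compl.connectedComponentIn
    have hDσ : D ⊆ σᶜ := connectedComponentIn_subset _ _
    have hDb : D ⊆ closedBall x (Q.lam * ρ) := by
      intro p hp
      by_contra hpb
      have hp2 : p ∈ (ball x (Q.lam * ρ))ᶜ := fun h => hpb (ball_subset_closedBall h)
      obtain ⟨q, hq1, hq2⟩ := hσs D isPreconnected_connectedComponentIn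
        ⟨w, hwD, mem_closedBall.2 hw⟩ ⟨p, hp, hp2⟩
      exact hDσ hq1 hq2
    have hcl : closure D ⊆ O := (closure_minimal hDb isClosed_closedBall).trans hO
    obtain ⟨⟨a, ha, ha'⟩, ⟨b, hb, hb'⟩⟩ := hm D hDo ⟨w, hwD⟩ hcl w hwD
    exact ⟨⟨a, frontier_comp hσc.isClosed w ha, ha'⟩, ⟨b, frontier_comp hσc.isClosed w hb, hb'⟩⟩
  obtain ⟨⟨a, ha, ha'⟩, ⟨b, hb, hb'⟩⟩ := key y hy
  obtain ⟨⟨a2, ha2, ha2'⟩, ⟨b2, hb2, hb2'⟩⟩ := key z hz
  have e1 := hσo a ha b2 hb2
  have e2 := hσo a2 ha2 b hb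
  rw [abs_le] at e1 e2 ⊢
  constructor <;> linarith

/-- tent function: `1` for `t ∈ [ρ, lam ρ]`, `0` outside `[ρ/2, 2 lam ρ]` -/
noncomputable def tent (lam ρ t : ℝ) : ℝ := min 1 (max 0 (min (2 * t / ρ - 1) (2 - t / (lam * ρ))))

lemma tent_nonneg (lam ρ t : ℝ) : 0 ≤ tent lam ρ t := le_min zero_le_one (le_max_left _ _)
lemma tent_le_one (lam ρ t : ℝ) : tent lam ρ t ≤ 1 := min_le_left _ _

lemma tent_one {lam ρ t : ℝ} (hl : 1 < lam) (hρ : 0 < ρ) (h1 : ρ ≤ t) (h2 : t ≤ lam * ρ) :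
    1 ≤ tent lam ρ t := by
  refine le_min le_rfl (le_max_of_le_right (le_min ?_ ?_))
  · rw [le_sub_iff_add_le, le_div_iff₀ hρ]; linarith
  · have : t / (lam * ρ) ≤ 1 := by
      rw [div_le_one (by positivity)]; exact h2
    linarith

lemma tent_ne {lam ρ t : ℝ} (hl : 1 < lam) (hρ : 0 < ρ) (h : tent lam ρ t ≠ 0) :
    ρ / 2 < t ∧ t < 2 * lam * ρ := by
  by_contra hc
  rw [not_and_or, not_lt, not_lt] at hc
  apply h
  have : min (2 * t / ρ - 1) (2 - t / (lam * ρ)) ≤ 0 := by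
    rcases hc with hc | hc
    · apply min_le_of_left_le
      rw [sub_nonpos, div_le_one hρ]; linarith
    · apply min_le_of_right_le
      rw [sub_nonpos, le_div_iff₀ (by positivity)]; linarith
  rw [tent, max_eq_left this]
  simp

lemma tent_cont (lam ρ : ℝ) : Continuous (tent lam ρ) := by
  unfold tent
  fun_prop

lemma Γ_zero_test (Q : DForm S) {u v : C(Z, ℝ)} (hu : u ∈ Q.Dom) (hv : v ∈ Q.Dom) :
    Q.Γ u v 0 = 0 := by
  have := Q.smul_test 0 u hu v hv 0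
  simpa using this

lemma Γ_sum_test (Q : DForm S) {u v : C(Z, ℝ)} (hu : u ∈ Q.Dom) (hv : v ∈ Q.Dom)
    {ι : Type} (s : Finset ι) (φ : ι → C(Z, ℝ)) :
    Q.Γ u v (∑ i ∈ s, φ i) = ∑ i ∈ s, Q.Γ u v (φ i) := by
  classical
  induction s using Finset.induction_on with
  | empty => simpa using Γ_zero_test Q hu hv
  | insert a s ha ih => rw [Finset.sum_insert ha, Finset.sum_insert ha, Q.add_test u hu v hv, ih]

lemma Γ_mono_test (Q : DForm S) {u : C(Z, ℝ)} (hu : u ∈ Q.Dom) {φ φ' : C(Z, ℝ)}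
    (h : ∀ x, φ x ≤ φ' x) : Q.Γ u u φ ≤ Q.Γ u u φ' := by
  have h1 := Q.nonneg u hu (φ' + (-1 : ℝ) • φ) (fun x => by
    have := h x
    simp only [ContinuousMap.add_apply, ContinuousMap.smul_apply, smul_eq_mul]
    linarith)
  rw [Q.add_test u hu u hu, Q.smul_test _ u hu u hu] at h1
  linarith

/-- the oscillation of monotone functions on small balls is small, uniformly (equicontinuity) -/
theorem osc_small (Q : DForm S) [LocallyConnectedSpace Z] {r : ℝ} (hr : 0 < r) {ε : ℝ}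
    (hε : 0 < ε) : ∃ r' > 0, r' ≤ r ∧ ∀ x : Z, ∀ u ∈ Q.Dom, ∀ O : Set Z, closedBall x r ⊆ O →
      MonoOn u O → ∀ φ : C(Z, ℝ), (∀ y, 0 ≤ φ y) → (∀ y, dist y x ≤ r → 1 ≤ φ y) →
      ∀ y z, dist y x ≤ r' → dist z x ≤ r' → |u y - u z| ^ 2 ≤ ε * Q.Γ u u φ := by
  have hl := Q.one_lt_lam
  have hl0 : 0 < Q.lam := by linarith
  set ρ1 := min Q.ρ0 (r / (2 * Q.lam)) with hρ1
  have hρ1p : 0 < ρ1 := lt_min Q.ρ0_pos (by positivity)
  set ρ : ℕ → ℝ := fun i => ρ1 / (4 * Q.lam) ^ i with hρ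
  have hρp : ∀ i, 0 < ρ i := fun i => by simp only [hρ]; positivity
  have h4 : 1 < 4 * Q.lam := by linarith
  have hρle : ∀ i, ρ i ≤ ρ1 := fun i => by
    simp only [hρ]
    apply div_le_self hρ1p.le
    exact one_le_pow₀ h4.le
  have hanti : ∀ i j, i ≤ j → ρ j ≤ ρ i := by
    intro i j hij
    simp only [hρ]
    apply div_le_div_of_nonneg_left hρ1p.le (by positivity)
    exact pow_le_pow_right₀ h4.le hij
  have hsucc : ∀ i, 2 * Q.lam * ρ (i + 1) = ρ i / 2 := by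
    intro i
    simp only [hρ, pow_succ]
    field_simp
    ring
  have hρr : 2 * Q.lam * ρ1 ≤ r := by
    have : ρ1 ≤ r / (2 * Q.lam) := min_le_right _ _
    rw [le_div_iff₀ (by positivity)] at this
    linarith
  obtain ⟨n, hn⟩ := exists_nat_gt (Q.C0 ^ 2 / ε)
  have hC0 := Q.C0_pos
  have hn0 : (0 : ℝ) < n := lt_trans (by positivity) hn
  have hnn : 0 < n := by exact_mod_cast hn0
  have hr'r : ρ n ≤ r := by
    have h1 := hρle n
    have h2 : ρ1 ≤ 2 * Q.lam * ρ1 := by nlinarith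
    linarith
  refine ⟨ρ n, hρp n, hr'r, ?_⟩
  intro x u hu O hO hm φ hφ hφ1 y z hy hz
  -- the tents
  let ψ : ℕ → C(Z, ℝ) := fun i => ⟨fun p => tent Q.lam (ρ i) (dist p x),
    (tent_cont _ _).comp (continuous_id.dist continuous_const)⟩
  have hψ : ∀ i p, ψ i p = tent Q.lam (ρ i) (dist p x) := fun i p => rfl
  have hsum : ∀ p, (∑ i ∈ Finset.range n, ψ i) p ≤ φ p := by
    intro p
    rw [ContinuousMap.coe_sum, Finset.sum_apply]
    by_cases hex : ∃ i ∈ Finset.range n, ψ i p ≠ 0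
    · obtain ⟨i, hi, hne⟩ := hex
      rw [hψ] at hne
      obtain ⟨ha, hb⟩ := tent_ne hl (hρp i) hne
      rw [Finset.sum_eq_single_of_mem i hi]
      · have h1 : dist p x ≤ r := by
          have := hρle i
          nlinarith
        exact (tent_le_one _ _ _).trans (hφ1 p h1)
      · intro j hj hji
        by_contra hne2
        rw [hψ] at hne2
        obtain ⟨hc, hd⟩ := tent_ne hl (hρp j) hne2
        rcases lt_or_gt_of_ne hji with hlt | hlt
        · have h1 := hanti (j + 1) i hlt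
          have h2 := hsucc j
          nlinarith
        · have h1 := hanti (i + 1) j hlt
          have h2 := hsucc i
          nlinarith
    · push Not at hex
      rw [Finset.sum_eq_zero (fun i hi => hex i hi)]
      exact hφ p
  have hE : ∑ i ∈ Finset.range n, Q.Γ u u (ψ i) ≤ Q.Γ u u φ := by
    rw [← Γ_sum_test Q hu hu]
    exact Γ_mono_test Q hu hsum
  obtain ⟨i, hi, hi2⟩ : ∃ i ∈ Finset.range n, Q.Γ u u (ψ i) ≤ Q.Γ u u φ / n := by
    apply Finset.exists_le_of_sum_le ⟨0, Finset.mem_range.2 hnn⟩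
    rw [Finset.sum_const, Finset.card_range, nsmul_eq_mul]
    have : (n : ℝ) * (Q.Γ u u φ / n) = Q.Γ u u φ := by field_simp
    rw [this]; exact hE
  have hin : i < n := Finset.mem_range.1 hi
  have hb : closedBall x (Q.lam * ρ i) ⊆ O := by
    refine Subset.trans (closedBall_subset_closedBall ?_) hO
    have := hρle i
    have := hρp i
    nlinarith
  have hosc := osc_annulus Q (hρp i) ((hρle i).trans (min_le_left _ _)) hu hb hm
    (φ := ψ i) (fun p => by rw [hψ]; exact tent_nonneg _ _ _)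
    (fun p h1 h2 => by rw [hψ]; exact tent_one hl (hρp i) h1 h2)
    (y := y) (z := z) (hy.trans (hanti _ _ hin.le)) (hz.trans (hanti _ _ hin.le))
  have hΓ0 : 0 ≤ Q.Γ u u (ψ i) := Q.nonneg u hu _ (fun p => by rw [hψ]; exact tent_nonneg _ _ _)
  have hΓφ : 0 ≤ Q.Γ u u φ := Q.nonneg u hu _ hφ
  calc |u y - u z| ^ 2 ≤ (Q.C0 * Real.sqrt (Q.Γ u u (ψ i))) ^ 2 :=
        pow_le_pow_left₀ (abs_nonneg _) hosc 2
    _ = Q.C0 ^ 2 * Q.Γ u u (ψ i) := by rw [mul_pow, Real.sq_sqrt hΓ0]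
    _ ≤ Q.C0 ^ 2 * (Q.Γ u u φ / n) := by gcongr
    _ = (Q.C0 ^ 2 / n) * Q.Γ u u φ := by ring
    _ ≤ ε * Q.Γ u u φ := by
        apply mul_le_mul_of_nonneg_right _ hΓφ
        rw [div_lt_iff₀ hε] at hn
        rw [div_le_iff₀ hn0]
        linarith

/-- neighbourhood form -/
theorem osc_nhds (Q : DForm S) [LocallyConnectedSpace Z] (x : Z) (O : Set Z) (hO : O ∈ 𝓝 x)
    {ε : ℝ} (hε : 0 < ε) : ∃ N ∈ 𝓝 x, ∀ u ∈ Q.Dom, MonoOn u O → ∀ φ : C(Z, ℝ),
      (∀ y, 0 ≤ φ y) → (∀ y ∈ O, 1 ≤ φ y) →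
      ∀ y ∈ N, ∀ z ∈ N, |u y - u z| ^ 2 ≤ ε * Q.Γ u u φ := by
  obtain ⟨r, hr, hrO⟩ := Metric.nhds_basis_closedBall.mem_iff.1 hO
  obtain ⟨r', hr', -, h⟩ := osc_small Q hr hε
  exact ⟨closedBall x r', closedBall_mem_nhds x hr', fun u hu hm φ hφ hφ1 y hy z hz =>
    h x u hu O hrO hm φ hφ (fun p hp => hφ1 p (hrO (mem_closedBall.2 hp))) y z hy hz⟩

/-- oscillation on a preconnected set `K` whose `r`-neighbourhood is in `O` -/
theorem osc_conn (Q : DForm S) [LocallyConnectedSpace Z] [CompactSpace Z] {r : ℝ} (hr : 0 < r) :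
    ∃ C : ℝ, 0 ≤ C ∧ ∀ K : Set Z, IsPreconnected K → ∀ O : Set Z, (∀ x ∈ K, closedBall x r ⊆ O) →
      ∀ u ∈ Q.Dom, MonoOn u O → ∀ φ : C(Z, ℝ), (∀ y, 0 ≤ φ y) → (∀ y ∈ O, 1 ≤ φ y) →
      ∀ y ∈ K, ∀ z ∈ K, |u y - u z| ^ 2 ≤ C * Q.Γ u u φ := by
  classical
  obtain ⟨r', hr', -, h⟩ := osc_small Q hr (one_pos)
  obtain ⟨t, -, ht⟩ := isCompact_univ.elim_nhds_subcover (fun x : Z => ball x (r' / 2))
    (fun x _ => ball_mem_nhds x (by positivity))
  refine ⟨(t.card : ℝ) ^ 2, by positivity, ?_⟩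
  intro K hK O hKO u hu hm φ hφ hφ1
  set B := Real.sqrt (Q.Γ u u φ) with hB
  have hΓφ : 0 ≤ Q.Γ u u φ := Q.nonneg u hu _ hφ
  have hB0 : 0 ≤ B := Real.sqrt_nonneg _
  have main : ∀ y ∈ K, ∀ z ∈ K, u z - u y ≤ t.card * B := by
    intro y hy z hz
    rcases le_total (u z) (u y) with hle | hle
    · have : 0 ≤ t.card * B := by positivity
      linarith
    have hsub : Icc (u y) (u z) ⊆ ⋃ c ∈ t, u '' (K ∩ ball c (r' / 2)) := by
      have h1 : IsPreconnected (u '' K) := hK.image _ u.continuous.continuousOn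
      have h2 : Icc (u y) (u z) ⊆ u '' K := h1.ordConnected.out ⟨y, hy, rfl⟩ ⟨z, hz, rfl⟩
      intro s hs
      obtain ⟨p, hp, rfl⟩ := h2 hs
      obtain ⟨c, hc, hpc⟩ := mem_iUnion₂.1 (ht (mem_univ p))
      exact mem_iUnion₂.2 ⟨c, hc, ⟨p, ⟨hp, hpc⟩, rfl⟩⟩
    have hdiam : ∀ c ∈ t, MeasureTheory.volume (u '' (K ∩ ball c (r' / 2))) ≤
        ENNReal.ofReal B := by
      intro c hc
      refine (Real.volume_le_diam _).trans ?_
      apply Metric.ediam_le
      rintro _ ⟨p, ⟨hp, hpc⟩, rfl⟩ _ ⟨q, ⟨hq, hqc⟩, rfl⟩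
      rw [edist_dist]
      apply ENNReal.ofReal_le_ofReal
      rw [Real.dist_eq]
      have hpq : dist q p ≤ r' := by
        have := dist_triangle_right q p c
        rw [mem_ball] at hpc hqc
        linarith
      have := h p u hu O (hKO p hp) hm φ hφ
        (fun w hw => hφ1 w (hKO p hp (mem_closedBall.2 hw))) p q (by simp [hr'.le]) hpq
      rw [one_mul] at this
      exact Real.le_sqrt_of_sq_le this
    have hvol : ENNReal.ofReal (u z - u y) ≤ t.card * ENNReal.ofReal B := by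
      calc ENNReal.ofReal (u z - u y) = MeasureTheory.volume (Icc (u y) (u z)) := by
            rw [Real.volume_Icc]
        _ ≤ MeasureTheory.volume (⋃ c ∈ t, u '' (K ∩ ball c (r' / 2))) :=
            MeasureTheory.measure_mono hsub
        _ ≤ ∑ c ∈ t, MeasureTheory.volume (u '' (K ∩ ball c (r' / 2))) :=
            MeasureTheory.measure_biUnion_finset_le _ _
        _ ≤ ∑ c ∈ t, ENNReal.ofReal B := Finset.sum_le_sum hdiam
        _ = t.card * ENNReal.ofReal B := by rw [Finset.sum_const, nsmul_eq_mul]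
    have : t.card * ENNReal.ofReal B = ENNReal.ofReal (t.card * B) := by
      rw [ENNReal.ofReal_mul (by positivity), ENNReal.ofReal_natCast]
    rw [this] at hvol
    exact (ENNReal.ofReal_le_ofReal_iff (by positivity)).1 hvol
  intro y hy z hz
  have h1 : |u y - u z| ≤ t.card * B := abs_le.2 ⟨by linarith [main y hy z hz], main z hz y hy⟩
  calc |u y - u z| ^ 2 ≤ (t.card * B) ^ 2 := pow_le_pow_left₀ (abs_nonneg _) h1 2
    _ = (t.card : ℝ) ^ 2 * Q.Γ u u φ := by rw [mul_pow, Real.sq_sqrt hΓφ]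

end Form

section Conn

/-- uniform connectedness of complements of balls -/
theorem exists_conn {Z : Type} [MetricSpace Z] [CompactSpace Z] (e : Z ≃ₜ S2) {r : ℝ} (hr : 0 < r) :
    ∃ r' > 0, ∀ a x y : Z, r ≤ dist x a → r ≤ dist y a →
      ∃ c : Set Z, IsPreconnected c ∧ x ∈ c ∧ y ∈ c ∧ ∀ z ∈ c, r' ≤ dist z a := by
  have hmain : ∃ r' > 0, ∀ a ∈ (univ : Set Z), ∀ x y : Z, r ≤ dist x a → r ≤ dist y a →
      ∃ c : Set Z, IsPreconnected c ∧ x ∈ c ∧ y ∈ c ∧ ∀ z ∈ c, r' ≤ dist z a := by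
    refine isCompact_univ.induction_on
      (p := fun s => ∃ r' > 0, ∀ a ∈ s, ∀ x y : Z, r ≤ dist x a → r ≤ dist y a →
        ∃ c : Set Z, IsPreconnected c ∧ x ∈ c ∧ y ∈ c ∧ ∀ z ∈ c, r' ≤ dist z a) ?_ ?_ ?_ ?_
    · exact ⟨1, one_pos, fun a ha => absurd ha (notMem_empty a)⟩
    · rintro s t hst ⟨r', hr', h⟩
      exact ⟨r', hr', fun a ha => h a (hst ha)⟩
    · rintro s t ⟨r1, hr1, h1⟩ ⟨r2, hr2, h2⟩
      refine ⟨min r1 r2, lt_min hr1 hr2, ?_⟩
      rintro a (ha | ha) x y hx hy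
      · obtain ⟨c, hc, hxc, hyc, hd⟩ := h1 a ha x y hx hy
        exact ⟨c, hc, hxc, hyc, fun z hz => (min_le_left _ _).trans (hd z hz)⟩
      · obtain ⟨c, hc, hxc, hyc, hd⟩ := h2 a ha x y hx hy
        exact ⟨c, hc, hxc, hyc, fun z hz => (min_le_right _ _).trans (hd z hz)⟩
    · intro a _
      obtain ⟨f, hf, hfr⟩ := CHx.exists_chart e a
      -- the compact set away from `a`
      have hKc : IsCompact {x : Z | r / 2 ≤ dist x a} :=
        (isClosed_le continuous_const (continuous_id.dist continuous_const)).isCompact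
      have hKr : {x : Z | r / 2 ≤ dist x a} ⊆ range f := by
        rw [hfr]
        intro x hx hxa
        have h1 : r / 2 ≤ dist x a := hx
        rw [mem_singleton_iff.1 hxa, dist_self] at h1
        linarith
      have hpre : IsCompact (f ⁻¹' {x : Z | r / 2 ≤ dist x a}) :=
        (hf.isInducing.isCompact_preimage_iff hKr).2 hKc
      obtain ⟨M, hM⟩ := hpre.isBounded.subset_closedBall (0 : ℝ × ℝ)
      set c := f '' closedBall (0 : ℝ × ℝ) M with hc
      have hcc : IsCompact c := (isCompact_closedBall _ _).image hf.continuous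
      have hcp : IsPreconnected c :=
        ((convex_closedBall (0 : ℝ × ℝ) M).isPreconnected).image _ hf.continuous.continuousOn
      have hac : a ∈ cᶜ := by
        rintro ⟨p, -, hp⟩
        have : a ∈ range f := ⟨p, hp⟩
        rw [hfr] at this
        exact this rfl
      obtain ⟨s, hs, hsc⟩ := Metric.isOpen_iff.1 hcc.isClosed.isOpen_compl a hac
      refine ⟨ball a (min (r / 2) (s / 2)), ?_, s / 2, by positivity, ?_⟩
      · exact mem_nhdsWithin_of_mem_nhds (ball_mem_nhds _ (lt_min (by positivity) (by positivity)))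
      · intro a' ha' x y hx hy
        rw [mem_ball, lt_min_iff] at ha'
        have hin : ∀ x : Z, r ≤ dist x a' → x ∈ c := by
          intro x hx
          have h1 : x ∈ {x : Z | r / 2 ≤ dist x a} := by
            have := dist_triangle x a a'
            rw [dist_comm a a'] at this
            show r / 2 ≤ dist x a
            linarith [ha'.1]
          obtain ⟨p, rfl⟩ := hKr h1
          exact ⟨p, hM h1, rfl⟩
        refine ⟨c, hcp, hin x hx, hin y hy, ?_⟩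
        intro z hz
        have h1 : s ≤ dist z a := by
          by_contra hlt
          exact hsc (mem_ball.2 (not_le.1 hlt)) hz
        have := dist_triangle z a' a
        linarith [ha'.2]
  obtain ⟨r', hr', h⟩ := hmain
  exact ⟨r', hr', fun a => h a (mem_univ a)⟩

variable {G Z : Type} [Group G] [MetricSpace Z] [MulAction G Z]

/-- `Gd R g` is contained in a connected part of `Gd R' g`, `R'` independent of `g` -/
theorem exists_conn_Gd [CompactSpace Z] (S : Setup G Z) (e : Z ≃ₜ S2) (R : ℝ) :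
    ∃ R' : ℝ, R ≤ R' ∧ ∀ g : G, ∀ x ∈ S.Gd R g, ∀ y ∈ S.Gd R g,
      ∃ c : Set Z, IsPreconnected c ∧ x ∈ c ∧ y ∈ c ∧ c ⊆ S.Gd R' g := by
  have hε := S.ε_pos
  have hδ := S.one_le_δ
  obtain ⟨r', hr', h⟩ := exists_conn e (r := Real.exp (-S.ε * (R + S.δ))) (Real.exp_pos _)
  -- choose `R'` with `exp (-ε (R' - 2δ)) < r'` and `R' ≥ R + 3 δ`
  obtain ⟨R', hR1, hR2⟩ : ∃ R' : ℝ, R + 3 * S.δ ≤ R' ∧ Real.exp (-S.ε * (R' - 2 * S.δ)) < r' := by
    refine ⟨max (R + 3 * S.δ) (2 * S.δ + 1 - Real.log r' / S.ε), le_max_left _ _, ?_⟩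
    rw [← Real.lt_log_iff_exp_lt hr']
    have h1 : 2 * S.δ + 1 - Real.log r' / S.ε ≤
      max (R + 3 * S.δ) (2 * S.δ + 1 - Real.log r' / S.ε) := le_max_right _ _
    have h2 : S.ε * (1 - Real.log r' / S.ε) ≤
      S.ε * (max (R + 3 * S.δ) (2 * S.δ + 1 - Real.log r' / S.ε) - 2 * S.δ) := by
      apply mul_le_mul_of_nonneg_left _ hε.le
      linarith
    have h3 : S.ε * (1 - Real.log r' / S.ε) = S.ε - Real.log r' := by
      field_simp
    linarith
  refine ⟨R', by linarith, ?_⟩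
  intro g x hx y hy
  by_cases hg : (S.len g : ℝ) ≤ R'
  · -- everything
    have : PreconnectedSpace Z := by
      have h1 : Fact (Module.finrank ℝ (EuclideanSpace ℝ (Fin 3)) = 2 + 1) := ⟨by simp⟩
      have h2 : IsPreconnected (Metric.sphere (0 : EuclideanSpace ℝ (Fin 3)) 1) := by
        apply isPreconnected_sphere
        rw [← Module.finrank_eq_rank]
        norm_num
      have h3 : PreconnectedSpace S2 := Subtype.preconnectedSpace h2
      exact e.symm.surjective.denseRange.preconnectedSpace e.symm.continuous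
    refine ⟨univ, isPreconnected_univ, mem_univ _, mem_univ _, ?_⟩
    intro z _
    show S.s z g⁻¹ ≤ R'
    have := S.s_le z g⁻¹
    rw [S.len_inv] at this
    linarith
  · push Not at hg
    obtain ⟨a, ha⟩ := S.star g⁻¹
    rw [S.len_inv] at ha
    have hfar : ∀ x ∈ S.Gd R g, Real.exp (-S.ε * (R + S.δ)) ≤ dist x a := by
      intro x hx
      have hx' : S.s x g⁻¹ ≤ R := hx
      have hne : a ≠ x := by
        rintro rfl
        linarith
      have h1 := S.le_s a x g⁻¹ hne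
      have h2 : min (S.s a g⁻¹) (-Real.log (dist a x) / S.ε) ≤ R + S.δ := by linarith
      rw [min_le_iff] at h2
      rcases h2 with h2 | h2
      · linarith
      · rw [div_le_iff₀ hε] at h2
        have hd : 0 < dist a x := dist_pos.2 hne
        rw [dist_comm x a, ← Real.le_log_iff_exp_le hd]
        linarith
    obtain ⟨c, hc, hxc, hyc, hcd⟩ := h a x y (hfar x hx) (hfar y hy)
    refine ⟨c, hc, hxc, hyc, ?_⟩
    intro z hz
    show S.s z g⁻¹ ≤ R'
    by_contra hcon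
    push Not at hcon
    have h1 := S.dist_le z a g⁻¹
    have h2 : R' - S.δ ≤ min (S.s z g⁻¹) (S.s a g⁻¹) := le_min (by linarith) (by linarith)
    have h3 : Real.exp (-S.ε * (min (S.s z g⁻¹) (S.s a g⁻¹) - S.δ)) ≤
        Real.exp (-S.ε * (R' - 2 * S.δ)) := by
      apply Real.exp_le_exp.2
      nlinarith
    linarith [hcd z hz]

/-- the homeomorphism given by a group element -/
def hom (S : Setup G Z) (g : G) : Z ≃ₜ Z where
  toFun := fun x => g • x
  invFun := fun x => g⁻¹ • x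
  left_inv := fun x => by simp
  right_inv := fun x => by simp
  continuous_toFun := S.cont g
  continuous_invFun := S.cont g⁻¹

lemma s_smul (S : Setup G Z) (g : G) (x : Z) :
    |S.s (g • x) g - ((S.len g : ℝ) - S.s x g⁻¹)| ≤ S.δ := by
  have h := S.cocycle x 1 g
  have h1 : S.s x 1 = 0 := by
    have h2 := S.s_le x 1
    rw [S.len_one] at h2
    exact le_antisymm (by simpa using h2) (S.s_nonneg x 1)
  have h2 : gpOf S.len 1 g⁻¹ = 0 := by
    simp [gpOf, S.len_one]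
  rw [h1, h2, mul_one] at h
  have : (0 : ℝ) - S.s x g⁻¹ - 0 + (S.len g : ℝ) = (S.len g : ℝ) - S.s x g⁻¹ := by ring
  rwa [this] at h

lemma smul_mem_Sh (S : Setup G Z) {R : ℝ} {g : G} {x : Z} (hx : x ∈ S.Gd R g) :
    g • x ∈ S.Sh (R + S.δ) g := by
  have h1 : S.s x g⁻¹ ≤ R := hx
  have h2 := abs_le.1 (s_smul S g x)
  show (S.len g : ℝ) - (R + S.δ) ≤ S.s (g • x) g
  linarith [h2.1]

lemma mem_Gd_of_smul (S : Setup G Z) {R : ℝ} {g : G} {x : Z} (hx : g • x ∈ S.Sh R g) :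
    x ∈ S.Gd (R + S.δ) g := by
  have h1 : (S.len g : ℝ) - R ≤ S.s (g • x) g := hx
  have h2 := abs_le.1 (s_smul S g x)
  show S.s x g⁻¹ ≤ R + S.δ
  linarith [h2.2]

lemma closedBall_subset_Gd (S : Setup G Z) {R r : ℝ} (hr : r < Real.exp (-S.ε * (R + S.δ)))
    {g : G} {x : Z} (hx : x ∈ S.Gd R g) : closedBall x r ⊆ S.Gd (R + S.δ) g := by
  intro y hy
  have hε := S.ε_pos
  have hδ := S.one_le_δ
  have hx' : S.s x g⁻¹ ≤ R := hx
  show S.s y g⁻¹ ≤ R + S.δ
  by_cases hxy : y = x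
  · rw [hxy]; linarith
  have h1 := S.le_s y x g⁻¹ hxy
  have h2 : min (S.s y g⁻¹) (-Real.log (dist y x) / S.ε) ≤ R + S.δ := by linarith
  rw [min_le_iff] at h2
  rcases h2 with h2 | h2
  · exact h2
  · exfalso
    rw [div_le_iff₀ hε] at h2
    have hd : 0 < dist y x := dist_pos.2 hxy
    have h3 : Real.exp (-S.ε * (R + S.δ)) ≤ dist y x := by
      rw [← Real.le_log_iff_exp_le hd]
      linarith
    rw [mem_closedBall] at hy
    linarith

variable {S : Setup G Z}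

/-- scale-invariant oscillation bound away from the pole, all constants independent of `g` -/
theorem osc_Gd [CompactSpace Z] (Q : DForm S) (e : Z ≃ₜ S2) (R : ℝ) :
    ∃ R1 C : ℝ, R ≤ R1 ∧ 0 ≤ C ∧ ∀ g : G, ∀ O : Set Z, S.Gd R1 g ⊆ O → ∀ u ∈ Q.Dom,
      MonoOn u O → ∀ φ : C(Z, ℝ), (∀ y, 0 ≤ φ y) → (∀ y ∈ S.Gd R1 g, 1 ≤ φ y) →
      ∀ y ∈ S.Gd R g, ∀ z ∈ S.Gd R g, |u y - u z| ^ 2 ≤ C * Q.Γ u u φ := by
  have hδ := S.one_le_δ
  have := locConn e
  obtain ⟨R', hR', hconn⟩ := exists_conn_Gd S e R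
  obtain ⟨C, hC, h⟩ := osc_conn Q (r := Real.exp (-S.ε * (R' + S.δ)) / 2)
    (by have := Real.exp_pos (-S.ε * (R' + S.δ)); positivity)
  refine ⟨R' + S.δ, C, by linarith, hC, ?_⟩
  intro g O hO u hu hm φ hφ hφ1 y hy z hz
  obtain ⟨c, hc, hyc, hzc, hcG⟩ := hconn g y hy z hz
  refine h c hc (S.Gd (R' + S.δ) g) ?_ u hu (MonoOn.mono hm hO) φ hφ hφ1 y hyc z hzc
  intro x hx
  apply closedBall_subset_Gd S _ (hcG hx)
  have := Real.exp_pos (-S.ε * (R' + S.δ))
  linarith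

/-- scale-invariant oscillation bound on shadows, all constants independent of `g` -/
theorem osc_Sh [CompactSpace Z] (Q : DForm S) (e : Z ≃ₜ S2) (R : ℝ) :
    ∃ R1 C : ℝ, R ≤ R1 ∧ 0 ≤ C ∧ ∀ g : G, ∀ O : Set Z, S.Sh R1 g ⊆ O → ∀ u ∈ Q.Dom,
      MonoOn u O → ∀ φ : C(Z, ℝ), (∀ y, 0 ≤ φ y) → (∀ y ∈ S.Sh R1 g, 1 ≤ φ y) →
      ∀ y ∈ S.Sh R g, ∀ z ∈ S.Sh R g, |u y - u z| ^ 2 ≤ C * Q.Γ u u φ := by
  have hδ := S.one_le_δ
  obtain ⟨R1, C, hR1, hC, h⟩ := osc_Gd Q e (R + S.δ)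
  refine ⟨R1 + S.δ, C, by linarith, hC, ?_⟩
  intro g O hO u hu hm φ hφ hφ1 y hy z hz
  let u' : C(Z, ℝ) := u.comp ⟨fun x => g • x, S.cont g⟩
  let φ' : C(Z, ℝ) := φ.comp ⟨fun x => g • x, S.cont g⟩
  obtain ⟨hu', hΓ⟩ := Q.inv g u u φ u' u' φ' hu hu (fun x => rfl) (fun x => rfl) (fun x => rfl)
  have hm' : MonoOn u' ((hom S g) ⁻¹' O) := MonoOn.comp_homeo hm (hom S g)
  have hsub : S.Gd R1 g ⊆ (hom S g) ⁻¹' O := fun x hx => hO (smul_mem_Sh S hx)
  have key := h g _ hsub u' hu' hm' φ' (fun y => hφ _) (fun y hy => hφ1 _ (smul_mem_Sh S hy))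
    (g⁻¹ • y) (mem_Gd_of_smul S (by simpa using hy)) (g⁻¹ • z)
    (mem_Gd_of_smul S (by simpa using hz))
  rw [hΓ] at key
  have e1 : u' (g⁻¹ • y) = u y := by simp [u']
  have e2 : u' (g⁻¹ • z) = u z := by simp [u']
  rw [e1, e2] at key
  exact key

end Conn

end Crest.Agent.R193.OSC
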