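import Mathlib
import Crest.Agent.R193.CPb1
import Crest.Agent.R193.OSC
import Crest.Agent.R193.S_Basic
import Crest.Agent.R193.GEO_Levels

/-!
# R193, block D7 (C5) (helper990): the push-forward constant is bounded below

Area argument (helper558): the square of side `ρ` is covered by the images of small balls, whose
areas are controlled by the energy (Courant-Lebesgue + maximum principle); bounded overlap of the
shadows of one level.  No Loewner inequality is used.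
-/

set_option autoImplicit false

noncomputable section

open Set Filter Topology MeasureTheory Metric

namespace Crest.Agent.R193.CPb2

open Crest.Agent.R193 Crest.Agent.R193.P_Comp Crest.Agent.R193.CPb1

variable {G Z : Type} [Group G] [MetricSpace Z] [MulAction G Z] {S : Setup G Z}

open Classical in
/-- covers by small balls of bounded overlap, at arbitrarily small scales -/
theorem exists_cover (S : Setup G Z) {lam : ℝ} (hlam : 1 < lam) :
    ∃ N : ℕ, ∀ r0 : ℝ, 0 < r0 → ∃ r : ℝ, 0 < r ∧ r ≤ r0 ∧ ∃ (I : Finset G) (c : G → Z),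
      (∀ x : Z, ∃ g ∈ I, dist x (c g) ≤ r) ∧
      ∀ x : Z, (I.filter (fun g => dist x (c g) ≤ 2 * lam * r)).card ≤ N := by
  have hε := S.ε_pos
  have hδ := S.one_le_δ
  set R : ℝ := 2 * S.δ + Real.log (2 * lam) / S.ε with hR
  have hlog : 0 < Real.log (2 * lam) := Real.log_pos (by linarith)
  have hRδ : S.δ ≤ R := by
    have : 0 < Real.log (2 * lam) / S.ε := div_pos hlog hε
    linarith
  obtain ⟨C, hC⟩ := GEO_Levels.mult_Shc S ⌈R + S.δ⌉₊
  refine ⟨C, fun r0 hr0 => ?_⟩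
  -- the level
  obtain ⟨n, hn⟩ : ∃ n : ℕ, Real.exp (-S.ε * ((n : ℝ) - 2 * S.δ)) ≤ r0 := by
    obtain ⟨n, hn⟩ := exists_nat_ge (-Real.log r0 / S.ε + 2 * S.δ)
    refine ⟨n, ?_⟩
    rw [← Real.le_log_iff_exp_le hr0]
    have h2 : -Real.log r0 / S.ε ≤ n - 2 * S.δ := by linarith
    rw [div_le_iff₀ hε] at h2
    linarith
  set r := Real.exp (-S.ε * ((n : ℝ) - 2 * S.δ)) with hr
  have hcov : ∀ x : Z, ∃ g ∈ S.sph n, x ∈ S.Sh S.δ g := by
    intro x
    obtain ⟨g, h1, h2⟩ := S.ray x n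
    refine ⟨g, (GEO_Levels.mem_sph S).2 h1, ?_⟩
    show (S.len g : ℝ) - S.δ ≤ S.s x g
    rw [h1]
    exact h2
  have hZ : Nonempty Z := ⟨(S.star 1).choose⟩
  have hch : ∀ g : G, ∃ c : Z, (S.Sh S.δ g).Nonempty → c ∈ S.Sh S.δ g := by
    intro g
    by_cases h : (S.Sh S.δ g).Nonempty
    · obtain ⟨c, hc⟩ := h
      exact ⟨c, fun _ => hc⟩
    · exact ⟨hZ.some, fun h' => (h h').elim⟩
  choose c hc using hch
  refine ⟨r, Real.exp_pos _, hn, (S.sph n).filter (fun g => (S.Sh S.δ g).Nonempty), c, ?_, ?_⟩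
  · intro x
    obtain ⟨g, hg, hx⟩ := hcov x
    refine ⟨g, Finset.mem_filter.2 ⟨hg, ⟨x, hx⟩⟩, ?_⟩
    have h1 := S_Basic.dist_le_of_mem_Sh S hx (hc g ⟨x, hx⟩)
    rw [(GEO_Levels.mem_sph S).1 hg] at h1
    refine h1.trans (le_of_eq ?_)
    rw [hr]
    congr 1
    ring
  · intro x
    refine le_trans (Finset.card_le_card ?_) (hC n x)
    intro g hg
    rw [Finset.mem_filter, Finset.mem_filter] at hg
    obtain ⟨⟨hg1, hg2⟩, hg3⟩ := hg
    rw [Finset.mem_filter]
    refine ⟨hg1, ?_⟩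
    have h1 : c g ∈ S.Sh R g := S_Basic.Sh_mono S hRδ g (hc g hg2)
    have h2 := S_Basic.closedBall_subset_Sh S h1 (a := x) (by
      rw [mem_closedBall]
      refine hg3.trans (le_of_eq ?_)
      rw [(GEO_Levels.mem_sph S).1 hg1, hr]
      have h3 : Real.exp (-S.ε * ((n : ℝ) - R)) =
          Real.exp (Real.log (2 * lam)) * Real.exp (-S.ε * ((n : ℝ) - 2 * S.δ)) := by
        rw [← Real.exp_add]
        congr 1
        rw [hR]
        field_simp
        ring
      rw [h3, Real.exp_log (by linarith)])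
    exact GEO_Levels.Sh_subset_Shc S _ g
      (S_Basic.Sh_mono S ((Nat.le_ceil _).trans (GEO_Levels.le_rad S _)) g h2)

/-- tent function around a point -/
def tent (a : Z) (s : ℝ) : C(Z, ℝ) :=
  ⟨fun y => max 0 (min 1 (2 - dist y a / s)), by fun_prop⟩

lemma tent_apply (a : Z) (s : ℝ) (y : Z) : tent a s y = max 0 (min 1 (2 - dist y a / s)) := rfl

lemma tent_nonneg (a : Z) (s : ℝ) (y : Z) : 0 ≤ tent a s y := le_max_left _ _

lemma tent_le_one (a : Z) (s : ℝ) (y : Z) : tent a s y ≤ 1 :=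
  max_le zero_le_one (min_le_left _ _)

lemma one_le_tent {a : Z} {s : ℝ} (hs : 0 < s) {y : Z} (h : dist y a ≤ s) : 1 ≤ tent a s y := by
  refine le_max_of_le_right (le_min le_rfl ?_)
  have : dist y a / s ≤ 1 := (div_le_one hs).2 h
  linarith

lemma dist_le_of_tent_ne {a : Z} {s : ℝ} (hs : 0 < s) {y : Z} (h : tent a s y ≠ 0) :
    dist y a ≤ 2 * s := by
  by_contra hc
  push Not at hc
  apply h
  rw [tent_apply]
  apply max_eq_left
  refine (min_le_right _ _).trans ?_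
  have : 2 ≤ dist y a / s := (le_div_iff₀ hs).2 hc.le
  linarith

lemma tsupport_tent {a : Z} {s : ℝ} (hs : 0 < s) : tsupport (tent a s) ⊆ closedBall a (2 * s) := by
  refine closure_minimal (fun y hy => ?_) isClosed_closedBall
  exact dist_le_of_tent_ne hs hy

/-- volume of a closed square -/
lemma volume_square (q : ℝ × ℝ) {R : ℝ} (hR : 0 ≤ R) :
    volume (closedBall q R) = ENNReal.ofReal ((2 * R) ^ 2) := by
  obtain ⟨a, b⟩ := q
  rw [← closedBall_prod_same, Measure.volume_eq_prod, Measure.prod_prod, Real.volume_closedBall,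
    Real.volume_closedBall, ← ENNReal.ofReal_mul (by linarith), sq]

/-- on a small ball the pair `F` is controlled by the energy -/
lemma dist_Fm_le (Q : DForm S) [LocallyConnectedSpace Z] (hMax : InMax Q) {O : Set Z}
    (hO : IsOpen O) (hOu : O ≠ univ) {U V : C(Z, ℝ)} (hc : ConfOn Q O U V) {x : Z} {r : ℝ} (hr : 0 < r)
    (hr0 : r ≤ Q.ρ0) (hsub : closedBall x (Q.lam * r) ⊆ O) {φ : C(Z, ℝ)} (hφ : ∀ y, 0 ≤ φ y)
    (hφ1 : ∀ y, r ≤ dist y x → dist y x ≤ Q.lam * r → 1 ≤ φ y) (hφs : tsupport φ ⊆ O) {y : Z}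
    (hy : dist y x ≤ r) : dist (Fm U V y) (Fm U V x) ≤ Q.C0 * Real.sqrt (Q.Γ U U φ) := by
  have h1 := OSC.osc_annulus Q hr hr0 hc.1 hsub (hMax O U hO hOu hc.harm_left) hφ hφ1 hy
    (z := x) (by rw [dist_self]; exact hr.le)
  have h2 := OSC.osc_annulus Q hr hr0 hc.2.1 hsub (hMax O V hO hOu hc.harm_right) hφ hφ1 hy
    (z := x) (by rw [dist_self]; exact hr.le)
  rw [← (hc.2.2.2 φ hφs).2] at h2
  exact max_le h1 h2

/-- **(C5)** lower bound for the push-forward constant (it only depends on the form) -/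
theorem lower_bound (Q : DForm S) [CompactSpace Z] [LocallyConnectedSpace Z] (hMax : InMax Q) :
    ∃ c0 : ℝ, 0 < c0 ∧ ∀ (O W : Set Z) (U V : C(Z, ℝ)), IsOpen O → O ≠ univ → ConfOn Q O U V →
      IsOpen W →
      closure W ⊆ O → ∀ (p : ℝ × ℝ) (ρ c : ℝ), 0 < ρ → (∀ x ∈ frontier W, Fm U V x ∉ ball p ρ) →
      0 < c → PushC Q U V W p ρ c → c0 ≤ c := by
  classical
  have hlam := Q.one_lt_lam
  have hlam0 : 0 < Q.lam := by linarith
  have hC0 := Q.C0_pos
  obtain ⟨N, hN⟩ := exists_cover S hlam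
  refine ⟨1 / (16 * Q.C0 ^ 2 * (N + 1)), by positivity, ?_⟩
  intro O W U V hO hOu hc hW hWO p ρ c hρ hfr hcp hpush
  have hUD := hc.1
  set K : Set Z := closure W ∩ Fm U V ⁻¹' closedBall p (ρ / 2) with hK
  have hKc : IsCompact K :=
    (isClosed_closure.inter (isClosed_closedBall.preimage (continuous_Fm U V))).isCompact
  set W' : Set Z := W ∩ Fm U V ⁻¹' ball p (3 * ρ / 4) with hW'
  have hW'o : IsOpen W' := hW.inter (isOpen_ball.preimage (continuous_Fm U V))
  have hKW' : K ⊆ W' := by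
    rintro x ⟨hx1, hx2⟩
    have hx3 : Fm U V x ∈ closedBall p (ρ / 2) := hx2
    refine ⟨?_, closedBall_subset_ball (by linarith) hx3⟩
    by_contra hxW
    exact hfr x ⟨hx1, fun h => hxW (interior_subset h)⟩
      (closedBall_subset_ball (by linarith) hx3)
  obtain ⟨t, ht, htW⟩ := hKc.exists_thickening_subset_open hW'o hKW'
  obtain ⟨r, hr, hr0, I, ce, hcov, hcard⟩ := hN (min Q.ρ0 (t / (4 * Q.lam)))
    (lt_min Q.ρ0_pos (by positivity))
  have hrρ : r ≤ Q.ρ0 := hr0.trans (min_le_left _ _)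
  have hrt : 4 * Q.lam * r ≤ t := by
    have := hr0.trans (min_le_right _ _)
    rw [le_div_iff₀ (by positivity)] at this
    linarith
  have hlr : 0 < Q.lam * r := mul_pos hlam0 hr
  have hrlr : r < Q.lam * r := by nlinarith
  set J : Finset G := I.filter (fun g => ∃ k ∈ K, dist k (ce g) ≤ r) with hJ
  have hJW : ∀ g ∈ J, closedBall (ce g) (2 * (Q.lam * r)) ⊆ W' := by
    intro g hg y hy
    obtain ⟨-, k, hk, hkd⟩ := Finset.mem_filter.1 hg
    apply htW
    rw [mem_thickening_iff]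
    refine ⟨k, hk, ?_⟩
    rw [mem_closedBall] at hy
    calc dist y k ≤ dist y (ce g) + dist k (ce g) := dist_triangle_right _ _ _
      _ < t := by nlinarith
  have hJO : ∀ g ∈ J, closedBall (ce g) (2 * (Q.lam * r)) ⊆ O := fun g hg =>
    (hJW g hg).trans (inter_subset_left.trans (subset_closure.trans hWO))
  set φ : G → C(Z, ℝ) := fun g => tent (ce g) (Q.lam * r) with hφ
  set e : G → ℝ := fun g => Q.C0 * Real.sqrt (Q.Γ U U (φ g)) with he
  have he0 : ∀ g, 0 ≤ e g := fun g => mul_nonneg hC0.le (Real.sqrt_nonneg _)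
  have hball : ∀ g ∈ J, ∀ y, dist y (ce g) ≤ r → Fm U V y ∈ closedBall (Fm U V (ce g)) (e g) := by
    intro g hg y hy
    rw [mem_closedBall]
    refine dist_Fm_le Q hMax hO hOu hc hr hrρ ?_ (fun y => tent_nonneg _ _ _) (fun y _ h2 => ?_) ?_ hy
    · exact (closedBall_subset_closedBall (by linarith)).trans (hJO g hg)
    · exact one_le_tent hlr h2
    · exact (tsupport_tent hlr).trans (hJO g hg)
  have hcover : closedBall p (ρ / 2) ⊆ ⋃ g ∈ J, closedBall (Fm U V (ce g)) (e g) := by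
    intro q hq
    obtain ⟨x, hxW, hxq⟩ := pushC_surj hUD hfr hcp hpush
      (closedBall_subset_ball (by linarith : ρ / 2 < ρ) hq)
    have hxK : x ∈ K := ⟨subset_closure hxW, by
      show Fm U V x ∈ closedBall p (ρ / 2)
      rw [hxq]
      exact hq⟩
    obtain ⟨g, hg, hgd⟩ := hcov x
    have hgJ : g ∈ J := Finset.mem_filter.2 ⟨hg, x, hxK, hgd⟩
    refine mem_iUnion₂.2 ⟨g, hgJ, ?_⟩
    rw [← hxq]
    exact hball g hgJ x hgd
  have harea : ρ ^ 2 ≤ ∑ g ∈ J, (2 * e g) ^ 2 := by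
    have h1 : volume (closedBall p (ρ / 2)) ≤ ∑ g ∈ J, volume (closedBall (Fm U V (ce g)) (e g)) :=
      (measure_mono hcover).trans (measure_biUnion_finset_le _ _)
    rw [volume_square p (by linarith)] at h1
    simp only [volume_square _ (he0 _)] at h1
    rw [← ENNReal.ofReal_sum_of_nonneg (fun g _ => sq_nonneg _),
      ENNReal.ofReal_le_ofReal_iff (Finset.sum_nonneg fun g _ => sq_nonneg _)] at h1
    have h2 : (2 * (ρ / 2)) ^ 2 = ρ ^ 2 := by ring
    rwa [h2] at h1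
  have hΓ0 : ∀ g, 0 ≤ Q.Γ U U (φ g) := fun g => Q.nonneg U hUD _ fun y => tent_nonneg _ _ _
  have hsum : ∑ g ∈ J, (2 * e g) ^ 2 = 4 * Q.C0 ^ 2 * Q.Γ U U (∑ g ∈ J, φ g) := by
    rw [OSC.Γ_sum_test Q hUD hUD, Finset.mul_sum]
    refine Finset.sum_congr rfl fun g _ => ?_
    rw [he]
    simp only
    rw [mul_pow, mul_pow, Real.sq_sqrt (hΓ0 g)]
    ring
  -- the comparison function
  obtain ⟨ψ, hψc, -, -, hψ0, hψ1, hψone, hψs, hψi⟩ := exists_bump p (r := 3 * ρ / 4)
    (R := 7 * ρ / 8) (by linarith) (by linarith)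
  have hψsb : tsupport ψ ⊆ ball p ρ := hψs.trans (closedBall_subset_ball (by linarith))
  have hψz : ∀ y, y ∉ closedBall p (7 * ρ / 8) → ψ y = 0 := fun y hy => by
    by_contra h
    exact hy (hψs (subset_tsupport ψ h))
  obtain ⟨χ, hχ, hχ0⟩ := exists_cut (U := U) (V := V) (W := W) hψc (fun x hx => hψz _ fun h =>
    hfr x hx (closedBall_subset_ball (by linarith) h))
  have hle : ∀ x, (∑ g ∈ J, φ g) x ≤ ((N : ℝ) • χ) x := by
    intro x
    rw [ContinuousMap.coe_sum, Finset.sum_apply, ContinuousMap.smul_apply, smul_eq_mul]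
    by_cases hx : ∃ g ∈ J, φ g x ≠ 0
    · obtain ⟨g, hg, hgx⟩ := hx
      have hxW' : x ∈ W' := hJW g hg (mem_closedBall.2 (dist_le_of_tent_ne hlr hgx))
      have hχx : χ x = 1 := by
        rw [hχ x hxW'.1]
        exact hψone _ (ball_subset_closedBall hxW'.2)
      rw [hχx, mul_one]
      calc ∑ g ∈ J, φ g x = ∑ g ∈ J.filter (fun g => φ g x ≠ 0), φ g x := by
            rw [Finset.sum_filter_ne_zero]
        _ ≤ ∑ g ∈ J.filter (fun g => φ g x ≠ 0), (1 : ℝ) :=
            Finset.sum_le_sum fun g _ => tent_le_one _ _ _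
        _ = ((J.filter (fun g => φ g x ≠ 0)).card : ℝ) := by simp
        _ ≤ N := by
            refine le_trans ?_ (Nat.cast_le.2 (hcard x))
            refine Nat.cast_le.2 (Finset.card_le_card fun g hg => ?_)
            rw [Finset.mem_filter, hJ, Finset.mem_filter] at hg
            rw [Finset.mem_filter]
            refine ⟨hg.1.1, ?_⟩
            have := dist_le_of_tent_ne hlr hg.2
            linarith
    · push Not at hx
      rw [Finset.sum_eq_zero hx]
      refine mul_nonneg (Nat.cast_nonneg _) ?_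
      by_cases hxW : x ∈ W
      · rw [hχ x hxW]
        exact hψ0 _
      · rw [hχ0 x hxW]
  have h3 : Q.Γ U U (∑ g ∈ J, φ g) ≤ N * (c * ∫ y, ψ y) := by
    have h4 := gamma_mono hUD hle
    rwa [Q.smul_test _ U hUD U hUD, hpush ψ hψc hψsb χ hχ hχ0] at h4
  have h5 : ∫ y, ψ y ≤ (2 * (7 * ρ / 8)) ^ 2 := integral_bump_le hψ1 hψ0 (by linarith) hψz
  have h6 : ∫ y, ψ y ≤ 4 * ρ ^ 2 := by nlinarith [sq_nonneg ρ]
  have hN0 : (0 : ℝ) ≤ N := Nat.cast_nonneg N
  have h7 : ρ ^ 2 ≤ 4 * Q.C0 ^ 2 * (N * (c * (4 * ρ ^ 2))) := by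
    calc ρ ^ 2 ≤ 4 * Q.C0 ^ 2 * Q.Γ U U (∑ g ∈ J, φ g) := by rw [← hsum]; exact harea
      _ ≤ 4 * Q.C0 ^ 2 * (N * (c * ∫ y, ψ y)) := by gcongr
      _ ≤ 4 * Q.C0 ^ 2 * (N * (c * (4 * ρ ^ 2))) := by gcongr
  have hρ2 : 0 < ρ ^ 2 := by positivity
  have h8 : 1 ≤ 16 * Q.C0 ^ 2 * N * c := by
    have : ρ ^ 2 * 1 ≤ ρ ^ 2 * (16 * Q.C0 ^ 2 * N * c) := by
      rw [mul_one]
      calc ρ ^ 2 ≤ 4 * Q.C0 ^ 2 * (N * (c * (4 * ρ ^ 2))) := h7
        _ = ρ ^ 2 * (16 * Q.C0 ^ 2 * N * c) := by ring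
    exact le_of_mul_le_mul_left this hρ2
  rw [div_le_iff₀ (by positivity)]
  nlinarith [mul_pos (mul_pos (by norm_num : (0 : ℝ) < 16) (pow_pos hC0 2)) hcp]

end Crest.Agent.R193.CPb2
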