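import Mathlib
import Crest.Agent.R193.CPb2

/-!
# R193, block D7 (C6) (helper990): a non-constant conformal pair is locally a homeomorphism onto a
square somewhere in every open set.

`out_C6 : InMax Q → InC2 Q → InC3 Q → OutC6 Q`.
-/

set_option autoImplicit false

noncomputable section

open Set Filter Topology MeasureTheory Metric

namespace Crest.Agent.R193.CPb3

open Crest.Agent.R193 Crest.Agent.R193.P_Comp Crest.Agent.R193.CPb1 Crest.Agent.R193.CPb2

variable {G Z : Type} [Group G] [MetricSpace Z] [MulAction G Z] {S : Setup G Z}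

/-- if the push-forward constant of a neighbourhood `W` of `z` vanishes then `F` is constant on a
nontrivial connected set -/
theorem const_of_zero (Q : DForm S) [CompactSpace Z] [LocallyConnectedSpace Z] [PreconnectedSpace Z]
    (hMax : InMax Q) {O W : Set Z} {U V : C(Z, ℝ)} (hO : IsOpen O) (hOu : O ≠ univ)
    (hc : ConfOn Q O U V)
    (hW : IsOpen W) (hWO : closure W ⊆ O) (hWne : Wᶜ.Nonempty) {z : Z} (hzW : z ∈ W) {ρ : ℝ}
    (hρ : 0 < ρ) (hfr : ∀ x ∈ frontier W, Fm U V x ∉ ball (Fm U V z) ρ)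
    (hpush : PushC Q U V W (Fm U V z) ρ 0) :
    ∃ E : Set Z, E ⊆ O ∧ IsPreconnected E ∧ E.Nontrivial ∧ z ∈ E ∧
      ∀ x ∈ E, Fm U V x = Fm U V z := by
  have hlam := Q.one_lt_lam
  have hlam0 : 0 < Q.lam := by linarith
  have hUD := hc.1
  set p := Fm U V z with hp
  have hnh : W ∩ Fm U V ⁻¹' ball p (3 * ρ / 4) ∈ 𝓝 z :=
    (hW.inter (isOpen_ball.preimage (continuous_Fm U V))).mem_nhds
      ⟨hzW, mem_ball_self (by linarith)⟩
  obtain ⟨t, ht, htW⟩ := Metric.nhds_basis_closedBall.mem_iff.1 hnh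
  set r := min Q.ρ0 (t / Q.lam) with hr
  have hr0 : 0 < r := lt_min Q.ρ0_pos (div_pos ht hlam0)
  have hrt : Q.lam * r ≤ t := by
    have : r ≤ t / Q.lam := min_le_right _ _
    rw [le_div_iff₀ hlam0] at this
    linarith
  obtain ⟨ψ, hψc, -, -, hψ0, hψ1, hψone, hψs, hψi⟩ := exists_bump p (r := 3 * ρ / 4)
    (R := 7 * ρ / 8) (by linarith) (by linarith)
  have hψsb : tsupport ψ ⊆ ball p ρ := hψs.trans (closedBall_subset_ball (by linarith))
  have hψz : ∀ y, y ∉ closedBall p (7 * ρ / 8) → ψ y = 0 := fun y hy => by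
    by_contra h
    exact hy (hψs (subset_tsupport ψ h))
  obtain ⟨χ, hχ, hχ0⟩ := exists_cut (U := U) (V := V) (W := W) hψc (fun x hx => hψz _ fun h =>
    hfr x hx (closedBall_subset_ball (by linarith) h))
  have hΓ : Q.Γ U U χ = 0 := by
    rw [hpush ψ hψc hψsb χ hχ hχ0, zero_mul]
  have hχnn : ∀ y, 0 ≤ χ y := by
    intro y
    by_cases hy : y ∈ W
    · rw [hχ y hy]
      exact hψ0 _
    · rw [hχ0 y hy]
  have hχs : tsupport χ ⊆ O := by
    refine Subset.trans (closure_mono fun y hy => ?_) hWO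
    by_contra h
    exact hy (hχ0 y h)
  have hin : closedBall z (Q.lam * r) ⊆ W ∩ Fm U V ⁻¹' ball p (3 * ρ / 4) :=
    (closedBall_subset_closedBall hrt).trans htW
  have hconst : ∀ y, dist y z ≤ r → Fm U V y = p := by
    intro y hy
    have h1 := dist_Fm_le Q hMax hO hOu hc hr0 (min_le_left _ _)
      (hin.trans (inter_subset_left.trans (subset_closure.trans hWO))) hχnn
      (fun y _ h2 => by
        have h3 := hin (mem_closedBall.2 h2)
        rw [hχ y h3.1, hψone _ (ball_subset_closedBall h3.2)]) hχs hy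
    rw [hΓ, Real.sqrt_zero, mul_zero] at h1
    exact dist_le_zero.1 h1
  have hzr : z ∈ closedBall z r := mem_closedBall_self hr0.le
  have hne : ¬ (univ : Set Z) ⊆ ball z r := by
    obtain ⟨w, hw⟩ := hWne
    intro h
    have h1 : w ∈ ball z r := h (mem_univ w)
    have h2 : w ∈ closedBall z (Q.lam * r) := by
      rw [mem_ball] at h1
      rw [mem_closedBall]
      nlinarith
    exact hw (hin h2).1
  obtain ⟨y, hy, hyd⟩ := exists_mem_comp_dist_eq (K := (univ : Set Z)) isCompact_univ
    isPreconnected_univ hr0 (mem_univ z) hne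
  rw [univ_inter] at hy
  refine ⟨connectedComponentIn (closedBall z r) z, ?_, isPreconnected_connectedComponentIn, ?_,
    mem_connectedComponentIn hzr,
    fun x hx => hconst x (mem_closedBall.1 (connectedComponentIn_subset _ _ hx))⟩
  · refine (connectedComponentIn_subset _ _).trans ?_
    refine (closedBall_subset_closedBall (by nlinarith : r ≤ Q.lam * r)).trans ?_
    exact hin.trans (inter_subset_left.trans (subset_closure.trans hWO))
  · refine ⟨y, hy, z, mem_connectedComponentIn hzr, ?_⟩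
    rintro rfl
    rw [dist_self] at hyd
    linarith

/-- a homeomorphic (onto an open square, frontier going to the boundary of the square) open set in
a compact connected space has connected complement -/
theorem isPreconnected_compl_of_square [CompactSpace Z] [PreconnectedSpace Z] {U V : C(Z, ℝ)}
    {W : Set Z} (hW : IsOpen W) {p : ℝ × ℝ} {ρ : ℝ} (hρ : 0 < ρ)
    (hinj : InjOn (Fm U V) W) (himg : Fm U V '' W = ball p ρ)
    (hfr : ∀ x ∈ frontier W, Fm U V x ∉ ball p ρ) : IsPreconnected Wᶜ := by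
  have hF := continuous_Fm U V
  -- the smaller sets
  set Wr : {r : ℝ // 0 < r ∧ r < ρ} → Set Z := fun r => W ∩ Fm U V ⁻¹' ball p r with hWr
  have hWro : ∀ r, IsOpen (Wr r) := fun r => hW.inter (isOpen_ball.preimage hF)
  have hcl : ∀ r : {r : ℝ // 0 < r ∧ r < ρ}, IsClosed (W ∩ Fm U V ⁻¹' closedBall p (r : ℝ)) := by
    intro r
    have h1 : W ∩ Fm U V ⁻¹' closedBall p (r : ℝ) = closure W ∩ Fm U V ⁻¹' closedBall p (r : ℝ) := by
      ext x
      constructor
      · rintro ⟨h1, h2⟩
        exact ⟨subset_closure h1, h2⟩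
      · rintro ⟨h1, h2⟩
        refine ⟨?_, h2⟩
        by_contra h
        exact hfr x ⟨h1, fun h' => h (interior_subset h')⟩ (closedBall_subset_ball r.2.2 h2)
    rw [h1]
    exact isClosed_closure.inter (isClosed_closedBall.preimage hF)
  -- the inverse map is continuous on closed squares
  have hfron : ∀ r, IsPreconnected (frontier (Wr r)) := by
    intro r
    have hr0 := r.2.1
    -- the set `W ∩ F⁻¹ (sphere p r)`
    have hSc : IsCompact (W ∩ Fm U V ⁻¹' closedBall p (r : ℝ)) := (hcl r).isCompact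
    -- homeomorphism onto the closed square
    have hsub : sphere p (r : ℝ) ⊆ Fm U V '' W := by
      rw [himg]
      exact sphere_subset_closedBall.trans (closedBall_subset_ball r.2.2)
    set T : Set Z := W ∩ Fm U V ⁻¹' sphere p (r : ℝ) with hT
    have hTcl : IsClosed T := by
      have : T = (W ∩ Fm U V ⁻¹' closedBall p (r : ℝ)) ∩ Fm U V ⁻¹' sphere p (r : ℝ) := by
        ext x
        constructor
        · rintro ⟨h1, h2⟩
          exact ⟨⟨h1, sphere_subset_closedBall h2⟩, h2⟩
        · rintro ⟨⟨h1, -⟩, h2⟩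
          exact ⟨h1, h2⟩
      rw [this]
      exact (hcl r).inter (isClosed_sphere.preimage hF)
    have hTpre : IsPreconnected T := by
      have hrank : 1 < Module.rank ℝ (ℝ × ℝ) := by
        rw [← Module.finrank_eq_rank, Module.finrank_prod, Module.finrank_self]
        norm_num
      have hsph : IsPreconnected (sphere p (r : ℝ)) := isPreconnected_sphere hrank p r
      rw [isPreconnected_iff_subset_of_fully_disjoint_closed hTcl]
      intro A B hA hB hAB hd
      have hA' : IsClosed (Fm U V '' (T ∩ A)) := ((hTcl.inter hA).isCompact.image hF).isClosed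
      have hB' : IsClosed (Fm U V '' (T ∩ B)) := ((hTcl.inter hB).isCompact.image hF).isClosed
      have hcov : sphere p (r : ℝ) ⊆ Fm U V '' (T ∩ A) ∪ Fm U V '' (T ∩ B) := by
        intro q hq
        obtain ⟨x, hx, hxq⟩ := hsub hq
        have hxT : x ∈ T := ⟨hx, by rw [← hxq] at hq; exact hq⟩
        rcases hAB hxT with h | h
        · exact Or.inl ⟨x, ⟨hxT, h⟩, hxq⟩
        · exact Or.inr ⟨x, ⟨hxT, h⟩, hxq⟩
      have hdis : Disjoint (Fm U V '' (T ∩ A)) (Fm U V '' (T ∩ B)) := by
        rw [disjoint_left]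
        rintro _ ⟨x, ⟨hxT, hxA⟩, rfl⟩ ⟨y, ⟨hyT, hyB⟩, hxy⟩
        have := hinj hyT.1 hxT.1 hxy
        rw [this] at hyB
        exact disjoint_left.1 hd hxA hyB
      rcases (isPreconnected_iff_subset_of_fully_disjoint_closed isClosed_sphere).1 hsph _ _ hA' hB'
        hcov hdis with h | h
      · left
        intro x hx
        obtain ⟨y, ⟨hyT, hyA⟩, hyx⟩ := h hx.2
        rwa [hinj hyT.1 hx.1 hyx] at hyA
      · right
        intro x hx
        obtain ⟨y, ⟨hyT, hyB⟩, hyx⟩ := h hx.2
        rwa [hinj hyT.1 hx.1 hyx] at hyB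
    have hfeq : frontier (Wr r) = T := by
      apply subset_antisymm
      · intro x hx
        rw [(hWro r).frontier_eq] at hx
        have h1 : x ∈ W ∩ Fm U V ⁻¹' closedBall p (r : ℝ) :=
          closure_minimal (inter_subset_inter_right _ (preimage_mono ball_subset_closedBall))
            (hcl r) hx.1
        refine ⟨h1.1, ?_⟩
        have h2 : Fm U V x ∈ closedBall p (r : ℝ) := h1.2
        have h3 : Fm U V x ∉ ball p (r : ℝ) := fun h => hx.2 ⟨h1.1, h⟩
        rw [mem_closedBall] at h2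
        rw [mem_ball, not_lt] at h3
        exact le_antisymm h2 h3
      · intro x hx
        rw [(hWro r).frontier_eq]
        refine ⟨?_, fun h => ?_⟩
        · by_contra hxc
          -- a neighbourhood of `x` in `W` misses `F⁻¹ ball`
          set K1 : Set Z := closure (Wr r) with hK1
          have hK1sub : K1 ⊆ W ∩ Fm U V ⁻¹' closedBall p (r : ℝ) :=
            closure_minimal (inter_subset_inter_right _ (preimage_mono ball_subset_closedBall))
              (hcl r)
          have himgcl : IsClosed (Fm U V '' K1) :=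
            (isClosed_closure.isCompact.image hF).isClosed
          have hballsub : ball p (r : ℝ) ⊆ Fm U V '' K1 := by
            intro q hq
            have : q ∈ Fm U V '' W := by
              rw [himg]
              exact ball_subset_ball r.2.2.le hq
            obtain ⟨y, hy, hyq⟩ := this
            exact ⟨y, subset_closure ⟨hy, by rw [← hyq] at hq; exact hq⟩, hyq⟩
          have hcb : closedBall p (r : ℝ) ⊆ Fm U V '' K1 := by
            rw [← closure_ball p hr0.ne']
            exact closure_minimal hballsub himgcl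
          obtain ⟨y, hy, hyx⟩ := hcb (sphere_subset_closedBall hx.2)
          have hyW := (hK1sub hy).1
          rw [hinj hyW hx.1 hyx] at hy
          exact hxc hy
        · have h1 : Fm U V x ∈ ball p (r : ℝ) := h.2
          have h2 : Fm U V x ∈ sphere p (r : ℝ) := hx.2
          rw [mem_ball] at h1
          rw [mem_sphere] at h2
          linarith
    rw [hfeq]
    exact hTpre
  have hWc : Wᶜ = ⋂ r, (Wr r)ᶜ := by
    ext x
    rw [mem_iInter]
    constructor
    · intro hx r h
      exact hx h.1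
    · intro hx hxW
      have h1 : Fm U V x ∈ ball p ρ := by
        rw [← himg]
        exact ⟨x, hxW, rfl⟩
      rw [mem_ball] at h1
      obtain ⟨s, hs1, hs2⟩ := exists_between (max_lt h1 hρ)
      refine hx ⟨s, (le_max_right _ _).trans_lt hs1, hs2⟩ ⟨hxW, ?_⟩
      exact (le_max_left _ _).trans_lt hs1
  rw [hWc]
  have : Nonempty {r : ℝ // 0 < r ∧ r < ρ} := ⟨⟨ρ / 2, by linarith, by linarith⟩⟩
  refine isPreconnected_iInter_of_directed ?_ (fun r => (hWro r).isClosed_compl.isCompact)
    fun r => isPreconnected_compl_of_frontier (hWro r) (hfron r)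
  intro r r'
  refine ⟨⟨max r r', lt_max_of_lt_left r.2.1, max_lt r.2.2 r'.2.2⟩, ?_, ?_⟩
  · exact compl_subset_compl.2 (inter_subset_inter_right _ (preimage_mono
      (ball_subset_ball (le_max_left _ _))))
  · exact compl_subset_compl.2 (inter_subset_inter_right _ (preimage_mono
      (ball_subset_ball (le_max_right _ _))))

/-- **(C6)** -/
theorem out_C6 (Q : DForm S) (Φ : Z ≃ₜ Crest.Agent.R193.S2) (hMax : InMax Q) (hC2 : InC2 Q)
    (hC3 : InC3 Q) : OutC6 Q := by
  have hS2 : ConnectedSpace Crest.Agent.R193.S2 := Planar.S2_connected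
  have hZcpt : CompactSpace Z := Φ.symm.compactSpace
  have hZlc : LocallyConnectedSpace Z := OSC.locConn Φ
  have hZc : PreconnectedSpace Z := by
    refine ⟨?_⟩
    have := (isPreconnected_univ (α := Crest.Agent.R193.S2)).image Φ.symm Φ.symm.continuous.continuousOn
    rwa [image_univ, Φ.symm.surjective.range_eq] at this
  intro O U V hO hOc hc hnc O' hO' hne hO'O
  obtain ⟨c0, hc0, hlow⟩ := lower_bound Q hMax
  obtain ⟨z0, hz0⟩ := hne
  obtain ⟨N, hN, hNc, hz0N, hNO', hNcc, hNt⟩ := exists_disc_nhds Φ hO' hz0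
  have hNO : closure N ⊆ O := hNO'.trans hO'O
  have hNu : N ≠ univ := by
    rintro rfl
    obtain ⟨x, hx⟩ := hNt.nonempty
    exact hx (mem_univ x)
  have hcN : ConfOn Q N U V := hc.mono (subset_closure.trans hNO)
  have hF := continuous_Fm U V
  -- nonconstancy
  have hnE : ∀ z ∈ O, ∀ E : Set Z, E ⊆ O → IsPreconnected E → E.Nontrivial →
      ¬ ∀ x ∈ E, Fm U V x = Fm U V z := by
    intro z _ E hE hEp hEt hcon
    exact hnc ⟨Fm U V z, hC3 O U V hO hOc hc E hE hEp hEt _ hcon⟩
  -- cells inside `N`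
  have hcellfr : ∀ z ρ, ∀ x ∈ frontier (cell U V z ρ), Fm U V x ∉ ball (Fm U V z) ρ := by
    intro z ρ x hx h
    have h1 := frontier_cell hx
    rw [mem_sphere] at h1
    rw [mem_ball] at h
    linarith
  have hpushex : ∀ z ρ, 0 < ρ → closure (cell U V z ρ) ⊆ N →
      ∃ c, c0 ≤ c ∧ PushC Q U V (cell U V z ρ) (Fm U V z) ρ c := by
    intro z ρ hρ hcl
    have hclO : closure (cell U V z ρ) ⊆ O := hcl.trans (subset_closure.trans hNO)
    obtain ⟨c, hc', hp⟩ := hC2 N U V hN hcN (cell U V z ρ) isOpen_cell hcl (Fm U V z) ρ hρ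
      (hcellfr z ρ)
    rcases hc'.lt_or_eq with h | h
    · exact ⟨c, hlow N _ U V hN hNu hcN isOpen_cell hcl _ ρ c hρ (hcellfr z ρ) h hp, hp⟩
    · exfalso
      rw [← h] at hp
      have hzO : z ∈ O := hclO (subset_closure (mem_cell hρ))
      obtain ⟨E, hE, hEp, hEt, -, hEc⟩ := const_of_zero Q hMax hN hNu hcN isOpen_cell hcl
        (hNt.nonempty.mono (compl_subset_compl.2 (subset_closure.trans hcl))) (mem_cell hρ) hρ
        (hcellfr z ρ) hp
      exact hnE z hzO E (hE.trans (subset_closure.trans hNO)) hEp hEt hEc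
  -- the infimum
  set A : Set ℝ := {c | ∃ z ρ, 0 < ρ ∧ closure (cell U V z ρ) ⊆ N ∧
    PushC Q U V (cell U V z ρ) (Fm U V z) ρ c} with hA
  have hAne : A.Nonempty := by
    obtain ⟨ρ0, hρ0, h⟩ := cell_small hO (hO'O hz0) (hnE z0 (hO'O hz0)) hN hz0N
    obtain ⟨c, -, hp⟩ := hpushex z0 ρ0 hρ0 (h ρ0 le_rfl)
    exact ⟨c, z0, ρ0, hρ0, h ρ0 le_rfl, hp⟩
  have huniq : ∀ z ρ c, 0 < ρ → closure (cell U V z ρ) ⊆ N →
      PushC Q U V (cell U V z ρ) (Fm U V z) ρ c → c0 ≤ c := by
    intro z ρ c hρ hcl hp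
    obtain ⟨c', hc', hp'⟩ := hpushex z ρ hρ hcl
    -- uniqueness of the constant, by superadditivity with an empty second set
    have h1 : c' + 0 ≤ c := pushC_add_le (W := cell U V z ρ) (W₁ := cell U V z ρ) (W₂ := ∅) hc.1
      subset_rfl (empty_subset _) (disjoint_empty _) hρ subset_rfl (hcellfr z ρ) (hcellfr z ρ)
      (by simp) hp hp' (by
        intro ψ _ _ φ _ hφ
        have : φ = 0 := by
          ext x
          exact hφ x (notMem_empty x)
        rw [this, gamma_zero hc.1 hc.1, zero_mul])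
    linarith
  have hbdd : BddBelow A := ⟨c0, by
    rintro c ⟨z, ρ, hρ, hcl, hp⟩
    exact huniq z ρ c hρ hcl hp⟩
  set m := sInf A with hm
  have hm0 : c0 ≤ m := le_csInf hAne (by
    rintro c ⟨z, ρ, hρ, hcl, hp⟩
    exact huniq z ρ c hρ hcl hp)
  obtain ⟨c, ⟨z, ρ, hρ, hcl, hp⟩, hcm⟩ := exists_lt_of_csInf_lt hAne
    (show sInf A < 2 * m by rw [← hm]; linarith)
  have hcp : 0 < c := lt_of_lt_of_le hc0 (huniq z ρ c hρ hcl hp)
  set W := cell U V z ρ with hW
  have hWN : W ⊆ N := subset_closure.trans hcl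
  have hzO' : z ∈ O' := hNO' (subset_closure (hWN (mem_cell hρ)))
  have hNO2 : N ⊆ O := subset_closure.trans hNO
  -- injectivity
  have hinj : InjOn (Fm U V) W := by
    intro y hy y' hy' hyy
    by_contra hne
    have hq : Fm U V y ∈ ball (Fm U V z) ρ := cell_subset hy
    have hyO : y ∈ O := hNO2 (hWN hy)
    have hy'O : y' ∈ O := hNO2 (hWN hy')
    obtain ⟨B1, B2, hB1, hB2, hyB1, hyB2, hBd⟩ := t2_separation hne
    obtain ⟨ρ1, hρ1, h1⟩ := cell_small hO hyO (hnE y hyO) (hB1.inter hN) ⟨hyB1, hWN hy⟩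
    obtain ⟨ρ2, hρ2, h2⟩ := cell_small hO hy'O (hnE y' hy'O) (hB2.inter hN) ⟨hyB2, hWN hy'⟩
    obtain ⟨ρ3, hρ3, h3⟩ := Metric.isOpen_iff.1 isOpen_ball _ hq
    set s := min ρ1 (min ρ2 ρ3) with hs
    have hs0 : 0 < s := lt_min hρ1 (lt_min hρ2 hρ3)
    have hs1 : s ≤ ρ1 := min_le_left _ _
    have hs2 : s ≤ ρ2 := (min_le_right _ _).trans (min_le_left _ _)
    have hs3 : s ≤ ρ3 := (min_le_right _ _).trans (min_le_right _ _)
    have hb1 : ball (Fm U V y) s ⊆ ball (Fm U V z) ρ := (ball_subset_ball hs3).trans h3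
    have hb2 : ball (Fm U V y') s ⊆ ball (Fm U V z) ρ := by rw [← hyy]; exact hb1
    have hcl1 := h1 s hs1
    have hcl2 := h2 s hs2
    obtain ⟨c1, -, hp1⟩ := hpushex y s hs0 (hcl1.trans inter_subset_right)
    obtain ⟨c2, -, hp2⟩ := hpushex y' s hs0 (hcl2.trans inter_subset_right)
    have hm1 : m ≤ c1 := csInf_le hbdd ⟨y, s, hs0, hcl1.trans inter_subset_right, hp1⟩
    have hm2 : m ≤ c2 := csInf_le hbdd ⟨y', s, hs0, hcl2.trans inter_subset_right, hp2⟩
    have hd : Disjoint (cell U V y s) (cell U V y' s) :=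
      hBd.mono ((subset_closure.trans hcl1).trans inter_subset_left)
        ((subset_closure.trans hcl2).trans inter_subset_left)
    have h4 : c1 + c2 ≤ c := pushC_add_le hc.1 (cell_subset_cell hs0 hy hb1)
      (cell_subset_cell hs0 hy' hb2) hd hs0 hb1 (hcellfr z ρ) (hcellfr y s)
      (by rw [hyy]; exact hcellfr y' s) hp hp1 (by rw [hyy]; exact hp2)
    linarith
  have himg : Fm U V '' W = ball (Fm U V z) ρ := by
    apply subset_antisymm
    · rintro _ ⟨x, hx, rfl⟩
      exact cell_subset hx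
    · intro q hq
      exact pushC_surj hc.1 (hcellfr z ρ) hcp hp hq
  have hWcc : IsConnected Wᶜ := ⟨hNt.nonempty.mono (compl_subset_compl.2 hWN),
    isPreconnected_compl_of_square isOpen_cell hρ hinj himg (hcellfr z ρ)⟩
  exact ⟨c, hcp, z, hzO', ρ, hρ, W, isOpen_cell, ⟨⟨z, mem_cell hρ⟩, isPreconnected_cell⟩,
    mem_cell hρ, hcl.trans (subset_closure.trans hNO'), hWcc, hinj, himg,
    fun x hx => frontier_cell hx, hp⟩

end Crest.Agent.R193.CPb3
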