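/- R193 (Cannon), Part M step 7: the counting argument as a pure real-analysis lemma.
   Author: helper635. -/
import Mathlib

set_option autoImplicit false
set_option linter.unusedSectionVars false

namespace Crest.Agent.R193.Count

open MeasureTheory Filter Set
open scoped BigOperators Topology

/-! ### Asymptotics -/

lemma ev_poly_exp (C : ℝ) (k : ℕ) {b a : ℝ} (h : b < a) :
    ∀ᶠ j : ℕ in atTop, C * ((j : ℝ) + 1) ^ k * Real.exp (b * j) ≤ Real.exp (a * j) := by
  have hpos : 0 < a - b := sub_pos.mpr h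
  have h1 : Tendsto (fun x : ℝ => x ^ k * Real.exp (-((a - b)) * x)) atTop (𝓝 0) := by
    have := Real.tendsto_pow_mul_exp_neg_atTop_nhds_zero k
    have h2 : Tendsto (fun x : ℝ => (a - b) * x) atTop atTop :=
      tendsto_id.const_mul_atTop hpos
    have h3 := (this.comp h2)
    have h4 := h3.const_mul ((1 / (a - b)) ^ k)
    rw [mul_zero] at h4
    refine h4.congr ?_
    intro x
    simp only [Function.comp]
    rw [← mul_assoc, ← mul_pow]
    have : 1 / (a - b) * ((a - b) * x) = x := by field_simp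
    rw [this]
    congr 2
    ring
  have h2 : Tendsto (fun j : ℕ => ((j : ℝ) + 1)) atTop atTop :=
    tendsto_atTop_add_const_right _ _ tendsto_natCast_atTop_atTop
  have h3 := h1.comp h2
  have h4 := h3.const_mul (|C| * Real.exp (a - b))
  rw [mul_zero] at h4
  have h5 := h4.eventually (gt_mem_nhds (show (0 : ℝ) < 1 by norm_num))
  filter_upwards [h5] with j hj
  simp only [Function.comp] at hj
  have e1 : Real.exp (a * j) = Real.exp (b * j) * Real.exp ((a - b) * j) := by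
    rw [← Real.exp_add]; congr 1; ring
  rw [e1]
  have e2 : |C| * Real.exp (a - b) * (((j : ℝ) + 1) ^ k * Real.exp (-(a - b) * ((j : ℝ) + 1)))
      = |C| * ((j : ℝ) + 1) ^ k * Real.exp (-((a - b) * j)) := by
    have : Real.exp (-(a - b) * ((j : ℝ) + 1)) = Real.exp (-((a-b))) * Real.exp (-((a - b) * j)) := by
      rw [← Real.exp_add]; congr 1; ring
    rw [this]
    have h0 : Real.exp (a - b) * Real.exp (-(a - b)) = 1 := by
      rw [← Real.exp_add]; simp
    calc _ = |C| * ((j : ℝ) + 1) ^ k * Real.exp (-((a - b) * j)) * (Real.exp (a - b) * Real.exp (-(a - b))) := by ring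
      _ = _ := by rw [h0, mul_one]
  rw [e2] at hj
  have e3 : C * ((j : ℝ) + 1) ^ k ≤ Real.exp ((a - b) * j) := by
    have hk : (0:ℝ) ≤ ((j : ℝ) + 1) ^ k := by positivity
    have : |C| * ((j : ℝ) + 1) ^ k ≤ Real.exp ((a - b) * j) := by
      rw [Real.exp_neg] at hj
      have hp := Real.exp_pos ((a - b) * j)
      have : |C| * ((j : ℝ) + 1) ^ k = |C| * ((j : ℝ) + 1) ^ k * (Real.exp ((a - b) * j))⁻¹ * Real.exp ((a - b) * j) := by
        field_simp
      rw [this]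
      nlinarith
    exact le_trans (mul_le_mul_of_nonneg_right (le_abs_self C) hk) this
  calc C * ((j : ℝ) + 1) ^ k * Real.exp (b * j) ≤ Real.exp ((a - b) * j) * Real.exp (b * j) :=
        mul_le_mul_of_nonneg_right e3 (Real.exp_pos _).le
    _ = _ := by ring

/-! ### Purely numerical end of the argument -/

set_option maxHeartbeats 2000000 in
/-- For large `j` the final inequality is impossible. -/
lemma numeric (C1 C2 D a b1 b2 : ℝ) (hC1 : 1 ≤ C1) (hD : 1 ≤ D) (ha : 0 < a)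
    (hb1 : b1 < 2 * a) (hb2 : b2 < 3 * a) :
    ∀ᶠ j : ℕ in atTop, ∀ P z θ S : ℝ, Real.exp (a * j) / (D * ((j : ℝ) + 1)) ≤ P →
      0 ≤ θ → θ ≤ 1 → z * θ ≤ P → P ≤ 2 * z * θ → 0 ≤ z → 0 ≤ S →
      S ^ 2 ≤ C1 * (2 * (z ^ 2 * θ / (16 * C1)) + 1) * θ →
      (z ^ 2 * θ / (16 * C1)) * (P - S) ≤ C2 * P + C2 * ((j : ℝ) + 1) * (z * Real.exp (b1 * j))
        + C2 * ((j : ℝ) + 1) * Real.exp (b2 * j) → False := by
  have E1 := ev_poly_exp (8 * C1 * D ^ 2) 2 (b := 0) (a := 2 * a) (by linarith)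
  have E2 := ev_poly_exp (4 * (128 * C1 * |C2| * D ^ 2)) 2 (b := 0) (a := 2 * a) (by linarith)
  have E3 := ev_poly_exp (4 * (64 * C1 * |C2| * D ^ 2)) 3 (b := b1) (a := 2 * a) hb1
  have E4 := ev_poly_exp (4 * (128 * C1 * |C2| * D ^ 3)) 4 (b := b2) (a := 3 * a) hb2
  filter_upwards [E1, E2, E3, E4] with j e1 e2 e3 e4
  intro P z θ S hP hθ0 hθ1 hzP hPz hz hS hS2 hfin
  simp only [zero_mul, Real.exp_zero, mul_one] at e1 e2
  set x : ℝ := (j : ℝ) + 1 with hx
  have hx1 : (1:ℝ) ≤ x := by rw [hx]; have : (0:ℝ) ≤ j := by positivity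
                             linarith
  set X := Real.exp (a * j) with hX
  have hXpos : 0 < X := Real.exp_pos _
  have hX2 : Real.exp (2 * a * j) = X ^ 2 := by
    rw [hX, ← Real.exp_nat_mul]; congr 1; push_cast; ring
  have hX3 : Real.exp (3 * a * j) = X ^ 3 := by
    rw [hX, ← Real.exp_nat_mul]; congr 1; push_cast; ring
  rw [hX2] at e1 e2 e3
  rw [hX3] at e4
  have hDx : 0 < D * x := by positivity
  have hP' : X ≤ P * (D * x) := by
    rwa [div_le_iff₀ hDx] at hP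
  have hPpos : 0 < P := lt_of_lt_of_le (div_pos hXpos hDx) hP
  have hP2 : X ^ 2 ≤ P ^ 2 * (D * x) ^ 2 := by
    rw [← mul_pow]; exact pow_le_pow_left₀ hXpos.le hP' 2
  -- P^2 ≥ 8 C1
  have h8 : 8 * C1 ≤ P ^ 2 := by
    have h : 8 * C1 * (D * x) ^ 2 ≤ P ^ 2 * (D * x) ^ 2 := by
      calc 8 * C1 * (D * x) ^ 2 = 8 * C1 * D ^ 2 * x ^ 2 := by ring
        _ ≤ X ^ 2 := e1
        _ ≤ _ := hP2
    exact le_of_mul_le_mul_right h (by positivity)
  -- S ≤ P/2
  have hSP : S ≤ P / 2 := by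
    have h1 : S ^ 2 ≤ P ^ 2 / 8 + C1 := by
      have hc : C1 * (2 * (z ^ 2 * θ / (16 * C1)) + 1) * θ = (z * θ) ^ 2 / 8 + C1 * θ := by
        field_simp
        ring
      rw [hc] at hS2
      have h2 : (z * θ) ^ 2 ≤ P ^ 2 := pow_le_pow_left₀ (by positivity) hzP 2
      have h3 : C1 * θ ≤ C1 := by
        have := mul_le_mul_of_nonneg_left hθ1 (show (0:ℝ) ≤ C1 by linarith)
        linarith
      linarith
    have h2 : S ^ 2 ≤ (P / 2) ^ 2 := by
      have : (P / 2) ^ 2 = P ^ 2 / 4 := by ring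
      rw [this]; linarith
    exact (abs_le_of_sq_le_sq' h2 (by positivity)).2
  have hzP2 : P ≤ 2 * z := by
    have := mul_le_mul_of_nonneg_left hθ1 (show (0:ℝ) ≤ 2 * z by linarith)
    linarith
  have hzpos : 0 < z := by linarith
  -- lower bound of LHS : z P^2 /(64 C1)
  have hL : z * P ^ 2 / (64 * C1) ≤ (z ^ 2 * θ / (16 * C1)) * (P - S) := by
    have h1 : P / 2 ≤ P - S := by linarith
    have h2 : z * (P / 2) / (16 * C1) ≤ z ^ 2 * θ / (16 * C1) := by
      apply div_le_div_of_nonneg_right _ (by positivity)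
      have h3 : z * (P / 2) ≤ z * (z * θ) := mul_le_mul_of_nonneg_left (by linarith) hz
      calc z * (P / 2) ≤ z * (z * θ) := h3
        _ = z ^ 2 * θ := by ring
    calc z * P ^ 2 / (64 * C1) = (z * (P / 2) / (16 * C1)) * (P / 2) := by field_simp; ring
      _ ≤ _ := mul_le_mul h2 h1 (by positivity) (by positivity)
  have hC2 : C2 ≤ |C2| := le_abs_self _
  have hx0 : 0 ≤ x := by linarith
  have hR : C2 * P + C2 * x * (z * Real.exp (b1 * j)) + C2 * x * Real.exp (b2 * j)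
      ≤ |C2| * P + |C2| * x * (z * Real.exp (b1 * j)) + |C2| * x * Real.exp (b2 * j) := by
    have := Real.exp_pos (b1 * j)
    have := Real.exp_pos (b2 * j)
    gcongr
  have hmain := hL.trans (hfin.trans hR)
  -- multiply by 64 C1 / z
  have hA : 0 ≤ |C2| := abs_nonneg _
  have hE1 := Real.exp_pos (b1 * j)
  have hE2 := Real.exp_pos (b2 * j)
  have hm2 : z * P ^ 2 ≤ 64 * C1 * (|C2| * P + |C2| * x * (z * Real.exp (b1 * j)) + |C2| * x * Real.exp (b2 * j)) := by
    rw [div_le_iff₀ (by positivity)] at hmain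
    linarith
  -- term 1 : 64 C1 |C2| P ≤ (1/4) z P^2
  have t1 : 64 * C1 * (|C2| * P) ≤ z * P ^ 2 / 4 := by
    have h : 4 * (128 * C1 * |C2| * D ^ 2) * x ^ 2 ≤ P ^ 2 * (D * x) ^ 2 := e2.trans hP2
    have h' : 4 * (128 * C1 * |C2|) * (D * x) ^ 2 ≤ P ^ 2 * (D * x) ^ 2 := by
      calc _ = 4 * (128 * C1 * |C2| * D ^ 2) * x ^ 2 := by ring
        _ ≤ _ := h
    have h2 : 4 * (128 * C1 * |C2|) ≤ P ^ 2 := le_of_mul_le_mul_right h' (by positivity)
    have h3 : z * (4 * (128 * C1 * |C2|)) ≤ z * P ^ 2 := mul_le_mul_of_nonneg_left h2 hz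
    have h4 : (64 * C1 * |C2|) * P ≤ (64 * C1 * |C2|) * (2 * z) := mul_le_mul_of_nonneg_left hzP2 (by positivity)
    calc 64 * C1 * (|C2| * P) = (64 * C1 * |C2|) * P := by ring
      _ ≤ (64 * C1 * |C2|) * (2 * z) := h4
      _ = z * (4 * (128 * C1 * |C2|)) / 4 := by ring
      _ ≤ z * P ^ 2 / 4 := by linarith
  have t2 : 64 * C1 * (|C2| * x * (z * Real.exp (b1 * j))) ≤ z * P ^ 2 / 4 := by
    have h : 4 * (64 * C1 * |C2| * D ^ 2) * x ^ 3 * Real.exp (b1 * j) ≤ P ^ 2 * (D * x) ^ 2 := e3.trans hP2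
    have h' : (4 * (64 * C1 * |C2|) * x * Real.exp (b1 * j)) * (D * x) ^ 2 ≤ P ^ 2 * (D * x) ^ 2 := by
      calc _ = 4 * (64 * C1 * |C2| * D ^ 2) * x ^ 3 * Real.exp (b1 * j) := by ring
        _ ≤ _ := h
    have h2 := le_of_mul_le_mul_right h' (by positivity)
    have h3 := mul_le_mul_of_nonneg_left h2 hz
    calc 64 * C1 * (|C2| * x * (z * Real.exp (b1 * j)))
        = z * (4 * (64 * C1 * |C2|) * x * Real.exp (b1 * j)) / 4 := by ring
      _ ≤ z * P ^ 2 / 4 := by linarith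
  have t3 : 64 * C1 * (|C2| * x * Real.exp (b2 * j)) ≤ z * P ^ 2 / 4 := by
    have hP3 : X ^ 3 ≤ P ^ 3 * (D * x) ^ 3 := by
      rw [← mul_pow]; exact pow_le_pow_left₀ hXpos.le hP' 3
    have h : 4 * (128 * C1 * |C2| * D ^ 3) * x ^ 4 * Real.exp (b2 * j) ≤ P ^ 3 * (D * x) ^ 3 := e4.trans hP3
    have h' : (4 * (128 * C1 * |C2|) * x * Real.exp (b2 * j)) * (D * x) ^ 3 ≤ P ^ 3 * (D * x) ^ 3 := by
      calc _ = 4 * (128 * C1 * |C2| * D ^ 3) * x ^ 4 * Real.exp (b2 * j) := by ring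
        _ ≤ _ := h
    have h2 := le_of_mul_le_mul_right h' (by positivity)
    have h3 : P ^ 3 ≤ 2 * z * P ^ 2 := by
      calc P ^ 3 = P * P ^ 2 := by ring
        _ ≤ 2 * z * P ^ 2 := mul_le_mul_of_nonneg_right hzP2 (by positivity)
    calc 64 * C1 * (|C2| * x * Real.exp (b2 * j))
        = (4 * (128 * C1 * |C2|) * x * Real.exp (b2 * j)) / 8 := by ring
      _ ≤ (2 * z * P ^ 2) / 8 := by linarith
      _ = z * P ^ 2 / 4 := by ring
  have hzP2pos : 0 < z * P ^ 2 := by positivity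
  have e5 : 64 * C1 * (|C2| * P + |C2| * x * (z * Real.exp (b1 * j)) + |C2| * x * Real.exp (b2 * j))
      = 64 * C1 * (|C2| * P) + 64 * C1 * (|C2| * x * (z * Real.exp (b1 * j)))
        + 64 * C1 * (|C2| * x * Real.exp (b2 * j)) := by ring
  rw [e5] at hm2
  linarith

/-! ### The data at level `j` -/

/-- Everything that is used at level `j` for one pair (core, bigger core).  `Z`, `Z'` are the
numbers of visited tiles meeting the core, resp. the bigger core, `Z i t` at level `i`. -/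
structure Stage (T G : Type*) [MeasurableSpace T] (μ : Measure T) (v C1 : ℝ) (i0 j nL : ℕ)
    (Z Z' : ℕ → T → ℝ) where
  Gj : Fin nL → Finset G
  A : Fin nL → G → Set T
  m : Fin nL → G → T → ℝ
  V : Fin nL → ℕ → G → T → ℝ
  measA : ∀ l, ∀ g ∈ Gj l, MeasurableSet (A l g)
  measm : ∀ l, ∀ g ∈ Gj l, Measurable (m l g)
  measV : ∀ l i, ∀ g ∈ Gj l, Measurable (V l i g)
  m0 : ∀ l, ∀ g ∈ Gj l, ∀ t, 0 ≤ m l g t
  V0 : ∀ l i, ∀ g ∈ Gj l, ∀ t, 0 ≤ V l i g t
  card : ∀ l, ((Gj l).card : ℝ) ≤ C1 * Real.exp (v * j)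
  cover : ∀ t, Z j t ≤ ∑ l, ∑ g ∈ Gj l, (A l g).indicator (fun _ => (1 : ℝ)) t
  pack : ∀ l (Θ : Set T), MeasurableSet Θ → ∀ M : ℝ, 0 ≤ M →
    (∑ g ∈ Gj l, μ.real (Θ ∩ A l g ∩ {t | m l g t ≤ M})) ^ 2 ≤ C1 * (2 * M + 1) * μ.real Θ
  mb : ∀ l, ∀ g ∈ Gj l, ∀ t ∈ A l g, m l g t ≤ C1 + C1 * ∑ i ∈ Finset.Icc i0 (2 * j), V l i g t
  Vb : ∀ l i, ∀ g ∈ Gj l, ∀ t, V l i g t ≤ C1 * Z' i t
  Vc : ∀ l i, i ≤ 2 * j → ∀ t,
    ∑ g ∈ Gj l, V l i g t ≤ C1 * Real.exp (v * ((j : ℝ) - (i : ℝ) / 2)) * Z' i t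

section integrals

variable {T : Type*} [MeasurableSpace T] {μ : Measure T} [IsFiniteMeasure μ]

lemma integrableOn_of_bdd {f : T → ℝ} (hf : Measurable f) {E : Set T} (hE : MeasurableSet E)
    {B : ℝ} (h0 : ∀ t ∈ E, 0 ≤ f t) (hB : ∀ t ∈ E, f t ≤ B) : IntegrableOn f E μ := by
  refine Measure.integrableOn_of_bounded (s := E) (M := B) (measure_ne_top μ E)
    hf.aestronglyMeasurable ?_
  refine (ae_restrict_iff' hE).mpr (Eventually.of_forall ?_)
  intro t ht
  rw [Real.norm_eq_abs, abs_of_nonneg (h0 t ht)]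
  exact hB t ht

lemma integrable_of_bdd' {f : T → ℝ} (hf : Measurable f) {B : ℝ} (h0 : ∀ t, 0 ≤ f t)
    (hB : ∀ t, f t ≤ B) : Integrable f μ := by
  have := integrableOn_of_bdd (μ := μ) hf MeasurableSet.univ (B := B) (fun t _ => h0 t) (fun t _ => hB t)
  rwa [integrableOn_univ] at this

end integrals

section stage

variable {T G : Type*} [MeasurableSpace T] {μ : Measure T} [IsFiniteMeasure μ]
  {v C1 : ℝ} {i0 j nL : ℕ} {Z Z' : ℕ → T → ℝ}

/-- number of visited `g` -/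
noncomputable def Stage.N (st : Stage T G μ v C1 i0 j nL Z Z') (l : Fin nL) (t : T) : ℝ :=
  ∑ g ∈ st.Gj l, (st.A l g).indicator (fun _ => (1 : ℝ)) t

lemma Stage.N_meas (st : Stage T G μ v C1 i0 j nL Z Z') (l : Fin nL) : Measurable (st.N l) := by
  unfold Stage.N
  exact Finset.measurable_sum _ (fun g hg => measurable_const.indicator (st.measA l g hg))

open Classical in
lemma Stage.N_eq (st : Stage T G μ v C1 i0 j nL Z Z') (l : Fin nL) (t : T) :
    st.N l t = (((st.Gj l).filter (fun g => t ∈ st.A l g)).card : ℝ) := by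
  unfold Stage.N
  rw [Finset.card_filter]
  push_cast
  refine Finset.sum_congr rfl (fun g _ => ?_)
  by_cases h : t ∈ st.A l g <;> simp [h]

lemma Stage.N_nonneg (st : Stage T G μ v C1 i0 j nL Z Z') (l : Fin nL) (t : T) : 0 ≤ st.N l t := by
  rw [st.N_eq]; positivity

lemma Stage.N_le (st : Stage T G μ v C1 i0 j nL Z Z') (l : Fin nL) (t : T) :
    st.N l t ≤ (st.Gj l).card := by
  classical
  rw [st.N_eq]; exact_mod_cast Finset.card_filter_le _ _

lemma Stage.N_int (st : Stage T G μ v C1 i0 j nL Z Z') (l : Fin nL) : Integrable (st.N l) μ :=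
  integrable_of_bdd' (st.N_meas l) (st.N_nonneg l) (st.N_le l)

/-- dyadic level set -/
def Stage.Th (st : Stage T G μ v C1 i0 j nL Z Z') (l : Fin nL) (κ : ℕ) : Set T :=
  {t | (2 : ℝ) ^ κ ≤ st.N l t ∧ st.N l t < 2 ^ (κ + 1)}

lemma Stage.Th_meas (st : Stage T G μ v C1 i0 j nL Z Z') (l : Fin nL) (κ : ℕ) :
    MeasurableSet (st.Th l κ) :=
  (measurableSet_le measurable_const (st.N_meas l)).inter
    (measurableSet_lt (st.N_meas l) measurable_const)

/-- pointwise dyadic decomposition -/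
lemma Stage.N_le_sum (st : Stage T G μ v C1 i0 j nL Z Z') (l : Fin nL) (t : T) :
    st.N l t ≤ ∑ κ ∈ Finset.range (Nat.log 2 (st.Gj l).card + 1),
      (st.Th l κ).indicator (st.N l) t := by
  classical
  have hN := st.N_eq l t
  set c := ((st.Gj l).filter (fun g => t ∈ st.A l g)).card with hc
  have hnn : ∀ κ, 0 ≤ (st.Th l κ).indicator (st.N l) t := fun κ =>
    Set.indicator_nonneg (fun t _ => st.N_nonneg l t) t
  rcases Nat.eq_zero_or_pos c with h0 | hpos
  · rw [hN, h0]; push_cast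
    exact Finset.sum_nonneg (fun κ _ => hnn κ)
  · have hle : c ≤ (st.Gj l).card := Finset.card_filter_le _ _
    have hmem : Nat.log 2 c ∈ Finset.range (Nat.log 2 (st.Gj l).card + 1) := by
      rw [Finset.mem_range, Nat.lt_succ_iff]; exact Nat.log_mono_right hle
    refine le_trans ?_ (Finset.single_le_sum (fun κ _ => hnn κ) hmem)
    have h1 : t ∈ st.Th l (Nat.log 2 c) := by
      refine ⟨?_, ?_⟩
      · rw [hN]; exact_mod_cast Nat.pow_log_le_self 2 hpos.ne'
      · rw [hN]; exact_mod_cast Nat.lt_pow_succ_log_self (by norm_num) c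
    rw [Set.indicator_of_mem h1]

/-- pigeonhole: a type `l` and a dyadic class carrying a large part of the mass -/
lemma Stage.pigeon (st : Stage T G μ v C1 i0 j nL Z Z') (hZint : Integrable (Z j) μ)
    (hpos : 0 < ∫ t, Z j t ∂μ) :
    ∃ l κ, (∫ t, Z j t ∂μ) ≤
      nL * ((Nat.log 2 (st.Gj l).card : ℝ) + 1) * ∫ t in st.Th l κ, st.N l t ∂μ := by
  have h1 : ∫ t, Z j t ∂μ ≤ ∑ l, ∫ t, st.N l t ∂μ := by
    rw [← integral_finsetSum _ (fun l _ => st.N_int l)]
    exact integral_mono hZint (integrable_finsetSum _ (fun l _ => st.N_int l)) st.cover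
  have hnL : 0 < nL := by
    rcases Nat.eq_zero_or_pos nL with h | h
    · subst h; simp at h1; linarith
    · exact h
  have : Nonempty (Fin nL) := ⟨⟨0, hnL⟩⟩
  have hnLr : (0:ℝ) < nL := by exact_mod_cast hnL
  obtain ⟨l, -, hl⟩ := Finset.exists_le_of_sum_le (s := (Finset.univ : Finset (Fin nL)))
    (f := fun _ => (∫ t, Z j t ∂μ) / nL) (g := fun l => ∫ t, st.N l t ∂μ)
    Finset.univ_nonempty (by
      simp only [Finset.sum_const, Finset.card_univ, Fintype.card_fin, nsmul_eq_mul]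
      rw [mul_div_cancel₀ _ hnLr.ne']
      exact h1)
  set K := Nat.log 2 (st.Gj l).card with hK
  have h2 : ∫ t, st.N l t ∂μ ≤ ∑ κ ∈ Finset.range (K + 1), ∫ t in st.Th l κ, st.N l t ∂μ := by
    have hi : ∀ κ ∈ Finset.range (K + 1), Integrable ((st.Th l κ).indicator (st.N l)) μ :=
      fun κ _ => (st.N_int l).indicator (st.Th_meas l κ)
    calc ∫ t, st.N l t ∂μ ≤ ∫ t, ∑ κ ∈ Finset.range (K + 1), (st.Th l κ).indicator (st.N l) t ∂μ :=
          integral_mono (st.N_int l) (integrable_finsetSum _ hi) (st.N_le_sum l)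
      _ = ∑ κ ∈ Finset.range (K + 1), ∫ t, (st.Th l κ).indicator (st.N l) t ∂μ :=
          integral_finsetSum _ hi
      _ = _ := Finset.sum_congr rfl (fun κ _ => integral_indicator (st.Th_meas l κ))
  have hKr : (0:ℝ) < (K : ℝ) + 1 := by positivity
  obtain ⟨κ, -, hκ⟩ := Finset.exists_le_of_sum_le (s := Finset.range (K + 1))
    (f := fun _ => (∫ t, st.N l t ∂μ) / ((K : ℝ) + 1)) (g := fun κ => ∫ t in st.Th l κ, st.N l t ∂μ)
    (by simp) (by
      simp only [Finset.sum_const, Finset.card_range, nsmul_eq_mul]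
      push_cast
      rw [mul_div_cancel₀ _ hKr.ne']
      exact h2)
  refine ⟨l, κ, ?_⟩
  rw [div_le_iff₀ hnLr] at hl
  rw [div_le_iff₀ hKr] at hκ
  calc ∫ t, Z j t ∂μ ≤ (∫ t, st.N l t ∂μ) * nL := hl
    _ ≤ ((∫ t in st.Th l κ, st.N l t ∂μ) * ((K : ℝ) + 1)) * nL :=
        mul_le_mul_of_nonneg_right hκ hnLr.le
    _ = _ := by ring

lemma Stage.P_eq (st : Stage T G μ v C1 i0 j nL Z Z') (l : Fin nL) {Θ : Set T}
    (hΘ : MeasurableSet Θ) :
    ∫ t in Θ, st.N l t ∂μ = ∑ g ∈ st.Gj l, μ.real (Θ ∩ st.A l g) := by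
  unfold Stage.N
  rw [integral_finsetSum]
  · refine Finset.sum_congr rfl (fun g hg => ?_)
    rw [setIntegral_indicator (st.measA l g hg)]
    simp
  · intro g hg
    exact (integrable_of_bdd' (measurable_const.indicator (st.measA l g hg)) (B := 1)
      (fun t => Set.indicator_nonneg (fun _ _ => zero_le_one) t)
      (fun t => Set.indicator_le' (fun _ _ => le_refl _) (fun _ _ => zero_le_one) t)).integrableOn

/-- Chebyshev for one `g`. -/
lemma Stage.cheb (st : Stage T G μ v C1 i0 j nL Z Z') (l : Fin nL) {g : G} (hg : g ∈ st.Gj l)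
    {Θ : Set T} (hΘ : MeasurableSet Θ) {M : ℝ} (hM : 0 ≤ M)
    (hint : IntegrableOn (st.m l g) (Θ ∩ st.A l g) μ) :
    M * (μ.real (Θ ∩ st.A l g) - μ.real (Θ ∩ st.A l g ∩ {t | st.m l g t ≤ M}))
      ≤ ∫ t in Θ ∩ st.A l g, st.m l g t ∂μ := by
  set E := Θ ∩ st.A l g with hE
  have hEm : MeasurableSet E := hΘ.inter (st.measA l g hg)
  have hS : MeasurableSet {t | st.m l g t ≤ M} := measurableSet_le (st.measm l g hg) measurable_const
  have hi1 : IntegrableOn (fun _ : T => M) E μ := integrableOn_const (measure_ne_top μ E)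
  have hi2 : IntegrableOn ({t | st.m l g t ≤ M}.indicator (fun _ => M)) E μ := hi1.indicator hS
  have h1 : ∫ t in E, (M - {t | st.m l g t ≤ M}.indicator (fun _ => M) t) ∂μ
      ≤ ∫ t in E, st.m l g t ∂μ := by
    refine integral_mono (hi1.sub hi2) hint ?_
    intro t
    by_cases h : st.m l g t ≤ M
    · simp only [Set.indicator, Set.mem_setOf_eq, h, if_true]
      simpa using st.m0 l g hg t
    · simp only [Set.indicator, Set.mem_setOf_eq, h, if_false, sub_zero]
      exact (not_le.mp h).le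
  rw [integral_sub hi1 hi2, setIntegral_indicator hS] at h1
  simp only [setIntegral_const, smul_eq_mul] at h1
  calc _ = μ.real E * M - μ.real (E ∩ {t | st.m l g t ≤ M}) * M := by ring
    _ ≤ _ := h1

/-- The sum over visited `g` of the number `m` is bounded by the sums over levels of `R i`. -/
lemma Stage.bound (st : Stage T G μ v C1 i0 j nL Z Z') (hC1 : 0 ≤ C1) (l : Fin nL) {Θ : Set T}
    (hΘ : MeasurableSet Θ) (hZ' : ∀ i, ∃ B, ∀ t, Z' i t ≤ B) (hZ'm : ∀ i, Measurable (Z' i)) :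
    (∀ g ∈ st.Gj l, IntegrableOn (st.m l g) (Θ ∩ st.A l g) μ) ∧
    ∑ g ∈ st.Gj l, ∫ t in Θ ∩ st.A l g, st.m l g t ∂μ ≤
      C1 * (∑ g ∈ st.Gj l, μ.real (Θ ∩ st.A l g))
        + C1 * ∑ i ∈ Finset.Icc i0 (2 * j), ∑ g ∈ st.Gj l, ∫ t in Θ ∩ st.A l g, st.V l i g t ∂μ := by
  choose B hB using hZ'
  have hVi : ∀ i, ∀ g ∈ st.Gj l, IntegrableOn (st.V l i g) (Θ ∩ st.A l g) μ := by
    intro i g hg
    exact integrableOn_of_bdd (st.measV l i g hg) (hΘ.inter (st.measA l g hg)) (B := C1 * B i)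
      (fun t _ => st.V0 l i g hg t)
      (fun t _ => (st.Vb l i g hg t).trans (mul_le_mul_of_nonneg_left (hB i t) hC1))
  have hmb : ∀ g ∈ st.Gj l, ∀ t ∈ Θ ∩ st.A l g,
      st.m l g t ≤ C1 + C1 * ∑ i ∈ Finset.Icc i0 (2 * j), st.V l i g t := fun g hg t ht =>
    st.mb l g hg t ht.2
  have hsum : ∀ g ∈ st.Gj l, IntegrableOn (fun t => C1 + C1 * ∑ i ∈ Finset.Icc i0 (2 * j), st.V l i g t)
      (Θ ∩ st.A l g) μ := by
    intro g hg
    refine (integrableOn_const (measure_ne_top μ _)).add ?_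
    refine Integrable.const_mul ?_ C1
    exact integrable_finsetSum _ (fun i _ => hVi i g hg)
  have hm : ∀ g ∈ st.Gj l, IntegrableOn (st.m l g) (Θ ∩ st.A l g) μ := by
    intro g hg
    refine Integrable.mono' (hsum g hg) (st.measm l g hg).aestronglyMeasurable ?_
    refine (ae_restrict_iff' (hΘ.inter (st.measA l g hg))).mpr (Eventually.of_forall ?_)
    intro t ht
    rw [Real.norm_eq_abs, abs_of_nonneg (st.m0 l g hg t)]
    exact hmb g hg t ht
  refine ⟨hm, ?_⟩
  have h1 : ∀ g ∈ st.Gj l, ∫ t in Θ ∩ st.A l g, st.m l g t ∂μ ≤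
      C1 * μ.real (Θ ∩ st.A l g) + C1 * ∑ i ∈ Finset.Icc i0 (2 * j),
        ∫ t in Θ ∩ st.A l g, st.V l i g t ∂μ := by
    intro g hg
    calc ∫ t in Θ ∩ st.A l g, st.m l g t ∂μ
        ≤ ∫ t in Θ ∩ st.A l g, (C1 + C1 * ∑ i ∈ Finset.Icc i0 (2 * j), st.V l i g t) ∂μ :=
          setIntegral_mono_on (hm g hg) (hsum g hg) (hΘ.inter (st.measA l g hg)) (hmb g hg)
      _ = _ := by
          have i1 : Integrable (fun _ : T => C1) (μ.restrict (Θ ∩ st.A l g)) :=
            integrableOn_const (measure_ne_top μ _)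
          have i2 : Integrable (fun t => C1 * ∑ i ∈ Finset.Icc i0 (2 * j), st.V l i g t)
              (μ.restrict (Θ ∩ st.A l g)) :=
            (integrable_finsetSum _ (fun i _ => hVi i g hg)).const_mul C1
          have e1 := integral_add i1 i2
          have e2 := integral_finsetSum (μ := μ.restrict (Θ ∩ st.A l g))
            (Finset.Icc i0 (2 * j)) (fun i _ => hVi i g hg)
          rw [e1, integral_const_mul, e2]
          simp only [setIntegral_const, smul_eq_mul]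
          ring
  refine (Finset.sum_le_sum h1).trans ?_
  rw [Finset.sum_add_distrib, ← Finset.mul_sum, ← Finset.mul_sum, Finset.sum_comm]

/-- bound (b) -/
lemma Stage.Rb (st : Stage T G μ v C1 i0 j nL Z Z') (hC1 : 0 ≤ C1) (l : Fin nL) {Θ : Set T}
    (hΘ : MeasurableSet Θ) {z : ℝ} (hz0 : 0 ≤ z) (hz : ∀ t ∈ Θ, st.N l t ≤ z) (i : ℕ) {B : ℝ}
    (hB : ∀ t, Z' i t ≤ B) (h0 : ∀ t, 0 ≤ Z' i t) (hZ'm : Measurable (Z' i)) :
    ∑ g ∈ st.Gj l, ∫ t in Θ ∩ st.A l g, st.V l i g t ∂μ ≤ C1 * z * ∫ t, Z' i t ∂μ := by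
  have hZi : Integrable (Z' i) μ := integrable_of_bdd' hZ'm h0 hB
  have h1 : ∀ g ∈ st.Gj l, ∫ t in Θ ∩ st.A l g, st.V l i g t ∂μ ≤
      ∫ t in Θ, C1 * ((st.A l g).indicator (fun _ => (1:ℝ)) t * Z' i t) ∂μ := by
    intro g hg
    have hVi : IntegrableOn (st.V l i g) (Θ ∩ st.A l g) μ :=
      integrableOn_of_bdd (st.measV l i g hg) (hΘ.inter (st.measA l g hg)) (B := C1 * B)
      (fun t _ => st.V0 l i g hg t)
      (fun t _ => (st.Vb l i g hg t).trans (mul_le_mul_of_nonneg_left (hB t) hC1))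
    calc ∫ t in Θ ∩ st.A l g, st.V l i g t ∂μ ≤ ∫ t in Θ ∩ st.A l g, C1 * Z' i t ∂μ :=
          setIntegral_mono_on hVi (hZi.integrableOn.const_mul C1) (hΘ.inter (st.measA l g hg))
            (fun t _ => st.Vb l i g hg t)
      _ = ∫ t in Θ, (st.A l g).indicator (fun t => C1 * Z' i t) t ∂μ := by
          rw [setIntegral_indicator (st.measA l g hg)]
      _ = _ := by
          refine setIntegral_congr_fun hΘ (fun t _ => ?_)
          by_cases h : t ∈ st.A l g <;> simp [h]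
  refine (Finset.sum_le_sum h1).trans ?_
  have hint : ∀ g ∈ st.Gj l, IntegrableOn
      (fun t => C1 * ((st.A l g).indicator (fun _ => (1:ℝ)) t * Z' i t)) Θ μ := by
    intro g hg
    refine Integrable.const_mul ?_ C1
    have : (fun t => (st.A l g).indicator (fun _ => (1:ℝ)) t * Z' i t)
        = (st.A l g).indicator (Z' i) := by
      funext t; by_cases h : t ∈ st.A l g <;> simp [h]
    rw [this]
    exact (hZi.indicator (st.measA l g hg)).integrableOn
  rw [← integral_finsetSum _ hint]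
  have h2 : ∀ t, ∑ g ∈ st.Gj l, C1 * ((st.A l g).indicator (fun _ => (1:ℝ)) t * Z' i t)
      = C1 * (st.N l t * Z' i t) := by
    intro t
    unfold Stage.N
    rw [Finset.sum_mul, Finset.mul_sum]
  simp only [h2]
  have hNZ : IntegrableOn (fun t => C1 * (st.N l t * Z' i t)) Θ μ := by
    have := integrable_finsetSum _ hint
    refine this.congr (Eventually.of_forall ?_)
    intro t; exact h2 t
  calc ∫ t in Θ, C1 * (st.N l t * Z' i t) ∂μ ≤ ∫ t in Θ, C1 * z * Z' i t ∂μ := by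
        refine setIntegral_mono_on hNZ (hZi.integrableOn.const_mul _) hΘ (fun t ht => ?_)
        have := mul_le_mul_of_nonneg_right (hz t ht) (h0 t)
        calc C1 * (st.N l t * Z' i t) ≤ C1 * (z * Z' i t) := mul_le_mul_of_nonneg_left this hC1
          _ = _ := by ring
    _ = C1 * z * ∫ t in Θ, Z' i t ∂μ := integral_const_mul _ _
    _ ≤ _ := by
        refine mul_le_mul_of_nonneg_left ?_ (by positivity)
        exact setIntegral_le_integral hZi (Eventually.of_forall h0)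

/-- bound (c) -/
lemma Stage.Rc (st : Stage T G μ v C1 i0 j nL Z Z') (hC1 : 0 ≤ C1) (l : Fin nL) {Θ : Set T}
    (hΘ : MeasurableSet Θ) (i : ℕ) (hi : i ≤ 2 * j) {B : ℝ}
    (hB : ∀ t, Z' i t ≤ B) (h0 : ∀ t, 0 ≤ Z' i t) (hZ'm : Measurable (Z' i)) :
    ∑ g ∈ st.Gj l, ∫ t in Θ ∩ st.A l g, st.V l i g t ∂μ ≤
      C1 * Real.exp (v * ((j : ℝ) - (i : ℝ) / 2)) * ∫ t, Z' i t ∂μ := by
  have hZi : Integrable (Z' i) μ := integrable_of_bdd' hZ'm h0 hB
  have hVi : ∀ g ∈ st.Gj l, Integrable (st.V l i g) μ := fun g hg =>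
    integrable_of_bdd' (st.measV l i g hg) (B := C1 * B) (fun t => st.V0 l i g hg t)
      (fun t => (st.Vb l i g hg t).trans (mul_le_mul_of_nonneg_left (hB t) hC1))
  calc ∑ g ∈ st.Gj l, ∫ t in Θ ∩ st.A l g, st.V l i g t ∂μ
      ≤ ∑ g ∈ st.Gj l, ∫ t, st.V l i g t ∂μ :=
        Finset.sum_le_sum (fun g hg =>
          setIntegral_le_integral (hVi g hg) (Eventually.of_forall (st.V0 l i g hg)))
    _ = ∫ t, ∑ g ∈ st.Gj l, st.V l i g t ∂μ := (integral_finsetSum _ hVi).symm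
    _ ≤ ∫ t, C1 * Real.exp (v * ((j : ℝ) - (i : ℝ) / 2)) * Z' i t ∂μ :=
        integral_mono (integrable_finsetSum _ hVi) (hZi.const_mul _) (st.Vc l i hi)
    _ = _ := integral_const_mul _ _

/-- bound (a) -/
lemma Stage.Ra (st : Stage T G μ v C1 i0 j nL Z Z') (hC1 : 0 ≤ C1) (l : Fin nL) {Θ : Set T}
    (hΘ : MeasurableSet Θ) (i : ℕ) {B : ℝ} (hB : ∀ t, Z' i t ≤ B) :
    ∑ g ∈ st.Gj l, ∫ t in Θ ∩ st.A l g, st.V l i g t ∂μ ≤
      C1 * B * ∑ g ∈ st.Gj l, μ.real (Θ ∩ st.A l g) := by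
  rw [Finset.mul_sum]
  refine Finset.sum_le_sum (fun g hg => ?_)
  have hb : ∀ t, st.V l i g t ≤ C1 * B := fun t =>
    (st.Vb l i g hg t).trans (mul_le_mul_of_nonneg_left (hB t) hC1)
  have hVi : IntegrableOn (st.V l i g) (Θ ∩ st.A l g) μ :=
      integrableOn_of_bdd (st.measV l i g hg) (hΘ.inter (st.measA l g hg)) (B := C1 * B)
      (fun t _ => st.V0 l i g hg t) (fun t _ => hb t)
  calc ∫ t in Θ ∩ st.A l g, st.V l i g t ∂μ ≤ ∫ _t in Θ ∩ st.A l g, C1 * B ∂μ :=
        setIntegral_mono_on hVi (integrableOn_const (measure_ne_top μ _))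
          (hΘ.inter (st.measA l g hg)) (fun t _ => hb t)
    _ = _ := by simp only [setIntegral_const, smul_eq_mul]; ring

end stage

/-! ### The contradiction for one pair of cores -/

section final

variable {T G : Type*} [MeasurableSpace T] {μ : Measure T} [IsFiniteMeasure μ]

lemma log_card_le {C1 v : ℝ} (hC1 : 1 ≤ C1) (hv : 0 ≤ v) {n j : ℕ}
    (h : (n : ℝ) ≤ C1 * Real.exp (v * j)) :
    (Nat.log 2 n : ℝ) + 1 ≤ (1 + (Real.log C1 + v) / Real.log 2) * ((j : ℝ) + 1) := by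
  have hl2 : 0 < Real.log 2 := Real.log_pos (by norm_num)
  have hlC : 0 ≤ Real.log C1 := Real.log_nonneg hC1
  have hj : (0:ℝ) ≤ j := by positivity
  have key : (Nat.log 2 n : ℝ) ≤ ((Real.log C1 + v) / Real.log 2) * ((j : ℝ) + 1) := by
    rcases Nat.eq_zero_or_pos n with h0 | hpos
    · subst h0; simp; positivity
    have h1 : ((2:ℝ) ^ (Nat.log 2 n)) ≤ n := by exact_mod_cast Nat.pow_log_le_self 2 hpos.ne'
    have h2 := Real.log_le_log (by positivity) (h1.trans h)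
    rw [Real.log_pow, Real.log_mul (by linarith) (Real.exp_ne_zero _), Real.log_exp] at h2
    rw [div_mul_eq_mul_div, le_div_iff₀ hl2]
    nlinarith
  nlinarith

set_option maxHeartbeats 2000000 in
lemma stage_contra (hμ : μ.real univ ≤ 1) {v ε lam η C1 : ℝ} (hε : 0 < ε) (hεv : ε ≤ v)
    (hlam : ε ≤ lam) (hη : 0 < η) (hη2 : 24 * v * η ≤ ε ^ 2) (hC1 : 1 ≤ C1) (i0 nL : ℕ)
    (Z Z' : ℕ → T → ℝ) (hZm : ∀ i, Measurable (Z i)) (hZ0 : ∀ i t, 0 ≤ Z i t)
    (hZ'm : ∀ i, Measurable (Z' i)) (hZ'0 : ∀ i t, 0 ≤ Z' i t)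
    (hZZ' : ∀ i t, Z i t ≤ Z' i t)
    (hZ'b : ∃ C, ∀ i t, Z' i t ≤ C * Real.exp (v * i))
    (hW : ∃ᶠ j : ℕ in atTop, Real.exp ((lam - η) * j) ≤ ∫ t, Z j t ∂μ)
    (hW' : ∀ᶠ i : ℕ in atTop, ∫ t, Z' i t ∂μ ≤ Real.exp ((lam + 2 * η) * i))
    (hst : ∀ᶠ j : ℕ in atTop, Nonempty (Stage T G μ v C1 i0 j nL Z Z')) : False := by
  obtain ⟨C, hC⟩ := hZ'b
  obtain ⟨i1, hi1⟩ := eventually_atTop.mp hW'
  have hv0 : 0 < v := lt_of_lt_of_le hε hεv
  have hηε : 24 * η ≤ ε := by
    have h1 : ε * (24 * η) ≤ ε * ε := by nlinarith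
    exact le_of_mul_le_mul_left h1 hε
  set κ := ε / (4 * v) with hκ
  have hκ0 : 0 < κ := by positivity
  have hκ1 : κ ≤ 1 / 4 := by rw [hκ, div_le_div_iff₀ (by positivity) (by norm_num)]; linarith
  have hvκ : v * κ = ε / 4 := by rw [hκ]; field_simp
  have hκη : 6 * η ≤ κ * ε := by
    rw [hκ, div_mul_eq_mul_div, le_div_iff₀ (by positivity)]; nlinarith
  set b := lam + 2 * η with hb
  set a := lam - η with ha
  have ha0 : 0 < a := by rw [ha]; linarith
  have hb0 : 0 < b := by rw [hb]; linarith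
  set b1 := 2 * b * (1 - κ) with hb1
  set b2 := v * κ + 2 * b with hb2
  have hb1a : b1 < 2 * a := by
    have : κ * ε ≤ κ * lam := mul_le_mul_of_nonneg_left hlam hκ0.le
    rw [hb1, hb, ha]
    nlinarith
  have hb2a : b2 < 3 * a := by
    rw [hb2, hvκ, hb, ha]; linarith
  -- constants
  set Bd := |C| * Real.exp (v * i1) with hBd
  have hBd0 : 0 ≤ Bd := by positivity
  set C2 := C1 + C1 * (C1 * Bd * i1) + C1 * (4 * C1) with hC2
  have hC10 : 0 ≤ C1 := by linarith
  set D := max 1 (nL * (1 + (Real.log C1 + v) / Real.log 2)) with hD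
  have hD1 : 1 ≤ D := le_max_left _ _
  have hnum := numeric C1 C2 D a b1 b2 hC1 hD1 ha0 hb1a hb2a
  obtain ⟨j, hWj, hnj, ⟨st⟩⟩ := (hW.and_eventually (hnum.and hst)).exists
  -- integrability
  have hZ'B : ∀ i, ∀ t, Z' i t ≤ |C| * Real.exp (v * i) := fun i t =>
    (hC i t).trans (mul_le_mul_of_nonneg_right (le_abs_self C) (Real.exp_pos _).le)
  have hZ'int : ∀ i, Integrable (Z' i) μ := fun i =>
    integrable_of_bdd' (hZ'm i) (hZ'0 i) (hZ'B i)
  have hZint : Integrable (Z j) μ :=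
    integrable_of_bdd' (hZm j) (hZ0 j) (fun t => (hZZ' j t).trans (hZ'B j t))
  have hWpos : 0 < ∫ t, Z j t ∂μ := lt_of_lt_of_le (Real.exp_pos _) hWj
  obtain ⟨l, k, hlk⟩ := st.pigeon hZint hWpos
  set Θ := st.Th l k with hΘdef
  have hΘ : MeasurableSet Θ := st.Th_meas l k
  set z : ℝ := 2 ^ k with hz
  have hz0 : 0 ≤ z := by positivity
  set θ := μ.real Θ with hθ
  set P := ∫ t in Θ, st.N l t ∂μ with hP
  have hPeq := st.P_eq (μ := μ) l hΘ
  have hNint : IntegrableOn (st.N l) Θ μ := (st.N_int l).integrableOn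
  have hzP : z * θ ≤ P := by
    calc z * θ = ∫ _t in Θ, z ∂μ := by simp [hθ, mul_comm]
      _ ≤ P := setIntegral_mono_on (integrableOn_const (measure_ne_top μ _)) hNint hΘ
          (fun t ht => ht.1)
  have hPz : P ≤ 2 * z * θ := by
    calc P ≤ ∫ _t in Θ, 2 * z ∂μ := setIntegral_mono_on hNint
          (integrableOn_const (measure_ne_top μ _)) hΘ
          (fun t ht => by have := ht.2.le; rw [pow_succ] at this; rw [hz]; linarith)
      _ = _ := by simp [hθ, mul_comm]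
  have hθ0 : 0 ≤ θ := measureReal_nonneg
  have hθ1 : θ ≤ 1 := (measureReal_mono (subset_univ _)).trans hμ
  have hP0 : 0 ≤ P := le_trans (by positivity) hzP
  set M := z ^ 2 * θ / (16 * C1) with hM
  have hM0 : 0 ≤ M := by positivity
  set S := ∑ g ∈ st.Gj l, μ.real (Θ ∩ st.A l g ∩ {t | st.m l g t ≤ M}) with hS
  have hS0 : 0 ≤ S := Finset.sum_nonneg (fun _ _ => measureReal_nonneg)
  have hS2 : S ^ 2 ≤ C1 * (2 * M + 1) * θ := st.pack l Θ hΘ M hM0
  -- lower bound for P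
  have hPlow : Real.exp (a * j) / (D * ((j : ℝ) + 1)) ≤ P := by
    rw [div_le_iff₀ (by positivity)]
    have h1 := log_card_le hC1 hv0.le (st.card l)
    have h2 : (nL : ℝ) * ((Nat.log 2 (st.Gj l).card : ℝ) + 1) ≤ D * ((j : ℝ) + 1) := by
      calc (nL : ℝ) * ((Nat.log 2 (st.Gj l).card : ℝ) + 1)
          ≤ nL * ((1 + (Real.log C1 + v) / Real.log 2) * ((j : ℝ) + 1)) :=
            mul_le_mul_of_nonneg_left h1 (by positivity)
        _ = (nL * (1 + (Real.log C1 + v) / Real.log 2)) * ((j : ℝ) + 1) := by ring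
        _ ≤ _ := mul_le_mul_of_nonneg_right (le_max_right _ _) (by positivity)
    calc Real.exp (a * j) ≤ ∫ t, Z j t ∂μ := hWj
      _ ≤ nL * ((Nat.log 2 (st.Gj l).card : ℝ) + 1) * P := hlk
      _ ≤ (D * ((j : ℝ) + 1)) * P := mul_le_mul_of_nonneg_right h2 hP0
      _ = _ := by ring
  refine hnj P z θ S hPlow hθ0 hθ1 hzP hPz hz0 hS0 hS2 ?_
  -- the upper bound
  obtain ⟨hmint, hbd⟩ := st.bound (μ := μ) hC10 l hΘ (fun i => ⟨_, hZ'B i⟩) hZ'm
  have hcheb : M * (P - S) ≤ ∑ g ∈ st.Gj l, ∫ t in Θ ∩ st.A l g, st.m l g t ∂μ := by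
    rw [hP, hPeq, hS, ← Finset.sum_sub_distrib, Finset.mul_sum]
    exact Finset.sum_le_sum (fun g hg => st.cheb l hg hΘ hM0 (hmint g hg))
  refine hcheb.trans (hbd.trans ?_)
  rw [← hPeq]
  -- bound the sum over levels
  set R : ℕ → ℝ := fun i => ∑ g ∈ st.Gj l, ∫ t in Θ ∩ st.A l g, st.V l i g t ∂μ with hR
  set Y := 2 * C1 * (z * Real.exp (b1 * j)) + C1 * Real.exp (b2 * j) with hY
  have hY0 : 0 ≤ Y := by positivity
  have hRsmall : ∀ i, i < i1 → R i ≤ C1 * Bd * P := by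
    intro i hi
    have h1 : ∀ t, Z' i t ≤ Bd := fun t => (hZ'B i t).trans (by
      rw [hBd]
      have : v * (i:ℝ) ≤ v * (i1:ℝ) :=
        mul_le_mul_of_nonneg_left (by exact_mod_cast hi.le) hv0.le
      exact mul_le_mul_of_nonneg_left (Real.exp_le_exp.mpr this) (abs_nonneg C))
    have := st.Ra (μ := μ) hC10 l hΘ i h1
    rwa [← hPeq] at this
  have hRbig : ∀ i, i1 ≤ i → i ≤ 2 * j → R i ≤ Y := by
    intro i hi1' hi2
    have hWi := hi1 i hi1'
    have hir : (i : ℝ) ≤ 2 * j := by exact_mod_cast hi2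
    have hi0 : (0:ℝ) ≤ i := by positivity
    rcases le_or_gt (i : ℝ) (2 * (1 - κ) * j) with hc | hc
    · have h1 := st.Rb (μ := μ) hC10 l hΘ (z := 2 * z) (by positivity)
        (fun t ht => by have := ht.2.le; rw [pow_succ] at this; rw [hz]; linarith) i (hZ'B i)
        (hZ'0 i) (hZ'm i)
      have h2 : ∫ t, Z' i t ∂μ ≤ Real.exp (b1 * j) := by
        refine hWi.trans (Real.exp_le_exp.mpr ?_)
        calc (lam + 2 * η) * i = b * i := by rw [hb]
          _ ≤ b * (2 * (1 - κ) * j) := mul_le_mul_of_nonneg_left hc hb0.le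
          _ = b1 * j := by rw [hb1]; ring
      calc R i ≤ C1 * (2 * z) * ∫ t, Z' i t ∂μ := h1
        _ ≤ C1 * (2 * z) * Real.exp (b1 * j) := mul_le_mul_of_nonneg_left h2 (by positivity)
        _ = 2 * C1 * (z * Real.exp (b1 * j)) := by ring
        _ ≤ Y := by rw [hY]; have : 0 ≤ C1 * Real.exp (b2 * j) := by positivity
                    linarith
    · have h1 := st.Rc (μ := μ) hC10 l hΘ i hi2 (hZ'B i) (hZ'0 i) (hZ'm i)
      have h2 : Real.exp (v * ((j : ℝ) - (i : ℝ) / 2)) * (∫ t, Z' i t ∂μ) ≤ Real.exp (b2 * j) := by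
        calc Real.exp (v * ((j : ℝ) - (i : ℝ) / 2)) * (∫ t, Z' i t ∂μ)
            ≤ Real.exp (v * ((j : ℝ) - (i : ℝ) / 2)) * Real.exp ((lam + 2 * η) * i) :=
              mul_le_mul_of_nonneg_left hWi (Real.exp_pos _).le
          _ = Real.exp (v * ((j : ℝ) - (i : ℝ) / 2) + (lam + 2 * η) * i) := by rw [Real.exp_add]
          _ ≤ Real.exp (b2 * j) := by
              refine Real.exp_le_exp.mpr ?_
              have h3 : (j : ℝ) - (i : ℝ) / 2 ≤ κ * j := by linarith
              have h4 : v * ((j : ℝ) - (i : ℝ) / 2) ≤ v * (κ * j) :=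
                mul_le_mul_of_nonneg_left h3 hv0.le
              have h5 : (lam + 2 * η) * i ≤ b * (2 * j) := by
                rw [← hb]; exact mul_le_mul_of_nonneg_left hir hb0.le
              calc _ ≤ v * (κ * j) + b * (2 * j) := add_le_add h4 h5
                _ = b2 * j := by rw [hb2]; ring
      calc R i ≤ C1 * Real.exp (v * ((j : ℝ) - (i : ℝ) / 2)) * ∫ t, Z' i t ∂μ := h1
        _ = C1 * (Real.exp (v * ((j : ℝ) - (i : ℝ) / 2)) * ∫ t, Z' i t ∂μ) := by ring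
        _ ≤ C1 * Real.exp (b2 * j) := mul_le_mul_of_nonneg_left h2 hC10
        _ ≤ Y := by rw [hY]; have : 0 ≤ 2 * C1 * (z * Real.exp (b1 * j)) := by positivity
                    linarith
  have hsum : ∑ i ∈ Finset.Icc i0 (2 * j), R i ≤ i1 * (C1 * Bd * P) + (2 * (j:ℝ) + 1) * Y := by
    have h1 : ∀ i ∈ Finset.Icc i0 (2 * j), R i ≤ (if i < i1 then C1 * Bd * P else 0) + Y := by
      intro i hi
      rw [Finset.mem_Icc] at hi
      by_cases h : i < i1
      · rw [if_pos h]; linarith [hRsmall i h]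
      · rw [if_neg h]; linarith [hRbig i (not_lt.mp h) hi.2]
    have hnn : 0 ≤ C1 * Bd * P := by positivity
    calc ∑ i ∈ Finset.Icc i0 (2 * j), R i
        ≤ ∑ i ∈ Finset.Icc i0 (2 * j), ((if i < i1 then C1 * Bd * P else 0) + Y) :=
          Finset.sum_le_sum h1
      _ ≤ ∑ i ∈ Finset.range (2 * j + 1), ((if i < i1 then C1 * Bd * P else 0) + Y) := by
          refine Finset.sum_le_sum_of_subset_of_nonneg ?_ ?_
          · intro i hi; rw [Finset.mem_Icc] at hi; rw [Finset.mem_range]; omega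
          · intro i _ _; split_ifs <;> positivity
      _ = (∑ i ∈ Finset.range (2 * j + 1), (if i < i1 then C1 * Bd * P else 0)) + (2 * (j:ℝ) + 1) * Y := by
          rw [Finset.sum_add_distrib]; simp
      _ ≤ _ := by
          refine add_le_add ?_ le_rfl
          rw [← Finset.sum_filter, Finset.sum_const, nsmul_eq_mul]
          refine mul_le_mul_of_nonneg_right ?_ hnn
          have : ((Finset.range (2 * j + 1)).filter (fun i => i < i1)).card ≤ i1 := by
            calc _ ≤ (Finset.range i1).card := Finset.card_le_card (by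
                  intro i hi; rw [Finset.mem_filter] at hi; rw [Finset.mem_range]; exact hi.2)
              _ = i1 := Finset.card_range _
          exact_mod_cast this
  have hj0 : (0:ℝ) ≤ j := by positivity
  calc C1 * P + C1 * ∑ i ∈ Finset.Icc i0 (2 * j), R i
      ≤ C1 * P + C1 * (i1 * (C1 * Bd * P) + (2 * (j:ℝ) + 1) * Y) := by
        have := mul_le_mul_of_nonneg_left hsum hC10
        linarith
    _ ≤ C1 * P + C1 * (i1 * (C1 * Bd * P) + (2 * ((j:ℝ) + 1)) * Y) := by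
        have h1 : (2 * (j:ℝ) + 1) * Y ≤ (2 * ((j:ℝ) + 1)) * Y :=
          mul_le_mul_of_nonneg_right (by linarith) hY0
        have h2 := mul_le_mul_of_nonneg_left h1 hC10
        linarith
    _ = (C1 + C1 * (C1 * Bd * i1)) * P + (C1 * (4 * C1)) * ((j : ℝ) + 1) * (z * Real.exp (b1 * j))
        + (C1 * (2 * C1)) * ((j:ℝ) + 1) * Real.exp (b2 * j) := by rw [hY]; ring
    _ ≤ C2 * P + C2 * ((j : ℝ) + 1) * (z * Real.exp (b1 * j))
        + C2 * ((j : ℝ) + 1) * Real.exp (b2 * j) := by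
        have hx1 : C1 + C1 * (C1 * Bd * i1) ≤ C2 := by
          rw [hC2]; have : 0 ≤ C1 * (4 * C1) := by positivity
          linarith
        have hx2 : C1 * (4 * C1) ≤ C2 := by
          rw [hC2]; have : 0 ≤ C1 * (C1 * Bd * i1) := by positivity
          linarith
        have hx3 : C1 * (2 * C1) ≤ C2 := by
          have : C1 * (2 * C1) ≤ C1 * (4 * C1) :=
            mul_le_mul_of_nonneg_left (by linarith) hC10
          linarith
        gcongr

/-- **Step 7 of Part M.** `Z k i t` is the number of tiles of level `i` meeting the core `k` which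
are visited by the level `t`. -/
theorem counting (hμ : μ.real univ ≤ 1) (v ε : ℝ) (hε : 0 < ε)
    (Z : ℕ → ℕ → T → ℝ) (hZm : ∀ k i, Measurable (Z k i)) (hZ0 : ∀ k i t, 0 ≤ Z k i t)
    (hZmono : ∀ k i t, Z k i t ≤ Z (k + 1) i t)
    (hub : ∀ k, ∃ C, ∀ i t, Z k i t ≤ C * Real.exp (v * i))
    (hlow : ∃ c > 0, ∀ᶠ i : ℕ in atTop, c * Real.exp (ε * i) ≤ ∫ t, Z 0 i t ∂μ)
    (hstage : ∀ k, ∃ C1 : ℝ, ∃ i0 nL : ℕ, ∀ᶠ j : ℕ in atTop,
      Nonempty (Stage T G μ v C1 i0 j nL (Z k) (Z (k + 1)))) : False := by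
  obtain ⟨c, hc, hlow⟩ := hlow
  -- first: `ε ≤ v`
  have hmono0 : ∀ k i t, Z 0 i t ≤ Z k i t := by
    intro k i t
    induction k with
    | zero => exact le_rfl
    | succ k ih => exact ih.trans (hZmono k i t)
  have hint : ∀ k i, Integrable (Z k i) μ := by
    intro k i
    obtain ⟨C, hC⟩ := hub k
    exact integrable_of_bdd' (hZm k i) (hZ0 k i) (hC i)
  have hWmono : ∀ k i, ∫ t, Z k i t ∂μ ≤ ∫ t, Z (k + 1) i t ∂μ := fun k i =>
    integral_mono (hint k i) (hint (k + 1) i) (hZmono k i)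
  have hWmono0 : ∀ k i, ∫ t, Z 0 i t ∂μ ≤ ∫ t, Z k i t ∂μ := fun k i =>
    integral_mono (hint 0 i) (hint k i) (hmono0 k i)
  have hWub : ∀ k, ∃ C, 0 ≤ C ∧ ∀ i : ℕ, ∫ t, Z k i t ∂μ ≤ C * Real.exp (v * i) := by
    intro k
    obtain ⟨C, hC⟩ := hub k
    refine ⟨|C|, abs_nonneg C, fun i => ?_⟩
    have hCe : 0 ≤ |C| * Real.exp (v * i) := by positivity
    calc ∫ t, Z k i t ∂μ ≤ ∫ _t, |C| * Real.exp (v * i) ∂μ :=
          integral_mono (hint k i) (integrable_const _) (fun t => (hC i t).trans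
            (mul_le_mul_of_nonneg_right (le_abs_self C) (Real.exp_pos _).le))
      _ = μ.real univ * (|C| * Real.exp (v * i)) := by simp
      _ ≤ 1 * (|C| * Real.exp (v * i)) := mul_le_mul_of_nonneg_right hμ hCe
      _ = _ := one_mul _
  have hexp_lt : ∀ a : ℝ, a < ε → ∀ C : ℝ,
      ¬ ∀ᶠ i : ℕ in atTop, ∫ t, Z 0 i t ∂μ ≤ C * Real.exp (a * i) := by
    intro a ha C h
    have h1 := ev_poly_exp ((|C| + 1) / c) 0 ha
    obtain ⟨i, ⟨h2, h3⟩, h4⟩ := ((h1.and hlow).and h).exists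
    simp only [pow_zero, mul_one] at h2
    have h5 : (|C| + 1) * Real.exp (a * i) ≤ c * Real.exp (ε * i) := by
      rw [div_mul_eq_mul_div, div_le_iff₀ hc] at h2; linarith
    have h6 : c * Real.exp (ε * i) ≤ C * Real.exp (a * i) := h3.trans h4
    have h7 := Real.exp_pos (a * i)
    have h8 : C * Real.exp (a * i) ≤ |C| * Real.exp (a * i) :=
      mul_le_mul_of_nonneg_right (le_abs_self C) h7.le
    nlinarith
  have hεv : ε ≤ v := by
    by_contra hcon
    obtain ⟨C, -, hC⟩ := hWub 0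
    exact hexp_lt v (not_le.mp hcon) C (Eventually.of_forall hC)
  have hv0 : 0 < v := lt_of_lt_of_le hε hεv
  -- exponents
  set P : ℕ → Set ℝ := fun k => {a | ∀ᶠ i : ℕ in atTop, ∫ t, Z k i t ∂μ ≤ Real.exp (a * i)} with hP
  have hPup : ∀ k a a', a ∈ P k → a ≤ a' → a' ∈ P k := by
    intro k a a' h haa
    filter_upwards [h] with i hi
    exact hi.trans (Real.exp_le_exp.mpr (mul_le_mul_of_nonneg_right haa (by positivity)))
  have hPsub : ∀ k, P (k + 1) ⊆ P k := by
    intro k a h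
    filter_upwards [h] with i hi
    exact (hWmono k i).trans hi
  have hPne : ∀ k, v + 1 ∈ P k := by
    intro k
    obtain ⟨C, hC0, hC⟩ := hWub k
    have h1 := ev_poly_exp C 0 (show v < v + 1 by linarith)
    filter_upwards [h1] with i hi
    simp only [pow_zero, mul_one] at hi
    exact (hC i).trans hi
  have hPlb : ∀ k, ∀ a ∈ P k, ε ≤ a := by
    intro k a h
    by_contra hcon
    refine hexp_lt a (not_le.mp hcon) 1 ?_
    filter_upwards [h] with i hi
    rw [one_mul]; exact (hWmono0 k i).trans hi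
  have hbdd : ∀ k, BddBelow (P k) := fun k => ⟨ε, fun a h => hPlb k a h⟩
  set L : ℕ → ℝ := fun k => sInf (P k) with hL
  have hLge : ∀ k, ε ≤ L k := fun k => le_csInf ⟨_, hPne k⟩ (hPlb k)
  have hLle : ∀ k, L k ≤ v + 1 := fun k => csInf_le (hbdd k) (hPne k)
  set η := ε ^ 2 / (24 * v) with hη
  have hη0 : 0 < η := by positivity
  obtain ⟨k, hk⟩ : ∃ k, L (k + 1) ≤ L k + η := by
    by_contra hcon
    push Not at hcon
    have h1 : ∀ n : ℕ, L 0 + n * η ≤ L n := by
      intro n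
      induction n with
      | zero => simp
      | succ n ih => have := hcon n; push_cast; linarith
    obtain ⟨n, hn⟩ := exists_nat_gt ((v + 1 - L 0) / η)
    rw [div_lt_iff₀ hη0] at hn
    linarith [h1 n, hLle n]
  have hup : ∀ a, L (k + 1) < a → a ∈ P (k + 1) := by
    intro a ha
    obtain ⟨a', ha', hlt⟩ := exists_lt_of_csInf_lt ⟨_, hPne (k + 1)⟩ ha
    exact hPup _ _ _ ha' hlt.le
  have hdown : ∀ a, a < L k → a ∉ P k := fun a ha h => absurd (csInf_le (hbdd k) h) (not_le.mpr ha)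
  obtain ⟨C1, i0, nL, hst⟩ := hstage k
  -- enlarge C1 to be at least 1
  have hst' : ∀ᶠ j : ℕ in atTop, Nonempty (Stage T G μ v (max C1 1) i0 j nL (Z k) (Z (k + 1))) := by
    filter_upwards [hst] with j hj
    obtain ⟨st⟩ := hj
    have hle : C1 ≤ max C1 1 := le_max_left _ _
    refine ⟨{ Gj := st.Gj, A := st.A, m := st.m, V := st.V, measA := st.measA, measm := st.measm,
              measV := st.measV, m0 := st.m0, V0 := st.V0, card := ?_, cover := st.cover,
              pack := ?_, mb := ?_, Vb := ?_, Vc := ?_ }⟩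
    · intro l
      exact (st.card l).trans (mul_le_mul_of_nonneg_right hle (Real.exp_pos _).le)
    · intro l Θ hΘ M hM
      refine (st.pack l Θ hΘ M hM).trans ?_
      exact mul_le_mul_of_nonneg_right (mul_le_mul_of_nonneg_right hle (by positivity))
        measureReal_nonneg
    · intro l g hg t ht
      refine (st.mb l g hg t ht).trans ?_
      have : 0 ≤ ∑ i ∈ Finset.Icc i0 (2 * j), st.V l i g t :=
        Finset.sum_nonneg (fun i _ => st.V0 l i g hg t)
      exact add_le_add hle (mul_le_mul_of_nonneg_right hle this)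
    · intro l i g hg t
      exact (st.Vb l i g hg t).trans (mul_le_mul_of_nonneg_right hle (hZ0 _ _ _))
    · intro l i hi t
      refine (st.Vc l i hi t).trans ?_
      exact mul_le_mul_of_nonneg_right (mul_le_mul_of_nonneg_right hle (Real.exp_pos _).le)
        (hZ0 _ _ _)
  refine stage_contra (T := T) (G := G) (μ := μ) hμ (v := v) (ε := ε) (lam := L k) (η := η)
    (C1 := max C1 1) hε hεv (hLge k) hη0 ?_ (le_max_right _ _) i0 nL (Z k) (Z (k + 1)) (hZm k)
    (hZ0 k) (hZm (k + 1)) (hZ0 (k + 1)) (hZmono k) (hub (k + 1)) ?_ ?_ hst'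
  · rw [hη]; field_simp; exact le_rfl
  · have h1 : L k - η ∉ P k := hdown _ (by linarith)
    have h2 : ∃ᶠ i : ℕ in atTop, ¬ ∫ t, Z k i t ∂μ ≤ Real.exp ((L k - η) * i) := by
      rw [Filter.Frequently]
      intro h3
      exact h1 (by filter_upwards [h3] with i hi; exact not_not.mp hi)
    exact h2.mono (fun i hi => (not_le.mp hi).le)
  · exact hup _ (by linarith)

end final

end Crest.Agent.R193.Count
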