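import Mathlib
import Crest.Agent.R193.Planar1
import Crest.Agent.R202.Miranda

/-!
# R193 planar toolkit 2 (helper983): the crossing lemma, transfer to `X ≃ₜ S²`
-/

set_option autoImplicit false

open Set Filter Topology Metric
open scoped Pointwise

namespace Crest.Agent.R193.Planar

/-! ### crossing lemma for two paths, two connected open sets, two continua in a rectangle -/

/-- Two paths in the square `[-1,1]²`, one from the left side to the right side, the other from the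
bottom to the top, meet. -/
theorem paths_cross {h v : ℝ → ℝ × ℝ} (hh : ContinuousOn h (Icc (-1) 1))
    (hv : ContinuousOn v (Icc (-1) 1))
    (hvx : ∀ t ∈ Icc (-1 : ℝ) 1, (v t).1 ∈ Icc (h (-1)).1 (h 1).1)
    (hhy : ∀ s ∈ Icc (-1 : ℝ) 1, (h s).2 ∈ Icc (v (-1)).2 (v 1).2) :
    ∃ s ∈ Icc (-1 : ℝ) 1, ∃ t ∈ Icc (-1 : ℝ) 1, h s = v t := by
  set f : (Fin 2 → ℝ) → Fin 2 → ℝ := fun x => ![(h (x 0)).1 - (v (x 1)).1, (v (x 1)).2 - (h (x 0)).2]
    with hf
  have hmem : ∀ x ∈ Set.pi (Set.univ : Set (Fin 2)) (fun _ => Set.Icc (-1 : ℝ) 1), ∀ i,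
      x i ∈ Icc (-1 : ℝ) 1 := fun x hx i => hx i (mem_univ i)
  have hcont : ContinuousOn f (Set.pi Set.univ fun _ => Set.Icc (-1 : ℝ) 1) := by
    have h1 : ContinuousOn (fun x : Fin 2 → ℝ => h (x 0))
        (Set.pi Set.univ fun _ => Set.Icc (-1 : ℝ) 1) :=
      hh.comp (continuous_apply 0).continuousOn fun x hx => hmem x hx 0
    have h2 : ContinuousOn (fun x : Fin 2 → ℝ => v (x 1))
        (Set.pi Set.univ fun _ => Set.Icc (-1 : ℝ) 1) :=
      hv.comp (continuous_apply 1).continuousOn fun x hx => hmem x hx 1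
    rw [continuousOn_pi]
    intro i
    fin_cases i
    · exact h1.fst.sub h2.fst
    · exact h2.snd.sub h1.snd
  obtain ⟨x, hx, hx0⟩ := R202.poincare_miranda f hcont
    (by
      intro x hx i hi
      fin_cases i
      · have := (hvx (x 1) (hmem x hx 1)).2
        simp only [Fin.zero_eta, Fin.isValue] at hi
        simp only [hf, Fin.zero_eta, Fin.isValue, Matrix.cons_val_zero, hi]
        linarith
      · have := (hhy (x 0) (hmem x hx 0)).2
        simp only [Fin.mk_one, Fin.isValue] at hi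
        simp only [hf, Fin.mk_one, Fin.isValue, Matrix.cons_val_one, hi]
        simpa using this)
    (by
      intro x hx i hi
      fin_cases i
      · have := (hvx (x 1) (hmem x hx 1)).1
        simp only [Fin.zero_eta, Fin.isValue] at hi
        simp only [hf, Fin.zero_eta, Fin.isValue, Matrix.cons_val_zero, hi]
        linarith
      · have := (hhy (x 0) (hmem x hx 0)).1
        simp only [Fin.mk_one, Fin.isValue] at hi
        simp only [hf, Fin.mk_one, Fin.isValue, Matrix.cons_val_one, hi]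
        simpa using this)
  refine ⟨x 0, hmem x hx 0, x 1, hmem x hx 1, Prod.ext ?_ ?_⟩
  · have := hx0 0
    simp only [hf, Fin.isValue, Matrix.cons_val_zero] at this
    linarith
  · have := hx0 1
    simp only [hf, Fin.isValue, Matrix.cons_val_one] at this
    have h3 : (v (x 1)).2 - (h (x 0)).2 = 0 := by simpa using this
    linarith

/-- the open `ε`-fattening of a connected set, as a sum set -/
lemma isPreconnected_add_ball {S : Set (ℝ × ℝ)} (hS : IsPreconnected S) (ε : ℝ) :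
    IsPreconnected (S + ball (0 : ℝ × ℝ) ε) := by
  rw [← Set.image2_add, ← Set.image_prod]
  exact (hS.prod (convex_ball (0 : ℝ × ℝ) ε).isPreconnected).image _ continuous_add.continuousOn

/-- path inside a connected open set, as a function on `[-1,1]` -/
lemma exists_path_Icc {W : Set (ℝ × ℝ)} (hW : IsOpen W) (hWc : IsPreconnected W) {p q : ℝ × ℝ}
    (hp : p ∈ W) (hq : q ∈ W) :
    ∃ h : ℝ → ℝ × ℝ, ContinuousOn h (Icc (-1) 1) ∧ h (-1) = p ∧ h 1 = q ∧
      ∀ s ∈ Icc (-1 : ℝ) 1, h s ∈ W := by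
  have hpc : IsPathConnected W := hW.isConnected_iff_isPathConnected.1 ⟨⟨p, hp⟩, hWc⟩
  obtain ⟨γ, hγ⟩ := hpc.joinedIn p hp q hq
  refine ⟨fun s => γ.extend ((s + 1) / 2), ?_, ?_, ?_, ?_⟩
  · exact (γ.continuous_extend.comp (by fun_prop)).continuousOn
  · simp
  · norm_num
  · intro s hs
    have : (s + 1) / 2 ∈ Icc (0 : ℝ) 1 := ⟨by linarith [hs.1], by linarith [hs.2]⟩
    show γ.extend ((s + 1) / 2) ∈ W
    rw [γ.extend_apply this]
    exact hγ _

/-- **Crossing lemma.** `H`, `V` compact connected sets in the plane, `V` inside the vertical strip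
`a ≤ x ≤ b` reaching from `y ≤ c` to `y ≥ d`, `H` inside the horizontal strip `c ≤ y ≤ d` reaching
from `x ≤ a` to `x ≥ b`. Then `H` and `V` meet. -/
theorem continua_cross {a b c d : ℝ} {H V : Set (ℝ × ℝ)} (hH : IsCompact H) (hV : IsCompact V)
    (hHc : IsPreconnected H) (hVc : IsPreconnected V)
    (hHy : ∀ p ∈ H, p.2 ∈ Icc c d) (hVx : ∀ p ∈ V, p.1 ∈ Icc a b)
    (hH1 : ∃ p ∈ H, p.1 ≤ a) (hH2 : ∃ p ∈ H, b ≤ p.1)
    (hV1 : ∃ p ∈ V, p.2 ≤ c) (hV2 : ∃ p ∈ V, d ≤ p.2) : (H ∩ V).Nonempty := by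
  by_contra hcon
  rw [not_nonempty_iff_eq_empty] at hcon
  have hno : ∀ p ∈ H, p ∉ V := fun p h1 h2 => by
    have : p ∈ H ∩ V := ⟨h1, h2⟩
    rw [hcon] at this
    exact this
  obtain ⟨p1, hp1, hp1a⟩ := hH1
  obtain ⟨p2, hp2, hp2b⟩ := hH2
  obtain ⟨q1, hq1, hq1c⟩ := hV1
  obtain ⟨q2, hq2, hq2d⟩ := hV2
  -- extended continua
  set S1 : Set (ℝ × ℝ) := Icc (p1.1 - 1) p1.1 ×ˢ {p1.2} with hS1
  set S2' : Set (ℝ × ℝ) := Icc p2.1 (p2.1 + 1) ×ˢ {p2.2} with hS2
  set T1 : Set (ℝ × ℝ) := {q1.1} ×ˢ Icc (q1.2 - 1) q1.2 with hT1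
  set T2 : Set (ℝ × ℝ) := {q2.1} ×ˢ Icc q2.2 (q2.2 + 1) with hT2
  have m1 : p1 ∈ S1 := ⟨⟨by linarith, le_rfl⟩, rfl⟩
  have m2 : p2 ∈ S2' := ⟨⟨le_rfl, by linarith⟩, rfl⟩
  have m3 : q1 ∈ T1 := ⟨rfl, ⟨by linarith, le_rfl⟩⟩
  have m4 : q2 ∈ T2 := ⟨rfl, ⟨le_rfl, by linarith⟩⟩
  set H' := H ∪ S1 ∪ S2' with hH'
  set V' := V ∪ T1 ∪ T2 with hV'
  have hHcon : IsPreconnected H' :=
    (hHc.union p1 hp1 m1 (isPreconnected_Icc.prod isPreconnected_singleton)).union p2 (Or.inl hp2) m2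
      (isPreconnected_Icc.prod isPreconnected_singleton)
  have hVcon : IsPreconnected V' :=
    (hVc.union q1 hq1 m3 (isPreconnected_singleton.prod isPreconnected_Icc)).union q2 (Or.inl hq2) m4
      (isPreconnected_singleton.prod isPreconnected_Icc)
  have hHcpt : IsCompact H' :=
    (hH.union (isCompact_Icc.prod isCompact_singleton)).union (isCompact_Icc.prod isCompact_singleton)
  have hVcpt : IsCompact V' :=
    (hV.union (isCompact_singleton.prod isCompact_Icc)).union (isCompact_singleton.prod isCompact_Icc)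
  have hH'y : ∀ p ∈ H', p.2 ∈ Icc c d := by
    rintro p ((h | h) | h)
    · exact hHy p h
    · have : p.2 = p1.2 := h.2
      rw [this]; exact hHy p1 hp1
    · have : p.2 = p2.2 := h.2
      rw [this]; exact hHy p2 hp2
  have hV'x : ∀ p ∈ V', p.1 ∈ Icc a b := by
    rintro p ((h | h) | h)
    · exact hVx p h
    · have : p.1 = q1.1 := h.1
      rw [this]; exact hVx q1 hq1
    · have : p.1 = q2.1 := h.1
      rw [this]; exact hVx q2 hq2
  have hdis : Disjoint H' V' := by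
    rw [disjoint_left]
    intro p hpH hpV
    have hy := hH'y p hpH
    have hx := hV'x p hpV
    -- `p ∈ H`
    have hpH0 : p ∈ H := by
      rcases hpH with (h | h) | h
      · exact h
      · have h1 : p.1 ≤ p1.1 := h.1.2
        have h2 : p.1 = p1.1 := le_antisymm h1 (hp1a.trans hx.1)
        have h3 : p = p1 := Prod.ext h2 h.2
        rw [h3]; exact hp1
      · have h1 : p2.1 ≤ p.1 := h.1.1
        have h2 : p.1 = p2.1 := le_antisymm (hx.2.trans hp2b) h1
        have h3 : p = p2 := Prod.ext h2 h.2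
        rw [h3]; exact hp2
    have hpV0 : p ∈ V := by
      rcases hpV with (h | h) | h
      · exact h
      · have h1 : p.2 ≤ q1.2 := h.2.2
        have h2 : p.2 = q1.2 := le_antisymm h1 (hq1c.trans hy.1)
        have h3 : p = q1 := Prod.ext h.1 h2
        rw [h3]; exact hq1
      · have h1 : q2.2 ≤ p.2 := h.2.1
        have h2 : p.2 = q2.2 := le_antisymm (hy.2.trans hq2d) h1
        have h3 : p = q2 := Prod.ext h.1 h2
        rw [h3]; exact hq2
    exact hno p hpH0 hpV0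
  obtain ⟨δ, hδ, hδd⟩ := hdis.exists_thickenings hHcpt hVcpt.isClosed
  set ε := min δ (1 / 2) with hε
  have hε0 : 0 < ε := lt_min hδ (by norm_num)
  have hε1 : ε ≤ 1 / 2 := min_le_right _ _
  have hsub : ∀ S : Set (ℝ × ℝ), S + ball (0 : ℝ × ℝ) ε ⊆ thickening δ S := by
    rintro S _ ⟨x, hx, y, hy, rfl⟩
    rw [mem_thickening_iff]
    refine ⟨x, hx, ?_⟩
    have : dist y 0 < ε := hy
    rw [dist_zero_right] at this
    show dist (x + y) x < δ
    rw [dist_eq_norm, add_sub_cancel_left]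
    exact this.trans_le (min_le_left _ _)
  have hHo : IsOpen (H' + ball (0 : ℝ × ℝ) ε) := isOpen_ball.add_left
  have hVo : IsOpen (V' + ball (0 : ℝ × ℝ) ε) := isOpen_ball.add_left
  have hmemadd : ∀ S : Set (ℝ × ℝ), ∀ x ∈ S, x ∈ S + ball (0 : ℝ × ℝ) ε := fun S x hx =>
    ⟨x, hx, 0, mem_ball_self hε0, add_zero x⟩
  obtain ⟨h, hh, hh1, hh2, hhm⟩ := exists_path_Icc hHo (isPreconnected_add_ball hHcon ε)
    (p := (p1.1 - 1, p1.2)) (q := (p2.1 + 1, p2.2))
    (hmemadd _ _ (Or.inl (Or.inr ⟨⟨le_rfl, by linarith⟩, rfl⟩)))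
    (hmemadd _ _ (Or.inr ⟨⟨by linarith, le_rfl⟩, rfl⟩))
  obtain ⟨v, hv, hv1, hv2, hvm⟩ := exists_path_Icc hVo (isPreconnected_add_ball hVcon ε)
    (p := (q1.1, q1.2 - 1)) (q := (q2.1, q2.2 + 1))
    (hmemadd _ _ (Or.inl (Or.inr ⟨rfl, ⟨le_rfl, by linarith⟩⟩)))
    (hmemadd _ _ (Or.inr ⟨rfl, ⟨by linarith, le_rfl⟩⟩))
  have hcoord : ∀ y : ℝ × ℝ, y ∈ ball (0 : ℝ × ℝ) ε → |y.1| < ε ∧ |y.2| < ε := by
    intro y hy
    have h3 : dist y 0 < ε := hy
    rw [dist_zero_right, Prod.norm_def] at h3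
    exact ⟨(le_max_left _ _).trans_lt h3, (le_max_right _ _).trans_lt h3⟩
  obtain ⟨s, hs, t, ht, hst⟩ := paths_cross hh hv
    (by
      intro t ht
      obtain ⟨x, hx, y, hy, hxy⟩ := hvm t ht
      have h3 := hcoord y hy
      have h4 := hV'x x hx
      have h5 : (v t).1 = x.1 + y.1 := by rw [← hxy]; rfl
      rw [hh1, hh2, h5]
      have h6 := abs_lt.1 h3.1
      constructor
      · show p1.1 - 1 ≤ _
        linarith [h4.1]
      · show _ ≤ p2.1 + 1
        linarith [h4.2])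
    (by
      intro t ht
      obtain ⟨x, hx, y, hy, hxy⟩ := hhm t ht
      have h3 := hcoord y hy
      have h4 := hH'y x hx
      have h5 : (h t).2 = x.2 + y.2 := by rw [← hxy]; rfl
      rw [hv1, hv2, h5]
      have h6 := abs_lt.1 h3.2
      constructor
      · show q1.2 - 1 ≤ _
        linarith [h4.1]
      · show _ ≤ q2.2 + 1
        linarith [h4.2])
  exact disjoint_left.1 hδd (hsub _ (hhm s hs)) (hst ▸ hsub _ (hvm t ht))

end Crest.Agent.R193.Planar
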