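import Mathlib
import Crest.Agent.R193.Defs
import Crest.Agent.R193.Planar2

/-!
# R193, block D1 (helper584): connected separating families of tiles ("loops")

From `Separates (T.un A) D E` we extract a graph-connected family of tiles, all of which meet the
closed annulus between `D` and `E`, which still separates.
-/

set_option autoImplicit false

noncomputable section

open Set Filter Topology

namespace Crest.Agent.R193.D1_Loop

open Crest.Agent.R193

section Top

variable {Z : Type} [TopologicalSpace Z]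

/-- In a connected open subset of a locally path connected space, two disjoint closed sets are joined
by a compact connected set lying in the closed region between them. -/
theorem exists_crossing [LocallyPathConnectedSpace Z] {W D E : Set Z} (hW : IsOpen W)
    (hWc : IsPreconnected W) (hD : IsClosed D) (hE : IsClosed E) (hDE : Disjoint D E)
    (h1 : (W ∩ D).Nonempty) (h2 : (W ∩ E).Nonempty) :
    ∃ c : Set Z, c ⊆ W ∧ IsCompact c ∧ IsPreconnected c ∧ (c ∩ D).Nonempty ∧ (c ∩ E).Nonempty ∧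
      c ⊆ closure (D ∪ E)ᶜ := by
  obtain ⟨x, hxW, hxD⟩ := h1
  obtain ⟨y, hyW, hyE⟩ := h2
  have hpc : IsPathConnected W := hW.isConnected_iff_isPathConnected.1 ⟨⟨x, hxW⟩, hWc⟩
  obtain ⟨γ, hγ⟩ := hpc.joinedIn x hxW y hyW
  set f : ℝ → Z := fun t => γ.extend t with hf
  have hfc : Continuous f := γ.continuous_extend
  have hfW : ∀ t, f t ∈ W := by
    intro t
    have : f t ∈ range f := mem_range_self t
    rw [hf, Path.extend_range] at this
    obtain ⟨s, hs⟩ := this
    rw [hf]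
    rw [← hs]
    exact hγ s
  have hf0 : f 0 = x := by simp [hf]
  have hf1 : f 1 = y := by simp [hf]
  -- last exit from `D`
  set S1 : Set ℝ := Icc 0 1 ∩ f ⁻¹' D with hS1
  have hS1c : IsCompact S1 := isCompact_Icc.inter_right (hD.preimage hfc)
  have hS1n : S1.Nonempty := ⟨0, ⟨le_rfl, zero_le_one⟩, by show f 0 ∈ D; rw [hf0]; exact hxD⟩
  obtain ⟨t1, ht1, ht1max⟩ := hS1c.exists_isGreatest hS1n
  set S2 : Set ℝ := Icc t1 1 ∩ f ⁻¹' E with hS2
  have hS2c : IsCompact S2 := isCompact_Icc.inter_right (hE.preimage hfc)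
  have hS2n : S2.Nonempty := ⟨1, ⟨ht1.1.2, le_rfl⟩, by show f 1 ∈ E; rw [hf1]; exact hyE⟩
  obtain ⟨t2, ht2, ht2min⟩ := hS2c.exists_isLeast hS2n
  have hne : t1 ≠ t2 := by
    rintro rfl
    exact disjoint_left.1 hDE ht1.2 ht2.2
  have hlt : t1 < t2 := lt_of_le_of_ne ht2.1.1 hne
  have hmid : ∀ t ∈ Ioo t1 t2, f t ∈ (D ∪ E)ᶜ := by
    intro t ht hDE'
    rcases hDE' with h | h
    · have : t ≤ t1 := ht1max ⟨⟨ht1.1.1.trans ht.1.le, ht.2.le.trans ht2.1.2⟩, h⟩
      exact absurd ht.1 (not_lt.2 this)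
    · have : t2 ≤ t := ht2min ⟨⟨ht.1.le, ht.2.le.trans ht2.1.2⟩, h⟩
      exact absurd ht.2 (not_lt.2 this)
  refine ⟨f '' Icc t1 t2, ?_, isCompact_Icc.image hfc, isPreconnected_Icc.image _ hfc.continuousOn,
    ⟨f t1, mem_image_of_mem _ ⟨le_rfl, hlt.le⟩, ht1.2⟩,
    ⟨f t2, mem_image_of_mem _ ⟨hlt.le, le_rfl⟩, ht2.2⟩, ?_⟩
  · rintro _ ⟨t, _, rfl⟩
    exact hfW t
  · rw [← closure_Ioo hne]
    refine (image_closure_subset_closure_image hfc).trans (closure_mono ?_)
    rintro _ ⟨t, ht, rfl⟩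
    exact hmid t ht

variable {I : Type*}

/-- Localisation: in a separating family only the members which meet the closed region between
`D` and `E` are needed. -/
theorem separates_filter [LocallyPathConnectedSpace Z] (U : I → Set Z) (hU : ∀ h, IsClosed (U h))
    {D E : Set Z} (hD : IsClosed D) (hE : IsClosed E) (hDE : Disjoint D E) (A A' : Finset I)
    (hA' : ∀ h ∈ A, (U h ∩ closure (D ∪ E)ᶜ).Nonempty → h ∈ A')
    (hs : Separates (⋃ h ∈ A, U h) D E) : Separates (⋃ h ∈ A', U h) D E := by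
  intro c hc h1 h2
  by_contra hcon
  rw [not_nonempty_iff_eq_empty] at hcon
  have hK : IsClosed (⋃ h ∈ A', U h) := isClosed_biUnion_finset fun i _ => hU i
  obtain ⟨x, hxc, hxD⟩ := h1
  have hcK : c ⊆ (⋃ h ∈ A', U h)ᶜ := fun z hz hzK => by
    have : z ∈ c ∩ ⋃ h ∈ A', U h := ⟨hz, hzK⟩
    rw [hcon] at this
    exact this
  set W := connectedComponentIn (⋃ h ∈ A', U h)ᶜ x with hW
  have hWo : IsOpen W := hK.isOpen_compl.connectedComponentIn
  have hcW : c ⊆ W := hc.subset_connectedComponentIn hxc hcK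
  obtain ⟨y, hyc, hyE⟩ := h2
  obtain ⟨c', hc'W, -, hc'c, hc'D, hc'E, hc'A⟩ := exists_crossing hWo
    isPreconnected_connectedComponentIn hD hE hDE ⟨x, hcW hxc, hxD⟩ ⟨y, hcW hyc, hyE⟩
  obtain ⟨z, hz, hzA⟩ := hs c' hc'c hc'D hc'E
  simp only [mem_iUnion, exists_prop] at hzA
  obtain ⟨h, hhA, hzh⟩ := hzA
  have hhA' : h ∈ A' := hA' h hhA ⟨z, hzh, hc'A hz⟩
  have : z ∈ (⋃ h ∈ A', U h)ᶜ := connectedComponentIn_subset _ _ (hc'W hz)
  apply this
  simp only [mem_iUnion, exists_prop]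
  exact ⟨h, hhA', hzh⟩

/-- A connected subfamily still separates smaller connected sets lying off the family. -/
theorem exists_famConn [LocallyConnectedSpace Z] [PreconnectedSpace Z] (hX : Planar.Splits Z) (U : I → Set Z)
    (hU : ∀ h, IsClosed (U h)) {D E : Set Z} (hDc : IsConnected D) (hEc : IsConnected E)
    (A : Finset I) (hs : Separates (⋃ h ∈ A, U h) D E) (hDA : ∀ h ∈ A, Disjoint (U h) D)
    (hEA : ∀ h ∈ A, Disjoint (U h) E) :
    ∃ B ⊆ A, Separates (⋃ h ∈ B, U h) D E ∧ Planar.FamConn U B ∧ B.Nonempty := by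
  classical
  obtain ⟨x, hx⟩ := hDc.nonempty
  obtain ⟨y, hy⟩ := hEc.nonempty
  have hK : IsClosed (⋃ h ∈ A, U h) := isClosed_biUnion_finset fun i _ => hU i
  have hoff : ∀ (F : Set Z), (∀ h ∈ A, Disjoint (U h) F) → ∀ z ∈ F, z ∉ ⋃ h ∈ A, U h := by
    intro F hF z hz hzK
    simp only [mem_iUnion, exists_prop] at hzK
    obtain ⟨h, hh, hzh⟩ := hzK
    exact disjoint_left.1 (hF h hh) hzh hz
  have hsep : Planar.FSep (⋃ h ∈ A, U h) x y :=
    Planar.fsep_of_forall hK (hoff D hDA x hx) (hoff E hEA y hy)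
      (fun S hS hxS hyS => hs S hS ⟨x, hxS, hx⟩ ⟨y, hyS, hy⟩)
  obtain ⟨B, hBA, hBsep, hBc⟩ := hX.exists_famConn U hU A hsep
  have hmono : ∀ z, z ∈ (⋃ h ∈ B, U h) → z ∈ ⋃ h ∈ A, U h := by
    intro z hz
    simp only [mem_iUnion, exists_prop] at hz ⊢
    obtain ⟨h, hh, hzh⟩ := hz
    exact ⟨h, hBA hh, hzh⟩
  refine ⟨B, hBA, ?_, hBc, ?_⟩
  · intro c hc h1 h2
    obtain ⟨x', hx'c, hx'D⟩ := h1
    obtain ⟨y', hy'c, hy'E⟩ := h2
    have hun : IsPreconnected (D ∪ c ∪ E) :=
      (hDc.isPreconnected.union x' hx'D hx'c hc).union y' (Or.inr hy'c) hy'E hEc.isPreconnected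
    obtain ⟨z, hz, hzB⟩ := hBsep.inter_nonempty hun (Or.inl (Or.inl hx)) (Or.inr hy)
    rcases hz with (h | h) | h
    · exact absurd (hmono z hzB) (hoff D hDA z h)
    · exact ⟨z, h, hzB⟩
    · exact absurd (hmono z hzB) (hoff E hEA z h)
  · rw [Finset.nonempty_iff_ne_empty]
    rintro rfl
    obtain ⟨z, _, hz⟩ := hBsep.inter_nonempty isPreconnected_univ (mem_univ x) (mem_univ y)
    simp at hz

end Top

section Graph

variable {Z : Type} {I : Type*}

/-- oscillation along a graph-connected family -/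
theorem osc_famConn (U : I → Set Z) [TopologicalSpace Z] (B : Finset I) (hB : Planar.FamConn U B)
    (f ρ : I → ℝ) (hρ : ∀ h ∈ B, 0 ≤ ρ h)
    (hf : ∀ h ∈ B, ∀ h' ∈ B, (U h ∩ U h').Nonempty → |f h - f h'| ≤ ρ h)
    {a b : I} (ha : a ∈ B) (hb : b ∈ B) : |f a - f b| ≤ ∑ h ∈ B, ρ h := by
  classical
  have key : ∀ a ∈ B, ∀ b ∈ B, f a < f b → f b - f a ≤ ∑ h ∈ B, ρ h := by
    intro a ha b hb hab
    have hsub : Ico (f a) (f b) ⊆ ⋃ h ∈ B, Ico (f h) (f h + ρ h) := by
      intro t ht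
      obtain ⟨h, hh, h', hh', hnot, hne⟩ := hB (B.filter fun h => f h ≤ t) (Finset.filter_subset _ _)
        ⟨a, Finset.mem_filter.2 ⟨ha, ht.1⟩⟩ (fun he => by
          have : b ∈ B.filter fun h => f h ≤ t := by rw [he]; exact hb
          exact absurd (Finset.mem_filter.1 this).2 (not_le.2 ht.2))
      have h1 := (Finset.mem_filter.1 hh)
      have h2 : t < f h' := by
        by_contra hcon
        exact hnot (Finset.mem_filter.2 ⟨hh', not_lt.1 hcon⟩)
      simp only [mem_iUnion, exists_prop]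
      refine ⟨h, h1.1, h1.2, ?_⟩
      have h3 := abs_le.1 (hf h h1.1 h' hh' hne)
      linarith [h3.1]
    have hvol := (MeasureTheory.measure_mono hsub (μ := MeasureTheory.volume)).trans
      (MeasureTheory.measure_biUnion_finset_le B _)
    rw [Real.volume_Ico] at hvol
    simp only [Real.volume_Ico, add_sub_cancel_left] at hvol
    rw [← ENNReal.ofReal_sum_of_nonneg hρ] at hvol
    exact (ENNReal.ofReal_le_ofReal_iff (Finset.sum_nonneg hρ)).1 hvol
  rcases lt_trichotomy (f a) (f b) with h | h | h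
  · rw [abs_sub_comm, abs_of_pos (by linarith)]
    exact key a ha b hb h
  · rw [h, sub_self, abs_zero]
    exact Finset.sum_nonneg hρ
  · rw [abs_of_pos (by linarith)]
    exact key b hb a ha h

/-- `f` is subharmonic at `h` (for the intersection graph of the tiles in `V`) -/
def SubAt (U : I → Set Z) (V : Finset I) (f : I → ℝ) (h : I) : Prop :=
  open scoped Classical in
  0 ≤ ∑ k ∈ V.filter (fun k => (U h ∩ U k).Nonempty), (f k - f h)

/-- discrete maximum principle inside a separating family `B` -/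
theorem max_principle [TopologicalSpace Z] [PreconnectedSpace Z] (U : I → Set Z) (V : Finset I)
    (hU : ∀ h ∈ V, IsClosed (U h)) (hUc : ∀ h ∈ V, IsConnected (U h)) (hcov : ⋃ h ∈ V, U h = univ)
    {D E : Set Z} (B : Finset I) (hBV : B ⊆ V) (hBn : B.Nonempty)
    (hs : Separates (⋃ h ∈ B, U h) D E) (f : I → ℝ) (M : ℝ)
    (hM : ∀ h ∈ V, (∃ b ∈ B, (U h ∩ U b).Nonempty) → f h ≤ M)
    (hsub : ∀ h ∈ V, (U h ∩ E).Nonempty ∨ SubAt U V f h ∨
      ∃ K : Set Z, IsPreconnected K ∧ (K ∩ E).Nonempty ∧ (U h ∩ K).Nonempty ∧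
        ∀ k ∈ V, (U k ∩ K).Nonempty → f k = f h)
    (h₀ : I) (hh₀ : h₀ ∈ V) (hD : (U h₀ ∩ D).Nonempty) : f h₀ ≤ M := by
  classical
  by_contra hcon
  push Not at hcon
  set t : Set I := {h | h ∈ V ∧ M < f h} with ht
  set r : I → I → Prop := fun i j => (U i ∩ U j).Nonempty ∧ i ∈ t ∧ j ∈ t with hr
  have hrsymm : ∀ i j, r i j → r j i := fun i j h => ⟨by rw [inter_comm]; exact h.1, h.2.2, h.2.1⟩
  set C : Set I := {h | h ∈ t ∧ Relation.ReflTransGen r h₀ h} with hC
  have hh₀C : h₀ ∈ C := ⟨⟨hh₀, hcon⟩, Relation.ReflTransGen.refl⟩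
  have hCconn : IsPreconnected (⋃ h ∈ C, U h) := by
    apply IsPreconnected.biUnion_of_reflTransGen
    · intro i hi
      exact (hUc i hi.1.1).isPreconnected
    · intro i hi j hj
      have h1 : Relation.ReflTransGen r i j := by
        refine Relation.ReflTransGen.trans ?_ hj.2
        have hsy : ∀ k, Relation.ReflTransGen r h₀ k → Relation.ReflTransGen r k h₀ := by
          intro k hk
          induction hk with
          | refl => exact Relation.ReflTransGen.refl
          | tail hab hbc ih => exact ih.head (hrsymm _ _ hbc)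
        exact hsy i hi.2
      have key : ∀ j, Relation.ReflTransGen r i j →
          Relation.ReflTransGen (fun i j => (U i ∩ U j).Nonempty ∧ i ∈ C) i j := by
        intro j hj
        induction hj with
        | refl => exact Relation.ReflTransGen.refl
        | tail hab hbc ih =>
          exact ih.tail ⟨hbc.1, hbc.2.1, hi.2.trans hab⟩
      exact key j h1
  -- `|C|` misses `|B|`
  have hCB : ∀ h ∈ C, ∀ b ∈ B, ¬ (U h ∩ U b).Nonempty := fun h hh b hb hne =>
    absurd (hM h hh.1.1 ⟨b, hb, hne⟩) (not_le.2 hh.1.2)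
  have hUnB : ∀ K : Set Z, IsPreconnected K → (∃ h ∈ C, (U h ∩ K).Nonempty) → (K ∩ E).Nonempty →
      (K ∩ ⋃ b ∈ B, U b).Nonempty := by
    intro K hK hhK hKE
    obtain ⟨h, hhC, z, hzh, hzK⟩ := hhK
    have hzC : z ∈ ⋃ h ∈ C, U h := mem_biUnion hhC hzh
    have hun : IsPreconnected ((⋃ h ∈ C, U h) ∪ K) := hCconn.union z hzC hzK hK
    obtain ⟨w, hw, hwB⟩ := hs _ hun (by
        obtain ⟨w, hw1, hw2⟩ := hD
        exact ⟨w, Or.inl (mem_biUnion hh₀C hw1), hw2⟩) (by
        obtain ⟨w, hw1, hw2⟩ := hKE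
        exact ⟨w, Or.inr hw1, hw2⟩)
    rcases hw with hw | hw
    · exfalso
      simp only [mem_iUnion, exists_prop] at hw hwB
      obtain ⟨h', hh', hwh'⟩ := hw
      obtain ⟨b, hb, hwb⟩ := hwB
      exact hCB h' hh' b hb ⟨w, hwh', hwb⟩
    · exact ⟨w, hw, hwB⟩
  have hCE : ∀ h ∈ C, ¬ (U h ∩ E).Nonempty := by
    intro h hh hne
    obtain ⟨w, hw1, hw2⟩ := hUnB (U h) (hUc h hh.1.1).isPreconnected
      ⟨h, hh, by rw [inter_self]; exact (hUc h hh.1.1).nonempty⟩ hne
    simp only [mem_iUnion, exists_prop] at hw2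
    obtain ⟨b, hb, hwb⟩ := hw2
    exact hCB h hh b hb ⟨w, hw1, hwb⟩
  have hCsub : ∀ h ∈ C, SubAt U V f h := by
    intro h hh
    rcases hsub h hh.1.1 with h1 | h1 | ⟨K, hK, hKE, hhK, hval⟩
    · exact absurd h1 (hCE h hh)
    · exact h1
    · exfalso
      obtain ⟨w, hw1, hw2⟩ := hUnB K hK ⟨h, hh, hhK⟩ hKE
      simp only [mem_iUnion, exists_prop] at hw2
      obtain ⟨b, hb, hwb⟩ := hw2
      have h2 := hval b (hBV hb) ⟨w, hwb, hw1⟩
      have h3 := hM b (hBV hb) ⟨b, hb, by rw [inter_self]; exact (hUc b (hBV hb)).nonempty⟩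
      have := hh.1.2
      linarith
  -- maximum over `C`
  have hCfin : C.Finite := V.finite_toSet.subset fun h hh => hh.1.1
  obtain ⟨m, hmC, hmax⟩ := hCfin.exists_maximalFor f C ⟨h₀, hh₀C⟩
  have hmax' : ∀ h ∈ C, f h ≤ f m := by
    intro h hh
    by_contra hlt
    push Not at hlt
    exact absurd (hmax hh hlt.le) (not_le.2 hlt)
  set Cm : Set I := {h | h ∈ C ∧ f h = f m} with hCm
  have hclosed : ∀ h ∈ Cm, ∀ k ∈ V, (U h ∩ U k).Nonempty → k ∈ Cm := by
    intro h hh k hk hne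
    have h1 := hCsub h hh.1
    unfold SubAt at h1
    have hle : ∀ j ∈ V.filter (fun k => (U h ∩ U k).Nonempty), f j - f h ≤ 0 := by
      intro j hj
      rw [Finset.mem_filter] at hj
      by_cases hjt : M < f j
      · have hjC : j ∈ C := ⟨⟨hj.1, hjt⟩, hh.1.2.tail ⟨hj.2, hh.1.1, ⟨hj.1, hjt⟩⟩⟩
        have := hmax' j hjC
        rw [hh.2]; linarith
      · have := hh.1.1.2
        push Not at hjt
        linarith
    have hzero : ∀ j ∈ V.filter (fun k => (U h ∩ U k).Nonempty), f j - f h = 0 := by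
      have hsum0 : ∑ k ∈ V.filter (fun k => (U h ∩ U k).Nonempty), (f k - f h) = 0 :=
        le_antisymm (Finset.sum_nonpos hle) h1
      exact (Finset.sum_eq_zero_iff_of_nonpos hle).1 hsum0
    have hk0 := hzero k (Finset.mem_filter.2 ⟨hk, hne⟩)
    have hkf : f k = f h := by linarith
    have hkt : M < f k := by rw [hkf]; exact hh.1.1.2
    exact ⟨⟨⟨hk, hkt⟩, hh.1.2.tail ⟨hne, hh.1.1, ⟨hk, hkt⟩⟩⟩, by rw [hkf, hh.2]⟩
  -- the tiles of `Cm` form a clopen set, hence everything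
  have hall : ∀ k ∈ V, k ∈ Cm := by
    intro k hk
    by_contra hkn
    have hcl1 : IsClosed (⋃ h ∈ V.filter (fun h => h ∈ Cm), U h) :=
      isClosed_biUnion_finset fun i hi => hU i (Finset.mem_filter.1 hi).1
    have hcl2 : IsClosed (⋃ h ∈ V.filter (fun h => h ∉ Cm), U h) :=
      isClosed_biUnion_finset fun i hi => hU i (Finset.mem_filter.1 hi).1
    obtain ⟨z, -, hz1, hz2⟩ := isPreconnected_closed_iff.1 (isPreconnected_univ (α := Z)) _ _
      hcl1 hcl2
      (by
        intro z _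
        have : z ∈ ⋃ h ∈ V, U h := by rw [hcov]; trivial
        simp only [mem_iUnion, exists_prop] at this
        obtain ⟨h, hh, hzh⟩ := this
        by_cases hhC : h ∈ Cm
        · exact Or.inl (mem_biUnion (Finset.mem_coe.2 (Finset.mem_filter.2 ⟨hh, hhC⟩)) hzh)
        · exact Or.inr (mem_biUnion (Finset.mem_coe.2 (Finset.mem_filter.2 ⟨hh, hhC⟩)) hzh))
      (by
        obtain ⟨z, hz⟩ := (hUc m hmC.1.1).nonempty
        exact ⟨z, mem_univ _, mem_biUnion (Finset.mem_coe.2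
          (Finset.mem_filter.2 ⟨hmC.1.1, ⟨hmC, rfl⟩⟩)) hz⟩)
      (by
        obtain ⟨z, hz⟩ := (hUc k hk).nonempty
        exact ⟨z, mem_univ _, mem_biUnion (Finset.mem_coe.2 (Finset.mem_filter.2 ⟨hk, hkn⟩)) hz⟩)
    simp only [mem_iUnion, exists_prop, Finset.mem_filter] at hz1 hz2
    obtain ⟨i, ⟨hiV, hiC⟩, hzi⟩ := hz1
    obtain ⟨j, ⟨hjV, hjC⟩, hzj⟩ := hz2
    exact hjC (hclosed i hiC j hjV ⟨z, hzi, hzj⟩)
  obtain ⟨b, hb⟩ := hBn
  have hbC := (hall b (hBV hb)).1
  exact hCB b hbC b hb (by rw [inter_self]; exact (hUc b (hBV hb)).nonempty)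

end Graph

end Crest.Agent.R193.D1_Loop
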