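import Crest.Agent.R193.FG1b

/-!
R193, block FG1 (fourth part): energy versus vertex modulus, and the main existence package.
-/

set_option autoImplicit false

namespace Crest.Agent.R193.FG

open Finset

variable {V : Type*} [Fintype V]

open Classical in
/-- If `ρ ≥ 0` has `ρ`-length at least `1` on (the vertex set of) every walk from `L` to `R`, then
there is a function with boundary values `0` on `L`, `1` on `R` and energy at most
`2 Δ ∑ ρ²`, where `Δ` bounds all degrees. -/
theorem exists_bc_en_le (G : SimpleGraph V) (L R : Set V) (hLR : Disjoint L R)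
    (ρ : V → ℝ) (hρ : ∀ v, 0 ≤ ρ v) (Δ : ℕ) (hΔ : ∀ v, {w | G.Adj v w}.ncard ≤ Δ)
    (hadm : ∀ l ∈ L, ∀ r ∈ R, ∀ p : G.Walk l r, 1 ≤ ∑ x ∈ p.support.toFinset, ρ x) :
    ∃ f : V → ℝ, BC L R f ∧ (∀ v, 0 ≤ f v ∧ f v ≤ 1) ∧ en G f ≤ 2 * Δ * ∑ v, ρ v ^ 2 := by
  let S : V → Set ℝ := fun v =>
    insert 1 {s | ∃ l ∈ L, ∃ p : G.Walk l v, s = ∑ x ∈ p.support.toFinset, ρ x}
  have hSnn : ∀ v, ∀ s ∈ S v, 0 ≤ s := by
    intro v s hs
    rcases hs with rfl | ⟨l, _, p, rfl⟩
    · exact zero_le_one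
    · exact Finset.sum_nonneg fun x _ => hρ x
  have hSbdd : ∀ v, BddBelow (S v) := fun v => ⟨0, fun s hs => hSnn v s hs⟩
  have hSne : ∀ v, (S v).Nonempty := fun v => ⟨1, Set.mem_insert _ _⟩
  let f : V → ℝ := fun v => if v ∈ L then 0 else sInf (S v)
  have hfL : ∀ v, v ∈ L → f v = 0 := fun v hv => if_pos hv
  have hfn : ∀ v, v ∉ L → f v = sInf (S v) := fun v hv => if_neg hv
  have hf01 : ∀ v, 0 ≤ f v ∧ f v ≤ 1 := by
    intro v
    by_cases hv : v ∈ L
    · rw [hfL v hv]; exact ⟨le_rfl, zero_le_one⟩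
    · rw [hfn v hv]
      exact ⟨le_csInf (hSne v) (hSnn v), csInf_le (hSbdd v) (Set.mem_insert _ _)⟩
  have hstep : ∀ v w, G.Adj v w → f w ≤ f v + (ρ v + ρ w) := by
    intro v w hadj
    by_cases hw : w ∈ L
    · rw [hfL w hw]
      have := (hf01 v).1
      have := hρ v
      have := hρ w
      linarith
    · rw [hfn w hw]
      by_cases hv : v ∈ L
      · rw [hfL v hv, zero_add]
        have hmem : (∑ x ∈ (SimpleGraph.Walk.cons hadj SimpleGraph.Walk.nil).support.toFinset, ρ x)
            ∈ S w := Or.inr ⟨v, hv, _, rfl⟩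
        refine (csInf_le (hSbdd w) hmem).trans ?_
        have : (SimpleGraph.Walk.cons hadj SimpleGraph.Walk.nil).support.toFinset = {v, w} := by
          ext x; simp
        rw [this, Finset.sum_pair hadj.ne]
      · rw [hfn v hv]
        have : sInf (S w) - ρ w ≤ sInf (S v) := by
          refine le_csInf (hSne v) ?_
          intro s hs
          rcases hs with rfl | ⟨l, hl, p, rfl⟩
          · have := csInf_le (hSbdd w) (Set.mem_insert 1 _)
            have := hρ w
            linarith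
          · have hmem : (∑ x ∈ (p.concat hadj).support.toFinset, ρ x) ∈ S w :=
              Or.inr ⟨l, hl, _, rfl⟩
            have h1 := csInf_le (hSbdd w) hmem
            have h2 : (p.concat hadj).support.toFinset = insert w p.support.toFinset := by
              rw [SimpleGraph.Walk.support_concat]
              ext x
              simp
            rw [h2] at h1
            have h3 : (∑ x ∈ insert w p.support.toFinset, ρ x)
                ≤ ρ w + ∑ x ∈ p.support.toFinset, ρ x := by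
              by_cases hmem : w ∈ p.support.toFinset
              · rw [Finset.insert_eq_of_mem hmem]
                linarith [hρ w]
              · rw [Finset.sum_insert hmem]
            linarith
        linarith [hρ v]
  have hfR : ∀ v ∈ R, f v = 1 := by
    intro v hv
    have hvL : v ∉ L := fun h => Set.disjoint_left.1 hLR h hv
    rw [hfn v hvL]
    refine le_antisymm (csInf_le (hSbdd v) (Set.mem_insert _ _)) (le_csInf (hSne v) ?_)
    intro s hs
    rcases hs with rfl | ⟨l, hl, p, rfl⟩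
    · exact le_rfl
    · exact hadm l hl v hv p
  refine ⟨f, ⟨hfL, hfR⟩, hf01, ?_⟩
  have hdeg : ∀ v, ((Finset.univ.filter (fun w => G.Adj v w)).card : ℝ) ≤ Δ := by
    intro v
    have := hΔ v
    rw [Set.ncard_eq_toFinset_card'] at this
    have e : (Set.toFinset {w | G.Adj v w}) = Finset.univ.filter (fun w => G.Adj v w) := by
      ext w; simp
    rw [e] at this
    exact_mod_cast this
  rw [en_def]
  have h1 : (∑ v, ∑ w, if G.Adj v w then (f v - f w) ^ 2 else 0)
      ≤ ∑ v, ∑ w, if G.Adj v w then (2 * ρ v ^ 2 + 2 * ρ w ^ 2) else 0 := by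
    refine Finset.sum_le_sum fun v _ => Finset.sum_le_sum fun w _ => ?_
    split_ifs with ha
    · have h2 : |f v - f w| ≤ ρ v + ρ w := by
        rw [abs_le]
        constructor
        · linarith [hstep v w ha]
        · linarith [hstep w v ha.symm]
      have h3 : (f v - f w) ^ 2 ≤ (ρ v + ρ w) ^ 2 := sq_le_sq' (by linarith [(abs_le.1 h2).1])
        (abs_le.1 h2).2
      nlinarith [sq_nonneg (ρ v - ρ w)]
    · exact le_rfl
  have h4 : (∑ v, ∑ w, if G.Adj v w then (2 * ρ v ^ 2 + 2 * ρ w ^ 2) else 0)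
      = (∑ v, ∑ w, if G.Adj v w then 2 * ρ v ^ 2 else 0)
        + ∑ v, ∑ w, if G.Adj v w then 2 * ρ w ^ 2 else 0 := by
    rw [← Finset.sum_add_distrib]
    refine Finset.sum_congr rfl fun v _ => ?_
    rw [← Finset.sum_add_distrib]
    refine Finset.sum_congr rfl fun w _ => ?_
    split_ifs <;> simp
  have h5 : (∑ v, ∑ w, if G.Adj v w then 2 * ρ w ^ 2 else 0)
      = ∑ v, ∑ w, if G.Adj v w then 2 * ρ v ^ 2 else 0 := by
    rw [Finset.sum_comm]
    refine Finset.sum_congr rfl fun v _ => Finset.sum_congr rfl fun w _ => ?_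
    rw [G.adj_comm]
  have h6 : (∑ v, ∑ w, if G.Adj v w then 2 * ρ v ^ 2 else 0) ≤ ∑ v, Δ * (2 * ρ v ^ 2) := by
    refine Finset.sum_le_sum fun v _ => ?_
    rw [← Finset.sum_filter, Finset.sum_const, nsmul_eq_mul]
    exact mul_le_mul_of_nonneg_right (hdeg v) (by positivity)
  have h7 : (∑ v, (Δ : ℝ) * (2 * ρ v ^ 2)) = 2 * Δ * ∑ v, ρ v ^ 2 := by
    rw [Finset.mul_sum]
    refine Finset.sum_congr rfl fun v _ => by ring
  have : (∑ v, ∑ w, if G.Adj v w then (f v - f w) ^ 2 else 0) ≤ 2 * (2 * Δ * ∑ v, ρ v ^ 2) := by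
    rw [← h7]
    linarith
  linarith

/-- Existence package: the discrete harmonic function, with `0 ≤ u ≤ 1`, minimal energy. -/
theorem exists_sol (G : SimpleGraph V) (L R : Set V) (hLR : Disjoint L R)
    (hconn : ∀ v, ∃ w, w ∈ L ∪ R ∧ G.Reachable v w) :
    ∃ u : V → ℝ, Sol G L R u ∧ (∀ v, 0 ≤ u v ∧ u v ≤ 1) ∧
      ∀ f : V → ℝ, BC L R f → en G u ≤ en G f := by
  obtain ⟨u, hu, h01, hmin⟩ := exists_min G L R hLR
  exact ⟨u, ⟨hu, fun v hL hR => min_harmonic G L R u hu hmin v hL hR, hconn⟩, h01, hmin⟩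

/-- Uniqueness: any solution minimises the energy. -/
theorem Sol.min {G : SimpleGraph V} {L R : Set V} {u : V → ℝ} (h : Sol G L R u)
    (f : V → ℝ) (hf : BC L R f) : en G u ≤ en G f := by
  have h1 : en G f = en G u + 2 * 1 * enB G u (fun v => f v - u v)
      + 1 ^ 2 * en G (fun v => f v - u v) := by
    rw [← en_add]
    congr 1
    funext v
    ring
  have h2 : enB G u (fun v => f v - u v) = 0 := by
    rw [enB_eq_lap, neg_eq_zero]
    refine Finset.sum_eq_zero fun v _ => ?_
    by_cases hL : v ∈ L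
    · rw [hf.1 v hL, h.bc.1 v hL]; ring
    · by_cases hR : v ∈ R
      · rw [hf.2 v hR, h.bc.2 v hR]; ring
      · rw [h.harm v hL hR, zero_mul]
  have := en_nonneg G (fun v => f v - u v)
  rw [h1, h2]
  linarith

open Classical in
/-- The energy of the solution is at most `2 Δ ∑ ρ²` for every admissible `ρ`. -/
theorem Sol.en_le_modulus {G : SimpleGraph V} {L R : Set V} {u : V → ℝ} (h : Sol G L R u)
    (hLR : Disjoint L R) (ρ : V → ℝ) (hρ : ∀ v, 0 ≤ ρ v) (Δ : ℕ)
    (hΔ : ∀ v, {w | G.Adj v w}.ncard ≤ Δ)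
    (hadm : ∀ l ∈ L, ∀ r ∈ R, ∀ p : G.Walk l r, 1 ≤ ∑ x ∈ p.support.toFinset, ρ x) :
    en G u ≤ 2 * Δ * ∑ v, ρ v ^ 2 := by
  obtain ⟨f, hf, _, hfe⟩ := exists_bc_en_le G L R hLR ρ hρ Δ hΔ hadm
  exact (h.min f hf).trans hfe

end Crest.Agent.R193.FG
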