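import Crest.Agent.R193.FG1b

/-!
R193, block FG1 (fifth part): oscillation inside a connected separating set.
-/

set_option autoImplicit false

namespace Crest.Agent.R193.FG

open Finset

variable {V : Type*} [Fintype V]

/-- Sum of the absolute differences over the edges at `x`. -/
noncomputable def grad (G : SimpleGraph V) (u : V → ℝ) (x : V) : ℝ := by
  classical
  exact ∑ y, if G.Adj x y then |u x - u y| else 0

open Classical in
theorem grad_def (G : SimpleGraph V) (u : V → ℝ) (x : V) :
    grad G u x = ∑ y, if G.Adj x y then |u x - u y| else 0 := by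
  unfold grad
  rfl

theorem grad_nonneg (G : SimpleGraph V) (u : V → ℝ) (x : V) : 0 ≤ grad G u x := by
  classical
  rw [grad_def]
  refine Finset.sum_nonneg fun y _ => ?_
  split_ifs
  · exact abs_nonneg _
  · exact le_rfl

theorem abs_sub_le_grad (G : SimpleGraph V) (u : V → ℝ) {x y : V} (h : G.Adj x y) :
    |u x - u y| ≤ grad G u x := by
  classical
  rw [grad_def]
  have := Finset.single_le_sum (f := fun y => if G.Adj x y then |u x - u y| else 0)
    (s := Finset.univ) (fun z _ => by split_ifs <;> [exact abs_nonneg _; exact le_rfl])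
    (Finset.mem_univ y)
  simpa [h] using this

/-- The subgraph of edges of `G` inside `N`. -/
def inside (G : SimpleGraph V) (N : Set V) : SimpleGraph V where
  Adj a b := G.Adj a b ∧ a ∈ N ∧ b ∈ N
  symm := ⟨fun _ _ h => ⟨h.1.symm, h.2.2, h.2.1⟩⟩
  loopless := ⟨fun _ h => G.loopless.irrefl _ h.1⟩

omit [Fintype V] in
theorem ConnIn.reach_inside {G : SimpleGraph V} {N : Set V} {v w : V} (h : ConnIn G N v w) :
    (inside G N).Reachable v w := by
  induction h with
  | refl => exact SimpleGraph.Reachable.refl _
  | tail _ h ih => exact ih.trans (SimpleGraph.Adj.reachable (G := inside G N) h)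

/-- Oscillation along a chain inside `N` is at most the `grad`-mass of `N`. -/
theorem abs_sub_le_sum_grad (G : SimpleGraph V) (u : V → ℝ) (N : Finset V) {v w : V}
    (h : ConnIn G (N : Set V) v w) : |u v - u w| ≤ ∑ x ∈ N, grad G u x := by
  classical
  obtain ⟨p0⟩ := h.reach_inside
  let p := p0.toPath
  have hgen : ∀ {a b : V} (q : (inside G (N : Set V)).Walk a b),
      |u a - u b| ≤ (q.support.map (grad G u)).sum := by
    intro a b q
    induction q with
    | nil => simpa using grad_nonneg G u _
    | cons hadj q ih =>
      rename_i a b c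
      rw [SimpleGraph.Walk.support_cons, List.map_cons, List.sum_cons]
      have h1 := abs_sub_le_grad G u hadj.1
      have h2 : |u a - u c| ≤ |u a - u b| + |u b - u c| := abs_sub_le _ _ _
      linarith
  by_cases hvw : v = w
  · subst hvw
    simpa using Finset.sum_nonneg fun x (_ : x ∈ N) => grad_nonneg G u x
  · have h1 := hgen p.1
    have hnd : p.1.support.Nodup := p.2.support_nodup
    have h2 : (p.1.support.map (grad G u)).sum = ∑ x ∈ p.1.support.toFinset, grad G u x :=
      (List.sum_toFinset _ hnd).symm
    have h3 : p.1.support.toFinset ⊆ N := by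
      intro x hx
      rw [List.mem_toFinset] at hx
      have hgen2 : ∀ {a b : V} (q : (inside G (N : Set V)).Walk a b), a ≠ b →
          ∀ x ∈ q.support, x ∈ N := by
        intro a b q
        induction q with
        | nil => exact fun h => absurd rfl h
        | cons hadj q ih =>
          rename_i a b c
          intro _ x hx
          rw [SimpleGraph.Walk.support_cons, List.mem_cons] at hx
          rcases hx with rfl | hx
          · exact hadj.2.1
          · by_cases hbc : b = c
            · subst hbc
              have hb : b ∈ N := hadj.2.2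
              cases q with
              | nil =>
                rw [SimpleGraph.Walk.support_nil, List.mem_singleton] at hx
                rw [hx]; exact hb
              | cons hadj2 q2 =>
                -- every vertex on a walk starting at a vertex of `N` lies in `N`
                have hgen3 : ∀ {a b : V} (q : (inside G (N : Set V)).Walk a b), a ∈ N →
                    ∀ x ∈ q.support, x ∈ N := by
                  intro a b q
                  induction q with
                  | nil =>
                    intro ha x hx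
                    rw [SimpleGraph.Walk.support_nil, List.mem_singleton] at hx
                    rw [hx]; exact ha
                  | cons hadj q ih =>
                    intro ha x hx
                    rw [SimpleGraph.Walk.support_cons, List.mem_cons] at hx
                    rcases hx with rfl | hx
                    · exact ha
                    · exact ih hadj.2.2 x hx
                exact hgen3 _ hb x hx
            · exact ih hbc x hx
      exact hgen2 p.1 hvw x hx
    rw [h2] at h1
    exact h1.trans (Finset.sum_le_sum_of_subset_of_nonneg h3 fun x _ _ => grad_nonneg G u x)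

/-- Courant–Lebesgue + maximum principle: if `N` is chain-connected and contains all outer
neighbours of `A`, then the oscillation of `u` on `A ∪ N` is at most the `grad`-mass of `N`.
`A` may meet `L` (resp. `R`) provided `N` has a vertex where `u = 0` (resp. `u = 1`). -/
theorem Sol.osc_le {G : SimpleGraph V} {L R : Set V} {u : V → ℝ} (h : Sol G L R u)
    (A : Set V) (N : Finset V) (hNe : N.Nonempty)
    (hN : ∀ v ∈ N, ∀ w ∈ N, ConnIn G (N : Set V) v w)
    (hb : ∀ v ∈ A, ∀ w, w ∉ A → G.Adj v w → w ∈ N)
    (hexit : ∀ v ∈ A, ∃ w, w ∉ A ∧ G.Reachable v w)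
    (hL : (∃ v ∈ A, v ∈ L) → ∃ x ∈ N, u x = 0)
    (hR : (∃ v ∈ A, v ∈ R) → ∃ x ∈ N, u x = 1) :
    ∀ v ∈ A ∪ (N : Set V), ∀ w ∈ A ∪ (N : Set V), |u v - u w| ≤ ∑ x ∈ N, grad G u x := by
  classical
  obtain ⟨xM, hxM, hM⟩ := Finset.exists_max_image N u hNe
  obtain ⟨xm, hxm, hm⟩ := Finset.exists_min_image N u hNe
  have hosc : u xM - u xm ≤ ∑ x ∈ N, grad G u x :=
    (le_abs_self _).trans (abs_sub_le_sum_grad G u N (hN xM hxM xm hxm))
  have hup : ∀ v ∈ A, u v ≤ u xM := by
    by_cases hAR : ∃ v ∈ A, v ∈ R
    · obtain ⟨x, hx, hx1⟩ := hR hAR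
      intro v _
      exact (h.nonneg_le_one v).2.trans (hx1 ▸ hM x hx)
    · push Not at hAR
      refine max_principle G u A (u xM) ?_ (fun v hv w hw ha => hM w (hb v hv w hw ha)) hexit
      intro v hv
      by_cases hvL : v ∈ L
      · left
        rw [h.bc.1 v hvL]
        exact (h.nonneg_le_one xM).1
      · right
        rw [h.harm v hvL (hAR v hv)]
  have hlo : ∀ v ∈ A, u xm ≤ u v := by
    by_cases hAL : ∃ v ∈ A, v ∈ L
    · obtain ⟨x, hx, hx1⟩ := hL hAL
      intro v _
      exact (hx1 ▸ hm x hx : u xm ≤ 0).trans (h.nonneg_le_one v).1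
    · push Not at hAL
      refine min_principle G u A (u xm) ?_ (fun v hv w hw ha => hm w (hb v hv w hw ha)) hexit
      intro v hv
      by_cases hvR : v ∈ R
      · left
        rw [h.bc.2 v hvR]
        exact (h.nonneg_le_one xm).2
      · right
        rw [h.harm v (hAL v hv) hvR]
  have hall : ∀ v ∈ A ∪ (N : Set V), u xm ≤ u v ∧ u v ≤ u xM := by
    intro v hv
    rcases hv with hv | hv
    · exact ⟨hlo v hv, hup v hv⟩
    · exact ⟨hm v hv, hM v hv⟩
  intro v hv w hw
  have h1 := hall v hv
  have h2 := hall w hw
  rw [abs_le]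
  constructor <;> linarith

open Classical in
/-- `∑_x grad(x)² ≤ 2 Δ en`. -/
theorem sum_grad_sq_le (G : SimpleGraph V) (u : V → ℝ) (Δ : ℕ)
    (hΔ : ∀ v, {w | G.Adj v w}.ncard ≤ Δ) :
    (∑ x, grad G u x ^ 2) ≤ 2 * Δ * en G u := by
  have hdeg : ∀ v, ((Finset.univ.filter (fun w => G.Adj v w)).card : ℝ) ≤ Δ := by
    intro v
    have := hΔ v
    rw [Set.ncard_eq_toFinset_card'] at this
    have e : (Set.toFinset {w | G.Adj v w}) = Finset.univ.filter (fun w => G.Adj v w) := by
      ext w; simp
    rw [e] at this
    exact_mod_cast this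
  have h1 : ∀ x, grad G u x ^ 2 ≤ Δ * ∑ y, if G.Adj x y then (u x - u y) ^ 2 else 0 := by
    intro x
    rw [grad_def, ← Finset.sum_filter, ← Finset.sum_filter]
    have hb := sq_sum_le_card_mul_sum_sq
      (s := Finset.univ.filter (fun w => G.Adj x w)) (f := fun y => |u x - u y|)
    simp only [sq_abs] at hb
    refine hb.trans (mul_le_mul_of_nonneg_right (hdeg x) ?_)
    exact Finset.sum_nonneg fun y _ => sq_nonneg _
  calc (∑ x, grad G u x ^ 2) ≤ ∑ x, Δ * ∑ y, (if G.Adj x y then (u x - u y) ^ 2 else 0) :=
        Finset.sum_le_sum fun x _ => h1 x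
    _ = 2 * Δ * en G u := by rw [← Finset.mul_sum, en_def]; ring

open Classical in
/-- Local version: the `grad²`-mass of a set `A` is at most `Δ` times the energy of the edges
meeting `A` (ordered pairs with first vertex in `A`). -/
theorem sum_grad_sq_le_local (G : SimpleGraph V) (u : V → ℝ) (Δ : ℕ)
    (hΔ : ∀ v, {w | G.Adj v w}.ncard ≤ Δ) (A : Finset V) :
    (∑ x ∈ A, grad G u x ^ 2)
      ≤ Δ * ∑ x ∈ A, ∑ y, if G.Adj x y then (u x - u y) ^ 2 else 0 := by
  have hdeg : ∀ v, ((Finset.univ.filter (fun w => G.Adj v w)).card : ℝ) ≤ Δ := by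
    intro v
    have := hΔ v
    rw [Set.ncard_eq_toFinset_card'] at this
    have e : (Set.toFinset {w | G.Adj v w}) = Finset.univ.filter (fun w => G.Adj v w) := by
      ext w; simp
    rw [e] at this
    exact_mod_cast this
  rw [Finset.mul_sum]
  refine Finset.sum_le_sum fun x _ => ?_
  rw [grad_def, ← Finset.sum_filter, ← Finset.sum_filter]
  have hb := sq_sum_le_card_mul_sum_sq
    (s := Finset.univ.filter (fun w => G.Adj x w)) (f := fun y => |u x - u y|)
  simp only [sq_abs] at hb
  refine hb.trans (mul_le_mul_of_nonneg_right (hdeg x) ?_)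
  exact Finset.sum_nonneg fun y _ => sq_nonneg _

end Crest.Agent.R193.FG
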