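import Mathlib
import Crest.Agent.R193.Defs

/-!
# R193, block F: shared definitions (discrete harmonic functions, potentials of a pair `(D,E)`)
-/

set_option autoImplicit false

noncomputable section

open Set Filter Topology Metric
open scoped Classical

namespace Crest.Agent.R193

variable {G Z : Type} [Group G] [MetricSpace Z] [MulAction G Z]

/-- `f : G → ℝ` is discrete harmonic at the tile `h` of level `n` -/
def HarmAt {S : Setup G Z} (T : Tiles S) (n : ℕ) (f : G → ℝ) (h : G) : Prop :=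
  ∑ h' ∈ (S.sph n).filter (fun h' => T.adj h h'), (f h' - f h) = 0

/-- discrete potential of the pair `(D, E)` at level `n` -/
structure Pot {S : Setup G Z} (T : Tiles S) (n : ℕ) (D E : Set Z) (u : G → ℝ) : Prop where
  bd : ∀ h, 0 ≤ u h ∧ u h ≤ 1
  one : ∀ h ∈ S.sph n, (T.U h ∩ D).Nonempty → u h = 1
  zero : ∀ h ∈ S.sph n, (T.U h ∩ E).Nonempty → u h = 0
  harm : ∀ h ∈ S.sph n, T.U h ∩ D = ∅ → T.U h ∩ E = ∅ → HarmAt T n u h

/-- `u` is the uniform limit of the discrete functions `un n` along the filter `ω` -/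
def DLim {S : Setup G Z} (T : Tiles S) (ω : Filter ℕ) (un : ℕ → G → ℝ) (u : C(Z, ℝ)) : Prop :=
  ∀ η > (0 : ℝ), ∀ᶠ n in ω, ∀ h ∈ S.sph n, ∀ y ∈ T.U h, |un n h - u y| ≤ η

/-- uniform bound of the level energies of `u`: the sum of the squares of the oscillations over the
shadows of level `m` is bounded -/
def OscBound (S : Setup G Z) (u : C(Z, ℝ)) : Prop :=
  ∀ R : ℝ, ∃ C : ℝ, ∀ m : ℕ, ∃ o : G → ℝ,
    (∀ h ∈ S.sph m, ∀ x ∈ S.Sh R h, ∀ y ∈ S.Sh R h, |u x - u y| ≤ o h) ∧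
    ∑ h ∈ S.sph m, o h ^ 2 ≤ C

/-- the output of D1 for the pair `(D, E)` -/
structure IsPot {S : Setup G Z} (T : Tiles S) (D E : Set Z) (u : C(Z, ℝ)) (un : ℕ → G → ℝ) :
    Prop where
  bd : ∀ x, 0 ≤ u x ∧ u x ≤ 1
  one : ∀ x ∈ D, u x = 1
  zero : ∀ x ∈ E, u x = 0
  pot : ∀ᶠ n in (hyperfilter ℕ : Filter ℕ), Pot T n D E (un n)
  lim : DLim T (hyperfilter ℕ : Filter ℕ) un u
  osc : OscBound S u

end Crest.Agent.R193
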