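import Crest.Agent.R193.F_Sep1

/-!
R193 block F (helper283): transport of `SepBound` by group elements.
-/

set_option autoImplicit false

open Set Filter Topology

namespace Crest.Agent.R193.F_Sep2

open Crest.Agent.R193 Crest.Agent.R193.F_Sep1

/-- the part of a closed separating set in the closure of `Eᶜ` separates. -/
theorem separates_inter_closure {X : Type} [TopologicalSpace X] [LocallyPathConnectedSpace X]
    {K D E : Set X} (hK : IsClosed K) (hE : IsClosed E) (hDE : Disjoint D E)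
    (h : Separates K D E) : Separates (K ∩ closure Eᶜ) D E := by
  rintro c hc ⟨a, hac, haD⟩ ⟨b, hbc, hbE⟩
  by_contra hcon
  rw [not_nonempty_iff_eq_empty] at hcon
  set O : Set X := (K ∩ closure Eᶜ)ᶜ with hO
  have hOo : IsOpen O := (hK.inter isClosed_closure).isOpen_compl
  have hcO : c ⊆ O := fun x hx hx2 => by
    have : x ∈ c ∩ (K ∩ closure Eᶜ) := ⟨hx, hx2⟩
    rw [hcon] at this; exact this
  -- path in `O`
  have hU : IsOpen (connectedComponentIn O a) := hOo.connectedComponentIn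
  have haU : a ∈ connectedComponentIn O a := mem_connectedComponentIn (hcO hac)
  have hbU : b ∈ connectedComponentIn O a := hc.subset_connectedComponentIn hac hcO hbc
  have hpc : IsPathConnected (connectedComponentIn O a) :=
    hU.isConnected_iff_isPathConnected.1
      ⟨⟨a, haU⟩, isPreconnected_connectedComponentIn⟩
  obtain ⟨γ, hγ⟩ := hpc.joinedIn a haU b hbU
  -- first hitting time of `E`
  set A : Set unitInterval := {t | γ t ∈ E} with hA
  have hAc : IsCompact A := (hE.preimage γ.continuous).isCompact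
  have hAne : A.Nonempty := ⟨1, by simp [hA, hbE]⟩
  obtain ⟨t0, ht0⟩ := hAc.exists_isLeast hAne
  have haE : a ∉ E := fun haE => (Set.disjoint_left.1 hDE) haD haE
  have ht0pos : 0 < t0 := by
    rcases (show (0:unitInterval) ≤ t0 from unitInterval.nonneg').eq_or_lt with h0 | h0
    · exfalso
      apply haE
      have := ht0.1
      rw [← h0] at this
      simpa [hA] using this
    · exact h0
  have hlt : ∀ t < t0, γ t ∈ Eᶜ := fun t ht htE => absurd (ht0.2 htE) (not_le.2 ht)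
  set c'' : Set X := γ '' Icc 0 t0 with hc''
  have hc''c : IsPreconnected c'' := (isPreconnected_Icc).image _ γ.continuous.continuousOn
  have hsub : c'' ⊆ closure Eᶜ := by
    rintro _ ⟨t, ht, rfl⟩
    have h1 : t ∈ closure (Iio t0) := by
      rw [closure_Iio' (⟨0, ht0pos⟩ : (Iio t0).Nonempty)]; exact ht.2
    exact closure_mono (by rintro _ ⟨s, hs, rfl⟩; exact hlt s hs)
      ((image_closure_subset_closure_image γ.continuous) ⟨t, h1, rfl⟩)
  obtain ⟨z, hz1, hz2⟩ := h c'' hc''c ⟨a, ⟨0, ⟨le_rfl, ht0pos.le⟩, by simp⟩, haD⟩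
    ⟨γ t0, ⟨t0, ⟨ht0pos.le, le_rfl⟩, rfl⟩, ht0.1⟩
  obtain ⟨t, ht, rfl⟩ := hz1
  exact (connectedComponentIn_subset O a (hγ t)) ⟨hz2, hsub ⟨t, ht, rfl⟩⟩

variable {G Z : Type} [Group G] [MetricSpace Z] [MulAction G Z] {S : Setup G Z}

theorem isClosed_un (T : Tiles S) (A : Finset G) : IsClosed (T.un A) :=
  isClosed_biUnion_finset fun h _ => T.isClosed h

theorem mem_sph {n : ℕ} {g : G} : g ∈ S.sph n ↔ S.len g = n := by
  unfold Setup.sph
  rw [Set.Finite.mem_toFinset]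
  rfl

theorem mem_bal {n : ℕ} {g : G} : g ∈ S.bal n ↔ S.len g ≤ n := by
  unfold Setup.bal
  rw [Set.Finite.mem_toFinset]
  rfl

/-- tiles of level `n` cover. -/
theorem exists_tile (T : Tiles S) (x : Z) (n : ℕ) : ∃ h ∈ S.sph n, x ∈ T.U h := by
  obtain ⟨g, hg, hx⟩ := S.ray x n
  refine ⟨g, mem_sph.2 hg, T.cover g ?_⟩
  show (S.len g : ℝ) - S.δ ≤ S.s x g
  rw [hg]; exact hx

/-- the number of elements comparable to a given one -/
theorem card_filter_le {P : G → Prop} [DecidablePred P] (A : Finset G) (f : G → G)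
    (hf : Function.Injective f) (N : ℕ) (h : ∀ g ∈ A, P g → S.len (f g) ≤ N) :
    (A.filter P).card ≤ (S.bal N).card := by
  apply Finset.card_le_card_of_injOn f
  · intro g hg
    rw [Finset.mem_coe, Finset.mem_filter] at hg
    exact mem_bal.2 (h g hg.1 hg.2)
  · exact hf.injOn

/-- double counting / Cauchy-Schwarz for a relation with bounded multiplicities. -/
theorem sum_sq_le {α β : Type*} (A : Finset α) (B : Finset β) (P : α → β → Prop)
    [∀ a, DecidablePred (P a)] [∀ b, DecidablePred fun a => P a b] (N : ℕ) (ρ : β → ℝ)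
    (h1 : ∀ a ∈ A, (B.filter (P a)).card ≤ N) (h2 : ∀ b ∈ B, (A.filter fun a => P a b).card ≤ N) :
    ∑ a ∈ A, (∑ b ∈ B.filter (P a), ρ b) ^ 2 ≤ (N : ℝ) ^ 2 * ∑ b ∈ B, ρ b ^ 2 := by
  have hN : (0:ℝ) ≤ N := Nat.cast_nonneg _
  calc ∑ a ∈ A, (∑ b ∈ B.filter (P a), ρ b) ^ 2
      ≤ ∑ a ∈ A, (N : ℝ) * ∑ b ∈ B.filter (P a), ρ b ^ 2 := by
        apply Finset.sum_le_sum
        intro a ha
        have := sq_sum_le_card_mul_sum_sq (s := B.filter (P a)) (f := ρ)
        refine this.trans ?_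
        have h3 : ((B.filter (P a)).card : ℝ) ≤ N := by exact_mod_cast h1 a ha
        have h4 : 0 ≤ ∑ b ∈ B.filter (P a), ρ b ^ 2 := Finset.sum_nonneg fun _ _ => sq_nonneg _
        gcongr
    _ = (N : ℝ) * ∑ b ∈ B, ((A.filter fun a => P a b).card : ℝ) * ρ b ^ 2 := by
        rw [← Finset.mul_sum]
        congr 1
        simp_rw [Finset.sum_filter]
        rw [Finset.sum_comm]
        apply Finset.sum_congr rfl
        intro b _
        rw [← Finset.sum_filter, Finset.sum_const, nsmul_eq_mul]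
    _ ≤ (N : ℝ) * ∑ b ∈ B, (N : ℝ) * ρ b ^ 2 := by
        gcongr with b hb
        exact_mod_cast h2 b hb
    _ = (N : ℝ) ^ 2 * ∑ b ∈ B, ρ b ^ 2 := by
        rw [← Finset.mul_sum]; ring

/-- multiplicity constant of the transport at "distance" `R` from the poles. -/
noncomputable def mult (T : Tiles S) (R : ℝ) : ℕ :=
  (S.bal ⌊4 * R + 4 * T.R + 8 * S.δ⌋₊).card

/-- **Transport of `SepBound`.** -/
theorem sepBound_smul [LocallyPathConnectedSpace Z] (T : Tiles S) {m : ℕ} {k : G} {R : ℝ}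
    (hR : 0 ≤ R) {D E : Set Z} (hE : IsClosed E) (hDE : Disjoint D E)
    (hB : closure Eᶜ ⊆ S.Gd R k) {L : ℝ} (hL : 0 ≤ L) (h : SepBound T m D E L) :
    SepBound T (m + S.len k) ((fun x => k • x) '' D) ((fun x => k • x) '' E)
      (L * (mult T R : ℝ) ^ 2) := by
  classical
  intro ρ hρ
  set n := m + S.len k with hn
  let P : G → G → Prop := fun h' h => ∃ z ∈ closure Eᶜ, z ∈ T.U h' ∧ k • z ∈ T.U h
  have hP : ∀ h' ∈ S.sph m, ∀ h ∈ S.sph n, P h' h →
      S.len (h'⁻¹ * (k⁻¹ * h)) ≤ ⌊4 * R + 4 * T.R + 8 * S.δ⌋₊ := by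
    intro h' hh' g hg ⟨z, hz, hz1, hz2⟩
    rw [mem_sph] at hh' hg
    apply Nat.le_floor
    exact len_le_of_mem S hR T.R_pos.le (hB hz) (T.sub _ hz1) (T.sub _ hz2) (by rw [hh', hg])
  let ρ' : G → ℝ := fun h' => ∑ g ∈ (S.sph n).filter (P h'), ρ g
  obtain ⟨A', hA'1, hA'2, hA'3⟩ := h ρ' (fun h' => Finset.sum_nonneg fun g _ => hρ g)
  refine ⟨(S.sph n).filter (fun g => ∃ h' ∈ A', P h' g), Finset.filter_subset _ _, ?_, ?_⟩
  · have hsep := separates_inter_closure (isClosed_un T A') hE hDE hA'2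
    rintro c hc ⟨a, hac, ⟨a', ha', rfl⟩⟩ ⟨b, hbc, ⟨b', hb', rfl⟩⟩
    have hc' : IsPreconnected ((fun x => k⁻¹ • x) '' c) := hc.image _ (S.cont k⁻¹).continuousOn
    obtain ⟨_, ⟨w, hw, rfl⟩, hz1, hz2⟩ := hsep _ hc'
      ⟨a', ⟨k • a', hac, by simp⟩, ha'⟩ ⟨b', ⟨k • b', hbc, by simp⟩, hb'⟩
    refine ⟨w, hw, ?_⟩
    obtain ⟨g, hg, hwg⟩ := exists_tile T w n
    simp only [Tiles.un, mem_iUnion, exists_prop] at hz1
    obtain ⟨h', hh', hz1⟩ := hz1
    simp only [Tiles.un, mem_iUnion, exists_prop]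
    refine ⟨g, ?_, hwg⟩
    rw [Finset.mem_filter]
    refine ⟨hg, h', hh', k⁻¹ • w, hz2, hz1, ?_⟩
    rwa [smul_inv_smul]
  · have h1 : ∑ g ∈ (S.sph n).filter (fun g => ∃ h' ∈ A', P h' g), ρ g ≤ ∑ h' ∈ A', ρ' h' := by
      calc ∑ g ∈ (S.sph n).filter (fun g => ∃ h' ∈ A', P h' g), ρ g
          ≤ ∑ g ∈ (S.sph n).filter (fun g => ∃ h' ∈ A', P h' g),
              ((A'.filter fun h' => P h' g).card : ℝ) * ρ g := by
            apply Finset.sum_le_sum
            intro g hg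
            rw [Finset.mem_filter] at hg
            obtain ⟨h', hh', hPg⟩ := hg.2
            have : 1 ≤ (A'.filter fun h' => P h' g).card :=
              Finset.card_pos.2 ⟨h', Finset.mem_filter.2 ⟨hh', hPg⟩⟩
            have h2 : (1:ℝ) ≤ ((A'.filter fun h' => P h' g).card : ℝ) := by exact_mod_cast this
            nlinarith [hρ g]
        _ ≤ ∑ g ∈ S.sph n, ((A'.filter fun h' => P h' g).card : ℝ) * ρ g := by
            apply Finset.sum_le_sum_of_subset_of_nonneg (Finset.filter_subset _ _)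
            intro g _ _
            exact mul_nonneg (Nat.cast_nonneg _) (hρ g)
        _ = ∑ h' ∈ A', ρ' h' := by
            simp only [ρ']
            simp_rw [Finset.sum_filter]
            rw [Finset.sum_comm]
            apply Finset.sum_congr rfl
            intro g _
            rw [← Finset.sum_filter, Finset.sum_const, nsmul_eq_mul]
    have h0 : 0 ≤ ∑ g ∈ (S.sph n).filter (fun g => ∃ h' ∈ A', P h' g), ρ g :=
      Finset.sum_nonneg fun g _ => hρ g
    have h2 : ∑ h' ∈ S.sph m, (ρ' h') ^ 2 ≤ (mult T R : ℝ) ^ 2 * ∑ g ∈ S.sph n, ρ g ^ 2 := by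
      refine sum_sq_le (S.sph m) (S.sph n) P (mult T R) ρ ?_ ?_
      · intro h' hh'
        exact card_filter_le (S := S) (S.sph n) (fun g => h'⁻¹ * (k⁻¹ * g))
          (fun a b hab => by simpa using hab) _ (fun g hg hPg => hP h' hh' g hg hPg)
      · intro g hg
        refine card_filter_le (S := S) (S.sph m) (fun h' => h'⁻¹ * (k⁻¹ * g))
          (fun a b hab => by simpa using hab) _ (fun h' hh' hPg => hP h' hh' g hg hPg)
    calc (∑ g ∈ (S.sph n).filter (fun g => ∃ h' ∈ A', P h' g), ρ g) ^ 2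
        ≤ (∑ h' ∈ A', ρ' h') ^ 2 := by gcongr
      _ ≤ L * ∑ h' ∈ S.sph m, (ρ' h') ^ 2 := hA'3
      _ ≤ L * ((mult T R : ℝ) ^ 2 * ∑ g ∈ S.sph n, ρ g ^ 2) := by gcongr
      _ = L * (mult T R : ℝ) ^ 2 * ∑ g ∈ S.sph n, ρ g ^ 2 := by ring

theorem SepBound.mono {T : Tiles S} {n : ℕ} {D E D' E' : Set Z} {L L' : ℝ}
    (h : SepBound T n D E L) (hD : D' ⊆ D) (hE : E' ⊆ E) (hL : L ≤ L') : SepBound T n D' E' L' := by
  intro ρ hρ
  obtain ⟨A, h1, h2, h3⟩ := h ρ hρ
  refine ⟨A, h1, fun c hc hcD hcE => h2 c hc (hcD.mono (inter_subset_inter_right _ hD))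
    (hcE.mono (inter_subset_inter_right _ hE)), h3.trans ?_⟩
  have : 0 ≤ ∑ h ∈ S.sph n, (ρ h) ^ 2 := Finset.sum_nonneg fun _ _ => sq_nonneg _
  gcongr

end Crest.Agent.R193.F_Sep2
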