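import Mathlib
import Crest.Agent.R193.Defs
import Crest.Agent.R193.FG1d
import Crest.Agent.R193.FG1e
import Crest.Agent.R193.Dual
import Crest.Agent.R193.F_Sep2
import Crest.Agent.R193.F_Defs

/-!
# R193, block D1 (helper584): discrete potentials of level `n` with bounded energy
-/

set_option autoImplicit false
set_option linter.unusedSectionVars false

noncomputable section

open Set Filter Topology

namespace Crest.Agent.R193.D1_Pot

open Crest.Agent.R193 Crest.Agent.R193.F_Sep2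

variable {G Z : Type} [Group G] [MetricSpace Z] [MulAction G Z] {S : Setup G Z}

open scoped Classical in
/-- gradient of `f` at the tile `h` of level `n` -/
def grad (T : Tiles S) (n : ℕ) (f : G → ℝ) (h : G) : ℝ :=
  ∑ k ∈ (S.sph n).filter (T.adj h), |f k - f h|

theorem grad_nonneg (T : Tiles S) (n : ℕ) (f : G → ℝ) (h : G) : 0 ≤ grad T n f h :=
  Finset.sum_nonneg fun _ _ => abs_nonneg _

theorem abs_sub_le_grad (T : Tiles S) {n : ℕ} (f : G → ℝ) {h k : G} (hk : k ∈ S.sph n)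
    (hadj : T.adj h k) : |f k - f h| ≤ grad T n f h := by
  classical
  unfold grad
  exact Finset.single_le_sum (f := fun k => |f k - f h|) (fun _ _ => abs_nonneg _)
    (Finset.mem_filter.2 ⟨hk, hadj⟩)

theorem adj_symm (T : Tiles S) {a b : G} (h : T.adj a b) : T.adj b a := by
  unfold Tiles.adj at *
  rwa [inter_comm]

theorem adj_self (T : Tiles S) (a : G) : T.adj a a := by
  unfold Tiles.adj
  rw [inter_self]
  exact (T.isConnected a).nonempty

/-- the intersection graph of the tiles of level `n` -/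
def tg (T : Tiles S) (n : ℕ) : SimpleGraph {h // h ∈ S.sph n} where
  Adj a b := a ≠ b ∧ T.adj a.1 b.1
  symm := ⟨fun _ _ h => ⟨h.1.symm, adj_symm T h.2⟩⟩
  loopless := ⟨fun _ h => h.1 rfl⟩

theorem tg_reachable [PreconnectedSpace Z] (T : Tiles S) (n : ℕ) (v w : {h // h ∈ S.sph n}) :
    (tg T n).Reachable v w := by
  classical
  by_contra hcon
  have hcl : ∀ P : {h // h ∈ S.sph n} → Prop, IsClosed (⋃ h ∈ {h | P h}, T.U h.1) := fun P =>
    (toFinite _).isClosed_biUnion fun i _ => T.isClosed _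
  obtain ⟨z, -, hz1, hz2⟩ := isPreconnected_closed_iff.1 (isPreconnected_univ (α := Z)) _ _
    (hcl fun h => (tg T n).Reachable v h) (hcl fun h => ¬ (tg T n).Reachable v h)
    (by
      intro z _
      obtain ⟨h, hh, hz⟩ := exists_tile T z n
      by_cases hr : (tg T n).Reachable v ⟨h, hh⟩
      · exact Or.inl (mem_biUnion (x := (⟨h, hh⟩ : {h // h ∈ S.sph n})) hr hz)
      · exact Or.inr (mem_biUnion (x := (⟨h, hh⟩ : {h // h ∈ S.sph n})) hr hz))
    (by
      obtain ⟨z, hz⟩ := (T.isConnected v.1).nonempty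
      exact ⟨z, mem_univ _, mem_biUnion (x := v) (SimpleGraph.Reachable.refl v) hz⟩)
    (by
      obtain ⟨z, hz⟩ := (T.isConnected w.1).nonempty
      exact ⟨z, mem_univ _, mem_biUnion (x := w) hcon hz⟩)
  simp only [mem_iUnion, exists_prop] at hz1 hz2
  obtain ⟨a, ha, hza⟩ := hz1
  obtain ⟨b, hb, hzb⟩ := hz2
  have ha' : (tg T n).Reachable v a := ha
  have hb' : ¬ (tg T n).Reachable v b := hb
  have hne : a ≠ b := by
    rintro rfl
    exact hb' ha'
  have : (tg T n).Adj a b := ⟨hne, ⟨z, hza, hzb⟩⟩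
  exact hb' (ha'.trans this.reachable)

open scoped Classical in
theorem walk_preconnected (T : Tiles S) (n : ℕ) {v w : {h // h ∈ S.sph n}} (p : (tg T n).Walk v w) :
    IsPreconnected (⋃ x ∈ p.support.toFinset, T.U x.1) := by
  classical
  induction p with
  | nil => simpa using (T.isConnected _).isPreconnected
  | @cons a b c h p ih =>
    have e : (⋃ x ∈ (SimpleGraph.Walk.cons h p).support.toFinset, T.U x.1)
        = T.U a.1 ∪ ⋃ x ∈ p.support.toFinset, T.U x.1 := by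
      ext z
      simp
    rw [e]
    obtain ⟨z, hz1, hz2⟩ := h.2
    refine IsPreconnected.union z hz1 ?_ (T.isConnected _).isPreconnected ih
    simp only [mem_iUnion, exists_prop]
    exact ⟨b, by simp, hz2⟩

/-- union bound for sums -/
theorem sum_le_sum_sum {α β : Type*} (c : Finset β) (P : Finset α) (f : α → Finset β) (μ : β → ℝ)
    (hμ : ∀ b, 0 ≤ μ b) (h : ∀ k ∈ c, ∃ x ∈ P, k ∈ f x) :
    ∑ k ∈ c, μ k ≤ ∑ x ∈ P, ∑ k ∈ f x, μ k := by
  classical
  calc ∑ k ∈ c, μ k ≤ ∑ k ∈ c, ∑ x ∈ P, (if k ∈ f x then μ k else 0) := by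
        refine Finset.sum_le_sum fun k hk => ?_
        obtain ⟨x, hx, hkx⟩ := h k hk
        refine le_trans (le_of_eq ?_) (Finset.single_le_sum
          (f := fun x => if k ∈ f x then μ k else 0)
          (fun y _ => by split_ifs <;> [exact hμ k; exact le_rfl]) hx)
        simp [hkx]
    _ = ∑ x ∈ P, ∑ k ∈ c, (if k ∈ f x then μ k else 0) := Finset.sum_comm
    _ ≤ ∑ x ∈ P, ∑ k ∈ f x, μ k := by
        refine Finset.sum_le_sum fun x _ => ?_
        rw [← Finset.sum_filter]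
        refine Finset.sum_le_sum_of_subset_of_nonneg ?_ fun k _ _ => hμ k
        intro k hk
        exact (Finset.mem_filter.1 hk).2

/-- degree bound -/
def DegLe (T : Tiles S) (n : ℕ) (Δ : ℕ) : Prop :=
  ∀ h ∈ S.sph n, ∀ A ⊆ S.sph n, (∀ k ∈ A, T.adj h k) → A.card ≤ Δ

theorem DegLe.card_filter {T : Tiles S} {n Δ : ℕ} (h : DegLe T n Δ) {a : G} (ha : a ∈ S.sph n)
    [DecidablePred (T.adj a)] : ((S.sph n).filter (T.adj a)).card ≤ Δ :=
  h a ha _ (Finset.filter_subset _ _) fun _ hk => (Finset.mem_filter.1 hk).2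

theorem tg_deg {T : Tiles S} {n Δ : ℕ} (hΔ : DegLe T n Δ) (v : {h // h ∈ S.sph n}) :
    {w | (tg T n).Adj v w}.ncard ≤ Δ := by
  classical
  have h1 : {w | (tg T n).Adj v w}.ncard
      = ((Subtype.val : {h // h ∈ S.sph n} → G) '' {w | (tg T n).Adj v w}).ncard :=
    (ncard_image_of_injective _ Subtype.val_injective).symm
  rw [h1]
  have h2 : ((Subtype.val : {h // h ∈ S.sph n} → G) '' {w | (tg T n).Adj v w})
      ⊆ ((S.sph n).filter (T.adj v.1) : Finset G) := by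
    rintro _ ⟨w, hw, rfl⟩
    have hw' : (tg T n).Adj v w := hw
    simp only [Finset.coe_filter]
    exact ⟨w.2, hw'.2⟩
  calc _ ≤ ((((S.sph n).filter (T.adj v.1) : Finset G) : Set G)).ncard :=
        ncard_le_ncard h2 (Finset.finite_toSet _)
    _ = ((S.sph n).filter (T.adj v.1)).card := ncard_coe_finset _
    _ ≤ Δ := hΔ.card_filter v.2

/-- extension of a function on the sphere -/
def ext (n : ℕ) (u : {h // h ∈ S.sph n} → ℝ) (h : G) : ℝ :=
  open scoped Classical in if hh : h ∈ S.sph n then u ⟨h, hh⟩ else 0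

theorem ext_apply {n : ℕ} (u : {h // h ∈ S.sph n} → ℝ) {h : G} (hh : h ∈ S.sph n) :
    ext n u h = u ⟨h, hh⟩ := by
  unfold ext
  rw [dif_pos hh]

theorem grad_eq (T : Tiles S) (n : ℕ) (u : {h // h ∈ S.sph n} → ℝ) (v : {h // h ∈ S.sph n}) :
    grad T n (ext n u) v.1 = FG.grad (tg T n) u v := by
  classical
  unfold grad
  rw [FG.grad_def, Finset.sum_filter]
  rw [← Finset.sum_attach (S.sph n), ← Finset.univ_eq_attach]
  refine Finset.sum_congr rfl fun w _ => ?_
  rw [ext_apply u w.2, ext_apply u v.2]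
  by_cases hvw : v = w
  · subst hvw
    simp
  · have hiff : (tg T n).Adj v w ↔ T.adj v.1 w.1 := ⟨fun h => h.2, fun h => ⟨hvw, h⟩⟩
    by_cases h : T.adj v.1 w.1
    · rw [if_pos h, if_pos (hiff.2 h), abs_sub_comm]
    · rw [if_neg h, if_neg (fun h' => h (hiff.1 h'))]

theorem lap_eq (T : Tiles S) (n : ℕ) (u : {h // h ∈ S.sph n} → ℝ) (v : {h // h ∈ S.sph n})
    [DecidablePred (T.adj v.1)] :
    ∑ k ∈ (S.sph n).filter (T.adj v.1), (ext n u k - ext n u v.1) = FG.lap (tg T n) u v := by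
  classical
  rw [FG.lap_def, Finset.sum_filter]
  rw [← Finset.sum_attach (S.sph n), ← Finset.univ_eq_attach]
  refine Finset.sum_congr rfl fun w _ => ?_
  rw [ext_apply u w.2, ext_apply u v.2]
  by_cases hvw : v = w
  · subst hvw
    simp
  · have hiff : (tg T n).Adj v w ↔ T.adj v.1 w.1 := ⟨fun h => h.2, fun h => ⟨hvw, h⟩⟩
    by_cases h : T.adj v.1 w.1
    · rw [if_pos h, if_pos (hiff.2 h)]
    · rw [if_neg h, if_neg (fun h' => h (hiff.1 h'))]

open scoped Classical in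
/-- **Existence of discrete potentials of bounded energy.** -/
theorem exists_pot [PreconnectedSpace Z] (T : Tiles S) {D E : Set Z} {n : ℕ} {L : ℝ}
    (hL : SepBound T n D E L) (hL0 : 0 < L) (hDn : D.Nonempty)
    (hdis : ∀ h ∈ S.sph n, ¬ ((T.U h ∩ D).Nonempty ∧ (T.U h ∩ E).Nonempty)) {Δ : ℕ}
    (hΔ : DegLe T n Δ) :
    ∃ f : G → ℝ, Pot T n D E f ∧ ∑ h ∈ S.sph n, grad T n f h ^ 2 ≤ 4 * (Δ : ℝ) ^ 4 * L := by
  classical
  let X : Finset G := S.sph n
  -- the probability on separating families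
  set Fam : Finset (Finset G) := X.powerset.filter (fun s => Separates (T.un s) D E) with hFam
  have hmemF : ∀ s, s ∈ Fam ↔ s ⊆ X ∧ Separates (T.un s) D E := by
    intro s
    rw [hFam, Finset.mem_filter, Finset.mem_powerset]
  obtain ⟨w, hw0, -, hw1, hw2⟩ := Dual.exists_prob X Fam
    (by
      obtain ⟨A, hA, hs, -⟩ := hL (fun _ => 0) (fun _ => le_rfl)
      exact ⟨A, (hmemF A).2 ⟨hA, hs⟩⟩)
    (fun s hs => ((hmemF s).1 hs).1) (1 / L) (by positivity)
    (by
      intro ρ hρ hρ1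
      obtain ⟨A, hA, hs, hle⟩ := hL ρ hρ
      have h1 := hρ1 A ((hmemF A).2 ⟨hA, hs⟩)
      rw [div_le_iff₀ hL0]
      nlinarith)
  rw [one_div_one_div] at hw2
  set μ : G → ℝ := Dual.pm Fam w with hμ
  have hμ0 : ∀ v, 0 ≤ μ v := Dual.pm_nonneg hw0
  set ρ : {h // h ∈ X} → ℝ := fun v => ∑ k ∈ X.filter (T.adj v.1), μ k with hρ
  have hρ0 : ∀ v, 0 ≤ ρ v := fun v => Finset.sum_nonneg fun k _ => hμ0 k
  -- boundary sets
  set Ls : Set {h // h ∈ X} := {v | (T.U v.1 ∩ E).Nonempty} with hLs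
  set Rs : Set {h // h ∈ X} := {v | (T.U v.1 ∩ D).Nonempty} with hRs
  have hLR : Disjoint Ls Rs := by
    rw [Set.disjoint_left]
    intro v hv1 hv2
    exact hdis v.1 v.2 ⟨hv2, hv1⟩
  have hconn : ∀ v, ∃ w', w' ∈ Ls ∪ Rs ∧ (tg T n).Reachable v w' := by
    intro v
    obtain ⟨z, hz⟩ := hDn
    obtain ⟨h, hh, hzh⟩ := exists_tile T z n
    exact ⟨⟨h, hh⟩, Or.inr ⟨z, hzh, hz⟩, tg_reachable T n _ _⟩
  obtain ⟨u, hu, hu01, -⟩ := FG.exists_sol (tg T n) Ls Rs hLR hconn
  have hadm : ∀ l ∈ Ls, ∀ r ∈ Rs, ∀ p : (tg T n).Walk l r,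
      1 ≤ ∑ x ∈ p.support.toFinset, ρ x := by
    intro l hl r hr p
    set c' : Finset G := X.filter (fun k => ∃ x ∈ p.support.toFinset, T.adj x.1 k) with hc'
    have h1 : 1 ≤ ∑ k ∈ c', μ k := by
      refine Dual.one_le_of_meets Fam w hw0 hw1 c' ?_
      intro s hs
      rw [hmemF] at hs
      obtain ⟨z, hz1, hz2⟩ := hs.2 _ (walk_preconnected T n p)
        (by
          obtain ⟨z, hz1, hz2⟩ := hr
          refine ⟨z, ?_, hz2⟩
          simp only [mem_iUnion, exists_prop]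
          exact ⟨r, by simp, hz1⟩)
        (by
          obtain ⟨z, hz1, hz2⟩ := hl
          refine ⟨z, ?_, hz2⟩
          simp only [mem_iUnion, exists_prop]
          exact ⟨l, by simp, hz1⟩)
      simp only [Tiles.un, mem_iUnion, exists_prop] at hz1 hz2
      obtain ⟨x, hx, hzx⟩ := hz1
      obtain ⟨k, hk, hzk⟩ := hz2
      exact ⟨k, hk, Finset.mem_filter.2 ⟨hs.1 hk, x, hx, ⟨z, hzx, hzk⟩⟩⟩
    have h3 : ∀ k ∈ c', ∃ x ∈ p.support.toFinset, k ∈ X.filter (T.adj x.1) := by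
      intro k hk
      rw [hc', Finset.mem_filter] at hk
      obtain ⟨hkX, x, hx, hxk⟩ := hk
      exact ⟨x, hx, Finset.mem_filter.2 ⟨hkX, hxk⟩⟩
    exact h1.trans (sum_le_sum_sum c' p.support.toFinset
      (fun x : {h // h ∈ S.sph n} => X.filter (T.adj x.1)) μ hμ0 h3)
  have hen := hu.en_le_modulus hLR ρ hρ0 Δ (tg_deg hΔ) (by convert hadm)
  -- energy of `ρ`
  have hρsq : ∑ v, ρ v ^ 2 ≤ (Δ : ℝ) ^ 2 * L := by
    have h1 : ∑ v, ρ v ^ 2 = ∑ a ∈ X, (∑ b ∈ X.filter (T.adj a), μ b) ^ 2 := by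
      rw [Finset.univ_eq_attach]
      exact Finset.sum_attach X (fun a => (∑ b ∈ X.filter (T.adj a), μ b) ^ 2)
    rw [h1]
    refine (sum_sq_le X X T.adj Δ μ ?_ ?_).trans ?_
    · intro a ha
      exact hΔ.card_filter ha
    · intro b hb
      refine hΔ b hb _ (Finset.filter_subset _ _) fun k hk => ?_
      exact adj_symm T (Finset.mem_filter.1 hk).2
    · gcongr
  refine ⟨ext n u, ⟨?_, ?_, ?_, ?_⟩, ?_⟩
  · intro h
    by_cases hh : h ∈ S.sph n
    · rw [ext_apply u hh]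
      exact hu01 _
    · unfold ext
      rw [dif_neg hh]
      exact ⟨le_rfl, zero_le_one⟩
  · intro h hh hD
    rw [ext_apply u hh]
    exact hu.bc.2 ⟨h, hh⟩ hD
  · intro h hh hE
    rw [ext_apply u hh]
    exact hu.bc.1 ⟨h, hh⟩ hE
  · intro h hh hD hE
    have h1 := lap_eq T n u ⟨h, hh⟩
    have h2 := hu.harm ⟨h, hh⟩
      (fun hL' => by
        have h3 : (T.U h ∩ E).Nonempty := hL'
        rw [hE] at h3
        exact Set.not_nonempty_empty h3)
      (fun hR' => by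
        have h3 : (T.U h ∩ D).Nonempty := hR'
        rw [hD] at h3
        exact Set.not_nonempty_empty h3)
    rw [h2] at h1
    exact h1
  · have h1 : ∑ h ∈ S.sph n, grad T n (ext n u) h ^ 2 = ∑ v, FG.grad (tg T n) u v ^ 2 := by
      rw [Finset.univ_eq_attach, ← Finset.sum_attach (S.sph n)]
      refine Finset.sum_congr rfl fun v _ => ?_
      rw [grad_eq T n u v]
    rw [h1]
    have h2 := FG.sum_grad_sq_le (tg T n) u Δ (tg_deg hΔ)
    have hΔ0 : (0:ℝ) ≤ Δ := Nat.cast_nonneg _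
    calc ∑ v, FG.grad (tg T n) u v ^ 2 ≤ 2 * Δ * FG.en (tg T n) u := h2
      _ ≤ 2 * Δ * (2 * Δ * ∑ v, ρ v ^ 2) := by gcongr
      _ ≤ 2 * Δ * (2 * Δ * ((Δ : ℝ) ^ 2 * L)) := by gcongr
      _ = 4 * (Δ : ℝ) ^ 4 * L := by ring

end Crest.Agent.R193.D1_Pot
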