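import Mathlib
import Crest.Agent.R193.Defs
import Crest.Agent.R193.Planar2
import Crest.Agent.R193.Planar4

/-!
# R193, block D1 (helper584): topology of charts
-/

set_option autoImplicit false
set_option linter.unusedSectionVars false

noncomputable section

open Set Filter Topology Metric

namespace Crest.Agent.R193.D1_Top

open Crest.Agent.R193

/-! ### the sphere -/

theorem locallyPathConnected_S2 : LocallyPathConnectedSpace S2 :=
  ChartedSpace.locallyPathConnectedSpace (EuclideanSpace ℝ (Fin 2)) S2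

section Transfer

variable {Z : Type} [TopologicalSpace Z]

theorem locallyPathConnected (Φ : Z ≃ₜ S2) : LocallyPathConnectedSpace Z := by
  have := locallyPathConnected_S2
  exact Φ.isOpenEmbedding.locallyPathConnectedSpace

theorem locallyConnected (Φ : Z ≃ₜ S2) : LocallyConnectedSpace Z := by
  have := locallyPathConnected Φ
  infer_instance

theorem preconnected (Φ : Z ≃ₜ S2) : PreconnectedSpace Z := by
  have := Planar.S2_connected
  exact ⟨by
    have h := (isPreconnected_univ (α := S2)).image Φ.symm Φ.symm.continuous.continuousOn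
    rwa [image_univ, Φ.symm.range_coe] at h⟩

theorem splits (Φ : Z ≃ₜ S2) : Planar.Splits Z := Planar.splits_S2.of_homeo Φ

theorem compact (Φ : Z ≃ₜ S2) : CompactSpace Z := Φ.symm.compactSpace

end Transfer

/-! ### charts -/

section Chart

variable {Z : Type} [TopologicalSpace Z] [T2Space Z] (ψ : Chart Z)

theorem isCompact_D (r : ℝ) : IsCompact (ψ.D r) :=
  (isCompact_closedBall _ _).image ψ.emb.continuous

theorem isClosed_D (r : ℝ) : IsClosed (ψ.D r) := (isCompact_D ψ r).isClosed

theorem isClosed_E (r : ℝ) : IsClosed (ψ.E r) :=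
  (ψ.emb.isOpenMap _ isOpen_ball).isClosed_compl

omit [T2Space Z] in
theorem D_mono {r r' : ℝ} (h : r ≤ r') : ψ.D r ⊆ ψ.D r' :=
  image_mono (closedBall_subset_closedBall h)

omit [T2Space Z] in
theorem E_mono {r r' : ℝ} (h : r ≤ r') : ψ.E r' ⊆ ψ.E r :=
  compl_subset_compl.2 (image_mono (ball_subset_ball h))

omit [T2Space Z] in
theorem disjoint_D_E {r r' : ℝ} (h : r < r') : Disjoint (ψ.D r) (ψ.E r') := by
  rw [disjoint_left]
  intro x hx hx'
  exact hx' (image_mono (closedBall_subset_ball h) hx)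

omit [T2Space Z] in
theorem isConnected_D {r : ℝ} (hr : 0 ≤ r) : IsConnected (ψ.D r) := by
  refine ⟨?_, ?_⟩
  · exact (nonempty_closedBall.2 hr).image _
  · exact ((convex_closedBall (0 : ℝ × ℝ) r).isPreconnected).image _ ψ.emb.continuous.continuousOn

omit [T2Space Z] in
/-- the closed annulus `1 ≤ |x| ≤ 2` of the chart -/
def Ann (a b : ℝ) : Set Z := ψ.f '' {p | a ≤ dist p 0 ∧ dist p 0 ≤ b}

theorem isCompact_Ann (a b : ℝ) : IsCompact (Ann ψ a b) := by
  refine IsCompact.image ?_ ψ.emb.continuous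
  have : {p : ℝ × ℝ | a ≤ dist p 0 ∧ dist p 0 ≤ b} = closedBall 0 b ∩ {p | a ≤ dist p 0} := by
    ext p; simp only [mem_inter_iff, mem_closedBall, Set.mem_ofPred_eq]; tauto
  rw [this]
  exact (isCompact_closedBall _ _).inter_right (isClosed_le continuous_const (by fun_prop))

theorem isClosed_Ann (a b : ℝ) : IsClosed (Ann ψ a b) := (isCompact_Ann ψ a b).isClosed

theorem closure_compl_subset {a b : ℝ} : closure (ψ.D a ∪ ψ.E b)ᶜ ⊆ Ann ψ a b := by
  apply closure_minimal _ (isClosed_Ann ψ a b)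
  intro x hx
  rw [compl_union] at hx
  obtain ⟨h1, h2⟩ := hx
  unfold Chart.E at h2
  rw [compl_compl] at h2
  obtain ⟨p, hp, rfl⟩ := h2
  refine ⟨p, ⟨?_, (mem_ball.1 hp).le⟩, rfl⟩
  by_contra hcon
  push Not at hcon
  exact h1 ⟨p, mem_closedBall.2 hcon.le, rfl⟩

omit [T2Space Z] in
theorem disjoint_D_Ann {r a b : ℝ} (h : r < a) : Disjoint (ψ.D r) (Ann ψ a b) := by
  rw [disjoint_left]
  rintro x ⟨p, hp, rfl⟩ ⟨q, hq, hqp⟩
  have := ψ.emb.injective hqp
  subst this
  exact absurd (mem_closedBall.1 hp) (not_le.2 (lt_of_lt_of_le h hq.1))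

omit [T2Space Z] in
theorem disjoint_E_Ann {r a b : ℝ} (h : b < r) : Disjoint (ψ.E r) (Ann ψ a b) := by
  rw [disjoint_left]
  rintro x hx ⟨q, hq, rfl⟩
  exact hx ⟨q, mem_ball.2 (lt_of_le_of_lt hq.2 h), rfl⟩

/-- the complement of an open square of a chart is connected -/
theorem isPreconnected_E [PreconnectedSpace Z] {r : ℝ} (hr : 0 < r) : IsPreconnected (ψ.E r) := by
  set C : Set Z := ψ.f '' sphere (0 : ℝ × ℝ) r with hC
  have hCc : IsPreconnected C := by
    refine IsPreconnected.image ?_ _ ψ.emb.continuous.continuousOn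
    have hrank : 1 < Module.rank ℝ (ℝ × ℝ) := by
      rw [← Module.finrank_eq_rank, Module.finrank_prod, Module.finrank_self]
      norm_num
    exact (isConnected_sphere hrank 0 hr.le).isPreconnected
  have hCE : C ⊆ ψ.E r := by
    rintro x ⟨p, hp, rfl⟩ ⟨q, hq, hqp⟩
    have := ψ.emb.injective hqp
    subst this
    exact absurd (mem_ball.1 hq) (not_lt.2 (mem_sphere.1 hp).ge)
  have hBC : closure (ψ.f '' ball (0 : ℝ × ℝ) r) ⊆ ψ.f '' ball (0 : ℝ × ℝ) r ∪ C := by
    have h1 : ψ.f '' ball (0 : ℝ × ℝ) r ∪ C = ψ.D r := by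
      rw [hC, ← image_union]
      unfold Chart.D
      congr 1
      exact ball_union_sphere
    rw [h1]
    exact closure_minimal (image_mono ball_subset_closedBall) (isClosed_D ψ r)
  -- key: a closed subset of `E` missing `C`, with closed complement in `E`, is empty or everything
  have key : ∀ A B : Set Z, IsClosed A → IsClosed B → ψ.E r ⊆ A ∪ B → ψ.E r ∩ (A ∩ B) = ∅ →
      C ⊆ A → (ψ.E r ∩ B).Nonempty → False := by
    intro A B hA hB hcov hdis hCA hBn
    have hF : IsClosed (ψ.E r ∩ B) := (isClosed_E ψ r).inter hB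
    have hG : IsClosed (ψ.f '' ball (0 : ℝ × ℝ) r ∪ (ψ.E r ∩ A)) := by
      rw [← closure_eq_iff_isClosed]
      apply subset_antisymm _ subset_closure
      rw [closure_union]
      apply union_subset
      · refine hBC.trans (union_subset subset_union_left ?_)
        exact fun x hx => Or.inr ⟨hCE hx, hCA hx⟩
      · rw [((isClosed_E ψ r).inter hA).closure_eq]
        exact subset_union_right
    obtain ⟨z, -, hz1, hz2⟩ := isPreconnected_closed_iff.1 (isPreconnected_univ (α := Z)) _ _ hF hG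
      (by
        intro z _
        by_cases hz : z ∈ ψ.f '' ball (0 : ℝ × ℝ) r
        · exact Or.inr (Or.inl hz)
        · rcases hcov hz with h | h
          · exact Or.inr (Or.inr ⟨hz, h⟩)
          · exact Or.inl ⟨hz, h⟩)
      (by simpa using hBn)
      (by
        refine ⟨ψ.f 0, mem_univ _, Or.inl ⟨0, mem_ball_self hr, rfl⟩⟩)
    rcases hz2 with hz2 | hz2
    · exact hz1.1 hz2
    · have : z ∈ ψ.E r ∩ (A ∩ B) := ⟨hz1.1, hz2.2, hz1.2⟩
      rw [hdis] at this
      exact this
  rw [isPreconnected_closed_iff]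
  intro A B hA hB hcov hAn hBn
  by_contra hcon
  rw [not_nonempty_iff_eq_empty] at hcon
  have hCAB : C ⊆ A ∨ C ⊆ B := by
    rw [isPreconnected_closed_iff] at hCc
    by_contra hnot
    push Not at hnot
    obtain ⟨hn1, hn2⟩ := hnot
    rw [not_subset] at hn1 hn2
    obtain ⟨x, hxC, hxA⟩ := hn1
    obtain ⟨y, hyC, hyB⟩ := hn2
    obtain ⟨z, hz1, hz2⟩ := hCc A B hA hB (hCE.trans hcov)
      ⟨y, hyC, (hcov (hCE hyC)).resolve_right hyB⟩ ⟨x, hxC, (hcov (hCE hxC)).resolve_left hxA⟩
    have : z ∈ ψ.E r ∩ (A ∩ B) := ⟨hCE hz1, hz2⟩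
    rw [hcon] at this
    exact this
  rcases hCAB with h | h
  · exact key A B hA hB hcov hcon h hBn
  · exact key B A hB hA (by rwa [union_comm]) (by rwa [inter_comm B A]) h hAn

theorem nonempty_E [CompactSpace Z] [PreconnectedSpace Z] {r : ℝ} : (ψ.E r).Nonempty := by
  by_contra hcon
  rw [not_nonempty_iff_eq_empty] at hcon
  unfold Chart.E at hcon
  rw [compl_empty_iff] at hcon
  have h1 : ψ.f (r, 0) ∈ ψ.f '' ball (0 : ℝ × ℝ) r := by rw [hcon]; trivial
  obtain ⟨q, hq, hqp⟩ := h1
  have := ψ.emb.injective hqp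
  subst this
  rw [mem_ball, dist_zero_right, Prod.norm_def] at hq
  simp only [norm_zero] at hq
  have h2 := le_max_left ‖r‖ (0:ℝ)
  have h3 := le_abs_self r
  rw [Real.norm_eq_abs] at hq h2
  linarith

theorem isConnected_E [CompactSpace Z] [PreconnectedSpace Z] {r : ℝ} (hr : 0 < r) :
    IsConnected (ψ.E r) := ⟨nonempty_E ψ, isPreconnected_E ψ hr⟩

end Chart

/-! ### charts and group elements -/

section Smul

variable {G Z : Type} [Group G] [MetricSpace Z] [MulAction G Z] (S : Setup G Z)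

theorem smul_f (g : G) (ψ : Chart Z) (p : ℝ × ℝ) : (Chart.smul S g ψ).f p = g • ψ.f p := rfl

theorem smul_image (g : G) (ψ : Chart Z) (A : Set (ℝ × ℝ)) :
    (Chart.smul S g ψ).f '' A = (fun x => g • x) '' (ψ.f '' A) := by
  rw [image_image]; rfl

theorem smul_D (g : G) (ψ : Chart Z) (r : ℝ) :
    (Chart.smul S g ψ).D r = (fun x => g • x) '' (ψ.D r) := smul_image S g ψ _

theorem smul_E (g : G) (ψ : Chart Z) (r : ℝ) :
    (Chart.smul S g ψ).E r = (fun x => g • x) '' (ψ.E r) := by
  unfold Chart.E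
  rw [smul_image, image_compl_eq (MulAction.bijective g)]

end Smul

end Crest.Agent.R193.D1_Top
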