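import Mathlib
import Crest.Agent.R193.Defs
import Crest.Agent.R193.D1_Top
import Crest.Agent.R193.D1_Loop
import Crest.Agent.R193.D1_Pot

/-!
# R193, block D1 (helper584): oscillation of discrete potentials inside an annulus
-/

set_option autoImplicit false
set_option linter.unusedSectionVars false

noncomputable section

open Set Filter Topology

namespace Crest.Agent.R193.D1_Ann

open Crest.Agent.R193 Crest.Agent.R193.F_Sep2 Crest.Agent.R193.D1_Pot Crest.Agent.R193.D1_Top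

variable {G Z : Type} [Group G] [MetricSpace Z] [MulAction G Z] {S : Setup G Z}

open scoped Classical in
/-- square of the gradient on the tiles meeting `F` -/
def gradSq (T : Tiles S) (n : ℕ) (f : G → ℝ) (F : Set Z) : ℝ :=
  ∑ l ∈ (S.sph n).filter (fun l => (T.U l ∩ F).Nonempty), grad T n f l ^ 2

theorem gradSq_nonneg (T : Tiles S) (n : ℕ) (f : G → ℝ) (F : Set Z) : 0 ≤ gradSq T n f F :=
  Finset.sum_nonneg fun _ _ => sq_nonneg _

theorem gradSq_mono (T : Tiles S) (n : ℕ) (f : G → ℝ) {F F' : Set Z} (h : F ⊆ F') :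
    gradSq T n f F ≤ gradSq T n f F' := by
  classical
  unfold gradSq
  refine Finset.sum_le_sum_of_subset_of_nonneg ?_ fun _ _ _ => sq_nonneg _
  intro l hl
  rw [Finset.mem_filter] at hl ⊢
  exact ⟨hl.1, hl.2.mono (inter_subset_inter_right _ h)⟩

/-- tiles of level `n` meeting `Ann χ 1 2` miss `χ.D (1/2)` and `χ.E 3` -/
def Small (T : Tiles S) (n : ℕ) (χ : Chart Z) : Prop :=
  ∀ h ∈ S.sph n, (T.U h ∩ Ann χ 1 2).Nonempty →
    Disjoint (T.U h) (χ.D (1/2)) ∧ Disjoint (T.U h) (χ.E 3)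

/-- a loop in the annulus `Ann χ 1 2` along which the gradient is small -/
theorem exists_loop [LocallyPathConnectedSpace Z] [PreconnectedSpace Z] [CompactSpace Z]
    (hX : Planar.Splits Z) (T : Tiles S) (χ : Chart Z)
    {L : ℝ} {n : ℕ} (hsep : SepBound T n (χ.D 1) (χ.E 2) L) (hsmall : Small T n χ)
    (f : G → ℝ) :
    ∃ B : Finset G, B ⊆ S.sph n ∧ (∀ b ∈ B, (T.U b ∩ Ann χ 1 2).Nonempty) ∧
      Separates (⋃ h ∈ B, T.U h) (χ.D (1/2)) (χ.E 3) ∧ Planar.FamConn T.U B ∧ B.Nonempty ∧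
      ∑ b ∈ B, grad T n f b ≤ Real.sqrt (L * gradSq T n f (Ann χ 1 2)) := by
  classical
  set As : Finset G := (S.sph n).filter (fun l => (T.U l ∩ Ann χ 1 2).Nonempty) with hAs
  set ρ : G → ℝ := fun l => if l ∈ As then grad T n f l else 0 with hρ
  have hρ0 : ∀ h, 0 ≤ ρ h := by
    intro h
    simp only [hρ]
    split_ifs
    · exact grad_nonneg T n f h
    · exact le_rfl
  obtain ⟨A0, hA0, hA0s, hA0le⟩ := hsep ρ hρ0
  have hsum : ∑ h ∈ S.sph n, ρ h ^ 2 = gradSq T n f (Ann χ 1 2) := by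
    unfold gradSq
    rw [← hAs, ← Finset.sum_subset (Finset.filter_subset _ _ : As ⊆ S.sph n)]
    · refine Finset.sum_congr rfl fun l hl => ?_
      simp only [hρ]
      rw [if_pos hl]
    · intro l _ hl
      simp only [hρ]
      rw [if_neg hl]
      simp
  rw [hsum] at hA0le
  set A' : Finset G := A0.filter (fun l => l ∈ As) with hA'
  have hsep' : Separates (⋃ h ∈ A', T.U h) (χ.D 1) (χ.E 2) := by
    refine D1_Loop.separates_filter T.U T.isClosed (isClosed_D χ 1) (isClosed_E χ 2)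
      (disjoint_D_E χ (by norm_num)) A0 A' ?_ hA0s
    intro h hh hne
    rw [hA', Finset.mem_filter]
    refine ⟨hh, ?_⟩
    rw [hAs, Finset.mem_filter]
    exact ⟨hA0 hh, hne.mono (inter_subset_inter_right _ (closure_compl_subset χ))⟩
  have hsep'' : Separates (⋃ h ∈ A', T.U h) (χ.D (1/2)) (χ.E 3) := by
    intro c hc h1 h2
    exact hsep' c hc (h1.mono (inter_subset_inter_right _ (D_mono χ (by norm_num))))
      (h2.mono (inter_subset_inter_right _ (E_mono χ (by norm_num))))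
  have hA's : ∀ h ∈ A', h ∈ S.sph n ∧ (T.U h ∩ Ann χ 1 2).Nonempty := by
    intro h hh
    rw [hA', Finset.mem_filter, hAs, Finset.mem_filter] at hh
    exact hh.2
  obtain ⟨B, hBA, hBs, hBc, hBn⟩ := D1_Loop.exists_famConn hX T.U T.isClosed
    (isConnected_D χ (by norm_num)) (isConnected_E χ (by norm_num)) A' hsep''
    (fun h hh => (hsmall h (hA's h hh).1 (hA's h hh).2).1)
    (fun h hh => (hsmall h (hA's h hh).1 (hA's h hh).2).2)
  refine ⟨B, fun b hb => (hA's b (hBA hb)).1, fun b hb => (hA's b (hBA hb)).2, hBs, hBc, hBn, ?_⟩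
  have h1 : ∑ b ∈ B, grad T n f b ≤ ∑ h ∈ A0, ρ h := by
    calc ∑ b ∈ B, grad T n f b = ∑ b ∈ B, ρ b := by
          refine Finset.sum_congr rfl fun b hb => ?_
          have := hBA hb
          rw [hA', Finset.mem_filter] at this
          simp only [hρ]
          rw [if_pos this.2]
      _ ≤ ∑ h ∈ A0, ρ h :=
          Finset.sum_le_sum_of_subset_of_nonneg (hBA.trans (Finset.filter_subset _ _))
            fun h _ _ => hρ0 h
  refine h1.trans (Real.le_sqrt_of_sq_le ?_)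
  exact hA0le

/-- a potential is squeezed inside a loop -/
theorem pot_le [PreconnectedSpace Z] (T : Tiles S) {D E D' E' : Set Z} (hD : IsPreconnected D)
    (hE : IsPreconnected E) (hDE' : (D ∩ E').Nonempty) (hEE' : (E ∩ E').Nonempty)
    {n : ℕ} {f : G → ℝ} (hf : Pot T n D E f) (B : Finset G) (hB : B ⊆ S.sph n)
    (hBs : Separates (⋃ h ∈ B, T.U h) D' E') (hBc : Planar.FamConn T.U B) (hBn : B.Nonempty)
    {s : ℝ} (hs : ∑ b ∈ B, grad T n f b ≤ s) :
    ∀ k ∈ S.sph n, ∀ k' ∈ S.sph n, (T.U k ∩ D').Nonempty → (T.U k' ∩ D').Nonempty →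
      |f k - f k'| ≤ 4 * s := by
  classical
  obtain ⟨b0, hb0⟩ := hBn
  have hcov : ⋃ h ∈ S.sph n, T.U h = univ := by
    rw [eq_univ_iff_forall]
    intro z
    obtain ⟨h, hh, hz⟩ := exists_tile T z n
    simp only [mem_iUnion, exists_prop]
    exact ⟨h, hh, hz⟩
  have hosc : ∀ h ∈ S.sph n, (∃ b ∈ B, (T.U h ∩ T.U b).Nonempty) → |f h - f b0| ≤ 2 * s := by
    intro h hh ⟨b, hb, hne⟩
    have h1 : |f h - f b| ≤ grad T n f b := abs_sub_le_grad T f hh (adj_symm T hne)
    have h2 : grad T n f b ≤ ∑ b ∈ B, grad T n f b :=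
      Finset.single_le_sum (f := fun b => grad T n f b) (fun b _ => grad_nonneg T n f b) hb
    have h3 : |f b - f b0| ≤ ∑ b ∈ B, grad T n f b := by
      refine D1_Loop.osc_famConn T.U B hBc f (grad T n f) (fun b _ => grad_nonneg T n f b) ?_ hb hb0
      intro a ha a' ha' hne'
      rw [abs_sub_comm]
      exact abs_sub_le_grad T f (hB ha') hne'
    have h4 : f h - f b0 = (f h - f b) + (f b - f b0) := by ring
    rw [h4]
    have h5 := abs_add_le (f h - f b) (f b - f b0)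
    linarith
  have hsub : ∀ (f' : G → ℝ), (∀ h ∈ S.sph n, T.U h ∩ D = ∅ → T.U h ∩ E = ∅ →
      ∑ h' ∈ (S.sph n).filter (T.adj h), (f' h' - f' h) = 0) →
      (∀ h ∈ S.sph n, ∀ k ∈ S.sph n, (T.U h ∩ D).Nonempty → (T.U k ∩ D).Nonempty → f' k = f' h) →
      (∀ h ∈ S.sph n, ∀ k ∈ S.sph n, (T.U h ∩ E).Nonempty → (T.U k ∩ E).Nonempty → f' k = f' h) →
      ∀ h ∈ S.sph n, (T.U h ∩ E').Nonempty ∨ D1_Loop.SubAt T.U (S.sph n) f' h ∨
      ∃ K : Set Z, IsPreconnected K ∧ (K ∩ E').Nonempty ∧ (T.U h ∩ K).Nonempty ∧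
        ∀ k ∈ S.sph n, (T.U k ∩ K).Nonempty → f' k = f' h := by
    intro f' h1 h2 h3 h hh
    by_cases hhD : (T.U h ∩ D).Nonempty
    · exact Or.inr (Or.inr ⟨D, hD, hDE', hhD, fun k hk hkD => h2 h hh k hk hhD hkD⟩)
    by_cases hhE : (T.U h ∩ E).Nonempty
    · exact Or.inr (Or.inr ⟨E, hE, hEE', hhE, fun k hk hkE => h3 h hh k hk hhE hkE⟩)
    · refine Or.inr (Or.inl ?_)
      unfold D1_Loop.SubAt
      have := h1 h hh (not_nonempty_iff_eq_empty.1 hhD) (not_nonempty_iff_eq_empty.1 hhE)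
      exact le_of_eq this.symm
  have hup : ∀ k ∈ S.sph n, (T.U k ∩ D').Nonempty → f k ≤ f b0 + 2 * s := by
    intro k hk hkD
    refine D1_Loop.max_principle T.U (S.sph n) (fun h _ => T.isClosed h)
      (fun h _ => T.isConnected h) hcov B hB ⟨b0, hb0⟩ hBs f _ ?_ ?_ k hk hkD
    · intro h hh hhB
      have := (abs_le.1 (hosc h hh hhB)).2
      linarith
    · exact hsub f hf.harm (fun h hh k hk h1 h2 => by rw [hf.one h hh h1, hf.one k hk h2])
        (fun h hh k hk h1 h2 => by rw [hf.zero h hh h1, hf.zero k hk h2])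
  have hdn : ∀ k ∈ S.sph n, (T.U k ∩ D').Nonempty → f b0 - 2 * s ≤ f k := by
    intro k hk hkD
    have := D1_Loop.max_principle T.U (S.sph n) (fun h _ => T.isClosed h)
      (fun h _ => T.isConnected h) hcov B hB ⟨b0, hb0⟩ hBs (fun h => - f h) (2 * s - f b0) ?_ ?_
      k hk hkD
    · linarith
    · intro h hh hhB
      have := (abs_le.1 (hosc h hh hhB)).1
      linarith
    · refine hsub (fun h => - f h) ?_ (fun h hh k hk h1 h2 => by rw [hf.one h hh h1, hf.one k hk h2])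
        (fun h hh k hk h1 h2 => by rw [hf.zero h hh h1, hf.zero k hk h2])
      intro h hh h1 h2
      have h3 := hf.harm h hh h1 h2
      have h4 : ∑ h' ∈ (S.sph n).filter (T.adj h), (-f h' - -f h)
          = - ∑ h' ∈ (S.sph n).filter (T.adj h), (f h' - f h) := by
        rw [← Finset.sum_neg_distrib]
        exact Finset.sum_congr rfl fun _ _ => by ring
      rw [h4, h3, neg_zero]
  intro k hk k' hk' h1 h2
  rw [abs_le]
  have a1 := hup k hk h1
  have a2 := hdn k hk h1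
  have a3 := hup k' hk' h2
  have a4 := hdn k' hk' h2
  constructor <;> linarith

/-- **Annulus lemma.** -/
theorem ann_osc [LocallyPathConnectedSpace Z] [PreconnectedSpace Z] [CompactSpace Z]
    (hX : Planar.Splits Z) (T : Tiles S) {D E : Set Z} (hD : IsPreconnected D)
    (hE : IsPreconnected E) (χ : Chart Z) (hDE' : (D ∩ χ.E 3).Nonempty)
    (hEE' : (E ∩ χ.E 3).Nonempty) {L : ℝ} {n : ℕ} (hsep : SepBound T n (χ.D 1) (χ.E 2) L)
    (hsmall : Small T n χ) {f : G → ℝ} (hf : Pot T n D E f) :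
    ∀ k ∈ S.sph n, ∀ k' ∈ S.sph n, (T.U k ∩ χ.D (1/2)).Nonempty → (T.U k' ∩ χ.D (1/2)).Nonempty →
      |f k - f k'| ≤ 4 * Real.sqrt (L * gradSq T n f (Ann χ 1 2)) := by
  obtain ⟨B, hB, -, hBs, hBc, hBn, hle⟩ := exists_loop hX T χ hsep hsmall f
  exact pot_le T hD hE hDE' hEE' hf B hB hBs hBc hBn hle

end Crest.Agent.R193.D1_Ann
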