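import Mathlib
import Crest.Agent.R193.Defs
import Crest.Agent.R193.S_Basic
import Crest.Agent.R193.CH_Chart
import Crest.Agent.R193.F_Sep2
import Crest.Agent.R193.D1_Ann

/-!
# R193, block D1 (helper584): oscillations of potentials over shadows are square summable
-/

set_option autoImplicit false
set_option linter.unusedSectionVars false

noncomputable section

open Set Filter Topology Metric

namespace Crest.Agent.R193.D1_Sum

open Crest.Agent.R193 Crest.Agent.R193.D1_Pot Crest.Agent.R193.D1_Top Crest.Agent.R193.D1_Ann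

variable {G Z : Type} [Group G] [MetricSpace Z] [MulAction G Z] {S : Setup G Z}

/-- standard charts with a uniform `SepBound` -/
theorem exists_std (T : Tiles S) (Φ : Z ≃ₜ S2)
    (hM : ∀ ψ : Chart Z, ∃ L : ℝ, ∀ n : ℕ, SepBound T n (ψ.D 1) (ψ.E 2) L) (R0 : ℝ) :
    ∃ (m : ℕ) (ψ : Fin m → Chart Z) (η R L : ℝ), 0 < η ∧ 0 ≤ R ∧ 0 < L ∧ ∀ (g : G) (y : Z),
      y ∈ S.Gd R0 g → ∃ i, closedBall y η ⊆ (ψ i).f '' ball 0 (1 / 2) ∧
        (ψ i).f '' closedBall 0 3 ⊆ S.Gd R g ∧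
        ∀ n ≥ S.len g, SepBound T n ((Chart.smul S g (ψ i)).D 1)
          ((Chart.smul S g (ψ i)).E 2) L := by
  have := locallyPathConnected Φ
  obtain ⟨m, ψ, η, R, hη, hfam⟩ := CHx.exists_family S Φ R0 (r1 := 1 / 2) (r2 := 3)
    (by norm_num) (by norm_num)
  choose L hL using fun i => hM (ψ i)
  set L1 : ℝ := 1 + ∑ i, |L i| with hL1
  have hL1pos : 0 < L1 := by
    have : 0 ≤ ∑ i, |L i| := Finset.sum_nonneg fun _ _ => abs_nonneg _
    linarith
  have hLi : ∀ i, L i ≤ L1 := by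
    intro i
    have h1 := Finset.single_le_sum (f := fun i => |L i|) (fun _ _ => abs_nonneg _)
      (Finset.mem_univ i)
    have h2 := le_abs_self (L i)
    linarith
  refine ⟨m, ψ, η, max R 0, L1 * (F_Sep2.mult T (max R 0) : ℝ) ^ 2 + 1, hη, le_max_right _ _,
    by positivity, ?_⟩
  intro g y hy
  obtain ⟨i, hi1, hi2⟩ := hfam g y hy
  have hi3 : (ψ i).f '' closedBall 0 3 ⊆ S.Gd (max R 0) g :=
    hi2.trans (S_Basic.Gd_mono S (le_max_left _ _) g)
  refine ⟨i, hi1, hi3, ?_⟩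
  intro n hn
  obtain ⟨k, rfl⟩ := Nat.exists_eq_add_of_le' hn
  have hcl : closure ((ψ i).E 2)ᶜ ⊆ S.Gd (max R 0) g := by
    refine Subset.trans ?_ hi3
    unfold Chart.E
    rw [compl_compl]
    refine closure_minimal (image_mono (ball_subset_closedBall.trans
      (closedBall_subset_closedBall (by norm_num)))) ?_
    exact isClosed_D (ψ i) 3
  have h := F_Sep2.sepBound_smul T (m := k) (k := g) (le_max_right R 0) (isClosed_E (ψ i) 2)
    (disjoint_D_E (ψ i) (by norm_num)) hcl hL1pos.le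
    (F_Sep2.SepBound.mono (hL i k) subset_rfl subset_rfl (hLi i))
  rw [smul_D, smul_E]
  exact F_Sep2.SepBound.mono h subset_rfl subset_rfl (by linarith)

/-- charts around shadows, with a uniform `SepBound` -/
theorem exists_chart_Sh (T : Tiles S) (Φ : Z ≃ₜ S2)
    (hM : ∀ ψ : Chart Z, ∃ L : ℝ, ∀ n : ℕ, SepBound T n (ψ.D 1) (ψ.E 2) L) (R : ℝ) :
    ∃ (L R2 : ℝ) (c : ℕ), 0 < L ∧ 0 ≤ R2 ∧ ∀ h : G, c ≤ S.len h → (S.Sh R h).Nonempty →
      ∃ χ : Chart Z, S.Sh R h ⊆ χ.D (1 / 2) ∧ χ.f '' closedBall 0 3 ⊆ S.Sh R2 h ∧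
        ∀ n ≥ S.len h, SepBound T n (χ.D 1) (χ.E 2) L := by
  obtain ⟨m, ψ, η, R1, L, hη, hR1, hL, hstd⟩ := exists_std T Φ hM (2 * S.δ)
  have hδ := S_Basic.δ_pos S
  have hε := S.ε_pos
  -- choose `c`
  obtain ⟨c, hc⟩ : ∃ c : ℕ, R ≤ c ∧
      Real.exp (S.ε * (1 + 5 * S.δ + R)) * Real.exp (-S.ε * c) ≤ η := by
    obtain ⟨c, hc⟩ := exists_nat_ge (max R ((S.ε * (1 + 5 * S.δ + R) - Real.log η) / S.ε))
    refine ⟨c, (le_max_left _ _).trans hc, ?_⟩
    rw [← Real.exp_add, ← Real.le_log_iff_exp_le hη]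
    have h1 := (le_max_right _ _).trans hc
    rw [div_le_iff₀ hε] at h1
    linarith
  obtain ⟨hcR, hcη⟩ := hc
  refine ⟨L, c + R1 + 2 * S.δ, c, hL, by positivity, ?_⟩
  intro h hh ⟨x, hx⟩
  obtain ⟨h', hh', hlen⟩ := S.geod h (S.len h - c) (Nat.sub_le _ _)
  have hlc : (S.len h' : ℝ) = S.len h - c := by
    rw [hh', Nat.cast_sub hh]
  have hlc2 : (S.len (h'⁻¹ * h) : ℝ) = c := by
    rw [hlen]
    have : S.len h - (S.len h - c) = c := by omega
    rw [this]
  have hgp : S.gp h h' = S.len h - c := by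
    rw [S_Basic.gp_symm, S_Basic.gp_eq, hlc, hlc2]
    ring
  -- points of the shadow of `h` are in the shadow of `h'`
  have hsub : ∀ y ∈ S.Sh R h, y ∈ S.Sh S.δ h' := by
    intro y hy
    rw [S_Basic.mem_Sh] at hy ⊢
    have h1 := S_Basic.hyp_s1 S y h h'
    rw [hgp] at h1
    have h2 : (S.len h : ℝ) - c ≤ min (S.s y h) (S.len h - c) := le_min (by linarith) le_rfl
    linarith
  have hy0 : h'⁻¹ • x ∈ S.Gd (2 * S.δ) h' := by
    have := S_Basic.inv_smul_mem_Gd S (hsub x hx)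
    rwa [← two_mul] at this
  obtain ⟨i, hi1, hi2, hi3⟩ := hstd h' (h'⁻¹ • x) hy0
  refine ⟨Chart.smul S h' (ψ i), ?_, ?_, ?_⟩
  · intro y hy
    have hd : dist (h'⁻¹ • y) (h'⁻¹ • x) ≤ η := by
      have h1 := S_Basic.dist_smul_le S y x h'⁻¹
      rw [S.len_inv] at h1
      have h2 := S_Basic.dist_le_of_mem_Sh S hy hx
      refine h1.trans ?_
      calc Real.exp (S.ε * (1 + 4 * S.δ)) * Real.exp (S.ε * S.len h') * dist y x
          ≤ Real.exp (S.ε * (1 + 4 * S.δ)) * Real.exp (S.ε * S.len h') *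
            Real.exp (-S.ε * (S.len h - R - S.δ)) := by gcongr
        _ = Real.exp (S.ε * (1 + 5 * S.δ + R)) * Real.exp (-S.ε * c) := by
            rw [← Real.exp_add, ← Real.exp_add, ← Real.exp_add, hlc]
            congr 1
            ring
        _ ≤ η := hcη
    obtain ⟨p, hp, hpy⟩ := hi1 (mem_closedBall.2 hd)
    refine ⟨p, ball_subset_closedBall hp, ?_⟩
    show h' • (ψ i).f p = y
    rw [hpy, smul_inv_smul]
  · rw [smul_image]
    rintro _ ⟨z, hz, rfl⟩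
    have h1 := S_Basic.smul_mem_Sh S (hi2 hz)
    rw [S_Basic.mem_Sh] at h1 ⊢
    have h2 := S_Basic.hyp_s1 S (h' • z) h' h
    rw [S_Basic.gp_symm, hgp] at h2
    have h3 : (S.len h : ℝ) - c - R1 - S.δ ≤ min (S.s (h' • z) h') (S.len h - c) := by
      refine le_min (by rw [hlc] at h1; linarith) (by linarith)
    show (S.len h : ℝ) - (c + R1 + 2 * S.δ) ≤ S.s (h' • z) h
    linarith
  · intro n hn
    refine hi3 n (le_trans ?_ hn)
    rw [hh']
    exact Nat.sub_le _ _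

/-! ### tiles -/

theorem tile_small (T : Tiles S) {r : ℝ} (hr : 0 < r) :
    ∃ N : ℕ, ∀ n ≥ N, ∀ h ∈ S.sph n, ∀ x ∈ T.U h, ∀ y ∈ T.U h, dist x y < r := by
  have hε := S.ε_pos
  obtain ⟨N, hN⟩ := exists_nat_gt (T.R + S.δ - Real.log r / S.ε)
  refine ⟨N, fun n hn h hh x hx y hy => ?_⟩
  rw [F_Sep2.mem_sph] at hh
  refine lt_of_le_of_lt (S_Basic.dist_le_of_mem_Sh S (T.sub h hx) (T.sub h hy)) ?_
  rw [← Real.lt_log_iff_exp_lt hr, hh]
  have h1 : (N : ℝ) ≤ n := by exact_mod_cast hn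
  have h2 : T.R + S.δ - Real.log r / S.ε < n := by linarith
  have h3 : Real.log r / S.ε * S.ε = Real.log r := by field_simp
  nlinarith

theorem exists_small_level (T : Tiles S) (χ : Chart Z) : ∃ N : ℕ, ∀ n ≥ N, Small T n χ := by
  have hd : Disjoint (Ann χ 1 2) (χ.D (1 / 2) ∪ χ.E 3) := by
    rw [disjoint_union_right]
    exact ⟨(disjoint_D_Ann χ (by norm_num)).symm, (disjoint_E_Ann χ (by norm_num)).symm⟩
  obtain ⟨r, hr, hsep⟩ := Metric.exists_pos_forall_lt_edist (isCompact_Ann χ 1 2)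
    ((isClosed_D χ (1 / 2)).union (isClosed_E χ 3)) hd
  obtain ⟨N, hN⟩ := tile_small T (r := r) (by exact_mod_cast hr)
  refine ⟨N, fun n hn h hh ⟨z, hz1, hz2⟩ => ?_⟩
  have key : ∀ w ∈ T.U h, w ∉ χ.D (1 / 2) ∪ χ.E 3 := by
    intro w hw hw2
    have h1 := hsep z hz2 w hw2
    have h2 := hN n hn h hh z hz1 w hw
    rw [edist_dist, ENNReal.lt_ofReal_iff_toReal_lt (by simp)] at h1
    simp only [ENNReal.coe_toReal] at h1
    linarith
  constructor
  · rw [disjoint_left]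
    intro w hw hw2
    exact key w hw (Or.inl hw2)
  · rw [disjoint_left]
    intro w hw hw2
    exact key w hw (Or.inr hw2)

/-- valence bound -/
theorem exists_degLe (T : Tiles S) : ∃ Δ : ℕ, ∀ n, DegLe T n Δ := by
  classical
  refine ⟨(S.bal ⌊2 * T.R + 2 * S.δ⌋₊).card, fun n h hh A hA hadj => ?_⟩
  have h1 : A.filter (fun _ => True) = A := by simp
  rw [← h1]
  refine F_Sep2.card_filter_le (S := S) A (fun k => h⁻¹ * k) (fun a b hab => by simpa using hab) _ ?_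
  intro k hk _
  obtain ⟨z, hz1, hz2⟩ := hadj k hk
  apply Nat.le_floor
  rw [F_Sep2.mem_sph] at hh
  have hk' := F_Sep2.mem_sph.1 (hA hk)
  exact S_Basic.len_le_of_mem_Sh_of_eq S (hh.trans hk'.symm) (T.sub h hz1) (T.sub k hz2)

/-- overlap bound: a tile of level `n ≥ m` meets boundedly many shadows of level `m` -/
theorem exists_overlap (T : Tiles S) (R : ℝ) : ∃ N : ℕ, ∀ m n : ℕ, m ≤ n → ∀ k ∈ S.sph n,
    ∀ A ⊆ S.sph m, (∀ h ∈ A, (T.U k ∩ S.Sh R h).Nonempty) → A.card ≤ N := by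
  classical
  refine ⟨(S.bal ⌊2 * max R T.R + 4 * S.δ⌋₊).card, fun m n hmn k hk A hA hne => ?_⟩
  rcases A.eq_empty_or_nonempty with rfl | ⟨h0, hh0⟩
  · simp
  have hgp : ∀ h ∈ A, (m : ℝ) - max R T.R - S.δ ≤ S.gp k h := by
    intro h hh
    obtain ⟨z, hz1, hz2⟩ := hne h hh
    have h1 := S_Basic.gp_ge_of_mem_Sh S (T.sub k hz1) hz2
    rw [F_Sep2.mem_sph.1 hk, F_Sep2.mem_sph.1 (hA hh)] at h1
    have h2 : (m : ℝ) ≤ n := by exact_mod_cast hmn
    have h3 := le_max_left R T.R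
    have h4 := le_max_right R T.R
    have h5 : (m : ℝ) - max R T.R ≤ min ((n : ℝ) - T.R) (m - R) := le_min (by linarith) (by linarith)
    linarith
  have h1 : A.filter (fun _ => True) = A := by simp
  rw [← h1]
  refine F_Sep2.card_filter_le (S := S) A (fun k => h0⁻¹ * k) (fun a b hab => by simpa using hab)
    _ ?_
  intro h hh _
  apply Nat.le_floor
  have h2 := S_Basic.hyp S h0 k h
  rw [S_Basic.gp_symm S h0 k] at h2
  have h3 : (m : ℝ) - max R T.R - S.δ ≤ min (S.gp k h0) (S.gp k h) :=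
    le_min (hgp h0 hh0) (hgp h hh)
  have h4 := S_Basic.len_inv_mul_eq S h0 h
  rw [F_Sep2.mem_sph.1 (hA hh0), F_Sep2.mem_sph.1 (hA hh)] at h4
  linarith

/-- sum over shadows of the local energies -/
theorem sum_gradSq_le (T : Tiles S) {R : ℝ} {N m n : ℕ} (f : G → ℝ)
    (hN : ∀ k ∈ S.sph n, ∀ A ⊆ S.sph m, (∀ h ∈ A, (T.U k ∩ S.Sh R h).Nonempty) → A.card ≤ N) :
    ∑ h ∈ S.sph m, gradSq T n f (S.Sh R h) ≤ N * ∑ k ∈ S.sph n, grad T n f k ^ 2 := by
  classical
  unfold gradSq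
  simp_rw [Finset.sum_filter]
  rw [Finset.sum_comm, Finset.mul_sum]
  refine Finset.sum_le_sum fun k hk => ?_
  rw [← Finset.sum_filter, Finset.sum_const, nsmul_eq_mul]
  have h1 := hN k hk ((S.sph m).filter fun h => (T.U k ∩ S.Sh R h).Nonempty)
    (Finset.filter_subset _ _) (fun h hh => (Finset.mem_filter.1 hh).2)
  have h2 : (((S.sph m).filter fun h => (T.U k ∩ S.Sh R h).Nonempty).card : ℝ) ≤ N := by
    exact_mod_cast h1
  exact mul_le_mul_of_nonneg_right h2 (sq_nonneg _)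

/-- from the energy to the sum of the squares of the gradients -/
theorem sum_grad_sq_le (T : Tiles S) {n Δ : ℕ} (hΔ : DegLe T n Δ) (f : G → ℝ) :
    open scoped Classical in
    ∑ k ∈ S.sph n, grad T n f k ^ 2 ≤
      Δ * ∑ h ∈ S.sph n, ∑ h' ∈ (S.sph n).filter (fun h' => T.adj h h'), (f h - f h') ^ 2 := by
  classical
  rw [Finset.mul_sum]
  refine Finset.sum_le_sum fun k hk => ?_
  unfold grad
  refine (sq_sum_le_card_mul_sum_sq (s := (S.sph n).filter (T.adj k))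
    (f := fun k' => |f k' - f k|)).trans ?_
  have h1 : (((S.sph n).filter (T.adj k)).card : ℝ) ≤ Δ := by
    exact_mod_cast hΔ.card_filter hk
  have h2 : ∑ k' ∈ (S.sph n).filter (T.adj k), |f k' - f k| ^ 2
      = ∑ k' ∈ (S.sph n).filter (fun h' => T.adj k h'), (f k - f k') ^ 2 := by
    refine Finset.sum_congr rfl fun k' _ => ?_
    rw [sq_abs]; ring
  rw [← h2]
  exact mul_le_mul_of_nonneg_right h1 (Finset.sum_nonneg fun _ _ => sq_nonneg _)

/-- **Square summability of the oscillations over shadows.** -/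
theorem hsum_of (T : Tiles S) (Φ : Z ≃ₜ S2)
    (hM : ∀ ψ : Chart Z, ∃ L : ℝ, ∀ n : ℕ, SepBound T n (ψ.D 1) (ψ.E 2) L) {D E : Set Z}
    (hD : IsPreconnected D) (hE : IsPreconnected E) (hD2 : D.Nontrivial) (hE2 : E.Nontrivial)
    (C : ℝ) (R : ℝ) :
    ∃ C' : ℝ, ∀ m : ℕ, ∃ n0 : ℕ, ∀ n ≥ n0, ∀ f : G → ℝ, Pot T n D E f →
      ∑ k ∈ S.sph n, grad T n f k ^ 2 ≤ C →
      ∃ o : G → ℝ, (∀ h ∈ S.sph m, ∀ k ∈ S.sph n, ∀ k' ∈ S.sph n, (T.U k ∩ S.Sh R h).Nonempty →
        (T.U k' ∩ S.Sh R h).Nonempty → |f k - f k'| ≤ o h) ∧ ∑ h ∈ S.sph m, o h ^ 2 ≤ C' := by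
  classical
  have := locallyPathConnected Φ
  have := preconnected Φ
  have := compact Φ
  have hX := splits Φ
  have hε := S.ε_pos
  obtain ⟨L, R2, c, hL, hR2, hch⟩ := exists_chart_Sh T Φ hM R
  obtain ⟨N, hN⟩ := exists_overlap T R2
  -- large levels `m`
  obtain ⟨a1, ha1, b1, hb1, hab1⟩ := hD2
  obtain ⟨a2, ha2, b2, hb2, hab2⟩ := hE2
  obtain ⟨m1, hm1⟩ : ∃ m1 : ℕ, ∀ h : G, m1 ≤ S.len h → ∀ x ∈ S.Sh R2 h, ∀ y ∈ S.Sh R2 h,
      dist x y < min (dist a1 b1) (dist a2 b2) := by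
    have hr : 0 < min (dist a1 b1) (dist a2 b2) := lt_min (dist_pos.2 hab1) (dist_pos.2 hab2)
    obtain ⟨m1, hm1⟩ := exists_nat_gt (R2 + S.δ - Real.log (min (dist a1 b1) (dist a2 b2)) / S.ε)
    refine ⟨m1, fun h hh x hx y hy => ?_⟩
    refine lt_of_le_of_lt (S_Basic.dist_le_of_mem_Sh S hx hy) ?_
    rw [← Real.lt_log_iff_exp_lt hr]
    have h1 : (m1 : ℝ) ≤ S.len h := by exact_mod_cast hh
    have h3 : Real.log (min (dist a1 b1) (dist a2 b2)) / S.ε * S.ε
        = Real.log (min (dist a1 b1) (dist a2 b2)) := by field_simp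
    nlinarith
  set m0 : ℕ := max c m1 with hm0
  -- the constant
  set K : ℝ := ∑ m ∈ Finset.range m0, ((S.sph m).card : ℝ) with hK
  have hK0 : 0 ≤ K := Finset.sum_nonneg fun _ _ => Nat.cast_nonneg _
  refine ⟨K + 16 * L * (N * |C|), fun m => ?_⟩
  by_cases hm : m < m0
  · refine ⟨0, fun n _ f hf _ => ⟨fun _ => 1, fun h _ k _ k' _ _ _ => ?_, ?_⟩⟩
    · have h1 := hf.bd k
      have h2 := hf.bd k'
      rw [abs_le]
      constructor <;> linarith
    · simp only [one_pow, Finset.sum_const, nsmul_eq_mul, mul_one]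
      have h1 : ((S.sph m).card : ℝ) ≤ K :=
        Finset.single_le_sum (f := fun m => ((S.sph m).card : ℝ)) (fun _ _ => Nat.cast_nonneg _)
          (Finset.mem_range.2 hm)
      have : 0 ≤ 16 * L * (N * |C|) := by positivity
      linarith
  · push Not at hm
    have hmc : c ≤ m := (le_max_left _ _).trans hm
    have hmm1 : m1 ≤ m := (le_max_right _ _).trans hm
    -- charts for the shadows of level `m`
    have hch' : ∀ h : G, ∃ (nh : ℕ), h ∈ S.sph m → (S.Sh R h).Nonempty → ∀ n ≥ nh, ∀ f : G → ℝ,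
        Pot T n D E f → ∀ k ∈ S.sph n, ∀ k' ∈ S.sph n, (T.U k ∩ S.Sh R h).Nonempty →
        (T.U k' ∩ S.Sh R h).Nonempty →
        |f k - f k'| ≤ 4 * Real.sqrt (L * gradSq T n f (S.Sh R2 h)) := by
      intro h
      by_cases hh : h ∈ S.sph m ∧ (S.Sh R h).Nonempty
      · obtain ⟨hh1, hh2⟩ := hh
        have hlen := F_Sep2.mem_sph.1 hh1
        obtain ⟨χ, hχ1, hχ2, hχ3⟩ := hch h (by rw [hlen]; exact hmc) hh2
        obtain ⟨n1, hn1⟩ := exists_small_level T χ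
        have hmeet : ∀ (F : Set Z) (a b : Z), a ∈ F → b ∈ F →
            min (dist a1 b1) (dist a2 b2) ≤ dist a b → (F ∩ χ.E 3).Nonempty := by
          intro F a b ha hb hab
          by_contra hcon
          rw [not_nonempty_iff_eq_empty] at hcon
          have hF : ∀ z ∈ F, z ∈ S.Sh R2 h := by
            intro z hz
            have h1 : z ∉ χ.E 3 := fun h2 => by
              have : z ∈ F ∩ χ.E 3 := ⟨hz, h2⟩
              rw [hcon] at this
              exact this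
            unfold Chart.E at h1
            rw [mem_compl_iff, not_not] at h1
            exact hχ2 (image_mono ball_subset_closedBall h1)
          have := hm1 h (by rw [hlen]; exact hmm1) a (hF a ha) b (hF b hb)
          linarith
        refine ⟨max n1 m, fun _ _ n hn f hf k hk k' hk' h1 h2 => ?_⟩
        have h3 := ann_osc hX T hD hE χ (hmeet D a1 b1 ha1 hb1 (min_le_left _ _))
          (hmeet E a2 b2 ha2 hb2 (min_le_right _ _))
          (hχ3 n (by rw [hlen]; exact (le_max_right _ _).trans hn))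
          (hn1 n ((le_max_left _ _).trans hn)) hf k hk k' hk'
          (h1.mono (inter_subset_inter_right _ hχ1)) (h2.mono (inter_subset_inter_right _ hχ1))
        refine h3.trans ?_
        have h4 : gradSq T n f (Ann χ 1 2) ≤ gradSq T n f (S.Sh R2 h) := by
          refine gradSq_mono T n f (Subset.trans ?_ hχ2)
          refine image_mono ?_
          intro p hp
          have hp' : dist p 0 ≤ 2 := hp.2
          exact mem_closedBall.2 (hp'.trans (by norm_num))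
        gcongr
      · refine ⟨0, fun h1 h2 => absurd ⟨h1, h2⟩ hh⟩
    choose nh hnh using hch'
    refine ⟨max m ((S.sph m).sup nh), fun n hn f hf hC => ?_⟩
    refine ⟨fun h => 4 * Real.sqrt (L * gradSq T n f (S.Sh R2 h)), ?_, ?_⟩
    · intro h hh k hk k' hk' h1 h2
      have hne : (S.Sh R h).Nonempty := h1.mono inter_subset_right
      refine hnh h hh hne n ?_ f hf k hk k' hk' h1 h2
      exact (Finset.le_sup hh).trans ((le_max_right _ _).trans hn)
    · have h1 : ∀ h ∈ S.sph m, (4 * Real.sqrt (L * gradSq T n f (S.Sh R2 h))) ^ 2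
          = 16 * L * gradSq T n f (S.Sh R2 h) := by
        intro h _
        rw [mul_pow, Real.sq_sqrt (mul_nonneg hL.le (gradSq_nonneg T n f _))]
        ring
      rw [Finset.sum_congr rfl h1, ← Finset.mul_sum]
      have h2 := sum_gradSq_le T f (hN m n ((le_max_left _ _).trans hn))
      have h3 : (N : ℝ) * ∑ k ∈ S.sph n, grad T n f k ^ 2 ≤ N * |C| := by
        have := hC.trans (le_abs_self C)
        gcongr
      have h4 : 16 * L * ∑ h ∈ S.sph m, gradSq T n f (S.Sh R2 h) ≤ 16 * L * (N * |C|) := by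
        have := h2.trans h3
        gcongr
      linarith

theorem nontrivial_D (ψ : Chart Z) : (ψ.D 1).Nontrivial := by
  refine ⟨ψ.f 0, ⟨0, by simp, rfl⟩, ψ.f (1, 0), ⟨(1, 0), ?_, rfl⟩, ?_⟩
  · rw [mem_closedBall, dist_zero_right, Prod.norm_def]
    simp
  · intro h
    have := ψ.emb.injective h
    have h2 := congrArg Prod.fst this
    simp at h2

theorem nontrivial_E (ψ : Chart Z) : (ψ.E 2).Nontrivial := by
  have hmem : ∀ t : ℝ, 2 ≤ t → ψ.f (t, 0) ∈ ψ.E 2 := by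
    rintro t ht ⟨q, hq, hqp⟩
    have := ψ.emb.injective hqp
    subst this
    rw [mem_ball, dist_zero_right, Prod.norm_def] at hq
    have h2 := le_max_left ‖t‖ ‖(0:ℝ)‖
    have h3 := le_abs_self t
    rw [← Real.norm_eq_abs] at h3
    have hq' : max ‖t‖ ‖(0:ℝ)‖ < 2 := hq
    linarith
  refine ⟨ψ.f (2, 0), hmem 2 le_rfl, ψ.f (3, 0), hmem 3 (by norm_num), ?_⟩
  intro h
  have := ψ.emb.injective h
  have h2 := congrArg Prod.fst this
  norm_num at h2

open scoped Classical in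
/-- the form consumed by `F_Three` (helper321) -/
theorem hsum (T : Tiles S) (Φ : Z ≃ₜ S2)
    (hM : ∀ ψ : Chart Z, ∃ L : ℝ, ∀ n : ℕ, SepBound T n (ψ.D 1) (ψ.E 2) L) (ψ : Chart Z) (C : ℝ) :
    ∀ R : ℝ, ∃ C' : ℝ, ∀ m : ℕ, ∃ n0 : ℕ, ∀ n ≥ n0, ∀ f : G → ℝ,
      Pot T n (ψ.D 1) (ψ.E 2) f →
      (∑ h ∈ S.sph n, ∑ h' ∈ (S.sph n).filter (fun h' => T.adj h h'), (f h - f h') ^ 2 ≤ C) →
      ∃ o : G → ℝ, (∀ h ∈ S.sph m, ∀ k ∈ S.sph n, ∀ k' ∈ S.sph n, (T.U k ∩ S.Sh R h).Nonempty →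
        (T.U k' ∩ S.Sh R h).Nonempty → |f k - f k'| ≤ o h) ∧ ∑ h ∈ S.sph m, (o h) ^ 2 ≤ C' := by
  have := preconnected Φ
  intro R
  obtain ⟨Δ, hΔ⟩ := exists_degLe T
  obtain ⟨C', hC'⟩ := hsum_of T Φ hM (isConnected_D ψ zero_le_one).isPreconnected
    (isPreconnected_E ψ two_pos) (nontrivial_D ψ) (nontrivial_E ψ) (Δ * C) R
  refine ⟨C', fun m => ?_⟩
  obtain ⟨n0, hn0⟩ := hC' m
  refine ⟨n0, fun n hn f hf hen => hn0 n hn f hf ?_⟩
  refine (sum_grad_sq_le T (hΔ n) f).trans ?_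
  gcongr

end Crest.Agent.R193.D1_Sum
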