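import Crest.Agent.R193.D3a

/-!
# R193, block D3: relaxation of a pre-Dirichlet form (helper666)

Optimal sequences.  `Opt w u`: `w k ∈ F`, `w k → u` uniformly, bounded energies, and
`Γ (w k) v 1 → 0` when `v → 0` uniformly in `F` with bounded energies.
-/

open Topology Filter Set

set_option linter.unusedSectionVars false

namespace Crest.Agent.R193.D3a

variable {Z : Type*} [TopologicalSpace Z] [CompactSpace Z]

namespace PreForm

variable (P : PreForm Z)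

/-- filter of "null elements of energy at most `C`" -/
def N (C : ℝ) : Filter C(Z, ℝ) := 𝓝 0 ⊓ 𝓟 {v | v ∈ P.F ∧ P.E v ≤ C}

/-- optimal sequences -/
structure Opt (w : ℕ → C(Z, ℝ)) (u : C(Z, ℝ)) : Prop where
  mem : ∀ k, w k ∈ P.F
  lim : Tendsto w atTop (𝓝 u)
  bdd : ∃ C, ∀ k, P.E (w k) ≤ C
  opt : ∀ C, Tendsto (fun p : ℕ × C(Z, ℝ) => P.Γ (w p.1) p.2 1) (atTop ×ˢ P.N C) (𝓝 0)

variable {P} {u v : C(Z, ℝ)} {w w' : ℕ → C(Z, ℝ)}

lemma eventually_N (C : ℝ) : ∀ᶠ v in P.N C, v ∈ P.F ∧ P.E v ≤ C :=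
  mem_inf_of_right (mem_principal_self _)

lemma N_le_nhds (C : ℝ) : P.N C ≤ 𝓝 0 := inf_le_left

lemma tendsto_N {α : Type*} {l : Filter α} {f : α → C(Z, ℝ)} {C : ℝ} (h1 : Tendsto f l (𝓝 0))
    (h2 : ∀ᶠ a in l, f a ∈ P.F ∧ P.E (f a) ≤ C) : Tendsto f l (P.N C) :=
  tendsto_inf.2 ⟨h1, tendsto_principal.2 h2⟩

lemma eventually_norm_le_N (C : ℝ) {δ : ℝ} (hδ : 0 < δ) : ∀ᶠ v in P.N C, ‖v‖ ≤ δ := by
  have : ∀ᶠ v in 𝓝 (0 : C(Z, ℝ)), ‖v‖ < δ := by
    have := Metric.ball_mem_nhds (0 : C(Z, ℝ)) hδ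
    filter_upwards [this] with v hv
    simpa using hv
  filter_upwards [N_le_nhds C this] with v hv using hv.le

lemma Opt.bdd_nonneg (h : P.Opt w u) : ∃ C, 0 ≤ C ∧ ∀ k, P.E (w k) ≤ C := by
  obtain ⟨C, hC⟩ := h.bdd
  exact ⟨max C 0, le_max_right _ _, fun k => (hC k).trans (le_max_left _ _)⟩

/-- **Existence of optimal sequences.** -/
theorem exists_opt (w₀ : ℕ → C(Z, ℝ)) (h₀ : ∀ k, w₀ k ∈ P.F) (hlim : Tendsto w₀ atTop (𝓝 u))
    (C : ℝ) (hC : ∀ k, P.E (w₀ k) ≤ C) : ∃ w, P.Opt w u := by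
  classical
  set S : ℝ → Set ℝ := fun δ => P.E '' {v | v ∈ P.F ∧ ‖v - u‖ ≤ δ} with hS
  set m : ℝ → ℝ := fun δ => sInf (S δ) with hm
  have hbdd : ∀ δ, BddBelow (S δ) := fun δ => ⟨0, by
    rintro _ ⟨v, ⟨hv, -⟩, rfl⟩; exact E_nonneg hv⟩
  have hne : ∀ δ, 0 < δ → ∃ v ∈ P.F, ‖v - u‖ ≤ δ ∧ P.E v ≤ C := by
    intro δ hδ
    have h1 : ∀ᶠ k in atTop, ‖w₀ k - u‖ < δ := by
      have := (tendsto_iff_norm_sub_tendsto_zero.1 hlim).eventually (gt_mem_nhds hδ)
      exact this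
    obtain ⟨k, hk⟩ := h1.exists
    exact ⟨w₀ k, h₀ k, hk.le, hC k⟩
  have hmC : ∀ δ, 0 < δ → m δ ≤ C := by
    intro δ hδ
    obtain ⟨v, hv, hd, hE⟩ := hne δ hδ
    exact (csInf_le (hbdd δ) ⟨v, ⟨hv, hd⟩, rfl⟩).trans hE
  have hmle : ∀ δ v, v ∈ P.F → ‖v - u‖ ≤ δ → m δ ≤ P.E v := fun δ v hv hd =>
    csInf_le (hbdd δ) ⟨v, ⟨hv, hd⟩, rfl⟩
  set d : ℕ → ℝ := fun k => 1 / ((k : ℝ) + 1) with hd
  have dpos : ∀ k, 0 < d k := fun k => Nat.one_div_pos_of_nat
  have dlim : Tendsto d atTop (𝓝 0) := tendsto_one_div_add_atTop_nhds_zero_nat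
  have hB : BddAbove (range fun k => m (d k)) := ⟨C, by rintro _ ⟨k, rfl⟩; exact hmC _ (dpos k)⟩
  set I : ℝ := ⨆ k, m (d k) with hI
  have hmI : ∀ k, m (d k) ≤ I := fun k => le_ciSup hB k
  have hch : ∀ k, ∃ v ∈ P.F, ‖v - u‖ ≤ d k ∧ P.E v < m (d k) + d k := by
    intro k
    have hne' : (S (d k)).Nonempty := by
      obtain ⟨v, hv, hd', -⟩ := hne (d k) (dpos k)
      exact ⟨_, v, ⟨hv, hd'⟩, rfl⟩
    obtain ⟨_, ⟨v, ⟨hv, hd'⟩, rfl⟩, hlt⟩ := exists_lt_of_csInf_lt hne'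
      (show sInf (S (d k)) < m (d k) + d k by simpa [hm] using dpos k)
    exact ⟨v, hv, hd', hlt⟩
  choose w hwF hwd hwE using hch
  refine ⟨w, hwF, ?_, ⟨C + 1, fun k => ?_⟩, ?_⟩
  · rw [tendsto_iff_norm_sub_tendsto_zero]
    exact squeeze_zero (fun k => norm_nonneg _) hwd dlim
  · have h1 := hwE k
    have h2 := hmC _ (dpos k)
    have h3 : d k ≤ 1 := by
      rw [hd]; simp only
      rw [div_le_one (by positivity)]
      have : (0 : ℝ) ≤ k := Nat.cast_nonneg k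
      linarith
    linarith
  · intro C'
    rw [Metric.tendsto_nhds]
    intro ε hε
    set C₁ : ℝ := max C' 0 with hC₁
    have hC₁0 : 0 ≤ C₁ := le_max_right _ _
    set t : ℝ := ε / (C₁ + 1) with ht
    have htpos : 0 < t := by positivity
    set ε' : ℝ := t * ε / 4 with hε'
    have hε'pos : 0 < ε' := by positivity
    obtain ⟨j, hj⟩ := exists_lt_of_lt_ciSup (show I - ε' < I by linarith)
    have e1 : ∀ᶠ k in atTop, d k ≤ d j / 2 :=
      (dlim.eventually (gt_mem_nhds (half_pos (dpos j)))).mono fun k hk => le_of_lt hk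
    have e2 : ∀ᶠ k in atTop, d k ≤ ε' :=
      (dlim.eventually (gt_mem_nhds hε'pos)).mono fun k hk => le_of_lt hk
    have e3 : ∀ᶠ v in P.N C', ‖v‖ ≤ d j / (2 * t) :=
      eventually_norm_le_N C' (div_pos (dpos j) (by positivity))
    filter_upwards [prod_mem_prod (inter_mem e1 e2) (inter_mem e3 (eventually_N (P := P) C'))]
      with ⟨k, v⟩ ⟨⟨hk1, hk2⟩, hv1, hv2, hv3⟩
    simp only [mem_ofPred_eq] at hk1 hk2 hv1 hv2 hv3
    rw [Real.dist_eq, sub_zero]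
    have hEv : P.E v ≤ C₁ := hv3.trans (le_max_left _ _)
    have main : ∀ s : ℝ, |s| = t → -(2 * s * P.Γ (w k) v 1) ≤ 2 * ε' + t ^ 2 * C₁ := by
      intro s hs
      have hmem : w k + s • v ∈ P.F := add_mem (hwF k) (smul_mem s hv2)
      have hclose : ‖w k + s • v - u‖ ≤ d j := by
        have : w k + s • v - u = (w k - u) + s • v := by abel
        rw [this]
        refine (norm_add_le _ _).trans ?_
        rw [norm_smul, Real.norm_eq_abs, hs]
        have h1 : t * ‖v‖ ≤ d j / 2 := by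
          calc t * ‖v‖ ≤ t * (d j / (2 * t)) := mul_le_mul_of_nonneg_left hv1 htpos.le
            _ = d j / 2 := by field_simp
        linarith [(hwd k).trans hk1]
      have h1 := hmle (d j) _ hmem hclose
      have h2 : P.E (w k + s • v) = P.E (w k) + 2 * s * P.Γ (w k) v 1 + s ^ 2 * P.E v := by
        rw [E, Γ_add_add (hwF k) (smul_mem s hv2), Γ_smul_right s (hwF k) hv2,
          Γ_smul_smul s hv2]
        simp only [E]; ring
      have h3 : s ^ 2 = t ^ 2 := by rw [← sq_abs, hs]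
      have h4 : s ^ 2 * P.E v ≤ t ^ 2 * C₁ := by
        rw [h3]; exact mul_le_mul_of_nonneg_left hEv (sq_nonneg _)
      have h5 := hwE k
      have h6 := hmI k
      linarith
    have m1 := main t (abs_of_pos htpos)
    have m2 := main (-t) (by rw [abs_neg, abs_of_pos htpos])
    have m3 : 2 * t * |P.Γ (w k) v 1| ≤ 2 * ε' + t ^ 2 * C₁ := by
      rcases abs_cases (P.Γ (w k) v 1) with ⟨h, -⟩ | ⟨h, -⟩ <;> rw [h] <;> linarith
    have m4 : t ^ 2 * C₁ ≤ t * ε := by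
      have : t * C₁ ≤ ε := by
        rw [ht, div_mul_eq_mul_div, div_le_iff₀ (by positivity)]
        nlinarith
      calc t ^ 2 * C₁ = t * (t * C₁) := by ring
        _ ≤ t * ε := mul_le_mul_of_nonneg_left this htpos.le
    have m5 : 2 * t * |P.Γ (w k) v 1| ≤ 2 * t * (3 * ε / 4) := by
      calc 2 * t * |P.Γ (w k) v 1| ≤ 2 * ε' + t ^ 2 * C₁ := m3
        _ ≤ 2 * (t * ε / 4) + t * ε := by linarith
        _ = 2 * t * (3 * ε / 4) := by ring
    have m6 : |P.Γ (w k) v 1| ≤ 3 * ε / 4 := le_of_mul_le_mul_left m5 (by positivity)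
    linarith

/-- multiplication by a fixed element maps null filters to null filters -/
lemma tendsto_mul_N {p : C(Z, ℝ)} (hp : p ∈ P.F) (C : ℝ) :
    Tendsto (fun v => p * v) (P.N C) (P.N (2 * (P.E p + ‖p‖ ^ 2 * C))) := by
  apply tendsto_N
  · have h : Tendsto (fun v : C(Z, ℝ) => p * v) (𝓝 0) (𝓝 (p * 0)) :=
      (continuous_const.mul continuous_id).tendsto 0
    rw [mul_zero] at h
    exact h.mono_left (N_le_nhds C)
  · filter_upwards [eventually_N C, eventually_norm_le_N (P := P) C one_pos] with v hv hv1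
    refine ⟨mul_mem hp hv.1, (E_mul_le hp hv.1).trans ?_⟩
    have h1 : ‖v‖ ^ 2 ≤ 1 := by
      have := norm_nonneg v; nlinarith
    have h2 := mul_le_mul_of_nonneg_right h1 (E_nonneg hp)
    have h3 := mul_le_mul_of_nonneg_left hv.2 (sq_nonneg ‖p‖)
    linarith

/-- energies of null elements tested with `φ`, one element fixed -/
lemma Opt.opt_phi (h : P.Opt w u) (C : ℝ) (φ : C(Z, ℝ)) :
    Tendsto (fun p : ℕ × C(Z, ℝ) => P.Γ (w p.1) p.2 φ) (atTop ×ˢ P.N C) (𝓝 0) := by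
  obtain ⟨B, hB0, hB⟩ := h.bdd_nonneg
  -- elements of `F`
  have step : ∀ p ∈ P.F, Tendsto (fun q : ℕ × C(Z, ℝ) => P.Γ (w q.1) q.2 p)
      (atTop ×ˢ P.N C) (𝓝 0) := by
    intro p hp
    have t1 : Tendsto (fun q : ℕ × C(Z, ℝ) => P.Γ (w q.1) (p * q.2) 1)
        (atTop ×ˢ P.N C) (𝓝 0) :=
      (h.opt _).comp (tendsto_id.prodMap (tendsto_mul_N hp C))
    have t2 : Tendsto (fun q : ℕ × C(Z, ℝ) => P.Γ (w q.1) p q.2)
        (atTop ×ˢ P.N C) (𝓝 0) := by
      have hb : ∀ q : ℕ × C(Z, ℝ), ‖P.Γ (w q.1) p q.2‖ ≤ ‖q.2‖ * (√B * √(P.E p)) := by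
        intro q
        rw [Real.norm_eq_abs]
        refine (abs_Γ_le (h.mem _) hp q.2).trans ?_
        gcongr
        exact hB _
      have ht : Tendsto (fun q : ℕ × C(Z, ℝ) => ‖q.2‖ * (√B * √(P.E p)))
          (atTop ×ˢ P.N C) (𝓝 0) := by
        have : Tendsto (fun q : ℕ × C(Z, ℝ) => ‖q.2‖) (atTop ×ˢ P.N C) (𝓝 0) := by
          have h0 : Tendsto (fun v : C(Z, ℝ) => ‖v‖) (𝓝 0) (𝓝 0) := by
            simpa using (continuous_norm (E := C(Z, ℝ))).tendsto 0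
          exact (h0.mono_left (N_le_nhds C)).comp tendsto_snd
        simpa using this.mul_const (√B * √(P.E p))
      exact squeeze_zero_norm hb ht
    have t3 := t1.sub t2
    rw [sub_zero] at t3
    refine t3.congr' ?_
    filter_upwards [(eventually_N (P := P) C).prod_inr atTop] with q hq
    rw [leibniz_right hp hq.1 (h.mem q.1), mul_one, mul_one]; ring
  rw [Metric.tendsto_nhds]
  intro ε hε
  set M : ℝ := √B * √(max C 0) with hM
  have hM0 : 0 ≤ M := by positivity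
  obtain ⟨p, hp, hpd⟩ := Metric.dense_iff.1 P.dense φ (ε / (2 * (M + 1))) (by positivity)
  rw [Metric.mem_ball, dist_eq_norm] at hp
  filter_upwards [(Metric.tendsto_nhds.1 (step p hpd)) (ε / 2) (half_pos hε),
    (eventually_N (P := P) C).prod_inr atTop] with q hq1 hq2
  rw [Real.dist_eq, sub_zero] at hq1 ⊢
  have e : P.Γ (w q.1) q.2 φ = P.Γ (w q.1) q.2 p - P.Γ (w q.1) q.2 (p - φ) := by
    rw [map_sub (h.mem _) hq2.1]; ring
  have e2 : |P.Γ (w q.1) q.2 (p - φ)| ≤ ε / 2 := by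
    refine (abs_Γ_le (h.mem _) hq2.1 _).trans ?_
    have : √(P.E (w q.1)) * √(P.E q.2) ≤ M := by
      apply mul_le_mul (Real.sqrt_le_sqrt (hB _))
        (Real.sqrt_le_sqrt (hq2.2.trans (le_max_left _ _))) (Real.sqrt_nonneg _)
        (Real.sqrt_nonneg _)
    calc ‖p - φ‖ * (√(P.E (w q.1)) * √(P.E q.2)) ≤ (ε / (2 * (M + 1))) * M :=
          mul_le_mul hp.le this (by positivity) (by positivity)
      _ ≤ ε / 2 := by
        rw [div_mul_eq_mul_div, div_le_div_iff₀ (by positivity) (by positivity)]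
        nlinarith
  rw [e]
  calc |P.Γ (w q.1) q.2 p - P.Γ (w q.1) q.2 (p - φ)| ≤
        |P.Γ (w q.1) q.2 p| + |P.Γ (w q.1) q.2 (p - φ)| := abs_sub _ _
    _ < ε := by linarith

/-- the same with varying test functions -/
lemma Opt.opt_phi' (h : P.Opt w u) (C : ℝ) {φ : C(Z, ℝ)} {f : ℕ → C(Z, ℝ)}
    (hf : Tendsto f atTop (𝓝 φ)) :
    Tendsto (fun p : ℕ × C(Z, ℝ) => P.Γ (w p.1) p.2 (f p.1)) (atTop ×ˢ P.N C) (𝓝 0) := by
  obtain ⟨B, hB0, hB⟩ := h.bdd_nonneg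
  have t1 := h.opt_phi C φ
  have t2 : Tendsto (fun p : ℕ × C(Z, ℝ) => P.Γ (w p.1) p.2 (f p.1) - P.Γ (w p.1) p.2 φ)
      (atTop ×ˢ P.N C) (𝓝 0) := by
    have hb : ∀ᶠ q : ℕ × C(Z, ℝ) in (atTop ×ˢ P.N C),
        ‖P.Γ (w q.1) q.2 (f q.1) - P.Γ (w q.1) q.2 φ‖ ≤ ‖f q.1 - φ‖ * (√B * √(max C 0)) := by
      filter_upwards [(eventually_N (P := P) C).prod_inr atTop] with q hq
      rw [← map_sub (h.mem _) hq.1, Real.norm_eq_abs]
      refine (abs_Γ_le (h.mem _) hq.1 _).trans ?_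
      gcongr
      · exact hB _
      · exact hq.2.trans (le_max_left _ _)
    have ht : Tendsto (fun q : ℕ × C(Z, ℝ) => ‖f q.1 - φ‖ * (√B * √(max C 0)))
        (atTop ×ˢ P.N C) (𝓝 0) := by
      have h0 : Tendsto (fun k => ‖f k - φ‖) atTop (𝓝 0) :=
        tendsto_iff_norm_sub_tendsto_zero.1 hf
      simpa using (h0.comp tendsto_fst).mul_const (√B * √(max C 0))
    exact squeeze_zero_norm' hb ht
  have := t2.add t1
  simpa using this

lemma Opt.reindex (h : P.Opt w u) {m : ℕ → ℕ} (hm : Tendsto m atTop atTop) :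
    P.Opt (fun k => w (m k)) u where
  mem k := h.mem _
  lim := h.lim.comp hm
  bdd := by obtain ⟨C, hC⟩ := h.bdd; exact ⟨C, fun k => hC _⟩
  opt C := (h.opt C).comp (hm.prodMap tendsto_id)

/-- two optimal sequences with the same limit are asymptotically equal in energy -/
lemma Opt.diff (h : P.Opt w u) (h' : P.Opt w' u) :
    Tendsto (fun p : ℕ × ℕ => P.E (w p.1 - w' p.2)) (atTop ×ˢ atTop) (𝓝 0) := by
  obtain ⟨B, hB0, hB⟩ := h.bdd_nonneg
  obtain ⟨B', hB0', hB'⟩ := h'.bdd_nonneg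
  have hd : Tendsto (fun p : ℕ × ℕ => w p.1 - w' p.2) (atTop ×ˢ atTop)
      (P.N (2 * (B + B'))) := by
    apply tendsto_N
    · have := (h.lim.comp tendsto_fst (g := w)).sub (h'.lim.comp (tendsto_snd (f := (atTop : Filter ℕ))))
      simpa using this
    · refine Eventually.of_forall fun p => ⟨sub_mem (h.mem _) (h'.mem _), ?_⟩
      refine (E_sub_le (h.mem _) (h'.mem _)).trans ?_
      linarith [hB p.1, hB' p.2]
  have t1 : Tendsto (fun p : ℕ × ℕ => P.Γ (w p.1) (w p.1 - w' p.2) 1) (atTop ×ˢ atTop) (𝓝 0) :=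
    (h.opt _).comp (tendsto_fst.prodMk hd)
  have t2 : Tendsto (fun p : ℕ × ℕ => P.Γ (w' p.2) (w p.1 - w' p.2) 1) (atTop ×ˢ atTop) (𝓝 0) :=
    (h'.opt _).comp (tendsto_snd.prodMk hd)
  have t3 := t1.sub t2
  rw [sub_zero] at t3
  refine t3.congr fun p => ?_
  rw [E, Γ_sub_left (h.mem _) (h'.mem _) (sub_mem (h.mem _) (h'.mem _))]

/-- comparison of `Γ` along two pairs of optimal sequences -/
lemma Opt.diff_Γ {x x' : ℕ → C(Z, ℝ)} (h : P.Opt w u) (h' : P.Opt w' u) (g : P.Opt x v)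
    (g' : P.Opt x' v) (φ : C(Z, ℝ)) :
    Tendsto (fun p : ℕ × ℕ => P.Γ (w p.1) (x p.1) φ - P.Γ (w' p.2) (x' p.2) φ)
      (atTop ×ˢ atTop) (𝓝 0) := by
  obtain ⟨B', hB0', hB'⟩ := h'.bdd_nonneg
  obtain ⟨A, hA0, hA⟩ := g.bdd_nonneg
  have hb : ∀ p : ℕ × ℕ, ‖P.Γ (w p.1) (x p.1) φ - P.Γ (w' p.2) (x' p.2) φ‖ ≤
      ‖φ‖ * (√(P.E (w p.1 - w' p.2)) * √A) + ‖φ‖ * (√B' * √(P.E (x p.1 - x' p.2))) := by
    intro p
    have e : P.Γ (w p.1) (x p.1) φ - P.Γ (w' p.2) (x' p.2) φ =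
        P.Γ (w p.1 - w' p.2) (x p.1) φ + P.Γ (w' p.2) (x p.1 - x' p.2) φ := by
      rw [Γ_sub_left (h.mem _) (h'.mem _) (g.mem _), Γ_sub_right (g.mem _) (g'.mem _) (h'.mem _)]
      ring
    rw [e]
    refine (norm_add_le _ _).trans (add_le_add ?_ ?_)
    · rw [Real.norm_eq_abs]
      refine (abs_Γ_le (sub_mem (h.mem _) (h'.mem _)) (g.mem _) φ).trans ?_
      gcongr; exact hA _
    · rw [Real.norm_eq_abs]
      refine (abs_Γ_le (h'.mem _) (sub_mem (g.mem _) (g'.mem _)) φ).trans ?_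
      gcongr; exact hB' _
  refine squeeze_zero_norm hb ?_
  have s1 : Tendsto (fun p : ℕ × ℕ => √(P.E (w p.1 - w' p.2))) (atTop ×ˢ atTop) (𝓝 0) := by
    simpa using (h.diff h').sqrt
  have s2 : Tendsto (fun p : ℕ × ℕ => √(P.E (x p.1 - x' p.2))) (atTop ×ˢ atTop) (𝓝 0) := by
    simpa using (g.diff g').sqrt
  have r1 := (s1.mul_const √A).const_mul ‖φ‖
  have r2 := (s2.const_mul √B').const_mul ‖φ‖
  simpa using r1.add r2

/-- the relaxed domain -/
def D (P : PreForm Z) : Set C(Z, ℝ) :=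
  {u | ∃ w : ℕ → C(Z, ℝ), (∀ k, w k ∈ P.F) ∧ Tendsto w atTop (𝓝 u) ∧ ∃ C, ∀ k, P.E (w k) ≤ C}

lemma mem_D_iff : u ∈ P.D ↔ ∃ w, P.Opt w u := by
  constructor
  · rintro ⟨w, h1, h2, C, h3⟩
    exact exists_opt w h1 h2 C h3
  · rintro ⟨w, h⟩
    exact ⟨w, h.mem, h.lim, h.bdd⟩

lemma Opt.mem_D (h : P.Opt w u) : u ∈ P.D := mem_D_iff.2 ⟨w, h⟩

/-- a chosen optimal sequence -/
noncomputable def osq (P : PreForm Z) (u : C(Z, ℝ)) : ℕ → C(Z, ℝ) :=
  open Classical in if h : ∃ w, P.Opt w u then h.choose else fun _ => 0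

lemma osq_spec (h : u ∈ P.D) : P.Opt (P.osq u) u := by
  have h' := mem_D_iff.1 h
  unfold osq
  rw [dif_pos h']
  exact h'.choose_spec

/-- the relaxed form -/
noncomputable def Γr (P : PreForm Z) (u v φ : C(Z, ℝ)) : ℝ :=
  limUnder atTop (fun k => P.Γ (P.osq u k) (P.osq v k) φ)

/-- **The relaxed form is the limit along any optimal sequences.** -/
theorem Opt.tendsto_Γ (h : P.Opt w u) (h' : P.Opt w' v) (φ : C(Z, ℝ)) :
    Tendsto (fun k => P.Γ (w k) (w' k) φ) atTop (𝓝 (P.Γr u v φ)) := by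
  have hu := osq_spec h.mem_D
  have hv := osq_spec h'.mem_D
  -- convergence of the chosen sequence
  have hc : CauchySeq (fun k => P.Γ (P.osq u k) (P.osq v k) φ) := by
    have := hu.diff_Γ hu hv hv φ
    rw [cauchySeq_iff_tendsto_dist_atTop_0]
    rw [prod_atTop_atTop_eq] at this
    have h2 := this.norm
    rw [norm_zero] at h2
    refine h2.congr fun p => ?_
    rw [Real.dist_eq, Real.norm_eq_abs]
  have hl := hc.tendsto_limUnder
  have hd := h.diff_Γ hu h' hv φ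
  have hd2 : Tendsto (fun k => P.Γ (w k) (w' k) φ - P.Γ (P.osq u k) (P.osq v k) φ) atTop (𝓝 0) :=
    hd.comp (tendsto_id.prodMk tendsto_id)
  have := hd2.add hl
  simpa [Γr] using this

/-- varying test functions -/
theorem Opt.tendsto_Γ' (h : P.Opt w u) (h' : P.Opt w' v) {φ : C(Z, ℝ)} {f : ℕ → C(Z, ℝ)}
    (hf : Tendsto f atTop (𝓝 φ)) :
    Tendsto (fun k => P.Γ (w k) (w' k) (f k)) atTop (𝓝 (P.Γr u v φ)) := by
  obtain ⟨B, hB0, hB⟩ := h.bdd_nonneg
  obtain ⟨B', hB0', hB'⟩ := h'.bdd_nonneg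
  have t1 := h.tendsto_Γ h' φ
  have t2 : Tendsto (fun k => P.Γ (w k) (w' k) (f k) - P.Γ (w k) (w' k) φ) atTop (𝓝 0) := by
    have hb : ∀ k, ‖P.Γ (w k) (w' k) (f k) - P.Γ (w k) (w' k) φ‖ ≤ ‖f k - φ‖ * (√B * √B') := by
      intro k
      rw [← map_sub (h.mem _) (h'.mem _), Real.norm_eq_abs]
      refine (abs_Γ_le (h.mem _) (h'.mem _) _).trans ?_
      gcongr
      · exact hB _
      · exact hB' _
    refine squeeze_zero_norm hb ?_
    have h0 : Tendsto (fun k => ‖f k - φ‖) atTop (𝓝 0) :=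
      tendsto_iff_norm_sub_tendsto_zero.1 hf
    simpa using h0.mul_const (√B * √B')
  simpa using t2.add t1

/-! ### stability of optimal sequences -/

/-- composition is continuous for uniform convergence -/
lemma tendsto_cmp {n : ℕ} (ψ : (Fin n → ℝ) → ℝ) (hψ : Continuous ψ) {α : Type*} {l : Filter α}
    {U : α → Fin n → C(Z, ℝ)} {U₀ : Fin n → C(Z, ℝ)} (h : ∀ i, Tendsto (fun a => U a i) l (𝓝 (U₀ i))) :
    Tendsto (fun a => cmp ψ hψ (U a)) l (𝓝 (cmp ψ hψ U₀)) := by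
  -- `cmp` is `ψ ∘ (joint map)`
  have e : ∀ V : Fin n → C(Z, ℝ), cmp ψ hψ V = (⟨ψ, hψ⟩ : C(Fin n → ℝ, ℝ)).comp (ContinuousMap.pi V) := by
    intro V; ext z; rfl
  simp only [e]
  have hp : Tendsto (fun a => ContinuousMap.pi (U a)) l (𝓝 (ContinuousMap.pi U₀)) := by
    have h1 : Tendsto (fun a => U a) l (𝓝 U₀) := tendsto_pi_nhds.2 h
    have h2 : Continuous (fun V : Fin n → C(Z, ℝ) => ContinuousMap.pi V) := by
      rw [continuous_iff_continuousAt]
      intro V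
      rw [ContinuousAt, ContinuousMap.tendsto_iff_tendstoUniformly]
      rw [Metric.tendstoUniformly_iff]
      intro ε hε
      have : ∀ i, ∀ᶠ W : Fin n → C(Z, ℝ) in 𝓝 V, dist (V i) (W i) < ε := by
        intro i
        have hc : Tendsto (fun W : Fin n → C(Z, ℝ) => dist (V i) (W i)) (𝓝 V) (𝓝 0) := by
          have : Continuous (fun W : Fin n → C(Z, ℝ) => dist (V i) (W i)) := by fun_prop
          simpa using this.tendsto V
        exact hc.eventually (gt_mem_nhds hε)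
      filter_upwards [eventually_all.2 this] with W hW z
      rw [dist_pi_lt_iff hε]
      intro i
      exact (ContinuousMap.dist_apply_le_dist z).trans_lt (hW i)
    exact (h2.tendsto U₀).comp h1
  exact ((ContinuousMap.continuous_postcomp _).tendsto _).comp hp

/-- optimal sequences are stable under `C^1` functions -/
theorem Opt.comp {n : ℕ} (ψ : (Fin n → ℝ) → ℝ) (hψ : ContDiff ℝ 1 ψ)
    {W : Fin n → ℕ → C(Z, ℝ)} {U : Fin n → C(Z, ℝ)} (h : ∀ i, P.Opt (W i) (U i)) :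
    P.Opt (fun k => cmp ψ hψ.continuous (fun i => W i k)) (cmp ψ hψ.continuous U) := by
  have hmem : ∀ k, cmp ψ hψ.continuous (fun i => W i k) ∈ P.F := fun k =>
    P.comp_mem ψ hψ _ (fun i => (h i).mem k)
  have hlim : Tendsto (fun k => cmp ψ hψ.continuous (fun i => W i k)) atTop
      (𝓝 (cmp ψ hψ.continuous U)) :=
    tendsto_cmp ψ hψ.continuous (fun i => (h i).lim)
  have hφ : ∀ i, Tendsto (fun k => cmp (pd ψ i) (continuous_pd hψ i) (fun i => W i k)) atTop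
      (𝓝 (cmp (pd ψ i) (continuous_pd hψ i) U)) := fun i =>
    tendsto_cmp _ _ (fun i => (h i).lim)
  choose B hB0 hB using fun i => (h i).bdd_nonneg
  refine ⟨hmem, hlim, ?_, fun C => ?_⟩
  · -- bounded energies
    have hMb : ∀ i, ∃ M, ∀ k, ‖cmp (pd ψ i) (continuous_pd hψ i) (fun i => W i k)‖ ≤ M := by
      intro i
      obtain ⟨M, hM⟩ := (hφ i).norm.bddAbove_range
      exact ⟨M, fun k => hM ⟨k, rfl⟩⟩
    choose M hM using hMb
    have hM0 : ∀ i, 0 ≤ M i := fun i => (norm_nonneg _).trans (hM i 0)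
    refine ⟨(∑ i, M i * √(B i)) ^ 2, fun k => ?_⟩
    set c := cmp ψ hψ.continuous (fun i => W i k) with hc
    have e : P.E c = ∑ i, P.Γ (W i k) c (cmp (pd ψ i) (continuous_pd hψ i) (fun i => W i k) * 1) :=
      P.chain ψ hψ (fun i => W i k) (fun i => (h i).mem k) c (hmem k) 1
    have hEc : 0 ≤ P.E c := E_nonneg (hmem k)
    have h1 : P.E c ≤ (∑ i, M i * √(B i)) * √(P.E c) := by
      conv_lhs => rw [e]
      rw [Finset.sum_mul]
      refine Finset.sum_le_sum fun i _ => ?_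
      rw [mul_one]
      refine (le_abs_self _).trans ((abs_Γ_le ((h i).mem k) (hmem k) _).trans ?_)
      rw [← mul_assoc]
      refine mul_le_mul_of_nonneg_right ?_ (Real.sqrt_nonneg _)
      exact mul_le_mul (hM i k) (Real.sqrt_le_sqrt (hB i k)) (Real.sqrt_nonneg _) (hM0 i)
    have h2 : √(P.E c) ≤ ∑ i, M i * √(B i) := by
      rcases (Real.sqrt_nonneg (P.E c)).eq_or_lt with h0 | h0
      · rw [← h0]; exact Finset.sum_nonneg fun i _ => mul_nonneg (hM0 i) (Real.sqrt_nonneg _)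
      · have h3 : √(P.E c) * √(P.E c) ≤ (∑ i, M i * √(B i)) * √(P.E c) := by
          rwa [Real.mul_self_sqrt hEc]
        exact le_of_mul_le_mul_right h3 h0
    calc P.E c = √(P.E c) ^ 2 := (Real.sq_sqrt hEc).symm
      _ ≤ _ := by
        have := Real.sqrt_nonneg (P.E c)
        gcongr
  · have ht : Tendsto (fun p : ℕ × C(Z, ℝ) => ∑ i, P.Γ (W i p.1) p.2
        (cmp (pd ψ i) (continuous_pd hψ i) (fun i => W i p.1))) (atTop ×ˢ P.N C)
        (𝓝 (∑ _i : Fin n, (0 : ℝ))) :=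
      tendsto_finsetSum _ fun i _ => (h i).opt_phi' C (hφ i)
    rw [Finset.sum_const_zero] at ht
    refine ht.congr' ?_
    filter_upwards [(eventually_N (P := P) C).prod_inr atTop] with q hq
    rw [P.chain ψ hψ (fun i => W i q.1) (fun i => (h i).mem q.1) q.2 hq.1 1]
    simp only [mul_one]

/-- constant sequences at an element of `F`: lower semicontinuity -/
lemma Opt.liminf_le (h : P.Opt w u) {x : ℕ → C(Z, ℝ)} (hx : ∀ k, x k ∈ P.F)
    (hxl : Tendsto x atTop (𝓝 u)) {C : ℝ} (hC : ∀ k, P.E (x k) ≤ C) {φ : C(Z, ℝ)} (hφ : 0 ≤ φ)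
    {ε : ℝ} (hε : 0 < ε) : ∀ᶠ k in atTop, P.Γr u u φ - ε ≤ P.Γ (x k) (x k) φ := by
  obtain ⟨B, hB0, hB⟩ := h.bdd_nonneg
  have hd : Tendsto (fun k => x k - w k) atTop (P.N (2 * (C + B))) := by
    apply tendsto_N
    · have := hxl.sub h.lim
      simpa using this
    · refine Eventually.of_forall fun k => ⟨sub_mem (hx k) (h.mem k), ?_⟩
      refine (E_sub_le (hx k) (h.mem k)).trans ?_
      linarith [hB k, hC k]
  have t1 : Tendsto (fun k => P.Γ (w k) (x k - w k) φ) atTop (𝓝 0) :=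
    (h.opt_phi _ φ).comp (tendsto_id.prodMk hd)
  have t2 := h.tendsto_Γ h φ
  have t3 : Tendsto (fun k => P.Γ (w k) (w k) φ + 2 * P.Γ (w k) (x k - w k) φ) atTop
      (𝓝 (P.Γr u u φ + 2 * 0)) := t2.add (t1.const_mul 2)
  rw [mul_zero, add_zero] at t3
  filter_upwards [t3.eventually (lt_mem_nhds (show P.Γr u u φ - ε < P.Γr u u φ by linarith))]
    with k hk
  have e : P.Γ (x k) (x k) φ = P.Γ (w k) (w k) φ + 2 * P.Γ (w k) (x k - w k) φ +
      P.Γ (x k - w k) (x k - w k) φ := by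
    rw [← Γ_add_add (h.mem k) (sub_mem (hx k) (h.mem k))]
    simp
  have := P.nonneg (sub_mem (hx k) (h.mem k)) φ hφ
  linarith

end PreForm

end Crest.Agent.R193.D3a
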