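import Mathlib

/-!
# R193, block D3a: pre-Dirichlet forms on a compact space (helper666)

`PreForm Z`: a class `F` of continuous functions on a compact space `Z`, stable under `C^1`
functions of several variables, and a "measure valued" form `Γ u v φ = "∫ φ dΓ(u,v)"`.
This file: the algebra of such forms.
-/

open Topology Filter Set

set_option linter.unusedSectionVars false

namespace Crest.Agent.R193.D3a

/-- `ψ(u₁,…,uₙ)` as a continuous function. -/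
def cmp {Z : Type*} [TopologicalSpace Z] {n : ℕ} (ψ : (Fin n → ℝ) → ℝ) (hψ : Continuous ψ)
    (u : Fin n → C(Z, ℝ)) : C(Z, ℝ) :=
  ⟨fun z => ψ (fun i => u i z), hψ.comp (continuous_pi fun i => (u i).continuous)⟩

@[simp] lemma cmp_apply {Z : Type*} [TopologicalSpace Z] {n : ℕ} (ψ : (Fin n → ℝ) → ℝ)
    (hψ : Continuous ψ) (u : Fin n → C(Z, ℝ)) (z : Z) :
    cmp ψ hψ u z = ψ (fun i => u i z) := rfl

/-- `∂ᵢψ`. -/
noncomputable def pd {n : ℕ} (ψ : (Fin n → ℝ) → ℝ) (i : Fin n) : (Fin n → ℝ) → ℝ :=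
  fun x => fderiv ℝ ψ x (Pi.single i 1)

lemma continuous_pd {n : ℕ} {ψ : (Fin n → ℝ) → ℝ} (hψ : ContDiff ℝ 1 ψ) (i : Fin n) :
    Continuous (pd ψ i) :=
  (hψ.continuous_fderiv one_ne_zero).clm_apply continuous_const

/-- A pre-Dirichlet form: what the group construction D1 + D2 delivers.
`Γ u v φ` is only meaningful for `u v ∈ F` and is thought of as `∫ φ dΓ(u,v)`. -/
structure PreForm (Z : Type*) [TopologicalSpace Z] [CompactSpace Z] where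
  /-- the domain -/
  F : Set C(Z, ℝ)
  /-- the form -/
  Γ : C(Z, ℝ) → C(Z, ℝ) → C(Z, ℝ) → ℝ
  /-- stability under `C^1` functions of several variables (`n = 0`: constants) -/
  comp_mem : ∀ {n : ℕ} (ψ : (Fin n → ℝ) → ℝ) (hψ : ContDiff ℝ 1 ψ) (u : Fin n → C(Z, ℝ)),
    (∀ i, u i ∈ F) → cmp ψ hψ.continuous u ∈ F
  symm : ∀ {u v : C(Z, ℝ)}, u ∈ F → v ∈ F → ∀ φ, Γ u v φ = Γ v u φ
  map_add : ∀ {u v : C(Z, ℝ)}, u ∈ F → v ∈ F → ∀ φ φ', Γ u v (φ + φ') = Γ u v φ + Γ u v φ'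
  map_smul : ∀ {u v : C(Z, ℝ)}, u ∈ F → v ∈ F → ∀ (c : ℝ) φ, Γ u v (c • φ) = c * Γ u v φ
  nonneg : ∀ {u : C(Z, ℝ)}, u ∈ F → ∀ φ, 0 ≤ φ → 0 ≤ Γ u u φ
  /-- the chain rule (`n = 0`: `Γ(const, v) = 0`; `n = 2`: additivity, Leibniz rule) -/
  chain : ∀ {n : ℕ} (ψ : (Fin n → ℝ) → ℝ) (hψ : ContDiff ℝ 1 ψ) (u : Fin n → C(Z, ℝ)),
    (∀ i, u i ∈ F) → ∀ v ∈ F, ∀ φ, Γ (cmp ψ hψ.continuous u) v φ =
      ∑ i, Γ (u i) v (cmp (pd ψ i) (continuous_pd hψ i) u * φ)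
  /-- stability under (Euclidean) Lipschitz functions -/
  lip : ∀ {n : ℕ} (ψ : (Fin n → ℝ) → ℝ) (hψ : Continuous ψ) (L : ℝ), 0 ≤ L →
    (∀ x y, (ψ x - ψ y) ^ 2 ≤ L * ∑ i, (x i - y i) ^ 2) → ∀ (u : Fin n → C(Z, ℝ)),
    (∀ i, u i ∈ F) → cmp ψ hψ u ∈ F ∧ ∀ φ, 0 ≤ φ →
      Γ (cmp ψ hψ u) (cmp ψ hψ u) φ ≤ L * ∑ i, Γ (u i) (u i) φ
  dense : Dense F

variable {Z : Type*} [TopologicalSpace Z] [CompactSpace Z]

namespace PreForm

variable (P : PreForm Z)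

/-- energy -/
def E (u : C(Z, ℝ)) : ℝ := P.Γ u u 1

variable {P} {u v w : C(Z, ℝ)}

lemma E_nonneg (hu : u ∈ P.F) : 0 ≤ P.E u := P.nonneg hu 1 zero_le_one

/-! ### algebra of the domain -/

private lemma cmp_eq {n : ℕ} (ψ : (Fin n → ℝ) → ℝ) (hψ : Continuous ψ) (a : Fin n → C(Z, ℝ))
    (f : C(Z, ℝ)) (h : ∀ z, ψ (fun i => a i z) = f z) : cmp ψ hψ a = f := by
  ext z; exact h z

lemma pd_of_hasFDerivAt {n : ℕ} {ψ : (Fin n → ℝ) → ℝ} {x : Fin n → ℝ} (i : Fin n)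
    {L : (Fin n → ℝ) →L[ℝ] ℝ} (h : HasFDerivAt ψ L x) : pd ψ i x = L (Pi.single i 1) := by
  rw [pd, h.fderiv]

/-- constants -/
lemma const_mem (P : PreForm Z) (c : ℝ) : ContinuousMap.const Z c ∈ P.F := by
  have h := P.comp_mem (n := 0) (fun _ => c) contDiff_const (fun i => i.elim0) (fun i => i.elim0)
  rwa [cmp_eq _ _ _ (ContinuousMap.const Z c) (fun z => rfl)] at h

lemma one_mem (P : PreForm Z) : (1 : C(Z, ℝ)) ∈ P.F := P.const_mem 1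

lemma zero_mem (P : PreForm Z) : (0 : C(Z, ℝ)) ∈ P.F := P.const_mem 0

lemma Γ_const_left (P : PreForm Z) (c : ℝ) (hv : v ∈ P.F) (φ : C(Z, ℝ)) :
    P.Γ (ContinuousMap.const Z c) v φ = 0 := by
  have h := P.chain (n := 0) (fun _ => c) contDiff_const (fun i => i.elim0) (fun i => i.elim0)
    v hv φ
  rw [cmp_eq _ _ _ (ContinuousMap.const Z c) (fun z => rfl)] at h
  rw [h]; simp

lemma contDiff_ev {n : ℕ} (i : Fin n) : ContDiff ℝ 1 (fun x : Fin n → ℝ => x i) :=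
  contDiff_apply ℝ ℝ i

section two

lemma cd_add : ContDiff ℝ 1 (fun x : Fin 2 → ℝ => x 0 + x 1) :=
  (contDiff_ev 0).add (contDiff_ev 1)

lemma cd_mul : ContDiff ℝ 1 (fun x : Fin 2 → ℝ => x 0 * x 1) :=
  (contDiff_ev 0).mul (contDiff_ev 1)

lemma pd_add (i : Fin 2) (x : Fin 2 → ℝ) : pd (fun x : Fin 2 → ℝ => x 0 + x 1) i x = 1 := by
  have h0 : HasFDerivAt (fun x : Fin 2 → ℝ => x 0) (ContinuousLinearMap.proj (R := ℝ) (0 : Fin 2)) x :=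
    hasFDerivAt_apply 0 x
  have h1 : HasFDerivAt (fun x : Fin 2 → ℝ => x 1) (ContinuousLinearMap.proj (R := ℝ) (1 : Fin 2)) x :=
    hasFDerivAt_apply 1 x
  have h := pd_of_hasFDerivAt (ψ := fun x : Fin 2 → ℝ => x 0 + x 1) i (h0.add h1)
  rw [h]
  fin_cases i <;> simp

lemma pd_mul (i : Fin 2) (x : Fin 2 → ℝ) :
    pd (fun x : Fin 2 → ℝ => x 0 * x 1) i x = if i = 0 then x 1 else x 0 := by
  have h0 : HasFDerivAt (fun x : Fin 2 → ℝ => x 0) (ContinuousLinearMap.proj (R := ℝ) (0 : Fin 2)) x :=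
    hasFDerivAt_apply 0 x
  have h1 : HasFDerivAt (fun x : Fin 2 → ℝ => x 1) (ContinuousLinearMap.proj (R := ℝ) (1 : Fin 2)) x :=
    hasFDerivAt_apply 1 x
  have h := pd_of_hasFDerivAt (ψ := fun x : Fin 2 → ℝ => x 0 * x 1) i (h0.mul h1)
  rw [h]
  fin_cases i <;> simp

lemma add_mem (hu : u ∈ P.F) (hv : v ∈ P.F) : u + v ∈ P.F := by
  have h := P.comp_mem _ cd_add ![u, v] (by intro i; fin_cases i <;> assumption)
  rwa [cmp_eq _ _ _ (u + v) (fun z => by simp)] at h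

lemma mul_mem (hu : u ∈ P.F) (hv : v ∈ P.F) : u * v ∈ P.F := by
  have h := P.comp_mem _ cd_mul ![u, v] (by intro i; fin_cases i <;> assumption)
  rwa [cmp_eq _ _ _ (u * v) (fun z => by simp)] at h

lemma Γ_add_left (hu : u ∈ P.F) (hv : v ∈ P.F) (hw : w ∈ P.F) (φ : C(Z, ℝ)) :
    P.Γ (u + v) w φ = P.Γ u w φ + P.Γ v w φ := by
  have h := P.chain _ cd_add ![u, v] (by intro i; fin_cases i <;> assumption) w hw φ
  rw [cmp_eq _ _ _ (u + v) (fun z => by simp), Fin.sum_univ_two] at h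
  rw [h]
  congr 1 <;> congr 1 <;> ext z <;> simp [pd_add]

lemma leibniz (hu : u ∈ P.F) (hv : v ∈ P.F) (hw : w ∈ P.F) (φ : C(Z, ℝ)) :
    P.Γ (u * v) w φ = P.Γ u w (v * φ) + P.Γ v w (u * φ) := by
  have h := P.chain _ cd_mul ![u, v] (by intro i; fin_cases i <;> assumption) w hw φ
  rw [cmp_eq _ _ _ (u * v) (fun z => by simp), Fin.sum_univ_two] at h
  rw [h]
  congr 1 <;> congr 1 <;> ext z <;> simp [pd_mul]

end two

lemma smul_eq (c : ℝ) (u : C(Z, ℝ)) : c • u = ContinuousMap.const Z c * u := by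
  ext z; simp

lemma smul_mem (c : ℝ) (hu : u ∈ P.F) : c • u ∈ P.F := by
  rw [smul_eq]; exact mul_mem (P.const_mem c) hu

lemma neg_mem (hu : u ∈ P.F) : -u ∈ P.F := by
  have := smul_mem (-1) hu
  rwa [neg_smul, one_smul] at this

lemma sub_mem (hu : u ∈ P.F) (hv : v ∈ P.F) : u - v ∈ P.F := by
  rw [sub_eq_add_neg]; exact add_mem hu (neg_mem hv)

lemma Γ_const_right (c : ℝ) (hv : v ∈ P.F) (φ : C(Z, ℝ)) :
    P.Γ v (ContinuousMap.const Z c) φ = 0 := by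
  rw [P.symm hv (P.const_mem c), P.Γ_const_left c hv]

lemma Γ_smul_left (c : ℝ) (hu : u ∈ P.F) (hv : v ∈ P.F) (φ : C(Z, ℝ)) :
    P.Γ (c • u) v φ = c * P.Γ u v φ := by
  rw [smul_eq, leibniz (P.const_mem c) hu hv, P.Γ_const_left c hv, zero_add, ← smul_eq,
    P.map_smul hu hv]

lemma Γ_neg_left (hu : u ∈ P.F) (hv : v ∈ P.F) (φ : C(Z, ℝ)) : P.Γ (-u) v φ = - P.Γ u v φ := by
  have := Γ_smul_left (-1) hu hv φ
  rwa [neg_smul, one_smul, neg_one_mul] at this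

lemma Γ_sub_left (hu : u ∈ P.F) (hv : v ∈ P.F) (hw : w ∈ P.F) (φ : C(Z, ℝ)) :
    P.Γ (u - v) w φ = P.Γ u w φ - P.Γ v w φ := by
  rw [sub_eq_add_neg, Γ_add_left hu (neg_mem hv) hw, Γ_neg_left hv hw, sub_eq_add_neg]

lemma Γ_add_right (hu : u ∈ P.F) (hv : v ∈ P.F) (hw : w ∈ P.F) (φ : C(Z, ℝ)) :
    P.Γ w (u + v) φ = P.Γ w u φ + P.Γ w v φ := by
  rw [P.symm hw (add_mem hu hv), Γ_add_left hu hv hw, P.symm hu hw, P.symm hv hw]

lemma Γ_smul_right (c : ℝ) (hu : u ∈ P.F) (hv : v ∈ P.F) (φ : C(Z, ℝ)) :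
    P.Γ u (c • v) φ = c * P.Γ u v φ := by
  rw [P.symm hu (smul_mem c hv), Γ_smul_left c hv hu, P.symm hv hu]

lemma Γ_neg_right (hu : u ∈ P.F) (hv : v ∈ P.F) (φ : C(Z, ℝ)) : P.Γ u (-v) φ = - P.Γ u v φ := by
  rw [P.symm hu (neg_mem hv), Γ_neg_left hv hu, P.symm hv hu]

lemma Γ_sub_right (hu : u ∈ P.F) (hv : v ∈ P.F) (hw : w ∈ P.F) (φ : C(Z, ℝ)) :
    P.Γ w (u - v) φ = P.Γ w u φ - P.Γ w v φ := by
  rw [P.symm hw (sub_mem hu hv), Γ_sub_left hu hv hw, P.symm hu hw, P.symm hv hw]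

lemma leibniz_right (hu : u ∈ P.F) (hv : v ∈ P.F) (hw : w ∈ P.F) (φ : C(Z, ℝ)) :
    P.Γ w (u * v) φ = P.Γ w u (v * φ) + P.Γ w v (u * φ) := by
  rw [P.symm hw (mul_mem hu hv), leibniz hu hv hw, P.symm hu hw, P.symm hv hw]

/-! ### linearity in `φ` -/

lemma map_zero (hu : u ∈ P.F) (hv : v ∈ P.F) : P.Γ u v 0 = 0 := by
  have := P.map_smul hu hv 0 0
  simpa using this

lemma map_neg (hu : u ∈ P.F) (hv : v ∈ P.F) (φ : C(Z, ℝ)) : P.Γ u v (-φ) = - P.Γ u v φ := by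
  have := P.map_smul hu hv (-1) φ
  rwa [neg_smul, one_smul, neg_one_mul] at this

lemma map_sub (hu : u ∈ P.F) (hv : v ∈ P.F) (φ φ' : C(Z, ℝ)) :
    P.Γ u v (φ - φ') = P.Γ u v φ - P.Γ u v φ' := by
  rw [sub_eq_add_neg, P.map_add hu hv, map_neg hu hv, sub_eq_add_neg]

lemma map_sum {ι : Type*} (s : Finset ι) (f : ι → C(Z, ℝ)) (hu : u ∈ P.F) (hv : v ∈ P.F) :
    P.Γ u v (∑ i ∈ s, f i) = ∑ i ∈ s, P.Γ u v (f i) := by
  classical
  induction s using Finset.induction_on with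
  | empty => simp [map_zero hu hv]
  | insert a s ha ih => rw [Finset.sum_insert ha, Finset.sum_insert ha, P.map_add hu hv, ih]

lemma mono_phi (hu : u ∈ P.F) {φ φ' : C(Z, ℝ)} (h : φ ≤ φ') : P.Γ u u φ ≤ P.Γ u u φ' := by
  have := P.nonneg hu (φ' - φ) (sub_nonneg.2 h)
  rw [map_sub hu hu] at this
  linarith

/-! ### quadratic identities and Cauchy-Schwarz -/

lemma Γ_add_add (hu : u ∈ P.F) (hv : v ∈ P.F) (φ : C(Z, ℝ)) :
    P.Γ (u + v) (u + v) φ = P.Γ u u φ + 2 * P.Γ u v φ + P.Γ v v φ := by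
  rw [Γ_add_left hu hv (add_mem hu hv), Γ_add_right hu hv hu, Γ_add_right hu hv hv,
    P.symm hv hu]
  ring

lemma Γ_sub_sub (hu : u ∈ P.F) (hv : v ∈ P.F) (φ : C(Z, ℝ)) :
    P.Γ (u - v) (u - v) φ = P.Γ u u φ - 2 * P.Γ u v φ + P.Γ v v φ := by
  rw [Γ_sub_left hu hv (sub_mem hu hv), Γ_sub_right hu hv hu, Γ_sub_right hu hv hv,
    P.symm hv hu]
  ring

lemma Γ_smul_smul (c : ℝ) (hu : u ∈ P.F) (φ : C(Z, ℝ)) :
    P.Γ (c • u) (c • u) φ = c ^ 2 * P.Γ u u φ := by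
  rw [Γ_smul_left c hu (smul_mem c hu), Γ_smul_right c hu hu]; ring

/-- Cauchy-Schwarz, squared. -/
lemma cauchy_schwarz_sq (hu : u ∈ P.F) (hv : v ∈ P.F) {φ : C(Z, ℝ)} (hφ : 0 ≤ φ) :
    (P.Γ u v φ) ^ 2 ≤ P.Γ u u φ * P.Γ v v φ := by
  have key : ∀ t : ℝ, 0 ≤ P.Γ v v φ * (t * t) + (2 * P.Γ u v φ) * t + P.Γ u u φ := by
    intro t
    have h := P.nonneg (add_mem hu (smul_mem t hv)) φ hφ
    rw [Γ_add_add hu (smul_mem t hv), Γ_smul_right t hu hv, Γ_smul_smul t hv] at h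
    nlinarith [h]
  have := discrim_le_zero key
  rw [discrim] at this
  nlinarith [this]

lemma abs_Γ_le_of_nonneg (hu : u ∈ P.F) (hv : v ∈ P.F) {φ : C(Z, ℝ)} (hφ : 0 ≤ φ) :
    |P.Γ u v φ| ≤ √(P.Γ u u φ) * √(P.Γ v v φ) := by
  rw [← Real.sqrt_mul (P.nonneg hu φ hφ)]
  exact Real.abs_le_sqrt (cauchy_schwarz_sq hu hv hφ)

/-- AM-GM form of Cauchy-Schwarz. -/
lemma two_mul_abs_Γ_le (hu : u ∈ P.F) (hv : v ∈ P.F) {φ : C(Z, ℝ)} (hφ : 0 ≤ φ) {t : ℝ}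
    (ht : 0 < t) : 2 * |P.Γ u v φ| ≤ t * P.Γ u u φ + t⁻¹ * P.Γ v v φ := by
  have h := cauchy_schwarz_sq hu hv hφ
  have hA := P.nonneg hu φ hφ
  have hB := P.nonneg hv φ hφ
  have h2 : (2 * |P.Γ u v φ|) ^ 2 ≤ (t * P.Γ u u φ + t⁻¹ * P.Γ v v φ) ^ 2 := by
    rw [mul_pow, sq_abs]
    have e : (t * P.Γ u u φ + t⁻¹ * P.Γ v v φ) ^ 2 =
        (t * P.Γ u u φ - t⁻¹ * P.Γ v v φ) ^ 2 + 4 * (P.Γ u u φ * P.Γ v v φ) := by
      field_simp; ring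
    rw [e]; nlinarith [sq_nonneg (t * P.Γ u u φ - t⁻¹ * P.Γ v v φ)]
  exact le_of_sq_le_sq h2 (by positivity)

lemma abs_Γ_le_abs (hu : u ∈ P.F) (hv : v ∈ P.F) {φ η : C(Z, ℝ)} (h : ∀ z, |φ z| ≤ η z) :
    |P.Γ u v φ| ≤ √(P.Γ u u η) * √(P.Γ v v η) := by
  set φp : C(Z, ℝ) := φ ⊔ 0
  set φm : C(Z, ℝ) := (-φ) ⊔ 0
  have hp0 : 0 ≤ φp := le_sup_right
  have hm0 : 0 ≤ φm := le_sup_right
  have hdec : φ = φp - φm := by
    ext z
    simp only [φp, φm, ContinuousMap.sub_apply, ContinuousMap.sup_apply, ContinuousMap.zero_apply,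
      ContinuousMap.neg_apply]
    rcases le_total (φ z) 0 with hz | hz
    · rw [sup_of_le_right hz, sup_of_le_left (by linarith)]; ring
    · rw [sup_of_le_left hz, sup_of_le_right (by linarith)]; ring
  have hsum : φp + φm ≤ η := by
    intro z
    have := h z
    change (φp + φm) z ≤ η z
    simp only [φp, φm, ContinuousMap.add_apply, ContinuousMap.sup_apply, ContinuousMap.zero_apply,
      ContinuousMap.neg_apply]
    rcases le_total (φ z) 0 with hz | hz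
    · rw [sup_of_le_right hz, sup_of_le_left (by linarith)]
      rw [abs_of_nonpos hz] at this; linarith
    · rw [sup_of_le_left hz, sup_of_le_right (by linarith)]
      rw [abs_of_nonneg hz] at this; linarith
  have huu := mono_phi hu hsum
  have hvv := mono_phi hv hsum
  rw [P.map_add hu hu] at huu
  rw [P.map_add hv hv] at hvv
  have a0 := P.nonneg hu φp hp0
  have a1 := P.nonneg hu φm hm0
  have b0 := P.nonneg hv φp hp0
  have b1 := P.nonneg hv φm hm0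
  have c0 := cauchy_schwarz_sq hu hv hp0
  have c1 := cauchy_schwarz_sq hu hv hm0
  have h1 : |P.Γ u v φ| ≤ |P.Γ u v φp| + |P.Γ u v φm| := by
    conv_lhs => rw [hdec, map_sub hu hv]
    exact abs_sub _ _
  have h2 : (|P.Γ u v φp| + |P.Γ u v φm|) ^ 2 ≤
      (P.Γ u u φp + P.Γ u u φm) * (P.Γ v v φp + P.Γ v v φm) := by
    have e0 := abs_nonneg (P.Γ u v φp)
    have e1 := abs_nonneg (P.Γ u v φm)
    have d0 : |P.Γ u v φp| ^ 2 ≤ P.Γ u u φp * P.Γ v v φp := by rwa [sq_abs]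
    have d1 : |P.Γ u v φm| ^ 2 ≤ P.Γ u u φm * P.Γ v v φm := by rwa [sq_abs]
    have cross : 2 * (|P.Γ u v φp| * |P.Γ u v φm|) ≤
        P.Γ u u φp * P.Γ v v φm + P.Γ u u φm * P.Γ v v φp := by
      have hsq : (2 * (|P.Γ u v φp| * |P.Γ u v φm|)) ^ 2 ≤
          (P.Γ u u φp * P.Γ v v φm + P.Γ u u φm * P.Γ v v φp) ^ 2 := by
        have m : (|P.Γ u v φp| * |P.Γ u v φm|) ^ 2 ≤
            (P.Γ u u φp * P.Γ v v φp) * (P.Γ u u φm * P.Γ v v φm) := by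
          rw [mul_pow]
          exact mul_le_mul d0 d1 (sq_nonneg _) (mul_nonneg a0 b0)
        nlinarith [sq_nonneg (P.Γ u u φp * P.Γ v v φm - P.Γ u u φm * P.Γ v v φp)]
      exact le_of_sq_le_sq hsq (by positivity)
    nlinarith
  have h3 : |P.Γ u v φp| + |P.Γ u v φm| ≤
      √((P.Γ u u φp + P.Γ u u φm) * (P.Γ v v φp + P.Γ v v φm)) :=
    Real.le_sqrt_of_sq_le h2
  rw [Real.sqrt_mul (by positivity)] at h3
  calc |P.Γ u v φ| ≤ _ := h1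
    _ ≤ _ := h3
    _ ≤ _ := mul_le_mul (Real.sqrt_le_sqrt huu) (Real.sqrt_le_sqrt hvv) (Real.sqrt_nonneg _)
      (Real.sqrt_nonneg _)

lemma Γ_one_smul (c : ℝ) (hu : u ∈ P.F) : P.Γ u u (ContinuousMap.const Z c) = c * P.E u := by
  have : (ContinuousMap.const Z c) = c • (1 : C(Z, ℝ)) := by ext; simp
  rw [this, P.map_smul hu hu]; rfl

/-- `|Γ(u,v)(φ)| ≤ c √E(u) √E(v)` if `|φ| ≤ c`. -/
lemma abs_Γ_le_of_abs_le (hu : u ∈ P.F) (hv : v ∈ P.F) {φ : C(Z, ℝ)} {c : ℝ} (hc : 0 ≤ c)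
    (h : ∀ z, |φ z| ≤ c) : |P.Γ u v φ| ≤ c * (√(P.E u) * √(P.E v)) := by
  have := abs_Γ_le_abs hu hv (φ := φ) (η := ContinuousMap.const Z c) (by simpa using h)
  rw [Γ_one_smul c hu, Γ_one_smul c hv, Real.sqrt_mul hc, Real.sqrt_mul hc] at this
  calc _ ≤ _ := this
    _ = (√c * √c) * (√(P.E u) * √(P.E v)) := by ring
    _ = _ := by rw [Real.mul_self_sqrt hc]

lemma abs_Γ_le (hu : u ∈ P.F) (hv : v ∈ P.F) (φ : C(Z, ℝ)) :
    |P.Γ u v φ| ≤ ‖φ‖ * (√(P.E u) * √(P.E v)) :=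
  abs_Γ_le_of_abs_le hu hv (norm_nonneg _) (fun z => φ.norm_coe_le_norm z)

lemma abs_Γ_self_le (hu : u ∈ P.F) (φ : C(Z, ℝ)) : |P.Γ u u φ| ≤ ‖φ‖ * P.E u := by
  have := abs_Γ_le hu hu φ
  rwa [Real.mul_self_sqrt (E_nonneg hu)] at this

/-- energy of a product -/
lemma E_mul_le (hu : u ∈ P.F) (hv : v ∈ P.F) :
    P.E (u * v) ≤ 2 * (‖v‖ ^ 2 * P.E u + ‖u‖ ^ 2 * P.E v) := by
  have huv := mul_mem hu hv
  have e1 : P.E (u * v) = P.Γ u u (v * v) + 2 * P.Γ u v (u * v) + P.Γ v v (u * u) := by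
    rw [E, leibniz hu hv huv, leibniz_right hu hv hu, leibniz_right hu hv hv, P.symm hv hu]
    have a1 : v * (v * 1) = v * v := by ring
    have a2 : u * (v * 1) = u * v := by ring
    have a3 : v * (u * 1) = u * v := by ring
    have a4 : u * (u * 1) = u * u := by ring
    rw [a1, a2, a3, a4]; ring
  have b1 := (le_abs_self _).trans (abs_Γ_self_le hu (v * v))
  have b2 := (le_abs_self _).trans (abs_Γ_self_le hv (u * u))
  have b3 := (le_abs_self _).trans (abs_Γ_le hu hv (u * v))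
  have n1 : ‖v * v‖ ≤ ‖v‖ * ‖v‖ := norm_mul_le _ _
  have n2 : ‖u * u‖ ≤ ‖u‖ * ‖u‖ := norm_mul_le _ _
  have n3 : ‖u * v‖ ≤ ‖u‖ * ‖v‖ := norm_mul_le _ _
  have p1 := E_nonneg hu
  have p2 := E_nonneg hv
  have q1 : P.Γ u u (v * v) ≤ ‖v‖ * ‖v‖ * P.E u := b1.trans (mul_le_mul_of_nonneg_right n1 p1)
  have q2 : P.Γ v v (u * u) ≤ ‖u‖ * ‖u‖ * P.E v := b2.trans (mul_le_mul_of_nonneg_right n2 p2)
  have q3 : P.Γ u v (u * v) ≤ (‖u‖ * ‖v‖) * (√(P.E u) * √(P.E v)) :=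
    b3.trans (mul_le_mul_of_nonneg_right n3 (by positivity))
  have q4 : 2 * ((‖u‖ * ‖v‖) * (√(P.E u) * √(P.E v))) ≤ ‖v‖ * ‖v‖ * P.E u + ‖u‖ * ‖u‖ * P.E v := by
    have s1 := Real.mul_self_sqrt p1
    have s2 := Real.mul_self_sqrt p2
    have : 0 ≤ (‖v‖ * √(P.E u) - ‖u‖ * √(P.E v)) ^ 2 := sq_nonneg _
    calc 2 * ((‖u‖ * ‖v‖) * (√(P.E u) * √(P.E v)))
        = ‖v‖ * ‖v‖ * (√(P.E u) * √(P.E u)) + ‖u‖ * ‖u‖ * (√(P.E v) * √(P.E v))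
          - (‖v‖ * √(P.E u) - ‖u‖ * √(P.E v)) ^ 2 := by ring
      _ ≤ ‖v‖ * ‖v‖ * (√(P.E u) * √(P.E u)) + ‖u‖ * ‖u‖ * (√(P.E v) * √(P.E v)) := by linarith
      _ = _ := by rw [s1, s2]
  rw [e1]; nlinarith

lemma E_add_le (hu : u ∈ P.F) (hv : v ∈ P.F) : P.E (u + v) ≤ 2 * (P.E u + P.E v) := by
  have h1 := Γ_add_add hu hv (1 : C(Z, ℝ))
  have h2 := Γ_sub_sub hu hv (1 : C(Z, ℝ))
  have h3 : 0 ≤ P.Γ (u - v) (u - v) 1 := E_nonneg (sub_mem hu hv)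
  simp only [E]; linarith

lemma E_sub_le (hu : u ∈ P.F) (hv : v ∈ P.F) : P.E (u - v) ≤ 2 * (P.E u + P.E v) := by
  have h1 := Γ_add_add hu hv (1 : C(Z, ℝ))
  have h2 := Γ_sub_sub hu hv (1 : C(Z, ℝ))
  have h3 : 0 ≤ P.Γ (u + v) (u + v) 1 := E_nonneg (add_mem hu hv)
  simp only [E]; linarith

lemma E_smul (c : ℝ) (hu : u ∈ P.F) : P.E (c • u) = c ^ 2 * P.E u := Γ_smul_smul c hu 1

end PreForm

end Crest.Agent.R193.D3a
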