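import Crest.Agent.R193.Defs

/-!
# R193, block D3b: calculus over a `DForm` (helper666), part 1

Algebra, chain rules, Cauchy-Schwarz, product bounds, filter-free WEAK / CLOSED, lower
semicontinuity, cut-off functions for compact sets, density of the domain, locality.
-/

set_option autoImplicit false
set_option linter.unusedSectionVars false

open Set Filter Topology

namespace Crest.Agent.R193.D3b1

open Crest.Agent.R193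

variable {G Z : Type} [Group G] [MetricSpace Z] [MulAction G Z] {S : Setup G Z}
variable (Q : DForm S) {u v w u' v' : C(Z, ℝ)}

/-! ### algebra of the domain -/

lemma zero_mem : (0 : C(Z, ℝ)) ∈ Q.Dom := Q.const_mem 0

lemma one_mem : (1 : C(Z, ℝ)) ∈ Q.Dom := Q.const_mem 1

variable {Q}

lemma add_mem (hu : u ∈ Q.Dom) (hv : v ∈ Q.Dom) : u + v ∈ Q.Dom := Q.add_mem u hu v hv

lemma smul_mem (c : ℝ) (hu : u ∈ Q.Dom) : c • u ∈ Q.Dom := Q.smul_mem c u hu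

lemma mul_mem (hu : u ∈ Q.Dom) (hv : v ∈ Q.Dom) : u * v ∈ Q.Dom := Q.mul_mem u hu v hv

lemma neg_mem (hu : u ∈ Q.Dom) : -u ∈ Q.Dom := by
  have := smul_mem (-1) hu
  rwa [neg_smul, one_smul] at this

lemma sub_mem (hu : u ∈ Q.Dom) (hv : v ∈ Q.Dom) : u - v ∈ Q.Dom := by
  rw [sub_eq_add_neg]; exact add_mem hu (neg_mem hv)

lemma pow_mem (hu : u ∈ Q.Dom) (n : ℕ) : u ^ n ∈ Q.Dom := by
  induction n with
  | zero => rw [pow_zero]; exact one_mem Q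
  | succ n ih => rw [pow_succ]; exact mul_mem ih hu

lemma sum_mem {ι : Type*} (s : Finset ι) {f : ι → C(Z, ℝ)} (hf : ∀ i ∈ s, f i ∈ Q.Dom) :
    ∑ i ∈ s, f i ∈ Q.Dom := by
  classical
  induction s using Finset.induction_on with
  | empty => simpa using zero_mem Q
  | insert a s ha ih =>
    rw [Finset.sum_insert ha]
    exact add_mem (hf a (Finset.mem_insert_self _ _))
      (ih fun i hi => hf i (Finset.mem_insert_of_mem hi))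

/-- the two-variable chain rule, membership -/
lemma comp2_mem {ψ : ℝ × ℝ → ℝ} (hψ : ContDiff ℝ 2 ψ) (hu : u ∈ Q.Dom) (hv : v ∈ Q.Dom)
    {w' : C(Z, ℝ)} (hw' : ∀ x, w' x = ψ (u x, v x)) : w' ∈ Q.Dom := by
  have hc : ∀ e : ℝ × ℝ, Continuous (fun x => fderiv ℝ ψ (u x, v x) e) := fun e =>
    ((hψ.continuous_fderiv two_ne_zero).comp (u.continuous.prodMk v.continuous)).clm_apply
      continuous_const
  exact (Q.chain ψ hψ u hu v hv w' ⟨_, hc (1, 0)⟩ ⟨_, hc (0, 1)⟩ hw' (fun x => rfl)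
    (fun x => rfl)).1

/-- the one-variable chain rule -/
lemma chain1 {ψ : ℝ → ℝ} (hψ : ContDiff ℝ 2 ψ) (hu : u ∈ Q.Dom) {w' d : C(Z, ℝ)}
    (hw' : ∀ x, w' x = ψ (u x)) (hd : ∀ x, d x = deriv ψ (u x)) :
    w' ∈ Q.Dom ∧ ∀ w ∈ Q.Dom, ∀ φ : C(Z, ℝ), Q.Γ w' w φ = Q.Γ u w (φ * d) := by
  have hψ2 : ContDiff ℝ 2 (fun p : ℝ × ℝ => ψ p.1) := hψ.comp contDiff_fst
  have hfd : ∀ (p : ℝ × ℝ) (e : ℝ × ℝ), fderiv ℝ (fun p : ℝ × ℝ => ψ p.1) p e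
      = deriv ψ p.1 * e.1 := by
    intro p e
    have h1 : HasDerivAt ψ (deriv ψ p.1) p.1 :=
      (hψ.differentiable two_ne_zero p.1).hasDerivAt
    have h2 : HasFDerivAt (fun p : ℝ × ℝ => ψ p.1)
        ((ContinuousLinearMap.toSpanSingleton ℝ (deriv ψ p.1)).comp (ContinuousLinearMap.fst ℝ ℝ ℝ)) p :=
      h1.hasFDerivAt.comp p hasFDerivAt_fst
    rw [h2.fderiv]
    simp [mul_comm]
  have key := Q.chain (fun p : ℝ × ℝ => ψ p.1) hψ2 u hu u hu w' d 0 hw'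
    (fun x => by rw [hfd]; simp [hd]) (fun x => by rw [hfd]; simp)
  refine ⟨key.1, fun w hw φ => ?_⟩
  rw [key.2 w hw φ, mul_zero]
  have h0 : Q.Γ u w 0 = 0 := by
    have := Q.smul_test 0 u hu w hw 0
    simpa using this
  rw [h0, add_zero]

/-! ### bilinearity -/

lemma add_right (hu : u ∈ Q.Dom) (hu' : u' ∈ Q.Dom) (hv : v ∈ Q.Dom) (φ : C(Z, ℝ)) :
    Q.Γ v (u + u') φ = Q.Γ v u φ + Q.Γ v u' φ := by
  rw [Q.symm v hv _ (add_mem hu hu'), Q.add_left u hu u' hu' v hv, Q.symm u hu v hv,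
    Q.symm u' hu' v hv]

lemma smul_right (c : ℝ) (hu : u ∈ Q.Dom) (hv : v ∈ Q.Dom) (φ : C(Z, ℝ)) :
    Q.Γ v (c • u) φ = c * Q.Γ v u φ := by
  rw [Q.symm v hv _ (smul_mem c hu), Q.smul_left c u hu v hv, Q.symm u hu v hv]

lemma neg_left (hu : u ∈ Q.Dom) (hv : v ∈ Q.Dom) (φ : C(Z, ℝ)) : Q.Γ (-u) v φ = - Q.Γ u v φ := by
  have := Q.smul_left (-1) u hu v hv φ
  rwa [neg_smul, one_smul, neg_one_mul] at this

lemma neg_right (hu : u ∈ Q.Dom) (hv : v ∈ Q.Dom) (φ : C(Z, ℝ)) : Q.Γ v (-u) φ = - Q.Γ v u φ := by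
  have := smul_right (-1) hu hv φ
  rwa [neg_smul, one_smul, neg_one_mul] at this

lemma sub_left (hu : u ∈ Q.Dom) (hu' : u' ∈ Q.Dom) (hv : v ∈ Q.Dom) (φ : C(Z, ℝ)) :
    Q.Γ (u - u') v φ = Q.Γ u v φ - Q.Γ u' v φ := by
  rw [sub_eq_add_neg, Q.add_left u hu _ (neg_mem hu') v hv, neg_left hu' hv, sub_eq_add_neg]

lemma sub_right (hu : u ∈ Q.Dom) (hu' : u' ∈ Q.Dom) (hv : v ∈ Q.Dom) (φ : C(Z, ℝ)) :
    Q.Γ v (u - u') φ = Q.Γ v u φ - Q.Γ v u' φ := by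
  rw [sub_eq_add_neg, add_right hu (neg_mem hu') hv, neg_right hu' hv, sub_eq_add_neg]

lemma const_left (c : ℝ) (hv : v ∈ Q.Dom) (φ : C(Z, ℝ)) :
    Q.Γ (ContinuousMap.const Z c) v φ = 0 := by
  have h := chain1 (Q := Q) (ψ := fun _ => c) contDiff_const (zero_mem Q)
    (w' := ContinuousMap.const Z c) (d := 0) (fun x => rfl) (fun x => by simp)
  rw [h.2 v hv φ, mul_zero]
  have := Q.smul_test 0 0 (zero_mem Q) v hv 0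
  simpa using this

lemma const_right (c : ℝ) (hv : v ∈ Q.Dom) (φ : C(Z, ℝ)) :
    Q.Γ v (ContinuousMap.const Z c) φ = 0 := by
  rw [Q.symm v hv _ (Q.const_mem c), const_left c hv]

lemma one_left (hv : v ∈ Q.Dom) (φ : C(Z, ℝ)) : Q.Γ 1 v φ = 0 := const_left 1 hv φ

lemma one_right (hv : v ∈ Q.Dom) (φ : C(Z, ℝ)) : Q.Γ v 1 φ = 0 := const_right 1 hv φ

lemma zero_left (hv : v ∈ Q.Dom) (φ : C(Z, ℝ)) : Q.Γ 0 v φ = 0 := const_left 0 hv φ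

lemma zero_right (hv : v ∈ Q.Dom) (φ : C(Z, ℝ)) : Q.Γ v 0 φ = 0 := const_right 0 hv φ

lemma sum_left {ι : Type*} (s : Finset ι) {f : ι → C(Z, ℝ)} (hf : ∀ i ∈ s, f i ∈ Q.Dom)
    (hv : v ∈ Q.Dom) (φ : C(Z, ℝ)) : Q.Γ (∑ i ∈ s, f i) v φ = ∑ i ∈ s, Q.Γ (f i) v φ := by
  classical
  induction s using Finset.induction_on with
  | empty => simp [zero_left hv]
  | insert a s ha ih =>
    have h1 := hf a (Finset.mem_insert_self _ _)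
    have h2 : ∀ i ∈ s, f i ∈ Q.Dom := fun i hi => hf i (Finset.mem_insert_of_mem hi)
    rw [Finset.sum_insert ha, Finset.sum_insert ha, Q.add_left _ h1 _ (sum_mem s h2) v hv, ih h2]

lemma sum_right {ι : Type*} (s : Finset ι) {f : ι → C(Z, ℝ)} (hf : ∀ i ∈ s, f i ∈ Q.Dom)
    (hv : v ∈ Q.Dom) (φ : C(Z, ℝ)) : Q.Γ v (∑ i ∈ s, f i) φ = ∑ i ∈ s, Q.Γ v (f i) φ := by
  rw [Q.symm v hv _ (sum_mem s hf), sum_left s hf hv]
  exact Finset.sum_congr rfl fun i hi => Q.symm _ (hf i hi) _ hv _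

/-! ### test functions -/

lemma zero_test (hu : u ∈ Q.Dom) (hv : v ∈ Q.Dom) : Q.Γ u v 0 = 0 := by
  have := Q.smul_test 0 u hu v hv 0
  simpa using this

lemma neg_test (hu : u ∈ Q.Dom) (hv : v ∈ Q.Dom) (φ : C(Z, ℝ)) : Q.Γ u v (-φ) = - Q.Γ u v φ := by
  have := Q.smul_test (-1) u hu v hv φ
  rwa [neg_smul, one_smul, neg_one_mul] at this

lemma sub_test (hu : u ∈ Q.Dom) (hv : v ∈ Q.Dom) (φ φ' : C(Z, ℝ)) :
    Q.Γ u v (φ - φ') = Q.Γ u v φ - Q.Γ u v φ' := by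
  rw [sub_eq_add_neg, Q.add_test u hu v hv, neg_test hu hv, sub_eq_add_neg]

lemma sum_test {ι : Type*} (s : Finset ι) (f : ι → C(Z, ℝ)) (hu : u ∈ Q.Dom) (hv : v ∈ Q.Dom) :
    Q.Γ u v (∑ i ∈ s, f i) = ∑ i ∈ s, Q.Γ u v (f i) := by
  classical
  induction s using Finset.induction_on with
  | empty => simp [zero_test hu hv]
  | insert a s ha ih => rw [Finset.sum_insert ha, Finset.sum_insert ha, Q.add_test u hu v hv, ih]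

lemma mono_test (hu : u ∈ Q.Dom) {φ φ' : C(Z, ℝ)} (h : ∀ x, φ x ≤ φ' x) :
    Q.Γ u u φ ≤ Q.Γ u u φ' := by
  have := Q.nonneg u hu (φ' - φ) (fun x => by simpa using h x)
  rw [sub_test hu hu] at this
  linarith

lemma energy_nonneg (hu : u ∈ Q.Dom) : 0 ≤ Q.Γ u u 1 := Q.nonneg u hu 1 (fun _ => zero_le_one)

/-! ### Leibniz rule -/

lemma leibniz (hu : u ∈ Q.Dom) (hv : v ∈ Q.Dom) (hw : w ∈ Q.Dom) (φ : C(Z, ℝ)) :
    Q.Γ (u * v) w φ = Q.Γ u w (v * φ) + Q.Γ v w (u * φ) := by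
  have hψ : ContDiff ℝ 2 (fun p : ℝ × ℝ => p.1 * p.2) := contDiff_fst.mul contDiff_snd
  have hfd : ∀ p : ℝ × ℝ, ∀ e : ℝ × ℝ, fderiv ℝ (fun p : ℝ × ℝ => p.1 * p.2) p e
      = p.1 * e.2 + p.2 * e.1 := by
    intro p e
    have h2 : HasFDerivAt (fun p : ℝ × ℝ => p.1 * p.2)
        (p.1 • (ContinuousLinearMap.snd ℝ ℝ ℝ) + p.2 • (ContinuousLinearMap.fst ℝ ℝ ℝ)) p :=
      hasFDerivAt_fst.mul hasFDerivAt_snd
    rw [h2.fderiv]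
    simp
  have key := Q.chain _ hψ u hu v hv (u * v) v u (fun x => rfl)
    (fun x => by rw [hfd]; simp) (fun x => by rw [hfd]; simp)
  rw [key.2 w hw φ, mul_comm φ v, mul_comm φ u]

lemma leibniz_right (hu : u ∈ Q.Dom) (hv : v ∈ Q.Dom) (hw : w ∈ Q.Dom) (φ : C(Z, ℝ)) :
    Q.Γ w (u * v) φ = Q.Γ w u (v * φ) + Q.Γ w v (u * φ) := by
  rw [Q.symm w hw _ (mul_mem hu hv), leibniz hu hv hw, Q.symm u hu w hw, Q.symm v hv w hw]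

lemma sq_left (hu : u ∈ Q.Dom) (hw : w ∈ Q.Dom) (φ : C(Z, ℝ)) :
    Q.Γ (u * u) w φ = 2 * Q.Γ u w (u * φ) := by
  rw [leibniz hu hu hw]; ring

lemma sq_right (hu : u ∈ Q.Dom) (hw : w ∈ Q.Dom) (φ : C(Z, ℝ)) :
    Q.Γ w (u * u) φ = 2 * Q.Γ w u (u * φ) := by
  rw [leibniz_right hu hu hw]; ring

/-! ### quadratic identities and Cauchy-Schwarz -/

lemma Γ_add_add (hu : u ∈ Q.Dom) (hv : v ∈ Q.Dom) (φ : C(Z, ℝ)) :
    Q.Γ (u + v) (u + v) φ = Q.Γ u u φ + 2 * Q.Γ u v φ + Q.Γ v v φ := by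
  rw [Q.add_left u hu v hv _ (add_mem hu hv), add_right hu hv hu, add_right hu hv hv,
    Q.symm v hv u hu]
  ring

lemma Γ_sub_sub (hu : u ∈ Q.Dom) (hv : v ∈ Q.Dom) (φ : C(Z, ℝ)) :
    Q.Γ (u - v) (u - v) φ = Q.Γ u u φ - 2 * Q.Γ u v φ + Q.Γ v v φ := by
  rw [sub_left hu hv (sub_mem hu hv), sub_right hu hv hu, sub_right hu hv hv,
    Q.symm v hv u hu]
  ring

lemma Γ_smul_smul (c : ℝ) (hu : u ∈ Q.Dom) (φ : C(Z, ℝ)) :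
    Q.Γ (c • u) (c • u) φ = c ^ 2 * Q.Γ u u φ := by
  rw [Q.smul_left c u hu _ (smul_mem c hu), smul_right c hu hu]; ring

/-- energy measure of a product -/
lemma Γ_mul_mul (hu : u ∈ Q.Dom) (hv : v ∈ Q.Dom) (φ : C(Z, ℝ)) :
    Q.Γ (u * v) (u * v) φ =
      Q.Γ u u (v * v * φ) + 2 * Q.Γ u v (u * v * φ) + Q.Γ v v (u * u * φ) := by
  rw [leibniz hu hv (mul_mem hu hv), leibniz_right hu hv hu, leibniz_right hu hv hv,
    Q.symm v hv u hu]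
  have a1 : v * (v * φ) = v * v * φ := by ring
  have a2 : u * (v * φ) = u * v * φ := by ring
  have a3 : v * (u * φ) = u * v * φ := by ring
  have a4 : u * (u * φ) = u * u * φ := by ring
  rw [a1, a2, a3, a4]; ring

/-- Cauchy-Schwarz, squared. -/
lemma cauchy_schwarz_sq (hu : u ∈ Q.Dom) (hv : v ∈ Q.Dom) {φ : C(Z, ℝ)} (hφ : ∀ x, 0 ≤ φ x) :
    (Q.Γ u v φ) ^ 2 ≤ Q.Γ u u φ * Q.Γ v v φ := by
  have key : ∀ t : ℝ, 0 ≤ Q.Γ v v φ * (t * t) + (2 * Q.Γ u v φ) * t + Q.Γ u u φ := by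
    intro t
    have h := Q.nonneg _ (add_mem hu (smul_mem t hv)) φ hφ
    rw [Γ_add_add hu (smul_mem t hv), smul_right t hv hu, Γ_smul_smul t hv] at h
    nlinarith [h]
  have := discrim_le_zero key
  rw [discrim] at this
  nlinarith [this]

lemma abs_Γ_le_of_nonneg (hu : u ∈ Q.Dom) (hv : v ∈ Q.Dom) {φ : C(Z, ℝ)} (hφ : ∀ x, 0 ≤ φ x) :
    |Q.Γ u v φ| ≤ √(Q.Γ u u φ) * √(Q.Γ v v φ) := by
  rw [← Real.sqrt_mul (Q.nonneg u hu φ hφ)]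
  exact Real.abs_le_sqrt (cauchy_schwarz_sq hu hv hφ)

/-- AM-GM form of Cauchy-Schwarz. -/
lemma two_mul_abs_Γ_le (hu : u ∈ Q.Dom) (hv : v ∈ Q.Dom) {φ : C(Z, ℝ)} (hφ : ∀ x, 0 ≤ φ x)
    {t : ℝ} (ht : 0 < t) : 2 * |Q.Γ u v φ| ≤ t * Q.Γ u u φ + t⁻¹ * Q.Γ v v φ := by
  have h := cauchy_schwarz_sq hu hv hφ
  have hA := Q.nonneg u hu φ hφ
  have hB := Q.nonneg v hv φ hφ
  have h2 : (2 * |Q.Γ u v φ|) ^ 2 ≤ (t * Q.Γ u u φ + t⁻¹ * Q.Γ v v φ) ^ 2 := by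
    rw [mul_pow, sq_abs]
    have e : (t * Q.Γ u u φ + t⁻¹ * Q.Γ v v φ) ^ 2 =
        (t * Q.Γ u u φ - t⁻¹ * Q.Γ v v φ) ^ 2 + 4 * (Q.Γ u u φ * Q.Γ v v φ) := by
      field_simp; ring
    rw [e]; nlinarith [sq_nonneg (t * Q.Γ u u φ - t⁻¹ * Q.Γ v v φ)]
  exact le_of_sq_le_sq h2 (by positivity)

/-- positive and negative parts of a test function -/
lemma exists_pos_neg {φ η : C(Z, ℝ)} (h : ∀ z, |φ z| ≤ η z) :
    ∃ φp φm : C(Z, ℝ), (∀ x, 0 ≤ φp x) ∧ (∀ x, 0 ≤ φm x) ∧ φ = φp - φm ∧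
      ∀ x, (φp + φm) x ≤ η x := by
  refine ⟨φ ⊔ 0, (-φ) ⊔ 0, fun x => ?_, fun x => ?_, ?_, fun z => ?_⟩
  · simp
  · simp
  · ext z
    simp only [ContinuousMap.sub_apply, ContinuousMap.sup_apply, ContinuousMap.zero_apply,
      ContinuousMap.neg_apply]
    rcases le_total (φ z) 0 with hz | hz
    · rw [sup_of_le_right hz, sup_of_le_left (by linarith)]; ring
    · rw [sup_of_le_left hz, sup_of_le_right (by linarith)]; ring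
  · have := h z
    simp only [ContinuousMap.add_apply, ContinuousMap.sup_apply, ContinuousMap.zero_apply,
      ContinuousMap.neg_apply]
    rcases le_total (φ z) 0 with hz | hz
    · rw [sup_of_le_right hz, sup_of_le_left (by linarith)]
      rw [abs_of_nonpos hz] at this; linarith
    · rw [sup_of_le_left hz, sup_of_le_right (by linarith)]
      rw [abs_of_nonneg hz] at this; linarith

/-- `|Γ(u,v)(φ)|² ≤ Γ(u,u)(η) Γ(v,v)(η)` if `|φ| ≤ η` -/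
lemma cauchy_schwarz_abs_sq (hu : u ∈ Q.Dom) (hv : v ∈ Q.Dom) {φ η : C(Z, ℝ)}
    (h : ∀ z, |φ z| ≤ η z) : (Q.Γ u v φ) ^ 2 ≤ Q.Γ u u η * Q.Γ v v η := by
  obtain ⟨φp, φm, hp0, hm0, hdec, hsum⟩ := exists_pos_neg h
  have huu := mono_test hu hsum
  have hvv := mono_test hv hsum
  rw [Q.add_test u hu u hu] at huu
  rw [Q.add_test v hv v hv] at hvv
  have a0 := Q.nonneg u hu φp hp0
  have a1 := Q.nonneg u hu φm hm0
  have b0 := Q.nonneg v hv φp hp0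
  have b1 := Q.nonneg v hv φm hm0
  have c0 := cauchy_schwarz_sq hu hv hp0
  have c1 := cauchy_schwarz_sq hu hv hm0
  have h1 : |Q.Γ u v φ| ≤ |Q.Γ u v φp| + |Q.Γ u v φm| := by
    conv_lhs => rw [hdec, sub_test hu hv]
    exact abs_sub _ _
  have h2 : (|Q.Γ u v φp| + |Q.Γ u v φm|) ^ 2 ≤
      (Q.Γ u u φp + Q.Γ u u φm) * (Q.Γ v v φp + Q.Γ v v φm) := by
    have e0 := abs_nonneg (Q.Γ u v φp)
    have e1 := abs_nonneg (Q.Γ u v φm)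
    have d0 : |Q.Γ u v φp| ^ 2 ≤ Q.Γ u u φp * Q.Γ v v φp := by rwa [sq_abs]
    have d1 : |Q.Γ u v φm| ^ 2 ≤ Q.Γ u u φm * Q.Γ v v φm := by rwa [sq_abs]
    have cross : 2 * (|Q.Γ u v φp| * |Q.Γ u v φm|) ≤
        Q.Γ u u φp * Q.Γ v v φm + Q.Γ u u φm * Q.Γ v v φp := by
      have hsq : (2 * (|Q.Γ u v φp| * |Q.Γ u v φm|)) ^ 2 ≤
          (Q.Γ u u φp * Q.Γ v v φm + Q.Γ u u φm * Q.Γ v v φp) ^ 2 := by
        have m : (|Q.Γ u v φp| * |Q.Γ u v φm|) ^ 2 ≤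
            (Q.Γ u u φp * Q.Γ v v φp) * (Q.Γ u u φm * Q.Γ v v φm) := by
          rw [mul_pow]
          exact mul_le_mul d0 d1 (sq_nonneg _) (mul_nonneg a0 b0)
        nlinarith [sq_nonneg (Q.Γ u u φp * Q.Γ v v φm - Q.Γ u u φm * Q.Γ v v φp)]
      exact le_of_sq_le_sq hsq (by positivity)
    nlinarith
  calc (Q.Γ u v φ) ^ 2 = |Q.Γ u v φ| ^ 2 := (sq_abs _).symm
    _ ≤ (|Q.Γ u v φp| + |Q.Γ u v φm|) ^ 2 := by gcongr
    _ ≤ _ := h2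
    _ ≤ _ := mul_le_mul huu hvv (by positivity) (by linarith)

lemma abs_Γ_le_abs (hu : u ∈ Q.Dom) (hv : v ∈ Q.Dom) {φ η : C(Z, ℝ)} (h : ∀ z, |φ z| ≤ η z) :
    |Q.Γ u v φ| ≤ √(Q.Γ u u η) * √(Q.Γ v v η) := by
  have hη : ∀ x, 0 ≤ η x := fun x => (abs_nonneg _).trans (h x)
  rw [← Real.sqrt_mul (Q.nonneg u hu η hη)]
  exact Real.abs_le_sqrt (cauchy_schwarz_abs_sq hu hv h)

/-- AM-GM, `|φ| ≤ η` -/
lemma two_mul_abs_Γ_le_abs (hu : u ∈ Q.Dom) (hv : v ∈ Q.Dom) {φ η : C(Z, ℝ)}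
    (h : ∀ z, |φ z| ≤ η z) {t : ℝ} (ht : 0 < t) :
    2 * |Q.Γ u v φ| ≤ t * Q.Γ u u η + t⁻¹ * Q.Γ v v η := by
  have hη : ∀ x, 0 ≤ η x := fun x => (abs_nonneg _).trans (h x)
  have h0 := cauchy_schwarz_abs_sq hu hv h
  have hA := Q.nonneg u hu η hη
  have hB := Q.nonneg v hv η hη
  have h2 : (2 * |Q.Γ u v φ|) ^ 2 ≤ (t * Q.Γ u u η + t⁻¹ * Q.Γ v v η) ^ 2 := by
    rw [mul_pow, sq_abs]
    have e : (t * Q.Γ u u η + t⁻¹ * Q.Γ v v η) ^ 2 =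
        (t * Q.Γ u u η - t⁻¹ * Q.Γ v v η) ^ 2 + 4 * (Q.Γ u u η * Q.Γ v v η) := by
      field_simp; ring
    rw [e]; nlinarith [sq_nonneg (t * Q.Γ u u η - t⁻¹ * Q.Γ v v η)]
  exact le_of_sq_le_sq h2 (by positivity)

lemma Γ_const_test (c : ℝ) (hu : u ∈ Q.Dom) (hv : v ∈ Q.Dom) :
    Q.Γ u v (ContinuousMap.const Z c) = c * Q.Γ u v 1 := by
  have : (ContinuousMap.const Z c) = c • (1 : C(Z, ℝ)) := by ext; simp
  rw [this, Q.smul_test c u hu v hv]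

/-- `|Γ(u,v)(φ)| ≤ c √E(u) √E(v)` if `|φ| ≤ c`. -/
lemma abs_Γ_le_of_abs_le (hu : u ∈ Q.Dom) (hv : v ∈ Q.Dom) {φ : C(Z, ℝ)} {c : ℝ} (hc : 0 ≤ c)
    (h : ∀ z, |φ z| ≤ c) : |Q.Γ u v φ| ≤ c * (√(Q.Γ u u 1) * √(Q.Γ v v 1)) := by
  have := abs_Γ_le_abs hu hv (φ := φ) (η := ContinuousMap.const Z c) (by simpa using h)
  rw [Γ_const_test c hu hu, Γ_const_test c hv hv, Real.sqrt_mul hc, Real.sqrt_mul hc] at this
  calc _ ≤ _ := this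
    _ = (√c * √c) * (√(Q.Γ u u 1) * √(Q.Γ v v 1)) := by ring
    _ = _ := by rw [Real.mul_self_sqrt hc]

lemma abs_Γ_self_le_of_abs_le (hu : u ∈ Q.Dom) {φ : C(Z, ℝ)} {c : ℝ} (hc : 0 ≤ c)
    (h : ∀ z, |φ z| ≤ c) : |Q.Γ u u φ| ≤ c * Q.Γ u u 1 := by
  have := abs_Γ_le_of_abs_le hu hu hc h
  rwa [Real.mul_self_sqrt (energy_nonneg hu)] at this

lemma energy_add_le (hu : u ∈ Q.Dom) (hv : v ∈ Q.Dom) :
    Q.Γ (u + v) (u + v) 1 ≤ 2 * (Q.Γ u u 1 + Q.Γ v v 1) := by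
  have h1 := Γ_add_add hu hv (1 : C(Z, ℝ))
  have h2 := Γ_sub_sub hu hv (1 : C(Z, ℝ))
  have h3 : 0 ≤ Q.Γ (u - v) (u - v) 1 := energy_nonneg (sub_mem hu hv)
  linarith

lemma Γ_add_add_le (hu : u ∈ Q.Dom) (hv : v ∈ Q.Dom) {φ : C(Z, ℝ)} (hφ : ∀ x, 0 ≤ φ x) :
    Q.Γ (u + v) (u + v) φ ≤ 2 * (Q.Γ u u φ + Q.Γ v v φ) := by
  have h1 := Γ_add_add hu hv φ
  have h2 := Γ_sub_sub hu hv φ
  have h3 : 0 ≤ Q.Γ (u - v) (u - v) φ := Q.nonneg _ (sub_mem hu hv) φ hφ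
  linarith

lemma energy_sub_le (hu : u ∈ Q.Dom) (hv : v ∈ Q.Dom) :
    Q.Γ (u - v) (u - v) 1 ≤ 2 * (Q.Γ u u 1 + Q.Γ v v 1) := by
  have h1 := Γ_add_add hu hv (1 : C(Z, ℝ))
  have h2 := Γ_sub_sub hu hv (1 : C(Z, ℝ))
  have h3 : 0 ≤ Q.Γ (u + v) (u + v) 1 := energy_nonneg (add_mem hu hv)
  linarith

/-- triangle inequality for the energy seminorm -/
lemma sqrt_Γ_add_le (hu : u ∈ Q.Dom) (hv : v ∈ Q.Dom) {φ : C(Z, ℝ)} (hφ : ∀ x, 0 ≤ φ x) :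
    √(Q.Γ (u + v) (u + v) φ) ≤ √(Q.Γ u u φ) + √(Q.Γ v v φ) := by
  have hA := Q.nonneg u hu φ hφ
  have hB := Q.nonneg v hv φ hφ
  rw [Real.sqrt_le_left (by positivity), Γ_add_add hu hv]
  have h := (le_abs_self _).trans (abs_Γ_le_of_nonneg hu hv hφ)
  nlinarith [Real.sq_sqrt hA, Real.sq_sqrt hB]

/-- locality for test functions: only the values on the support of the energy matter:
if `|φ| ≤ c|η|`... (monotonicity in the test function) -/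
lemma Γ_eq_zero_of_self (hu : u ∈ Q.Dom) (hv : v ∈ Q.Dom) {φ η : C(Z, ℝ)}
    (h : ∀ z, |φ z| ≤ η z) (h0 : Q.Γ u u η = 0) : Q.Γ u v φ = 0 := by
  have := cauchy_schwarz_abs_sq hu hv h
  rw [h0, zero_mul] at this
  exact pow_eq_zero_iff two_ne_zero |>.1 (le_antisymm this (sq_nonneg _))

section compact

variable [CompactSpace Z]

lemma abs_Γ_le (hu : u ∈ Q.Dom) (hv : v ∈ Q.Dom) (φ : C(Z, ℝ)) :
    |Q.Γ u v φ| ≤ ‖φ‖ * (√(Q.Γ u u 1) * √(Q.Γ v v 1)) :=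
  abs_Γ_le_of_abs_le hu hv (norm_nonneg _) (fun z => φ.norm_coe_le_norm z)

lemma abs_Γ_self_le (hu : u ∈ Q.Dom) (φ : C(Z, ℝ)) : |Q.Γ u u φ| ≤ ‖φ‖ * Q.Γ u u 1 :=
  abs_Γ_self_le_of_abs_le hu (norm_nonneg _) (fun z => φ.norm_coe_le_norm z)

/-- energy of a product -/
lemma energy_mul_le (hu : u ∈ Q.Dom) (hv : v ∈ Q.Dom) :
    Q.Γ (u * v) (u * v) 1 ≤ 2 * (‖v‖ ^ 2 * Q.Γ u u 1 + ‖u‖ ^ 2 * Q.Γ v v 1) := by
  have e1 := Γ_mul_mul hu hv 1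
  rw [mul_one, mul_one, mul_one] at e1
  have b1 := (le_abs_self _).trans (abs_Γ_self_le hu (v * v))
  have b2 := (le_abs_self _).trans (abs_Γ_self_le hv (u * u))
  have b3 := (le_abs_self _).trans (abs_Γ_le hu hv (u * v))
  have n1 : ‖v * v‖ ≤ ‖v‖ * ‖v‖ := norm_mul_le _ _
  have n2 : ‖u * u‖ ≤ ‖u‖ * ‖u‖ := norm_mul_le _ _
  have n3 : ‖u * v‖ ≤ ‖u‖ * ‖v‖ := norm_mul_le _ _
  have p1 := energy_nonneg hu
  have p2 := energy_nonneg hv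
  have q1 : Q.Γ u u (v * v) ≤ ‖v‖ * ‖v‖ * Q.Γ u u 1 := b1.trans (mul_le_mul_of_nonneg_right n1 p1)
  have q2 : Q.Γ v v (u * u) ≤ ‖u‖ * ‖u‖ * Q.Γ v v 1 := b2.trans (mul_le_mul_of_nonneg_right n2 p2)
  have q3 : Q.Γ u v (u * v) ≤ (‖u‖ * ‖v‖) * (√(Q.Γ u u 1) * √(Q.Γ v v 1)) :=
    b3.trans (mul_le_mul_of_nonneg_right n3 (by positivity))
  have q4 : 2 * ((‖u‖ * ‖v‖) * (√(Q.Γ u u 1) * √(Q.Γ v v 1))) ≤
      ‖v‖ * ‖v‖ * Q.Γ u u 1 + ‖u‖ * ‖u‖ * Q.Γ v v 1 := by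
    have s1 := Real.mul_self_sqrt p1
    have s2 := Real.mul_self_sqrt p2
    have : 0 ≤ (‖v‖ * √(Q.Γ u u 1) - ‖u‖ * √(Q.Γ v v 1)) ^ 2 := sq_nonneg _
    calc 2 * ((‖u‖ * ‖v‖) * (√(Q.Γ u u 1) * √(Q.Γ v v 1)))
        = ‖v‖ * ‖v‖ * (√(Q.Γ u u 1) * √(Q.Γ u u 1)) + ‖u‖ * ‖u‖ * (√(Q.Γ v v 1) * √(Q.Γ v v 1))
          - (‖v‖ * √(Q.Γ u u 1) - ‖u‖ * √(Q.Γ v v 1)) ^ 2 := by ring
      _ ≤ ‖v‖ * ‖v‖ * (√(Q.Γ u u 1) * √(Q.Γ u u 1))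
          + ‖u‖ * ‖u‖ * (√(Q.Γ v v 1) * √(Q.Γ v v 1)) := by linarith
      _ = _ := by rw [s1, s2]
  rw [e1]; nlinarith

/-! ### filter-free WEAK and CLOSED -/

/-- closedness, filter free -/
lemma mem_of_approx (C : ℝ) (h : ∀ ε > 0, ∃ v ∈ Q.Dom, ‖v - u‖ ≤ ε ∧ Q.Γ v v 1 ≤ C) :
    u ∈ Q.Dom := by
  choose! f hf using h
  have hpos : ∀ n : ℕ, (0 : ℝ) < 1 / ((n : ℝ) + 1) := fun n => Nat.one_div_pos_of_nat
  have hlim : Tendsto (fun n : ℕ => f (1 / ((n : ℝ) + 1))) atTop (𝓝 u) := by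
    rw [tendsto_iff_norm_sub_tendsto_zero]
    exact squeeze_zero (fun n => norm_nonneg _) (fun n => (hf _ (hpos n)).2.1)
      tendsto_one_div_add_atTop_nhds_zero_nat
  exact (Q.closed _ u C (fun n => (hf _ (hpos n)).1) hlim (fun n => (hf _ (hpos n)).2.2)).1

/-- weak continuity, filter free -/
lemma weak (hu : u ∈ Q.Dom) (φ : C(Z, ℝ)) (C : ℝ) {ε : ℝ} (hε : 0 < ε) :
    ∃ d > 0, ∀ w ∈ Q.Dom, ‖w‖ ≤ d → Q.Γ w w 1 ≤ C → |Q.Γ u w φ| ≤ ε := by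
  by_contra hcon
  push Not at hcon
  have hpos : ∀ n : ℕ, (0 : ℝ) < 1 / ((n : ℝ) + 1) := fun n => Nat.one_div_pos_of_nat
  choose! f hf using hcon
  have hlim : Tendsto (fun n : ℕ => f (1 / ((n : ℝ) + 1))) atTop (𝓝 0) := by
    rw [tendsto_zero_iff_norm_tendsto_zero]
    exact squeeze_zero (fun n => norm_nonneg _) (fun n => (hf _ (hpos n)).2.1)
      tendsto_one_div_add_atTop_nhds_zero_nat
  have h := (Q.closed _ 0 C (fun n => (hf _ (hpos n)).1) hlim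
    (fun n => (hf _ (hpos n)).2.2.1)).2 u hu φ
  rw [zero_left hu] at h
  have h1 : ∀ᶠ n : ℕ in atTop, |Q.Γ (f (1 / ((n : ℝ) + 1))) u φ| < ε := by
    have := (Metric.tendsto_nhds.1 h) ε hε
    filter_upwards [this] with n hn
    simpa [Real.dist_eq] using hn
  obtain ⟨n, hn⟩ := h1.exists
  have h2 := (hf _ (hpos n)).2.2.2
  rw [Q.symm u hu _ (hf _ (hpos n)).1] at h2
  linarith

/-- sequential weak convergence, both orders -/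
lemma tendsto_right {f : ℕ → C(Z, ℝ)} {C : ℝ} (hf : ∀ n, f n ∈ Q.Dom) (hlim : Tendsto f atTop (𝓝 w))
    (hC : ∀ n, Q.Γ (f n) (f n) 1 ≤ C) (hv : v ∈ Q.Dom) (φ : C(Z, ℝ)) :
    Tendsto (fun n => Q.Γ v (f n) φ) atTop (𝓝 (Q.Γ v w φ)) := by
  obtain ⟨h1, h2⟩ := Q.closed f w C hf hlim hC
  rw [Q.symm v hv w h1]
  exact (h2 v hv φ).congr fun n => Q.symm _ (hf n) _ hv _

/-- lower semicontinuity of the energy measures -/
lemma lsc {f : ℕ → C(Z, ℝ)} {C : ℝ} (hf : ∀ n, f n ∈ Q.Dom) (hlim : Tendsto f atTop (𝓝 w))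
    (hC : ∀ n, Q.Γ (f n) (f n) 1 ≤ C) {φ : C(Z, ℝ)} (hφ : ∀ x, 0 ≤ φ x) {ε : ℝ} (hε : 0 < ε) :
    ∀ᶠ n in atTop, Q.Γ w w φ - ε ≤ Q.Γ (f n) (f n) φ := by
  obtain ⟨h1, h2⟩ := Q.closed f w C hf hlim hC
  have t := (h2 w h1 φ)
  filter_upwards [t.eventually (lt_mem_nhds (show Q.Γ w w φ - ε / 2 < Q.Γ w w φ by linarith))]
    with n hn
  have h3 := Q.nonneg _ (sub_mem (hf n) h1) φ hφ
  rw [Γ_sub_sub (hf n) h1] at h3
  linarith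

lemma lsc_le {f : ℕ → C(Z, ℝ)} {C : ℝ} (hf : ∀ n, f n ∈ Q.Dom) (hlim : Tendsto f atTop (𝓝 w))
    (hC : ∀ n, Q.Γ (f n) (f n) 1 ≤ C) {φ : C(Z, ℝ)} (hφ : ∀ x, 0 ≤ φ x) {c : ℝ}
    (h : ∃ᶠ n in atTop, Q.Γ (f n) (f n) φ ≤ c) : Q.Γ w w φ ≤ c := by
  refine le_of_forall_pos_le_add fun ε hε => ?_
  obtain ⟨n, h1, h2⟩ := (h.and_eventually (lsc hf hlim hC hφ hε)).exists
  linarith

end compact

end Crest.Agent.R193.D3b1
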