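import Crest.Agent.R193.D3b1

/-!
# R193, block D3b: calculus over a `DForm` (helper666), part 2

Level sets carry no energy, strong locality, no atoms, cut-off functions for compact sets,
density of the domain, module Cauchy-Schwarz inequality.
-/

set_option autoImplicit false
set_option linter.unusedSectionVars false

open Set Filter Topology

namespace Crest.Agent.R193.D3b2

open Crest.Agent.R193 Crest.Agent.R193.D3b1

variable {G Z : Type} [Group G] [MetricSpace Z] [MulAction G Z] {S : Setup G Z}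
variable {Q : DForm S} {u v w u' v' : C(Z, ℝ)}

/-! ### cut-off functions -/

/-- combination of finitely many cut-offs -/
lemma exists_cutoff_finset {ι : Type*} (t : Finset ι) (c : ι → Z) (r : ι → ℝ)
    (hr : ∀ i ∈ t, 0 < r i ∧ r i ≤ Q.ρ0) :
    ∃ χ ∈ Q.Dom, (∀ y, 0 ≤ χ y ∧ χ y ≤ 1) ∧ (∀ i ∈ t, ∀ y, dist y (c i) ≤ r i → χ y = 1) ∧
      (∀ y, (∀ i ∈ t, Q.lam * r i ≤ dist y (c i)) → χ y = 0) := by
  classical
  induction t using Finset.induction_on with
  | empty =>
    exact ⟨0, zero_mem Q, fun y => by simp, fun i hi => absurd hi (Finset.notMem_empty i),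
      fun y _ => rfl⟩
  | insert a s ha ih =>
    obtain ⟨χ, hχ, h01, h1, h0⟩ := ih fun i hi => hr i (Finset.mem_insert_of_mem hi)
    obtain ⟨θ, hθ, g01, g1, g0, -⟩ := Q.cutoff (c a) (r a) (hr a (Finset.mem_insert_self _ _)).1
      (hr a (Finset.mem_insert_self _ _)).2
    refine ⟨χ + θ - χ * θ, sub_mem (add_mem hχ hθ) (mul_mem hχ hθ), fun y => ?_, ?_, ?_⟩
    · have a1 := h01 y
      have a2 := g01 y
      simp only [ContinuousMap.sub_apply, ContinuousMap.add_apply, ContinuousMap.mul_apply]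
      constructor
      · nlinarith [mul_nonneg a1.1 a2.1, mul_nonneg a1.1 (sub_nonneg.2 a2.2)]
      · nlinarith [mul_nonneg (sub_nonneg.2 a1.2) (sub_nonneg.2 a2.2)]
    · intro i hi y hy
      simp only [ContinuousMap.sub_apply, ContinuousMap.add_apply, ContinuousMap.mul_apply]
      rcases Finset.mem_insert.1 hi with rfl | hi
      · rw [g1 y hy]; ring
      · rw [h1 i hi y hy]; ring
    · intro y hy
      simp only [ContinuousMap.sub_apply, ContinuousMap.add_apply, ContinuousMap.mul_apply]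
      rw [g0 y (hy a (Finset.mem_insert_self _ _)),
        h0 y (fun i hi => hy i (Finset.mem_insert_of_mem hi))]
      ring

/-- **cut-off functions** for a compact set in an open set -/
theorem exists_cutoff (Q : DForm S) {K O : Set Z} (hK : IsCompact K) (hO : IsOpen O)
    (hKO : K ⊆ O) :
    ∃ χ ∈ Q.Dom, (∀ y, 0 ≤ χ y ∧ χ y ≤ 1) ∧ (∃ U : Set Z, IsOpen U ∧ K ⊆ U ∧ ∀ y ∈ U, χ y = 1) ∧
      tsupport χ ⊆ O := by
  have hlam : 0 < Q.lam := lt_trans one_pos Q.one_lt_lam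
  have hx : ∀ x ∈ K, ∃ r : ℝ, 0 < r ∧ r ≤ Q.ρ0 ∧ Metric.closedBall x (Q.lam * r) ⊆ O := by
    intro x hx
    obtain ⟨ε, hε, hb⟩ := Metric.isOpen_iff.1 hO x (hKO hx)
    refine ⟨min Q.ρ0 (ε / (2 * Q.lam)), lt_min Q.ρ0_pos (by positivity), min_le_left _ _, ?_⟩
    refine Subset.trans (Metric.closedBall_subset_ball ?_) hb
    calc Q.lam * min Q.ρ0 (ε / (2 * Q.lam)) ≤ Q.lam * (ε / (2 * Q.lam)) := by
          gcongr; exact min_le_right _ _
      _ = ε / 2 := by field_simp
      _ < ε := by linarith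
  choose! r hr0 hrρ hrO using hx
  obtain ⟨t, htK, ht⟩ := hK.elim_nhds_subcover (fun x => Metric.ball x (r x))
    (fun x hx => Metric.ball_mem_nhds x (hr0 x hx))
  obtain ⟨χ, hχ, h01, h1, h0⟩ := exists_cutoff_finset (Q := Q) t id r
    (fun i hi => ⟨hr0 i (htK i hi), hrρ i (htK i hi)⟩)
  refine ⟨χ, hχ, h01, ⟨⋃ x ∈ t, Metric.ball x (r x), isOpen_biUnion fun x _ => Metric.isOpen_ball,
    ht, ?_⟩, ?_⟩
  · intro y hy
    simp only [mem_iUnion, exists_prop] at hy
    obtain ⟨x, hxt, hyx⟩ := hy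
    exact h1 x hxt y (Metric.mem_ball.1 hyx).le
  · have hcl : IsClosed (⋃ x ∈ t, Metric.closedBall x (Q.lam * r x)) :=
      t.finite_toSet.isClosed_biUnion fun x _ => Metric.isClosed_closedBall
    refine (closure_minimal ?_ hcl).trans (iUnion₂_subset fun x hx => hrO x (htK x hx))
    intro y hy
    by_contra hcon
    apply hy
    apply h0
    intro i hi
    by_contra hlt
    push Not at hlt
    apply hcon
    simp only [mem_iUnion, exists_prop]
    exact ⟨i, hi, Metric.mem_closedBall.2 hlt.le⟩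

/-! ### level sets carry no energy -/

section compact

variable [CompactSpace Z]

/-- **Level sets carry no energy.** -/
theorem level_zero (hw : w ∈ Q.Dom) (c : ℝ) {ε : ℝ} (hε : 0 < ε) :
    ∃ θ : C(Z, ℝ), (∀ x, 0 < θ x ∧ θ x ≤ 1) ∧ (∀ x, w x = c → θ x = 1) ∧ Q.Γ w w θ ≤ ε := by
  obtain ⟨d, hd, hweak⟩ := weak hw (1 : C(Z, ℝ)) (Q.Γ w w 1) hε
  -- the function `a * arctan ((t - c) / a)`
  set a : ℝ := d / 2 with ha
  have ha0 : 0 < a := half_pos hd
  set ψ : ℝ → ℝ := fun t => a * Real.arctan ((t - c) / a) with hψdef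
  have hlin : ContDiff ℝ 2 (fun t : ℝ => (t - c) / a) :=
    (contDiff_id.sub contDiff_const).div_const a
  have hψ : ContDiff ℝ 2 ψ := contDiff_const.mul (Real.contDiff_arctan.comp hlin)
  have hderiv : ∀ t, deriv ψ t = 1 / (1 + ((t - c) / a) ^ 2) := by
    intro t
    have h1 : HasDerivAt (fun t : ℝ => (t - c) / a) (1 / a) t :=
      ((hasDerivAt_id t).sub_const c).div_const a
    have h2 := (h1.arctan).const_mul a
    rw [show ψ = fun t => a * Real.arctan ((t - c) / a) from rfl, h2.deriv]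
    field_simp
  set θ : C(Z, ℝ) := ⟨fun x => 1 / (1 + ((w x - c) / a) ^ 2), by
    refine continuous_const.div ?_ ?_
    · fun_prop
    · intro x; positivity⟩ with hθ
  set W : C(Z, ℝ) := ⟨fun x => ψ (w x), hψ.continuous.comp w.continuous⟩ with hW
  have hch := chain1 (Q := Q) hψ hw (w' := W) (d := θ) (fun x => rfl)
    (fun x => by rw [hderiv]; rfl)
  have hθ01 : ∀ x, 0 < θ x ∧ θ x ≤ 1 := by
    intro x
    refine ⟨?_, ?_⟩
    · change 0 < 1 / (1 + ((w x - c) / a) ^ 2); positivity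
    · change 1 / (1 + ((w x - c) / a) ^ 2) ≤ 1
      rw [div_le_one (by positivity)]
      linarith [sq_nonneg ((w x - c) / a)]
  refine ⟨θ, hθ01, fun x hx => ?_, ?_⟩
  · change 1 / (1 + ((w x - c) / a) ^ 2) = 1
    rw [hx]; simp
  · have hnorm : ‖W‖ ≤ d := by
      rw [ContinuousMap.norm_le _ hd.le]
      intro x
      change ‖a * Real.arctan ((w x - c) / a)‖ ≤ d
      rw [norm_mul, Real.norm_eq_abs, Real.norm_eq_abs, abs_of_pos ha0]
      have h1 : |Real.arctan ((w x - c) / a)| ≤ 2 := by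
        rw [abs_le]
        have h2 := Real.neg_pi_div_two_lt_arctan ((w x - c) / a)
        have h3 := Real.arctan_lt_pi_div_two ((w x - c) / a)
        have h4 := Real.pi_le_four
        constructor <;> linarith
      calc a * |Real.arctan ((w x - c) / a)| ≤ a * 2 := by gcongr
        _ = d := by rw [ha]; ring
    have hen : Q.Γ W W 1 ≤ Q.Γ w w 1 := by
      rw [hch.2 W hch.1 1, one_mul, Q.symm w hw W hch.1, hch.2 w hw θ]
      apply mono_test hw
      intro x
      have := hθ01 x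
      simp only [ContinuousMap.mul_apply, ContinuousMap.one_apply]
      nlinarith
    have h := hweak W hch.1 hnorm hen
    rw [Q.symm w hw W hch.1, hch.2 w hw 1, one_mul] at h
    exact (le_abs_self _).trans h

/-- if `w` is constant where `φ ≠ 0`, then `Γ(w,v)(φ) = 0` -/
theorem Γ_eq_zero_of_const (hw : w ∈ Q.Dom) (hv : v ∈ Q.Dom) {φ : C(Z, ℝ)} (c : ℝ)
    (h : ∀ x, φ x ≠ 0 → w x = c) : Q.Γ w v φ = 0 := by
  by_contra hne
  have hpos : 0 < |Q.Γ w v φ| := abs_pos.2 hne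
  set M : ℝ := ‖φ‖ + 1 with hM
  have hM0 : 0 < M := by positivity
  -- the square is bounded by `(M ε) * (M E(v))`
  have key : ∀ ε > 0, (Q.Γ w v φ) ^ 2 ≤ (M * ε) * (M * Q.Γ v v 1) := by
    intro ε hε
    obtain ⟨θ, h01, h1, hθ⟩ := level_zero hw c hε
    have hle : ∀ z, |φ z| ≤ (M • θ) z := by
      intro z
      simp only [ContinuousMap.smul_apply, smul_eq_mul]
      by_cases hz : φ z = 0
      · rw [hz, abs_zero]; exact mul_nonneg hM0.le (h01 z).1.le
      · rw [h1 z (h z hz), mul_one]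
        have := φ.norm_coe_le_norm z
        rw [Real.norm_eq_abs] at this
        linarith
    refine (cauchy_schwarz_abs_sq hw hv hle).trans ?_
    rw [Q.smul_test M w hw w hw, Q.smul_test M v hv v hv]
    have h2 : Q.Γ v v θ ≤ Q.Γ v v 1 := mono_test hv fun x => (h01 x).2
    have h3 : 0 ≤ Q.Γ v v θ := Q.nonneg v hv θ fun x => (h01 x).1.le
    have h4 : 0 ≤ Q.Γ w w θ := Q.nonneg w hw θ fun x => (h01 x).1.le
    exact mul_le_mul (by gcongr) (by gcongr) (by positivity) (by positivity)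
  set B : ℝ := M * Q.Γ v v 1 with hB
  have hB0 : 0 ≤ B := mul_nonneg hM0.le (energy_nonneg hv)
  have hx : 0 < (Q.Γ w v φ) ^ 2 := by positivity
  have := key ((Q.Γ w v φ) ^ 2 / (2 * M * (B + 1))) (by positivity)
  have h5 : (M * ((Q.Γ w v φ) ^ 2 / (2 * M * (B + 1)))) * B < (Q.Γ w v φ) ^ 2 := by
    have : (M * ((Q.Γ w v φ) ^ 2 / (2 * M * (B + 1)))) * B =
        (Q.Γ w v φ) ^ 2 * (B / (2 * (B + 1))) := by field_simp
    rw [this]
    have h6 : B / (2 * (B + 1)) < 1 := by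
      rw [div_lt_one (by positivity)]; linarith
    nlinarith
  linarith

/-- **Strong locality**: `Γ(u,v)(φ)` only depends on `u` where `φ ≠ 0`, up to constants. -/
theorem local_left (hu : u ∈ Q.Dom) (hu' : u' ∈ Q.Dom) (hv : v ∈ Q.Dom) {φ : C(Z, ℝ)} (c : ℝ)
    (h : ∀ x, φ x ≠ 0 → u x = u' x + c) : Q.Γ u v φ = Q.Γ u' v φ := by
  have h1 := Γ_eq_zero_of_const (sub_mem hu hu') hv (φ := φ) c
    (fun x hx => by rw [ContinuousMap.sub_apply, h x hx]; ring)
  rw [sub_left hu hu' hv] at h1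
  linarith

theorem local_congr (hu : u ∈ Q.Dom) (hu' : u' ∈ Q.Dom) (hv : v ∈ Q.Dom) (hv' : v' ∈ Q.Dom)
    {φ : C(Z, ℝ)} (h : ∀ x, φ x ≠ 0 → u x = u' x) (h' : ∀ x, φ x ≠ 0 → v x = v' x) :
    Q.Γ u v φ = Q.Γ u' v' φ := by
  rw [local_left hu hu' hv 0 (fun x hx => by rw [h x hx, add_zero]), Q.symm u' hu' v hv,
    local_left hv hv' hu' 0 (fun x hx => by rw [h' x hx, add_zero]), Q.symm v' hv' u' hu']

/-- `Γ(u,v)(φ) = 0` if at every point `u` is locally... : `u` takes finitely many values where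
`φ ≠ 0`, two-valued version -/
theorem Γ_eq_zero_of_two (hu : u ∈ Q.Dom) (hv : v ∈ Q.Dom) {φ φ₁ φ₂ : C(Z, ℝ)} (a b : ℝ)
    (hφ : φ = φ₁ + φ₂) (h1 : ∀ x, φ₁ x ≠ 0 → u x = a) (h2 : ∀ x, φ₂ x ≠ 0 → u x = b) :
    Q.Γ u v φ = 0 := by
  rw [hφ, Q.add_test u hu v hv, Γ_eq_zero_of_const hu hv a h1, Γ_eq_zero_of_const hu hv b h2,
    add_zero]

/-! ### no atoms -/

/-- **No atoms.** -/
theorem no_atoms (hu : u ∈ Q.Dom) (x : Z) {ε : ℝ} (hε : 0 < ε) :
    ∃ N ∈ 𝓝 x, ∀ φ : C(Z, ℝ), (∀ y, φ y ≤ 1) → (∀ y, y ∉ N → φ y ≤ 0) → Q.Γ u u φ ≤ ε := by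
  obtain ⟨θ, h01, h1, hθ⟩ := level_zero hu (u x) (half_pos hε)
  refine ⟨{y | 1 / 2 < θ y}, ?_, fun φ hφ1 hφ0 => ?_⟩
  · exact (isOpen_lt continuous_const θ.continuous).mem_nhds (by
      change 1 / 2 < θ x; rw [h1 x rfl]; norm_num)
  · have hle : ∀ y, φ y ≤ ((2 : ℝ) • θ) y := by
      intro y
      simp only [ContinuousMap.smul_apply, smul_eq_mul]
      by_cases hy : 1 / 2 < θ y
      · linarith [hφ1 y]
      · linarith [hφ0 y hy, (h01 y).1]
    have := mono_test hu hle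
    rw [Q.smul_test 2 u hu u hu] at this
    linarith

/-- uniform version -/
theorem no_atoms_unif (hu : u ∈ Q.Dom) {ε : ℝ} (hε : 0 < ε) :
    ∃ r > 0, ∀ x : Z, ∀ φ : C(Z, ℝ), (∀ y, φ y ≤ 1) → (∀ y, r ≤ dist y x → φ y ≤ 0) →
      Q.Γ u u φ ≤ ε := by
  choose N hN h using fun x : Z => no_atoms hu x hε
  obtain ⟨r, hr, hL⟩ := lebesgue_number_lemma_of_metric (s := univ) (c := fun x => interior (N x))
    isCompact_univ (fun x => isOpen_interior)
    (fun x _ => mem_iUnion.2 ⟨x, mem_interior_iff_mem_nhds.2 (hN x)⟩)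
  refine ⟨r, hr, fun x φ h1 h0 => ?_⟩
  obtain ⟨i, hi⟩ := hL x (mem_univ x)
  refine h i φ h1 fun y hy => h0 y ?_
  by_contra hlt
  push Not at hlt
  exact hy (interior_subset (hi hlt))

/-! ### density of the domain -/

/-- **The domain is dense.** -/
theorem dense_dom (Q : DForm S) : Dense Q.Dom := by
  set A : Subalgebra ℝ C(Z, ℝ) :=
    { carrier := Q.Dom
      mul_mem' := fun ha hb => mul_mem ha hb
      add_mem' := fun ha hb => add_mem ha hb
      algebraMap_mem' := fun c => Q.const_mem c } with hA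
  have hsep : A.SeparatesPoints := by
    intro x y hxy
    have hx : ({x} : Set Z) ⊆ {y}ᶜ := by
      intro z hz; rw [mem_singleton_iff] at hz; subst hz; simpa using hxy
    obtain ⟨χ, hχ, -, ⟨U, -, hU, h1⟩, hs⟩ := exists_cutoff Q isCompact_singleton
      isOpen_compl_singleton hx
    refine ⟨χ, ⟨χ, hχ, rfl⟩, ?_⟩
    have e1 : χ x = 1 := h1 x (hU rfl)
    have e2 : χ y = 0 := by
      by_contra hne
      exact hs (subset_tsupport _ hne) rfl
    rw [e1, e2]; norm_num
  have htop := ContinuousMap.subalgebra_topologicalClosure_eq_top_of_separatesPoints A hsep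
  intro φ
  have : φ ∈ A.topologicalClosure := by rw [htop]; trivial
  exact this

end compact

end Crest.Agent.R193.D3b2
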