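import Crest.Agent.R193.D3b2
import Crest.Agent.R193.CPDefs

/-!
# R193, block D3b: calculus over a `DForm` (helper666), part 3

Module Cauchy-Schwarz inequality, Caccioppoli inequalities, limits of harmonic functions.
-/

set_option autoImplicit false
set_option linter.unusedSectionVars false

open Set Filter Topology

namespace Crest.Agent.R193.D3b3

open Crest.Agent.R193 Crest.Agent.R193.D3b1 Crest.Agent.R193.D3b2

variable {G Z : Type} [Group G] [MetricSpace Z] [MulAction G Z] {S : Setup G Z}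
variable {Q : DForm S} {u v w u' v' : C(Z, ℝ)}

/-! ### module Cauchy-Schwarz -/

/-- clamp to `[0,1]` -/
private noncomputable def cl (x : ℝ) : ℝ := max 0 (min x 1)

private lemma cl_mono {x y : ℝ} (h : x ≤ y) : cl x ≤ cl y :=
  max_le_max le_rfl (min_le_min h le_rfl)

private lemma cl_of_nonpos {x : ℝ} (h : x ≤ 0) : cl x = 0 := by
  unfold cl; rw [min_eq_left (by linarith), max_eq_left h]

private lemma cl_of_one_le {x : ℝ} (h : 1 ≤ x) : cl x = 1 := by
  unfold cl; rw [min_eq_right h, max_eq_right zero_le_one]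

private lemma cl_continuous : Continuous cl :=
  continuous_const.max (continuous_id.min continuous_const)

/-- the functions `θ_j`, telescoping partition of unity on the line -/
private noncomputable def th (y : C(Z, ℝ)) (j : ℤ) : C(Z, ℝ) :=
  ⟨fun x => cl (y x - j) - cl (y x - (j + 1)), by
    exact (cl_continuous.comp (y.continuous.sub continuous_const)).sub
      (cl_continuous.comp (y.continuous.sub continuous_const))⟩

private lemma th_nonneg (y : C(Z, ℝ)) (j : ℤ) (x : Z) : 0 ≤ th y j x :=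
  sub_nonneg.2 (cl_mono (by linarith))

private lemma th_supp (y : C(Z, ℝ)) (j : ℤ) (x : Z) (h : th y j x ≠ 0) :
    (j : ℝ) < y x ∧ y x < j + 2 := by
  constructor
  · by_contra hc
    push Not at hc
    apply h
    change cl (y x - j) - cl (y x - (j + 1)) = 0
    rw [cl_of_nonpos (by linarith), cl_of_nonpos (by linarith), sub_zero]
  · by_contra hc
    push Not at hc
    apply h
    change cl (y x - j) - cl (y x - (j + 1)) = 0
    rw [cl_of_one_le (by linarith), cl_of_one_le (by linarith), sub_self]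

private lemma th_sum (y : C(Z, ℝ)) (N : ℕ) (hN : ∀ x, |y x| + 1 ≤ N) :
    ∑ k ∈ Finset.range (2 * N), th y ((k : ℤ) - N) = 1 := by
  ext x
  rw [ContinuousMap.sum_apply, ContinuousMap.one_apply]
  have h1 : ∀ k ∈ Finset.range (2 * N), th y ((k : ℤ) - N) x =
      cl (y x - ((k : ℕ) - N)) - cl (y x - (((k + 1 : ℕ) : ℝ) - N)) := by
    intro k _
    change cl (y x - (((k : ℤ) - N : ℤ) : ℝ)) - cl (y x - ((((k : ℤ) - N : ℤ) : ℝ) + 1)) = _
    push_cast
    congr 2; ring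
  rw [Finset.sum_congr rfl h1, Finset.sum_range_sub' (fun k : ℕ => cl (y x - ((k : ℝ) - N)))]
  have h2 := hN x
  have h3 := abs_le.1 (show |y x| ≤ N - 1 by linarith)
  rw [cl_of_one_le, cl_of_nonpos, sub_zero]
  · push_cast; linarith [h3.2]
  · push_cast; linarith [h3.1]

/-- one cell of the partition -/
private lemma cell_le (hu : u ∈ Q.Dom) (hv : v ∈ Q.Dom) {φ a b θ : C(Z, ℝ)} {t q : ℝ}
    (ht : 0 < t) (ha : ∀ x, 0 < a x) (hb : ∀ x, 0 < b x) (hθ : ∀ x, 0 ≤ θ x)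
    (hφ : ∀ x, |φ x| ≤ a x * b x) (h1 : ∀ x, θ x ≠ 0 → t * b x ≤ q * a x)
    (h2 : ∀ x, θ x ≠ 0 → a x ≤ q * (t * b x)) :
    2 * |Q.Γ u v (φ * θ)| ≤ q * (Q.Γ u u (a * a * θ) + Q.Γ v v (b * b * θ)) := by
  have hle : ∀ x, |(φ * θ) x| ≤ (a * b * θ) x := by
    intro x
    simp only [ContinuousMap.mul_apply, abs_mul, abs_of_nonneg (hθ x)]
    exact mul_le_mul_of_nonneg_right (hφ x) (hθ x)
  refine (two_mul_abs_Γ_le_abs hu hv hle ht).trans ?_
  have e1 : t * Q.Γ u u (a * b * θ) ≤ q * Q.Γ u u (a * a * θ) := by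
    rw [← Q.smul_test t u hu u hu, ← Q.smul_test q u hu u hu]
    apply mono_test hu
    intro x
    simp only [ContinuousMap.smul_apply, ContinuousMap.mul_apply, smul_eq_mul]
    by_cases hx : θ x = 0
    · rw [hx]; simp
    · have := mul_le_mul_of_nonneg_right (h1 x hx) (mul_nonneg (ha x).le (hθ x))
      nlinarith
  have e2 : t⁻¹ * Q.Γ v v (a * b * θ) ≤ q * Q.Γ v v (b * b * θ) := by
    rw [← Q.smul_test t⁻¹ v hv v hv, ← Q.smul_test q v hv v hv]
    apply mono_test hv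
    intro x
    simp only [ContinuousMap.smul_apply, ContinuousMap.mul_apply, smul_eq_mul]
    by_cases hx : θ x = 0
    · rw [hx]; simp
    · have h3 : t⁻¹ * a x ≤ q * b x := by
        rw [inv_mul_le_iff₀ ht]; linarith [h2 x hx]
      have := mul_le_mul_of_nonneg_right h3 (mul_nonneg (hb x).le (hθ x))
      nlinarith
  linarith

variable [CompactSpace Z]

private lemma module_cs_pos (hu : u ∈ Q.Dom) (hv : v ∈ Q.Dom) {φ a b : C(Z, ℝ)}
    (ha : ∀ x, 0 < a x) (hb : ∀ x, 0 < b x) (hφ : ∀ x, |φ x| ≤ a x * b x) {δ : ℝ} (hδ : 0 < δ) :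
    2 * |Q.Γ u v φ| ≤ Real.exp δ * (Q.Γ u u (a * a) + Q.Γ v v (b * b)) := by
  set y : C(Z, ℝ) := ⟨fun x => (Real.log (a x) - Real.log (b x)) / δ, by
    refine ((Continuous.log a.continuous fun x => (ha x).ne').sub
      (Continuous.log b.continuous fun x => (hb x).ne')).div_const δ⟩ with hy
  obtain ⟨N, hN⟩ := exists_nat_ge (‖y‖ + 1)
  have hN' : ∀ x, |y x| + 1 ≤ N := by
    intro x
    have := y.norm_coe_le_norm x
    rw [Real.norm_eq_abs] at this
    linarith
  have hsum := th_sum y N hN'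
  have eφ : φ = ∑ k ∈ Finset.range (2 * N), φ * th y ((k : ℤ) - N) := by
    rw [← Finset.mul_sum, hsum, mul_one]
  have ea : a * a = ∑ k ∈ Finset.range (2 * N), a * a * th y ((k : ℤ) - N) := by
    rw [← Finset.mul_sum, hsum, mul_one]
  have eb : b * b = ∑ k ∈ Finset.range (2 * N), b * b * th y ((k : ℤ) - N) := by
    rw [← Finset.mul_sum, hsum, mul_one]
  have hab : ∀ x, a x = b x * Real.exp (δ * y x) := by
    intro x
    change a x = b x * Real.exp (δ * ((Real.log (a x) - Real.log (b x)) / δ))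
    rw [mul_div_cancel₀ _ hδ.ne', Real.exp_sub, Real.exp_log (ha x), Real.exp_log (hb x)]
    field_simp [(hb x).ne']
  have hcell : ∀ k ∈ Finset.range (2 * N), 2 * |Q.Γ u v (φ * th y ((k : ℤ) - N))| ≤
      Real.exp δ * (Q.Γ u u (a * a * th y ((k : ℤ) - N)) +
        Q.Γ v v (b * b * th y ((k : ℤ) - N))) := by
    intro k _
    set j : ℤ := (k : ℤ) - N with hj
    refine cell_le hu hv (t := Real.exp (δ * (j + 1))) (Real.exp_pos _) ha hb (th_nonneg y j) hφ
      ?_ ?_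
    · intro x hx
      obtain ⟨h1, h2⟩ := th_supp y j x hx
      rw [hab x]
      have : Real.exp (δ * (j + 1)) ≤ Real.exp δ * Real.exp (δ * y x) := by
        rw [← Real.exp_add]
        apply Real.exp_le_exp.2
        nlinarith
      calc Real.exp (δ * (j + 1)) * b x ≤ (Real.exp δ * Real.exp (δ * y x)) * b x :=
            mul_le_mul_of_nonneg_right this (hb x).le
        _ = _ := by ring
    · intro x hx
      obtain ⟨h1, h2⟩ := th_supp y j x hx
      rw [hab x]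
      have : Real.exp (δ * y x) ≤ Real.exp δ * Real.exp (δ * (j + 1)) := by
        rw [← Real.exp_add]
        apply Real.exp_le_exp.2
        nlinarith
      calc b x * Real.exp (δ * y x) ≤ b x * (Real.exp δ * Real.exp (δ * (j + 1))) :=
            mul_le_mul_of_nonneg_left this (hb x).le
        _ = _ := by ring
  calc 2 * |Q.Γ u v φ| = 2 * |∑ k ∈ Finset.range (2 * N), Q.Γ u v (φ * th y ((k : ℤ) - N))| := by
        conv_lhs => rw [eφ, sum_test _ _ hu hv]
    _ ≤ 2 * ∑ k ∈ Finset.range (2 * N), |Q.Γ u v (φ * th y ((k : ℤ) - N))| := by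
        gcongr; exact Finset.abs_sum_le_sum_abs _ _
    _ = ∑ k ∈ Finset.range (2 * N), 2 * |Q.Γ u v (φ * th y ((k : ℤ) - N))| := by
        rw [Finset.mul_sum]
    _ ≤ ∑ k ∈ Finset.range (2 * N), Real.exp δ * (Q.Γ u u (a * a * th y ((k : ℤ) - N)) +
        Q.Γ v v (b * b * th y ((k : ℤ) - N))) := Finset.sum_le_sum hcell
    _ = Real.exp δ * (Q.Γ u u (a * a) + Q.Γ v v (b * b)) := by
        conv_rhs => rw [ea, eb, sum_test _ _ hu hu, sum_test _ _ hv hv]
        rw [← Finset.mul_sum, Finset.sum_add_distrib]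

/-- **Module Cauchy-Schwarz**, AM-GM form. -/
theorem module_cs (hu : u ∈ Q.Dom) (hv : v ∈ Q.Dom) {φ a b : C(Z, ℝ)}
    (hφ : ∀ x, |φ x| ≤ |a x| * |b x|) :
    2 * |Q.Γ u v φ| ≤ Q.Γ u u (a * a) + Q.Γ v v (b * b) := by
  -- replace `a, b` by `|a| + ε, |b| + ε`
  have key : ∀ ε > 0, 2 * |Q.Γ u v φ| ≤ Real.exp ε *
      ((Q.Γ u u (a * a) + Q.Γ v v (b * b)) +
        ε * ((2 * ‖a‖ + ε) * Q.Γ u u 1 + (2 * ‖b‖ + ε) * Q.Γ v v 1)) := by
    intro ε hε
    set A : C(Z, ℝ) := ⟨fun x => |a x| + ε, by fun_prop⟩ with hA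
    set B : C(Z, ℝ) := ⟨fun x => |b x| + ε, by fun_prop⟩ with hB
    have hA0 : ∀ x, 0 < A x := fun x => add_pos_of_nonneg_of_pos (abs_nonneg _) hε
    have hB0 : ∀ x, 0 < B x := fun x => add_pos_of_nonneg_of_pos (abs_nonneg _) hε
    have h1 := module_cs_pos (Q := Q) hu hv (φ := φ) hA0 hB0 (fun x => (hφ x).trans (by
      change |a x| * |b x| ≤ (|a x| + ε) * (|b x| + ε)
      have := abs_nonneg (a x); have := abs_nonneg (b x)
      nlinarith)) hε
    refine h1.trans (mul_le_mul_of_nonneg_left ?_ (Real.exp_pos _).le)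
    have hAA : Q.Γ u u (A * A) ≤ Q.Γ u u (a * a) + ε * ((2 * ‖a‖ + ε) * Q.Γ u u 1) := by
      have : ∀ x, (A * A) x ≤ (a * a + (ε * (2 * ‖a‖ + ε)) • (1 : C(Z, ℝ))) x := by
        intro x
        simp only [ContinuousMap.mul_apply, ContinuousMap.add_apply, ContinuousMap.smul_apply,
          ContinuousMap.one_apply, smul_eq_mul]
        change (|a x| + ε) * (|a x| + ε) ≤ _
        have h2 := a.norm_coe_le_norm x
        rw [Real.norm_eq_abs] at h2
        have h3 := abs_mul_abs_self (a x)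
        nlinarith
      refine (mono_test hu this).trans (le_of_eq ?_)
      rw [Q.add_test u hu u hu, Q.smul_test _ u hu u hu]; ring
    have hBB : Q.Γ v v (B * B) ≤ Q.Γ v v (b * b) + ε * ((2 * ‖b‖ + ε) * Q.Γ v v 1) := by
      have : ∀ x, (B * B) x ≤ (b * b + (ε * (2 * ‖b‖ + ε)) • (1 : C(Z, ℝ))) x := by
        intro x
        simp only [ContinuousMap.mul_apply, ContinuousMap.add_apply, ContinuousMap.smul_apply,
          ContinuousMap.one_apply, smul_eq_mul]
        change (|b x| + ε) * (|b x| + ε) ≤ _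
        have h2 := b.norm_coe_le_norm x
        rw [Real.norm_eq_abs] at h2
        have h3 := abs_mul_abs_self (b x)
        nlinarith
      refine (mono_test hv this).trans (le_of_eq ?_)
      rw [Q.add_test v hv v hv, Q.smul_test _ v hv v hv]; ring
    linarith
  -- let `ε → 0`
  have hlim : Tendsto (fun ε : ℝ => Real.exp ε *
      ((Q.Γ u u (a * a) + Q.Γ v v (b * b)) +
        ε * ((2 * ‖a‖ + ε) * Q.Γ u u 1 + (2 * ‖b‖ + ε) * Q.Γ v v 1))) (𝓝[>] 0)
      (𝓝 (Q.Γ u u (a * a) + Q.Γ v v (b * b))) := by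
    have hc : Continuous (fun ε : ℝ => Real.exp ε *
      ((Q.Γ u u (a * a) + Q.Γ v v (b * b)) +
        ε * ((2 * ‖a‖ + ε) * Q.Γ u u 1 + (2 * ‖b‖ + ε) * Q.Γ v v 1))) := by fun_prop
    have := (hc.tendsto 0).mono_left (nhdsWithin_le_nhds (s := Ioi (0 : ℝ)))
    simpa using this
  exact ge_of_tendsto hlim (eventually_mem_nhdsWithin.mono fun ε hε => key ε hε)

/-- module Cauchy-Schwarz with a parameter -/
theorem module_cs_t (hu : u ∈ Q.Dom) (hv : v ∈ Q.Dom) {φ a b : C(Z, ℝ)}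
    (hφ : ∀ x, |φ x| ≤ |a x| * |b x|) {t : ℝ} (ht : 0 < t) :
    2 * |Q.Γ u v φ| ≤ t * Q.Γ u u (a * a) + t⁻¹ * Q.Γ v v (b * b) := by
  have hs : 0 < √t := Real.sqrt_pos.2 ht
  have h := module_cs (Q := Q) hu hv (φ := φ) (a := √t • a) (b := (√t)⁻¹ • b) (fun x => by
    refine (hφ x).trans (le_of_eq ?_)
    simp only [ContinuousMap.smul_apply, smul_eq_mul, abs_mul, abs_inv, abs_of_pos hs]
    field_simp)
  have e1 : √t • a * √t • a = t • (a * a) := by
    rw [smul_mul_smul_comm, Real.mul_self_sqrt ht.le]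
  have e2 : (√t)⁻¹ • b * (√t)⁻¹ • b = t⁻¹ • (b * b) := by
    rw [smul_mul_smul_comm, ← mul_inv, Real.mul_self_sqrt ht.le]
  rw [e1, e2, Q.smul_test _ u hu u hu, Q.smul_test _ v hv v hv] at h
  exact h

/-- module Cauchy-Schwarz, squared form -/
theorem module_cs_sq (hu : u ∈ Q.Dom) (hv : v ∈ Q.Dom) {φ a b : C(Z, ℝ)}
    (hφ : ∀ x, |φ x| ≤ |a x| * |b x|) :
    (Q.Γ u v φ) ^ 2 ≤ Q.Γ u u (a * a) * Q.Γ v v (b * b) := by
  have hA : 0 ≤ Q.Γ u u (a * a) := Q.nonneg u hu _ fun x => mul_self_nonneg (a x)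
  have hB : 0 ≤ Q.Γ v v (b * b) := Q.nonneg v hv _ fun x => mul_self_nonneg (b x)
  set A := Q.Γ u u (a * a) with hAdef
  set B := Q.Γ v v (b * b) with hBdef
  have hineq : ∀ ε > 0, (Q.Γ u v φ) ^ 2 ≤ (A + ε) * (B + ε) := by
    intro ε hε
    have hAε : 0 < A + ε := by linarith
    have hBε : 0 < B + ε := by linarith
    set t : ℝ := √(B + ε) / √(A + ε) with ht
    have ht0 : 0 < t := by positivity
    have h := module_cs_t (Q := Q) hu hv hφ ht0
    have sA := Real.mul_self_sqrt hAε.le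
    have sB := Real.mul_self_sqrt hBε.le
    have pA : 0 < √(A + ε) := Real.sqrt_pos.2 hAε
    have pB : 0 < √(B + ε) := Real.sqrt_pos.2 hBε
    have h1 : t * A ≤ √(A + ε) * √(B + ε) := by
      calc t * A ≤ t * (A + ε) := by gcongr; linarith
        _ = √(B + ε) / √(A + ε) * (√(A + ε) * √(A + ε)) := by rw [sA]
        _ = √(A + ε) * √(B + ε) := by field_simp
    have h2 : t⁻¹ * B ≤ √(A + ε) * √(B + ε) := by
      calc t⁻¹ * B ≤ t⁻¹ * (B + ε) := by gcongr; linarith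
        _ = (√(B + ε) / √(A + ε))⁻¹ * (√(B + ε) * √(B + ε)) := by rw [sB]
        _ = √(A + ε) * √(B + ε) := by field_simp
    have h3 : |Q.Γ u v φ| ≤ √(A + ε) * √(B + ε) := by linarith
    calc (Q.Γ u v φ) ^ 2 = |Q.Γ u v φ| ^ 2 := (sq_abs _).symm
      _ ≤ (√(A + ε) * √(B + ε)) ^ 2 := by gcongr
      _ = (√(A + ε) * √(A + ε)) * (√(B + ε) * √(B + ε)) := by ring
      _ = _ := by rw [sA, sB]
  have hlim : Tendsto (fun ε : ℝ => (A + ε) * (B + ε)) (𝓝[>] 0) (𝓝 (A * B)) := by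
    have hc : Continuous (fun ε : ℝ => (A + ε) * (B + ε)) := by fun_prop
    have := (hc.tendsto 0).mono_left (nhdsWithin_le_nhds (s := Ioi (0 : ℝ)))
    simpa using this
  exact ge_of_tendsto hlim (eventually_mem_nhdsWithin.mono fun ε hε => hineq ε hε)

/-! ### Caccioppoli inequalities -/

lemma tsupport_mul_sub {f g : C(Z, ℝ)} {O : Set Z} (h : tsupport f ⊆ O) :
    tsupport (f * g : C(Z, ℝ)) ⊆ O := by
  refine Subset.trans ?_ h
  exact closure_mono (fun x hx => by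
    rw [Function.mem_support] at hx ⊢
    intro hf
    apply hx
    rw [ContinuousMap.mul_apply, hf, zero_mul])

lemma tsupport_mul_sub' {f g : C(Z, ℝ)} {O : Set Z} (h : tsupport g ⊆ O) :
    tsupport (f * g : C(Z, ℝ)) ⊆ O := by
  rw [mul_comm]; exact tsupport_mul_sub h

/-- identity behind the Caccioppoli inequality -/
lemma harm_test {O : Set Z} (hu : Harm Q O u) {χ : C(Z, ℝ)} (hχ : χ ∈ Q.Dom)
    (hs : tsupport χ ⊆ O) : Q.Γ u u (χ * χ) = - (2 * Q.Γ u χ (χ * u)) := by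
  have h0 := hu.2 (χ * χ * u) (mul_mem (mul_mem hχ hχ) hu.1)
    (tsupport_mul_sub (tsupport_mul_sub hs))
  rw [leibniz_right (mul_mem hχ hχ) hu.1 hu.1, mul_one, sq_right hχ hu.1, mul_one] at h0
  linarith

/-- **Caccioppoli identity**: `E(χ u) = ∫ u² dΓ(χ,χ)` -/
theorem caccioppoli_eq {O : Set Z} (hu : Harm Q O u) {χ : C(Z, ℝ)} (hχ : χ ∈ Q.Dom)
    (hs : tsupport χ ⊆ O) : Q.Γ (χ * u) (χ * u) 1 = Q.Γ χ χ (u * u) := by
  have h1 := harm_test hu hχ hs
  rw [Γ_mul_mul hχ hu.1, mul_one, mul_one, mul_one, h1, Q.symm χ hχ u hu.1]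
  ring

/-- **Caccioppoli inequality** -/
theorem caccioppoli {O : Set Z} (hu : Harm Q O u) {χ : C(Z, ℝ)} (hχ : χ ∈ Q.Dom)
    (hs : tsupport χ ⊆ O) : Q.Γ u u (χ * χ) ≤ 4 * Q.Γ χ χ (u * u) := by
  have h1 := harm_test hu hχ hs
  have h2 := module_cs_t (Q := Q) hu.1 hχ (φ := χ * u) (a := χ) (b := u)
    (fun x => by simp [abs_mul]) (t := 1 / 2) (by norm_num)
  have h3 := neg_abs_le (Q.Γ u χ (χ * u))
  norm_num at h2
  linarith

/-- energy estimate where `χ = 1` -/
theorem energy_le_of_cutoff {O : Set Z} (hu : Harm Q O u) {χ φ : C(Z, ℝ)} (hχ : χ ∈ Q.Dom)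
    (hs : tsupport χ ⊆ O) (h1 : ∀ x, φ x ≠ 0 → χ x = 1) {c : ℝ} (hc : 0 ≤ c)
    (hφ : ∀ x, |φ x| ≤ c) : |Q.Γ u u φ| ≤ c * Q.Γ χ χ (u * u) := by
  have hχu := mul_mem hχ hu.1
  have e : Q.Γ u u φ = Q.Γ (χ * u) (χ * u) φ := by
    apply local_congr hu.1 hχu hu.1 hχu <;>
    · intro x hx
      rw [ContinuousMap.mul_apply, h1 x hx, one_mul]
  rw [e, ← caccioppoli_eq hu hχ hs]
  exact abs_Γ_self_le_of_abs_le hχu hc hφ

end Crest.Agent.R193.D3b3
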