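import Mathlib

/-!
# R193, block D5: area of the image of a tile
-/

set_option autoImplicit false

noncomputable section

open Set Filter Topology MeasureTheory

namespace Crest.Agent.R193.D56_Area

theorem strip (s α a β b : ℝ) :
    volume {p : ℝ × ℝ | p.1 ∈ Icc α (α + a) ∧ p.2 - s * p.1 ∈ Icc β (β + b)} ≤
      ENNReal.ofReal a * ENNReal.ofReal b := by
  have hm : MeasurableSet {p : ℝ × ℝ | p.1 ∈ Icc α (α + a) ∧ p.2 - s * p.1 ∈ Icc β (β + b)} := by
    apply IsClosed.measurableSet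
    apply IsClosed.inter
    · exact isClosed_Icc.preimage continuous_fst
    · exact isClosed_Icc.preimage (by fun_prop : Continuous fun p : ℝ × ℝ => p.2 - s * p.1)
  rw [Measure.volume_eq_prod, Measure.prod_apply hm]
  calc ∫⁻ x, volume (Prod.mk x ⁻¹'
        {p : ℝ × ℝ | p.1 ∈ Icc α (α + a) ∧ p.2 - s * p.1 ∈ Icc β (β + b)})
      ≤ ∫⁻ x, (Icc α (α + a)).indicator (fun _ => ENNReal.ofReal b) x := by
        refine lintegral_mono (fun x => ?_)
        by_cases hx : x ∈ Icc α (α + a)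
        · rw [indicator_of_mem hx]
          calc volume (Prod.mk x ⁻¹'
              {p : ℝ × ℝ | p.1 ∈ Icc α (α + a) ∧ p.2 - s * p.1 ∈ Icc β (β + b)})
              ≤ volume (Icc (β + s * x) (β + b + s * x)) := by
                refine measure_mono (fun y hy => ?_)
                obtain ⟨-, h1, h2⟩ := hy
                exact ⟨by linarith, by linarith⟩
            _ = ENNReal.ofReal b := by
                rw [Real.volume_Icc]; congr 1; ring
        · rw [indicator_of_notMem hx]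
          have : Prod.mk x ⁻¹'
              {p : ℝ × ℝ | p.1 ∈ Icc α (α + a) ∧ p.2 - s * p.1 ∈ Icc β (β + b)} = ∅ := by
            ext y
            simp only [mem_preimage, mem_setOf_eq, mem_empty_iff_false, iff_false, not_and]
            intro h; exact absurd h hx
          rw [this, measure_empty]
    _ = ENNReal.ofReal a * ENNReal.ofReal b := by
        rw [lintegral_indicator measurableSet_Icc, lintegral_const, Measure.restrict_apply_univ,
          Real.volume_Icc, mul_comm]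
        congr 2
        ring

theorem image_le {Z : Type*} (u1 u2 : Z → ℝ) (A : Set Z) (s a b : ℝ)
    (h1 : ∀ y ∈ A, ∀ z ∈ A, |u1 y - u1 z| ≤ a)
    (h2 : ∀ y ∈ A, ∀ z ∈ A, |(u2 y - s * u1 y) - (u2 z - s * u1 z)| ≤ b) :
    volume ((fun x => (u1 x, u2 x)) '' A) ≤ ENNReal.ofReal (2 * a) * ENNReal.ofReal (2 * b) := by
  rcases A.eq_empty_or_nonempty with rfl | ⟨z0, hz0⟩
  · simp
  · refine le_trans (measure_mono ?_) (strip s (u1 z0 - a) (2 * a) (u2 z0 - s * u1 z0 - b) (2 * b))
    rintro p ⟨y, hy, rfl⟩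
    have e1 := abs_le.1 (h1 y hy z0 hz0)
    have e2 := abs_le.1 (h2 y hy z0 hz0)
    exact ⟨⟨by linarith, by linarith⟩, ⟨by linarith, by linarith⟩⟩

theorem tile {Z : Type*} (u1 u2 : Z → ℝ) (A : Set Z) {C M11 M12 M22 : ℝ} (hC : 0 ≤ C)
    (h11 : 0 ≤ M11) (hdet : 0 ≤ M11 * M22 - M12 ^ 2)
    (h : ∀ α β : ℝ, ∀ y ∈ A, ∀ z ∈ A,
      ((α * u1 y + β * u2 y) - (α * u1 z + β * u2 z)) ^ 2 ≤
        C * (α ^ 2 * M11 + 2 * α * β * M12 + β ^ 2 * M22)) :
    volume ((fun x => (u1 x, u2 x)) '' A) ≤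
      ENNReal.ofReal (4 * C * Real.sqrt (M11 * M22 - M12 ^ 2)) := by
  rcases h11.eq_or_lt with h0 | h0
  · -- u1 constant on A, then the image has area zero
    have e1 : ∀ y ∈ A, ∀ z ∈ A, |u1 y - u1 z| ≤ 0 := by
      intro y hy z hz
      have := h 1 0 y hy z hz
      rw [← h0] at this
      have h2 : (u1 y - u1 z) ^ 2 ≤ 0 := by
        calc (u1 y - u1 z) ^ 2 = ((1 * u1 y + 0 * u2 y) - (1 * u1 z + 0 * u2 z)) ^ 2 := by ring
          _ ≤ _ := this
          _ = 0 := by ring
      have h3 : u1 y - u1 z = 0 := by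
        have := sq_nonneg (u1 y - u1 z)
        exact pow_eq_zero_iff (two_ne_zero) |>.1 (le_antisymm h2 this)
      rw [h3, abs_zero]
    have e2 : ∀ y ∈ A, ∀ z ∈ A, |(u2 y - 0 * u1 y) - (u2 z - 0 * u1 z)| ≤ Real.sqrt (C * M22) := by
      intro y hy z hz
      have := h 0 1 y hy z hz
      refine Real.abs_le_sqrt ?_
      calc ((u2 y - 0 * u1 y) - (u2 z - 0 * u1 z)) ^ 2
          = ((0 * u1 y + 1 * u2 y) - (0 * u1 z + 1 * u2 z)) ^ 2 := by ring
        _ ≤ _ := this
        _ = C * M22 := by ring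
    have := image_le u1 u2 A 0 0 _ e1 e2
    simp only [mul_zero, ENNReal.ofReal_zero, zero_mul] at this
    exact this.trans zero_le
  · set s := M12 / M11 with hs
    have e1 : ∀ y ∈ A, ∀ z ∈ A, |u1 y - u1 z| ≤ Real.sqrt (C * M11) := by
      intro y hy z hz
      have := h 1 0 y hy z hz
      refine Real.abs_le_sqrt ?_
      calc (u1 y - u1 z) ^ 2
          = ((1 * u1 y + 0 * u2 y) - (1 * u1 z + 0 * u2 z)) ^ 2 := by ring
        _ ≤ _ := this
        _ = C * M11 := by ring
    have e2 : ∀ y ∈ A, ∀ z ∈ A, |(u2 y - s * u1 y) - (u2 z - s * u1 z)| ≤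
        Real.sqrt (C * ((M11 * M22 - M12 ^ 2) / M11)) := by
      intro y hy z hz
      have := h (-s) 1 y hy z hz
      refine Real.abs_le_sqrt ?_
      calc ((u2 y - s * u1 y) - (u2 z - s * u1 z)) ^ 2
          = ((-s * u1 y + 1 * u2 y) - (-s * u1 z + 1 * u2 z)) ^ 2 := by ring
        _ ≤ _ := this
        _ = C * ((M11 * M22 - M12 ^ 2) / M11) := by rw [hs]; field_simp; ring
    refine (image_le u1 u2 A s _ _ e1 e2).trans ?_
    rw [← ENNReal.ofReal_mul (by positivity)]
    refine ENNReal.ofReal_le_ofReal ?_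
    have e3 : Real.sqrt (C * M11) * Real.sqrt (C * ((M11 * M22 - M12 ^ 2) / M11)) =
        C * Real.sqrt (M11 * M22 - M12 ^ 2) := by
      rw [← Real.sqrt_mul (by positivity)]
      have : C * M11 * (C * ((M11 * M22 - M12 ^ 2) / M11)) = C ^ 2 * (M11 * M22 - M12 ^ 2) := by
        field_simp
      rw [this, Real.sqrt_mul (by positivity), Real.sqrt_sq hC]
    nlinarith [e3]

end Crest.Agent.R193.D56_Area
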