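import Crest.Agent.R193.D56_Basic

/-!
# R193, block D5: energy measures have no atoms (uniformly)
-/

set_option autoImplicit false

noncomputable section

open Set Filter Topology

namespace Crest.Agent.R193.D56_Atom

open Crest.Agent.R193 Crest.Agent.R193.D56_Basic

variable {G Z : Type} [Group G] [MetricSpace Z] [MulAction G Z] {S : Setup G Z} {Q : DForm S}
variable [CompactSpace Z]

/-- clipping a continuous function -/
def clip (o : ℝ) (v : C(Z, ℝ)) : C(Z, ℝ) := ⟨fun x => max (min (v x) o) (-o), by fun_prop⟩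

theorem clip_apply (o : ℝ) (v : C(Z, ℝ)) (x : Z) : clip o v x = max (min (v x) o) (-o) := rfl

theorem abs_clip_le {o : ℝ} (ho : 0 ≤ o) (v : C(Z, ℝ)) (x : Z) : |clip o v x| ≤ o := by
  rw [clip_apply, abs_le]
  exact ⟨le_max_right _ _, max_le (min_le_right _ _) (by linarith)⟩

theorem clip_eq {o : ℝ} (v : C(Z, ℝ)) {x : Z} (h : |v x| ≤ o) : clip o v x = v x := by
  rw [clip_apply]
  obtain ⟨h1, h2⟩ := abs_le.1 h
  rw [min_eq_left h2, max_eq_left h1]

/-- energy bound for a cut-off function times a locally small function -/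
theorem energy_cut {χ v : C(Z, ℝ)} (hχ : χ ∈ Q.Dom) (hv : v ∈ Q.Dom)
    (h01 : ∀ y, 0 ≤ χ y ∧ χ y ≤ 1) {W : Set Z} (hW : IsOpen W) (hsupp : tsupport χ ⊆ W) {o : ℝ}
    (ho : 0 ≤ o) (hv' : ∀ x ∈ W, |v x| ≤ o) (ψ : C(Z, ℝ)) (hψ : ∀ y, χ y ≤ ψ y)  :
    Q.Γ (χ * v) (χ * v) 1 ≤ (o ^ 2 + o) * Q.Γ χ χ 1 + (1 + o) * Q.Γ v v ψ := by
  rw [energy_mul hχ hv]
  have hcl : ∀ x ∈ W, clip o v x = v x := fun x hx => clip_eq v (hv' x hx)
  have e1 : Q.Γ χ χ (1 * v * v) ≤ o ^ 2 * Q.Γ χ χ 1 := by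
    rw [test_congr hχ hχ hW hsupp (ψ := clip o v * clip o v) (fun x hx => by simp [hcl x hx])]
    refine le_of_abs_le hχ (fun x => ?_)
    have := abs_clip_le ho v x
    have h2 := abs_le.1 this
    simp only [ContinuousMap.mul_apply]
    nlinarith
  have e2 : 2 * Q.Γ χ v (1 * χ * v) ≤ o * Q.Γ χ χ 1 + o * Q.Γ v v ψ := by
    have h1 := cs hχ hv (1 * χ * v)
    have hb : ∀ x, (|1 * χ * v| : C(Z, ℝ)) x ≤ (o • χ) x := by
      intro x
      simp only [absC_apply, one_mul, ContinuousMap.mul_apply, ContinuousMap.smul_apply,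
        smul_eq_mul, abs_mul, abs_of_nonneg (h01 x).1]
      by_cases hx : χ x = 0
      · simp [hx]
      · have := hv' x (hsupp (subset_tsupport _ hx))
        nlinarith [(h01 x).1]
    have h2 : Q.Γ χ χ |1 * χ * v| ≤ o * Q.Γ χ χ 1 := by
      refine le_of_abs_le hχ (fun x => ?_)
      have := hb x
      simp only [ContinuousMap.smul_apply, smul_eq_mul] at this
      nlinarith [(h01 x).2]
    have h3 : Q.Γ v v |1 * χ * v| ≤ o * Q.Γ v v ψ := by
      calc Q.Γ v v |1 * χ * v| ≤ Q.Γ v v (o • χ) := mono hv hb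
        _ = o * Q.Γ v v χ := Q.smul_test _ _ hv _ hv _
        _ ≤ o * Q.Γ v v ψ := mul_le_mul_of_nonneg_left (mono hv hψ) ho
    have h4 := le_abs_self (Q.Γ χ v (1 * χ * v))
    linarith
  have e3 : Q.Γ v v (1 * χ * χ) ≤ Q.Γ v v ψ := by
    refine mono hv (fun x => ?_)
    have h1 := h01 x
    have h2 := hψ x
    simp only [one_mul, ContinuousMap.mul_apply]
    nlinarith
  linarith

theorem no_atom {u : C(Z, ℝ)} (hu : u ∈ Q.Dom) (x : Z) {ε : ℝ} (hε : 0 < ε) :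
    ∃ ρ > 0, ∀ φ : C(Z, ℝ), (∀ y, 0 ≤ φ y ∧ φ y ≤ 1) → (∀ y, ρ ≤ dist y x → φ y = 0) →
      Q.Γ u u φ ≤ ε := by
  set E := Q.Γ u u 1 with hE
  have hE0 : 0 ≤ E := Q.nonneg u hu 1 (fun x => zero_le_one)
  have hC0 := Q.C0_pos
  obtain ⟨δ, hδ, hweak⟩ := weak (Q := Q) hu (2 * Q.C0 + 2 * E) (half_pos hε)
  set o := min (min 1 δ) (ε / (Q.C0 + E + 1)) with ho
  have ho0 : 0 < o := lt_min (lt_min one_pos hδ) (by positivity)
  have ho1 : o ≤ 1 := (min_le_left _ _).trans (min_le_left _ _)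
  have hoδ : o ≤ δ := (min_le_left _ _).trans (min_le_right _ _)
  have hoε : o * (Q.C0 + E) ≤ ε := by
    have : o ≤ ε / (Q.C0 + E + 1) := min_le_right _ _
    rw [le_div_iff₀ (by positivity)] at this
    nlinarith
  obtain ⟨r, hr, hcont⟩ := Metric.continuous_iff.1 u.continuous x o ho0
  have hlam := Q.one_lt_lam
  have hlam0 : 0 < Q.lam := by linarith
  set ρ := min Q.ρ0 (r / (2 * Q.lam)) with hρ
  have hρ0 : 0 < ρ := lt_min Q.ρ0_pos (by positivity)
  have hρr : Q.lam * ρ < r := by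
    have : ρ ≤ r / (2 * Q.lam) := min_le_right _ _
    calc Q.lam * ρ ≤ Q.lam * (r / (2 * Q.lam)) := by gcongr
      _ = r / 2 := by field_simp
      _ < r := by linarith
  obtain ⟨χ, h1, h2, h3, h4, h5⟩ := Q.cutoff x ρ hρ0 (min_le_left _ _)
  refine ⟨ρ, hρ0, fun φ hφ01 hφ0 => ?_⟩
  set v : C(Z, ℝ) := u + ContinuousMap.const Z (-(u x)) with hv
  have hvD : v ∈ Q.Dom := Q.add_mem _ hu _ (Q.const_mem _)
  have hvv : ∀ ψ, Q.Γ v v ψ = Q.Γ u u ψ := fun ψ => by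
    rw [hv, add_const_left hu hvD, hv, add_const_right hu hu]
  set W : Set Z := Metric.ball x r
  have hsupp : tsupport ⇑χ ⊆ W := by
    have hs : tsupport ⇑χ ⊆ Metric.closedBall x (Q.lam * ρ) := by
      refine closure_minimal ?_ Metric.isClosed_closedBall
      intro y hy
      by_contra hc
      simp only [Metric.mem_closedBall, not_le] at hc
      exact hy (h4 y hc.le)
    exact hs.trans (Metric.closedBall_subset_ball hρr)
  have hvW : ∀ y ∈ W, |v y| ≤ o := fun y hy => by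
    have := hcont y hy
    rw [Real.dist_eq] at this
    simpa [hv, sub_eq_add_neg] using this.le
  have hcl : ∀ y ∈ W, clip o v y = v y := fun y hy => clip_eq v (hvW y hy)
  -- the function w = χ v
  have hw : χ * v ∈ Q.Dom := Q.mul_mem _ h1 _ hvD
  have hwo : ∀ y, |(χ * v) y| ≤ o := by
    intro y
    simp only [ContinuousMap.mul_apply, abs_mul, abs_of_nonneg (h2 y).1]
    by_cases hy : χ y = 0
    · simp [hy, ho0.le]
    · have := hvW y (hsupp (subset_tsupport _ hy))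
      nlinarith [(h2 y).1, (h2 y).2, abs_nonneg (v y)]
  have hwE : Q.Γ (χ * v) (χ * v) 1 ≤ 2 * Q.C0 + 2 * E := by
    have h6 := energy_cut h1 hvD h2 Metric.isOpen_ball hsupp ho0.le hvW 1 (fun y => (h2 y).2)
    rw [hvv, ← hE] at h6
    have h7 : (o ^ 2 + o) * Q.Γ χ χ 1 ≤ 2 * Q.C0 := by
      have h8 : 0 ≤ Q.Γ χ χ 1 := Q.nonneg χ h1 1 (fun x => zero_le_one)
      have h9 : o ^ 2 + o ≤ 2 := by nlinarith
      nlinarith
    have h8 : (1 + o) * E ≤ 2 * E := by nlinarith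
    linarith
  have h6 := hweak _ hw (fun y => (hwo y).trans hoδ) hwE
  -- Γ(u,u)(φ) ≤ Γ(u,u)(χ)
  have h7 : Q.Γ u u φ ≤ Q.Γ u u χ := by
    refine mono hu (fun y => ?_)
    rcases le_or_gt (dist y x) ρ with hy | hy
    · rw [h3 y hy]; exact (hφ01 y).2
    · rw [hφ0 y hy.le]; exact (h2 y).1
  have h8 : Q.Γ (χ * v) u 1 = Q.Γ χ u (1 * v) + Q.Γ u u χ := by
    rw [leibniz h1 hvD hu, one_mul, one_mul, hv, add_const_left hu hu]
  have h9 : 2 * |Q.Γ χ u (1 * v)| ≤ o * (Q.C0 + E) := by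
    rw [test_congr h1 hu Metric.isOpen_ball hsupp (ψ := clip o v) (fun y hy => by simp [hcl y hy])]
    have := abs_le_energy h1 hu (fun y => abs_clip_le ho0.le v y)
    refine this.trans ?_
    rw [← hE]
    nlinarith
  have h10 := abs_le.1 h6
  have h11 := neg_abs_le (Q.Γ χ u (1 * v))
  linarith

theorem no_atom_unif {u : C(Z, ℝ)} (hu : u ∈ Q.Dom) {ε : ℝ} (hε : 0 < ε) :
    ∃ ρ > 0, ∀ x : Z, ∀ φ : C(Z, ℝ), (∀ y, 0 ≤ φ y ∧ φ y ≤ 1) → (∀ y, ρ ≤ dist y x → φ y = 0) →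
      Q.Γ u u φ ≤ ε := by
  choose ρ hρ h using fun x => no_atom (Q := Q) hu x hε
  obtain ⟨δ, hδ, hL⟩ := lebesgue_number_lemma_of_metric (s := (Set.univ : Set Z))
    isCompact_univ (c := fun x => Metric.ball x (ρ x)) (fun x => Metric.isOpen_ball)
    (fun x _ => Set.mem_iUnion.2 ⟨x, Metric.mem_ball_self (hρ x)⟩)
  refine ⟨δ, hδ, fun x φ h1 h2 => ?_⟩
  obtain ⟨i, hi⟩ := hL x (Set.mem_univ x)
  refine h i φ h1 (fun y hy => h2 y ?_)
  by_contra hc
  push Not at hc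
  exact absurd (Metric.mem_ball.1 (hi (Metric.mem_ball.2 hc))) (not_lt.2 hy)

end Crest.Agent.R193.D56_Atom
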