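import Crest.Agent.R193.Defs

/-!
# R193, block D5+D6: basic calculus of a `DForm` used by the blow-up argument
-/

set_option autoImplicit false

noncomputable section

open Set Filter Topology

namespace Crest.Agent.R193.D56_Basic

open Crest.Agent.R193

variable {G Z : Type} [Group G] [MetricSpace Z] [MulAction G Z] {S : Setup G Z} (Q : DForm S)

section alg
variable {Q}

theorem zero_mem : (0 : C(Z, ℝ)) ∈ Q.Dom := Q.const_mem 0

theorem one_mem : (1 : C(Z, ℝ)) ∈ Q.Dom := Q.const_mem 1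

theorem neg_mem {u : C(Z, ℝ)} (hu : u ∈ Q.Dom) : -u ∈ Q.Dom := by
  have := Q.smul_mem (-1) u hu
  simpa using this

theorem sub_mem {u v : C(Z, ℝ)} (hu : u ∈ Q.Dom) (hv : v ∈ Q.Dom) : u - v ∈ Q.Dom := by
  rw [sub_eq_add_neg]; exact Q.add_mem _ hu _ (neg_mem hv)

theorem add_right {u v v' : C(Z, ℝ)} (hu : u ∈ Q.Dom) (hv : v ∈ Q.Dom) (hv' : v' ∈ Q.Dom)
    (φ : C(Z, ℝ)) : Q.Γ u (v + v') φ = Q.Γ u v φ + Q.Γ u v' φ := by
  rw [Q.symm _ hu _ (Q.add_mem _ hv _ hv'), Q.add_left _ hv _ hv' _ hu, Q.symm _ hv _ hu,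
    Q.symm _ hv' _ hu]

theorem smul_right {u v : C(Z, ℝ)} (hu : u ∈ Q.Dom) (hv : v ∈ Q.Dom) (c : ℝ)
    (φ : C(Z, ℝ)) : Q.Γ u (c • v) φ = c * Q.Γ u v φ := by
  rw [Q.symm _ hu _ (Q.smul_mem _ _ hv), Q.smul_left _ _ hv _ hu, Q.symm _ hv _ hu]

theorem neg_left {u v : C(Z, ℝ)} (hu : u ∈ Q.Dom) (hv : v ∈ Q.Dom)
    (φ : C(Z, ℝ)) : Q.Γ (-u) v φ = - Q.Γ u v φ := by
  have := Q.smul_left (-1) u hu v hv φ
  simpa using this

theorem neg_right {u v : C(Z, ℝ)} (hu : u ∈ Q.Dom) (hv : v ∈ Q.Dom)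
    (φ : C(Z, ℝ)) : Q.Γ u (-v) φ = - Q.Γ u v φ := by
  have := smul_right (Q := Q) hu hv (-1) φ
  simpa using this

theorem sub_left {u u' v : C(Z, ℝ)} (hu : u ∈ Q.Dom) (hu' : u' ∈ Q.Dom) (hv : v ∈ Q.Dom)
    (φ : C(Z, ℝ)) : Q.Γ (u - u') v φ = Q.Γ u v φ - Q.Γ u' v φ := by
  rw [sub_eq_add_neg, Q.add_left _ hu _ (neg_mem hu') _ hv, neg_left hu' hv]; ring

theorem sub_right {u v v' : C(Z, ℝ)} (hu : u ∈ Q.Dom) (hv : v ∈ Q.Dom) (hv' : v' ∈ Q.Dom)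
    (φ : C(Z, ℝ)) : Q.Γ u (v - v') φ = Q.Γ u v φ - Q.Γ u v' φ := by
  rw [sub_eq_add_neg, add_right hu hv (neg_mem hv'), neg_right hu hv']; ring

theorem zero_test {u v : C(Z, ℝ)} (hu : u ∈ Q.Dom) (hv : v ∈ Q.Dom) : Q.Γ u v 0 = 0 := by
  have := Q.smul_test 0 u hu v hv 0
  simpa using this

theorem neg_test {u v : C(Z, ℝ)} (hu : u ∈ Q.Dom) (hv : v ∈ Q.Dom) (φ : C(Z, ℝ)) :
    Q.Γ u v (-φ) = - Q.Γ u v φ := by
  have := Q.smul_test (-1) u hu v hv φ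
  simpa using this

theorem sub_test {u v : C(Z, ℝ)} (hu : u ∈ Q.Dom) (hv : v ∈ Q.Dom) (φ φ' : C(Z, ℝ)) :
    Q.Γ u v (φ - φ') = Q.Γ u v φ - Q.Γ u v φ' := by
  rw [sub_eq_add_neg, Q.add_test _ hu _ hv, neg_test hu hv]; ring

theorem sum_mem {ι : Type*} (s : Finset ι) (w : ι → C(Z, ℝ)) (hw : ∀ i ∈ s, w i ∈ Q.Dom) :
    ∑ i ∈ s, w i ∈ Q.Dom := by
  classical
  induction s using Finset.induction_on with
  | empty => simpa using (zero_mem (Q := Q))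
  | insert i s hi ih =>
    rw [Finset.sum_insert hi]
    exact Q.add_mem _ (hw i (Finset.mem_insert_self i s)) _
      (ih fun j hj => hw j (Finset.mem_insert_of_mem hj))

theorem zero_left {v : C(Z, ℝ)} (hv : v ∈ Q.Dom) (φ : C(Z, ℝ)) : Q.Γ 0 v φ = 0 := by
  have := Q.smul_left 0 0 (zero_mem (Q := Q)) v hv φ
  simpa using this

theorem zero_right {u : C(Z, ℝ)} (hu : u ∈ Q.Dom) (φ : C(Z, ℝ)) : Q.Γ u 0 φ = 0 := by
  have := smul_right (Q := Q) hu (zero_mem (Q := Q)) 0 φ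
  simpa using this

theorem sum_left {ι : Type*} (s : Finset ι) (w : ι → C(Z, ℝ)) (hw : ∀ i ∈ s, w i ∈ Q.Dom)
    {v : C(Z, ℝ)} (hv : v ∈ Q.Dom) (φ : C(Z, ℝ)) :
    Q.Γ (∑ i ∈ s, w i) v φ = ∑ i ∈ s, Q.Γ (w i) v φ := by
  classical
  induction s using Finset.induction_on with
  | empty => simpa using zero_left hv φ
  | insert i s hi ih =>
    rw [Finset.sum_insert hi, Finset.sum_insert hi,
      Q.add_left _ (hw i (Finset.mem_insert_self i s)) _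
        (sum_mem s w fun j hj => hw j (Finset.mem_insert_of_mem hj)) _ hv,
      ih fun j hj => hw j (Finset.mem_insert_of_mem hj)]

theorem sum_right {ι : Type*} (s : Finset ι) (w : ι → C(Z, ℝ)) (hw : ∀ i ∈ s, w i ∈ Q.Dom)
    {u : C(Z, ℝ)} (hu : u ∈ Q.Dom) (φ : C(Z, ℝ)) :
    Q.Γ u (∑ i ∈ s, w i) φ = ∑ i ∈ s, Q.Γ u (w i) φ := by
  rw [Q.symm _ hu _ (sum_mem s w hw), sum_left s w hw hu]
  exact Finset.sum_congr rfl fun i hi => Q.symm _ (hw i hi) _ hu φ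

theorem sum_test {ι : Type*} (s : Finset ι) (f : ι → C(Z, ℝ)) {u v : C(Z, ℝ)} (hu : u ∈ Q.Dom)
    (hv : v ∈ Q.Dom) : Q.Γ u v (∑ i ∈ s, f i) = ∑ i ∈ s, Q.Γ u v (f i) := by
  classical
  induction s using Finset.induction_on with
  | empty => simpa using zero_test hu hv
  | insert i s hi ih => rw [Finset.sum_insert hi, Finset.sum_insert hi, Q.add_test _ hu _ hv, ih]

/-- Leibniz rule -/
theorem leibniz {u v w : C(Z, ℝ)} (hu : u ∈ Q.Dom) (hv : v ∈ Q.Dom) (hw : w ∈ Q.Dom)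
    (φ : C(Z, ℝ)) : Q.Γ (u * v) w φ = Q.Γ u w (φ * v) + Q.Γ v w (φ * u) := by
  have hψ : ContDiff ℝ 2 (fun p : ℝ × ℝ => p.1 * p.2) := contDiff_fst.mul contDiff_snd
  have hfd : ∀ a b c d : ℝ, fderiv ℝ (fun p : ℝ × ℝ => p.1 * p.2) (a, b) (c, d) = a * d + b * c := by
    intro a b c d
    have h : HasFDerivAt (fun p : ℝ × ℝ => p.1 * p.2)
        ((a : ℝ) • (ContinuousLinearMap.snd ℝ ℝ ℝ) + (b : ℝ) • (ContinuousLinearMap.fst ℝ ℝ ℝ))
        (a, b) := by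
      exact (hasFDerivAt_fst (𝕜 := ℝ) (p := ((a, b) : ℝ × ℝ))).mul
        (hasFDerivAt_snd (𝕜 := ℝ) (p := ((a, b) : ℝ × ℝ)))
    rw [h.fderiv]
    simp
  obtain ⟨-, h⟩ := Q.chain (fun p : ℝ × ℝ => p.1 * p.2) hψ u hu v hv (u * v) v u
    (fun x => rfl) (fun x => by rw [hfd]; simp) (fun x => by rw [hfd]; simp)
  exact h w hw φ

theorem const_left {v : C(Z, ℝ)} (hv : v ∈ Q.Dom) (c : ℝ) (φ : C(Z, ℝ)) :
    Q.Γ (ContinuousMap.const Z c) v φ = 0 := by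
  have h1 : Q.Γ (1 : C(Z, ℝ)) v φ = 0 := by
    have h := leibniz (Q := Q) (one_mem (Q := Q)) (one_mem (Q := Q)) hv φ
    simp only [mul_one] at h
    linarith
  have h2 : ContinuousMap.const Z c = c • (1 : C(Z, ℝ)) := by ext x; simp
  rw [h2, Q.smul_left _ _ (one_mem (Q := Q)) _ hv, h1, mul_zero]

theorem const_right {u : C(Z, ℝ)} (hu : u ∈ Q.Dom) (c : ℝ) (φ : C(Z, ℝ)) :
    Q.Γ u (ContinuousMap.const Z c) φ = 0 := by
  rw [Q.symm _ hu _ (Q.const_mem c), const_left hu]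

theorem add_const_left {u v : C(Z, ℝ)} (hu : u ∈ Q.Dom) (hv : v ∈ Q.Dom) (c : ℝ) (φ : C(Z, ℝ)) :
    Q.Γ (u + ContinuousMap.const Z c) v φ = Q.Γ u v φ := by
  rw [Q.add_left _ hu _ (Q.const_mem c) _ hv, const_left hv, add_zero]

theorem add_const_right {u v : C(Z, ℝ)} (hu : u ∈ Q.Dom) (hv : v ∈ Q.Dom) (c : ℝ) (φ : C(Z, ℝ)) :
    Q.Γ u (v + ContinuousMap.const Z c) φ = Q.Γ u v φ := by
  rw [add_right hu hv (Q.const_mem c), const_right hu, add_zero]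

theorem mono {u : C(Z, ℝ)} (hu : u ∈ Q.Dom) {φ ψ : C(Z, ℝ)} (h : ∀ x, φ x ≤ ψ x) :
    Q.Γ u u φ ≤ Q.Γ u u ψ := by
  have h1 := Q.nonneg u hu (ψ - φ) (fun x => by simpa using h x)
  rw [sub_test hu hu] at h1
  linarith

theorem absC_apply (φ : C(Z, ℝ)) (x : Z) : (|φ| : C(Z, ℝ)) x = |φ x| := rfl

/-- additive Cauchy-Schwarz for nonnegative test functions -/
theorem cs_nonneg {u v : C(Z, ℝ)} (hu : u ∈ Q.Dom) (hv : v ∈ Q.Dom) {φ : C(Z, ℝ)}
    (hφ : ∀ x, 0 ≤ φ x) : 2 * |Q.Γ u v φ| ≤ Q.Γ u u φ + Q.Γ v v φ := by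
  have h1 := Q.nonneg (u + v) (Q.add_mem _ hu _ hv) φ hφ
  have h2 := Q.nonneg (u - v) (sub_mem hu hv) φ hφ
  rw [Q.add_left _ hu _ hv _ (Q.add_mem _ hu _ hv), add_right hu hu hv, add_right hv hu hv,
    Q.symm _ hv _ hu] at h1
  rw [sub_left hu hv (sub_mem hu hv), sub_right hu hu hv, sub_right hv hu hv,
    Q.symm _ hv _ hu] at h2
  have := abs_le.2 (⟨by linarith, by linarith⟩ :
    -((Q.Γ u u φ + Q.Γ v v φ) / 2) ≤ Q.Γ u v φ ∧ Q.Γ u v φ ≤ (Q.Γ u u φ + Q.Γ v v φ) / 2)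
  linarith

/-- positive and negative part of a test function -/
theorem cs {u v : C(Z, ℝ)} (hu : u ∈ Q.Dom) (hv : v ∈ Q.Dom) (φ : C(Z, ℝ)) :
    2 * |Q.Γ u v φ| ≤ Q.Γ u u |φ| + Q.Γ v v |φ| := by
  let p : C(Z, ℝ) := (1 / 2 : ℝ) • (|φ| + φ)
  let q : C(Z, ℝ) := (1 / 2 : ℝ) • (|φ| - φ)
  have hp : ∀ x, 0 ≤ p x := fun x => by
    have := neg_abs_le (φ x)
    simp only [p, ContinuousMap.smul_apply, ContinuousMap.add_apply, absC_apply, smul_eq_mul]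
    linarith
  have hq : ∀ x, 0 ≤ q x := fun x => by
    have := le_abs_self (φ x)
    simp only [q, ContinuousMap.smul_apply, ContinuousMap.sub_apply, absC_apply, smul_eq_mul]
    linarith
  have h1 : φ = p - q := by
    ext x
    simp only [p, q, ContinuousMap.smul_apply, ContinuousMap.add_apply, ContinuousMap.sub_apply,
      absC_apply, smul_eq_mul]
    ring
  have h2 : |φ| = p + q := by
    ext x
    simp only [p, q, ContinuousMap.smul_apply, ContinuousMap.add_apply, ContinuousMap.sub_apply,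
      absC_apply, smul_eq_mul]
    ring
  have e1 := cs_nonneg hu hv hp
  have e2 := cs_nonneg hu hv hq
  rw [h2, Q.add_test _ hu _ hu, Q.add_test _ hv _ hv]
  have e3 : |Q.Γ u v φ| ≤ |Q.Γ u v p| + |Q.Γ u v q| := by
    rw [h1, sub_test hu hv]
    exact abs_sub _ _
  linarith

theorem le_of_abs_le {u : C(Z, ℝ)} (hu : u ∈ Q.Dom) {φ : C(Z, ℝ)} {M : ℝ} (h : ∀ x, φ x ≤ M) :
    Q.Γ u u φ ≤ M * Q.Γ u u 1 := by
  rw [← Q.smul_test M u hu u hu 1]
  exact mono hu (fun x => by simpa using h x)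

/-- `|Γ(u,v)(φ)| ≤ M (E u + E v) / 2` if `|φ| ≤ M` -/
theorem abs_le_energy {u v : C(Z, ℝ)} (hu : u ∈ Q.Dom) (hv : v ∈ Q.Dom) {φ : C(Z, ℝ)} {M : ℝ}
    (h : ∀ x, |φ x| ≤ M) : 2 * |Q.Γ u v φ| ≤ M * (Q.Γ u u 1 + Q.Γ v v 1) := by
  have h1 := cs hu hv φ
  have h2 := le_of_abs_le (Q := Q) hu (φ := |φ|) (M := M) h
  have h3 := le_of_abs_le (Q := Q) hv (φ := |φ|) (M := M) h
  linarith

/-- energy of a product -/
theorem energy_mul {u v : C(Z, ℝ)} (hu : u ∈ Q.Dom) (hv : v ∈ Q.Dom) (φ : C(Z, ℝ)) :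
    Q.Γ (u * v) (u * v) φ =
      Q.Γ u u (φ * v * v) + 2 * Q.Γ u v (φ * u * v) + Q.Γ v v (φ * u * u) := by
  have huv := Q.mul_mem _ hu _ hv
  rw [leibniz hu hv huv, Q.symm _ hu _ huv, Q.symm _ hv _ huv, leibniz hu hv hu, leibniz hu hv hv,
    Q.symm _ hv _ hu]
  have e : φ * u * v = φ * v * u := by ring
  rw [e]; ring

end alg

section loc
variable {Q}

theorem cut_KO [CompactSpace Z] {K O : Set Z} (hK : IsClosed K) (hO : IsOpen O) (hKO : K ⊆ O) :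
    ∃ χ ∈ Q.Dom, (∀ y, 0 ≤ χ y ∧ χ y ≤ 1) ∧ (∀ y ∈ K, χ y = 1) ∧ tsupport χ ⊆ O := by
  have hKc := hK.isCompact
  refine hKc.induction_on (p := fun K => ∃ χ ∈ Q.Dom, (∀ y, 0 ≤ χ y ∧ χ y ≤ 1) ∧
    (∀ y ∈ K, χ y = 1) ∧ tsupport χ ⊆ O) ?_ ?_ ?_ ?_
  · refine ⟨0, zero_mem, fun y => by simp, fun y hy => absurd hy (Set.notMem_empty y), ?_⟩
    simp [tsupport, Function.support]
  · rintro s t hst ⟨χ, h1, h2, h3, h4⟩
    exact ⟨χ, h1, h2, fun y hy => h3 y (hst hy), h4⟩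
  · rintro s t ⟨χ, h1, h2, h3, h4⟩ ⟨χ', h1', h2', h3', h4'⟩
    refine ⟨χ + χ' - χ * χ', sub_mem (Q.add_mem _ h1 _ h1') (Q.mul_mem _ h1 _ h1'), ?_, ?_, ?_⟩
    · intro y
      have a := h2 y
      have b := h2' y
      simp only [ContinuousMap.sub_apply, ContinuousMap.add_apply, ContinuousMap.mul_apply]
      constructor <;> nlinarith [mul_nonneg (sub_nonneg.2 a.2) (sub_nonneg.2 b.2),
        mul_nonneg a.1 (sub_nonneg.2 b.2)]
    · rintro y (hy | hy)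
      · simp [h3 y hy]
      · simp [h3' y hy]
    · have hsub : Function.support ⇑(χ + χ' - χ * χ') ⊆ Function.support ⇑χ ∪ Function.support ⇑χ' := by
        intro y hy
        by_contra hc
        simp only [Set.mem_union, Function.mem_support, not_or, not_not] at hc
        exact hy (by simp [hc.1, hc.2])
      calc tsupport ⇑(χ + χ' - χ * χ') ⊆ closure (Function.support ⇑χ ∪ Function.support ⇑χ') :=
            closure_mono hsub
        _ = tsupport ⇑χ ∪ tsupport ⇑χ' := closure_union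
        _ ⊆ O := union_subset h4 h4'
  · intro x hx
    obtain ⟨r, hr, hrO⟩ := Metric.isOpen_iff.1 hO x (hKO hx)
    have hlam := Q.one_lt_lam
    have hlam0 : 0 < Q.lam := by linarith
    set ρ := min Q.ρ0 (r / (2 * Q.lam)) with hρ
    have hρ0 : 0 < ρ := lt_min Q.ρ0_pos (by positivity)
    obtain ⟨χ, h1, h2, h3, h4, -⟩ := Q.cutoff x ρ hρ0 (min_le_left _ _)
    refine ⟨Metric.closedBall x ρ, mem_nhdsWithin_of_mem_nhds (Metric.closedBall_mem_nhds x hρ0),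
      χ, h1, h2, fun y hy => h3 y (Metric.mem_closedBall.1 hy), ?_⟩
    have hs : tsupport ⇑χ ⊆ Metric.closedBall x (Q.lam * ρ) := by
      refine closure_minimal ?_ Metric.isClosed_closedBall
      intro y hy
      by_contra hc
      simp only [Metric.mem_closedBall, not_le] at hc
      exact hy (h4 y hc.le)
    refine hs.trans ((Metric.closedBall_subset_ball ?_).trans hrO)
    have : ρ ≤ r / (2 * Q.lam) := min_le_right _ _
    calc Q.lam * ρ ≤ Q.lam * (r / (2 * Q.lam)) := by gcongr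
      _ = r / 2 := by field_simp
      _ < r := by linarith

/-- cut-off equal to one in a neighbourhood -/
theorem cut_nhds [CompactSpace Z] {K O : Set Z} (hK : IsClosed K) (hO : IsOpen O) (hKO : K ⊆ O) :
    ∃ χ ∈ Q.Dom, ∃ W : Set Z, (∀ y, 0 ≤ χ y ∧ χ y ≤ 1) ∧ IsOpen W ∧ K ⊆ W ∧ (∀ y ∈ W, χ y = 1) ∧
      tsupport χ ⊆ O := by
  obtain ⟨W, hW, hKW, hWO⟩ := normal_exists_closure_subset hK hO hKO
  obtain ⟨χ, h1, h2, h3, h4⟩ := cut_KO (Q := Q) isClosed_closure hO hWO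
  exact ⟨χ, h1, W, h2, hW, hKW, fun y hy => h3 y (subset_closure hy), h4⟩

/-- locality -/
theorem local_const [CompactSpace Z] {u v : C(Z, ℝ)} (hu : u ∈ Q.Dom) (hv : v ∈ Q.Dom) {W : Set Z}
    (hW : IsOpen W) {c : ℝ} (hc : ∀ x ∈ W, u x = c) {φ : C(Z, ℝ)} (hφ : tsupport φ ⊆ W) :
    Q.Γ u v φ = 0 := by
  obtain ⟨χ, h1, h2, h3, h4⟩ := cut_KO (Q := Q) (isClosed_tsupport ⇑φ) hW hφ
  have hu' : u - ContinuousMap.const Z c ∈ Q.Dom := sub_mem hu (Q.const_mem c)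
  have e0 : (u - ContinuousMap.const Z c) * χ = 0 := by
    ext x
    by_cases hx : x ∈ W
    · simp [hc x hx]
    · have : χ x = 0 := by
        by_contra hne
        exact hx (h4 (subset_tsupport _ hne))
      simp [this]
  have e1 := leibniz (Q := Q) hu' h1 hv φ
  rw [e0, zero_left hv] at e1
  have e2 : φ * χ = φ := by
    ext x
    by_cases hx : x ∈ tsupport ⇑φ
    · simp [h3 x hx]
    · have : φ x = 0 := by
        by_contra hne
        exact hx (subset_tsupport _ hne)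
      simp [this]
  have e3 : φ * (u - ContinuousMap.const Z c) = 0 := by
    ext x
    by_cases hx : φ x = 0
    · simp [hx]
    · have hxW : x ∈ W := hφ (subset_tsupport _ hx)
      simp [hc x hxW]
  rw [e2, e3, zero_test h1 hv, sub_left hu (Q.const_mem c) hv, const_left hv] at e1
  linarith

theorem local_congr [CompactSpace Z] {u u' v : C(Z, ℝ)} (hu : u ∈ Q.Dom) (hu' : u' ∈ Q.Dom)
    (hv : v ∈ Q.Dom) {W : Set Z} (hW : IsOpen W) (hc : ∀ x ∈ W, u x = u' x) {φ : C(Z, ℝ)}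
    (hφ : tsupport φ ⊆ W) : Q.Γ u v φ = Q.Γ u' v φ := by
  have := local_const (Q := Q) (sub_mem hu hu') hv hW (c := 0) (fun x hx => by simp [hc x hx]) hφ
  rw [sub_left hu hu' hv] at this
  linarith

theorem local_congr_right [CompactSpace Z] {u v v' : C(Z, ℝ)} (hu : u ∈ Q.Dom) (hv : v ∈ Q.Dom)
    (hv' : v' ∈ Q.Dom) {W : Set Z} (hW : IsOpen W) (hc : ∀ x ∈ W, v x = v' x) {φ : C(Z, ℝ)}
    (hφ : tsupport φ ⊆ W) : Q.Γ u v φ = Q.Γ u v' φ := by
  rw [Q.symm _ hu _ hv, Q.symm _ hu _ hv', local_congr hv hv' hu hW hc hφ]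

/-- if `u` vanishes off a closed set, test functions may be changed off a neighbourhood -/
theorem test_congr [CompactSpace Z] {u v : C(Z, ℝ)} (hu : u ∈ Q.Dom) (hv : v ∈ Q.Dom) {W : Set Z}
    (hW : IsOpen W) (hsupp : tsupport u ⊆ W) {φ ψ : C(Z, ℝ)} (h : ∀ x ∈ W, φ x = ψ x) :
    Q.Γ u v φ = Q.Γ u v ψ := by
  have h1 : tsupport ⇑(φ - ψ) ⊆ (tsupport ⇑u)ᶜ := by
    have : tsupport ⇑(φ - ψ) ⊆ Wᶜ := by
      refine closure_minimal ?_ hW.isClosed_compl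
      intro x hx hxW
      exact hx (by simp [h x hxW])
    exact this.trans (compl_subset_compl.2 hsupp)
  have h2 := local_const (Q := Q) hu hv (isClosed_tsupport ⇑u).isOpen_compl (c := 0)
    (fun x hx => by
      by_contra hne
      exact hx (subset_tsupport _ hne)) h1
  rw [sub_test hu hv] at h2
  linarith

/-- two functions with disjoint supports are orthogonal -/
theorem disjoint_supp [CompactSpace Z] {u v : C(Z, ℝ)} (hu : u ∈ Q.Dom) (hv : v ∈ Q.Dom)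
    (h : Disjoint (tsupport u) (tsupport v)) (φ : C(Z, ℝ)) : Q.Γ u v φ = 0 := by
  obtain ⟨W, hW, hKW, hWO⟩ := normal_exists_closure_subset (isClosed_tsupport ⇑u)
    (isClosed_tsupport ⇑v).isOpen_compl (disjoint_left.1 h)
  obtain ⟨χ, h1, h2, h3, h4⟩ := cut_KO (Q := Q) (isClosed_closure (s := W))
    (isClosed_tsupport ⇑v).isOpen_compl hWO
  rw [test_congr hu hv hW hKW (ψ := φ * χ) (fun x hx => by simp [h3 x (subset_closure hx)])]
  rw [Q.symm _ hu _ hv]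
  refine local_const (Q := Q) hv hu (isClosed_tsupport ⇑v).isOpen_compl (c := 0)
    (fun x hx => by
      by_contra hne
      exact hx (subset_tsupport _ hne)) ?_
  refine (closure_mono ?_).trans h4
  intro x hx hc
  exact hx (by simp [hc])

end loc

section weak
variable {Q}
variable [CompactSpace Z]

/-- filter-free (WEAK) -/
theorem weak {v : C(Z, ℝ)} (hv : v ∈ Q.Dom) (C : ℝ) {ε : ℝ} (hε : 0 < ε) :
    ∃ δ > 0, ∀ w ∈ Q.Dom, (∀ x, |w x| ≤ δ) → Q.Γ w w 1 ≤ C → |Q.Γ w v 1| ≤ ε := by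
  by_contra hcon
  push Not at hcon
  have hpos : ∀ n : ℕ, (0 : ℝ) < 1 / ((n : ℝ) + 1) := fun n => by positivity
  choose w hw1 hw2 hw3 hw4 using fun n : ℕ => hcon _ (hpos n)
  have hlim : Tendsto w atTop (𝓝 0) := by
    rw [tendsto_iff_norm_sub_tendsto_zero]
    refine squeeze_zero (fun n => norm_nonneg _) (fun n => ?_) tendsto_one_div_add_atTop_nhds_zero_nat
    rw [sub_zero]
    exact (ContinuousMap.norm_le _ (hpos n).le).2 (fun x => hw2 n x)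
  have h := (Q.closed w 0 C hw1 hlim hw3).2 v hv 1
  rw [zero_left hv] at h
  have h2 := (h.abs)
  rw [abs_zero] at h2
  obtain ⟨n, hn⟩ := (h2.eventually (gt_mem_nhds hε)).exists
  exact absurd hn (not_lt.2 (hw4 n).le)

/-- filter-free (CLOSED) -/
theorem closed_mem {u : C(Z, ℝ)} {C : ℝ} (h : ∀ ε > 0, ∃ v ∈ Q.Dom, (∀ x, |v x - u x| ≤ ε) ∧
    Q.Γ v v 1 ≤ C) : u ∈ Q.Dom := by
  have hpos : ∀ n : ℕ, (0 : ℝ) < 1 / ((n : ℝ) + 1) := fun n => by positivity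
  choose w hw1 hw2 hw3 using fun n : ℕ => h _ (hpos n)
  have hlim : Tendsto w atTop (𝓝 u) := by
    rw [tendsto_iff_norm_sub_tendsto_zero]
    refine squeeze_zero (fun n => norm_nonneg _) (fun n => ?_) tendsto_one_div_add_atTop_nhds_zero_nat
    exact (ContinuousMap.norm_le _ (hpos n).le).2 (fun x => hw2 n x)
  exact (Q.closed w u C hw1 hlim hw3).1

end weak

end Crest.Agent.R193.D56_Basic
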