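import Crest.Agent.R193.D56_Sel
import Crest.Agent.R193.CPDefs

/-!
# R193, block D6: blow-up at a typical tile
-/

set_option autoImplicit false

noncomputable section

open Set Filter Topology MeasureTheory

namespace Crest.Agent.R193.D56_Blow

open Crest.Agent.R193 Crest.Agent.R193.D56_Basic Crest.Agent.R193.D56_Atom
  Crest.Agent.R193.D56_Dens Crest.Agent.R193.D56_Geo Crest.Agent.R193.D56_Sel

variable {G Z : Type} [Group G] [MetricSpace Z] [MulAction G Z] {S : Setup G Z}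

/-- composition with a group element -/
def tr (S : Setup G Z) (g : G) (u : C(Z, ℝ)) : C(Z, ℝ) :=
  ⟨fun x => u (g • x), u.continuous.comp (S.cont g)⟩

@[simp] theorem tr_apply (g : G) (u : C(Z, ℝ)) (x : Z) : tr S g u x = u (g • x) := rfl

theorem tr_tr_inv (g : G) (u : C(Z, ℝ)) : tr S g (tr S g⁻¹ u) = u := by
  ext x; simp

theorem tr_inv_tr (g : G) (u : C(Z, ℝ)) : tr S g⁻¹ (tr S g u) = u := by
  ext x; simp

theorem tr_one (g : G) : tr S g (1 : C(Z, ℝ)) = 1 := by ext x; simp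

section inv
variable {Q : DForm S}

theorem tr_mem (g : G) {u : C(Z, ℝ)} (hu : u ∈ Q.Dom) : tr S g u ∈ Q.Dom :=
  (Q.inv g u u 1 (tr S g u) (tr S g u) (tr S g 1) hu hu (fun _ => rfl) (fun _ => rfl)
    (fun _ => rfl)).1

theorem tr_Γ (g : G) {u v : C(Z, ℝ)} (hu : u ∈ Q.Dom) (hv : v ∈ Q.Dom) (φ : C(Z, ℝ)) :
    Q.Γ (tr S g u) (tr S g v) (tr S g φ) = Q.Γ u v φ :=
  (Q.inv g u v φ (tr S g u) (tr S g v) (tr S g φ) hu hv (fun _ => rfl) (fun _ => rfl)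
    (fun _ => rfl)).2

theorem tr_Γ' (g : G) {u v : C(Z, ℝ)} (hu : u ∈ Q.Dom) (hv : v ∈ Q.Dom) (φ : C(Z, ℝ)) :
    Q.Γ (tr S g u) (tr S g v) φ = Q.Γ u v (tr S g⁻¹ φ) := by
  rw [← tr_Γ g hu hv, tr_tr_inv]

/-- moving the group element to the other side -/
theorem tr_Γ_left (g : G) {u w : C(Z, ℝ)} (hu : u ∈ Q.Dom) (hw : w ∈ Q.Dom) :
    Q.Γ w (tr S g u) 1 = Q.Γ (tr S g⁻¹ w) u 1 := by
  have h := tr_Γ (Q := Q) g⁻¹ hw (tr_mem (Q := Q) g hu) 1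
  rw [tr_inv_tr, tr_one] at h
  exact h.symm
end inv

/-- local oscillation estimate -/
def OscLoc (Q : DForm S) : Prop :=
  ∀ (x : Z) (O : Set Z), O ∈ 𝓝 x → ∀ ε > (0 : ℝ), ∃ N ∈ 𝓝 x, ∀ u ∈ Q.Dom, MonoOn u O →
    ∀ φ : C(Z, ℝ), (∀ y, 0 ≤ φ y) → (∀ y ∈ O, φ y = 1) →
      ∀ y ∈ N, ∀ z ∈ N, (u y - u z) ^ 2 ≤ ε * Q.Γ u u φ

/-- the fixed ultrafilter -/
abbrev om : Ultrafilter ℕ := hyperfilter ℕ

theorem om_le : (om : Filter ℕ) ≤ atTop := Nat.hyperfilter_le_atTop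

theorem MonoOn_affine {u : Z → ℝ} {O : Set Z} (h : MonoOn u O) {s : ℝ} (hs : 0 < s) (c : ℝ) :
    MonoOn (fun x => s * u x + c) O := by
  intro D hD hne hcl x hx
  obtain ⟨⟨y, hy, h1⟩, ⟨y', hy', h2⟩⟩ := h D hD hne hcl x hx
  exact ⟨⟨y, hy, by nlinarith⟩, ⟨y', hy', by nlinarith⟩⟩

theorem MonoOn_comp (S : Setup G Z) {u : Z → ℝ} {O : Set Z} (h : MonoOn u O) (g : G) :
    MonoOn (fun x => u (g • x)) ((fun x => g • x) ⁻¹' O) := by
  let e : Z ≃ₜ Z :=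
    { toFun := fun x => g • x
      invFun := fun x => g⁻¹ • x
      left_inv := fun x => by simp
      right_inv := fun x => by simp
      continuous_toFun := S.cont g
      continuous_invFun := S.cont g⁻¹ }
  intro D hD hne hcl x hx
  have h1 : IsOpen (e '' D) := e.isOpenMap D hD
  have h2 : closure (e '' D) ⊆ O := by
    rw [← e.image_closure]
    rintro _ ⟨y, hy, rfl⟩
    exact hcl hy
  have h3 : frontier (e '' D) = e '' frontier D := (e.image_frontier D).symm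
  obtain ⟨⟨y, hy, h4⟩, ⟨y', hy', h5⟩⟩ := h (e '' D) h1 (hne.image e) h2 (e x) ⟨x, hx, rfl⟩
  rw [h3] at hy hy'
  obtain ⟨z, hz, rfl⟩ := hy
  obtain ⟨z', hz', rfl⟩ := hy'
  exact ⟨⟨z, hz, h4⟩, ⟨z', hz', h5⟩⟩

variable [CompactSpace Z]

/-- the blow-up data -/
structure BU (Q : DForm S) (𝒢 : Geo G Z) (u1 u2 : C(Z, ℝ)) (O : Set Z) where
  R1 : ℕ
  θ : ℝ
  K : ℕ → ℝ
  θ_pos : 0 < θ
  h1 : u1 ∈ Q.Dom
  h2 : u2 ∈ Q.Dom
  mono : ∀ a b : ℝ, MonoOn (fun x => a * u1 x + b * u2 x) O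
  osc : OscLoc Q
  n : ℕ → ℕ
  g : ℕ → G
  m : ℕ → ℝ
  b11 : ℕ → ℝ
  b12 : ℕ → ℝ
  b22 : ℕ → ℝ
  typ : ∀ k, Typical Q 𝒢 u1 u2 O R1 θ K k (g k) (m k) (b11 k) (b12 k) (b22 k)
  a : Z
  pole1 : ∀ K : Set Z, IsCompact K → a ∉ K → ∃ R, ∀ᶠ k in (om : Filter ℕ), ∀ x ∈ K,
    g k • x ∈ 𝒢.Sh R (g k)
  pole2 : ∀ R, ∃ N ∈ 𝓝 a, ∀ᶠ k in (om : Filter ℕ), ∀ x ∈ N, g k • x ∉ 𝒢.Sh R (g k)
  x0 : Z
  hx0 : x0 ≠ a

namespace BU

variable {Q : DForm S} {𝒢 : Geo G Z} {u1 u2 : C(Z, ℝ)} {O : Set Z} (B : BU Q 𝒢 u1 u2 O)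

/-- scale factor -/
def s (k : ℕ) : ℝ := (Real.sqrt (B.m k))⁻¹

theorem s_pos (k : ℕ) : 0 < B.s k := inv_pos.2 (Real.sqrt_pos.2 (B.typ k).pos)

theorem s_sq (k : ℕ) : B.s k * B.s k = (B.m k)⁻¹ := by
  unfold s
  rw [← mul_inv, Real.mul_self_sqrt (B.typ k).pos.le]

/-- the rescaled function of `u` -/
def bl (u : C(Z, ℝ)) (k : ℕ) : C(Z, ℝ) :=
  B.s k • tr S (B.g k) u + ContinuousMap.const Z (-(B.s k * u (B.g k • B.x0)))

theorem bl_apply (u : C(Z, ℝ)) (k : ℕ) (x : Z) :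
    B.bl u k x = B.s k * (u (B.g k • x) - u (B.g k • B.x0)) := by
  simp [bl]; ring

theorem bl_mem {u : C(Z, ℝ)} (hu : u ∈ Q.Dom) (k : ℕ) : B.bl u k ∈ Q.Dom :=
  Q.add_mem _ (Q.smul_mem _ _ (tr_mem _ hu)) _ (Q.const_mem _)

theorem bl_Γ {u v : C(Z, ℝ)} (hu : u ∈ Q.Dom) (hv : v ∈ Q.Dom) (k : ℕ) (φ : C(Z, ℝ)) :
    Q.Γ (B.bl u k) (B.bl v k) φ = (B.m k)⁻¹ * Q.Γ u v (tr S (B.g k)⁻¹ φ) := by
  have hu' := tr_mem (Q := Q) (B.g k) hu
  have hv' := tr_mem (Q := Q) (B.g k) hv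
  have e1 : Q.Γ (B.bl u k) (B.bl v k) φ = Q.Γ (B.s k • tr S (B.g k) u) (B.bl v k) φ :=
    add_const_left (Q.smul_mem _ _ hu') (B.bl_mem hv k) _ φ
  have e2 : Q.Γ (B.s k • tr S (B.g k) u) (B.bl v k) φ =
      Q.Γ (B.s k • tr S (B.g k) u) (B.s k • tr S (B.g k) v) φ :=
    add_const_right (Q.smul_mem _ _ hu') (Q.smul_mem _ _ hv') _ φ
  rw [e1, e2,
    Q.smul_left _ _ hu' _ (Q.smul_mem _ _ hv'), smul_right hu' hv', tr_Γ' _ hu hv, ← mul_assoc,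
    s_sq]

theorem bl_Γ_w {u w : C(Z, ℝ)} (hu : u ∈ Q.Dom) (hw : w ∈ Q.Dom) (k : ℕ) :
    Q.Γ w (B.bl u k) 1 = B.s k * Q.Γ (tr S (B.g k)⁻¹ w) u 1 := by
  have hu' := tr_mem (Q := Q) (B.g k) hu
  unfold bl
  rw [add_const_right hw (Q.smul_mem _ _ hu'), smul_right hw hu', tr_Γ_left _ hu hw]

/-- the transported bump -/
def ψ (R k : ℕ) : C(Z, ℝ) := tr S (B.g k) (bump 𝒢 R (B.g k))

theorem ψ_nonneg (R k : ℕ) (x : Z) : 0 ≤ B.ψ R k x := bump_nonneg 𝒢 _ _ _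
theorem ψ_le_one (R k : ℕ) (x : Z) : B.ψ R k x ≤ 1 := bump_le_one 𝒢 _ _ _
theorem ψ_one {R k : ℕ} {x : Z} (h : B.g k • x ∈ 𝒢.Sh R (B.g k)) : B.ψ R k x = 1 := bump_one 𝒢 h
theorem ψ_zero {R k : ℕ} {x : Z} (h : B.g k • x ∉ 𝒢.Sh (R + 1) (B.g k)) : B.ψ R k x = 0 :=
  bump_zero 𝒢 h

theorem energy_ψ (R k : ℕ) (hR : R ≤ k) :
    Q.Γ (B.bl u1 k) (B.bl u1 k) (B.ψ R k) + Q.Γ (B.bl u2 k) (B.bl u2 k) (B.ψ R k) ≤ B.K R := by
  rw [B.bl_Γ B.h1 B.h1, B.bl_Γ B.h2 B.h2]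
  unfold ψ
  rw [tr_inv_tr, ← mul_add, inv_mul_le_iff₀ (B.typ k).pos, mul_comm (B.m k)]
  exact (B.typ k).dbl R hR

theorem energy_ψ1 (R k : ℕ) (hR : R ≤ k) : Q.Γ (B.bl u1 k) (B.bl u1 k) (B.ψ R k) ≤ B.K R := by
  have h1 := B.energy_ψ R k hR
  have h2 := Q.nonneg _ (B.bl_mem B.h2 k) _ (B.ψ_nonneg R k)
  linarith

theorem energy_ψ2 (R k : ℕ) (hR : R ≤ k) : Q.Γ (B.bl u2 k) (B.bl u2 k) (B.ψ R k) ≤ B.K R := by
  have h1 := B.energy_ψ R k hR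
  have h2 := Q.nonneg _ (B.bl_mem B.h1 k) _ (B.ψ_nonneg R k)
  linarith

/-- `u` is one of the two functions -/
def Is (_ : BU Q 𝒢 u1 u2 O) (u : C(Z, ℝ)) : Prop := u = u1 ∨ u = u2

theorem Is.mem {B : BU Q 𝒢 u1 u2 O} {u : C(Z, ℝ)} (h : B.Is u) : u ∈ Q.Dom := by
  rcases h with rfl | rfl
  · exact B.h1
  · exact B.h2

theorem Is.energy {B : BU Q 𝒢 u1 u2 O} {u : C(Z, ℝ)} (h : B.Is u) (R k : ℕ) (hR : R ≤ k) :
    Q.Γ (B.bl u k) (B.bl u k) (B.ψ R k) ≤ B.K R := by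
  rcases h with rfl | rfl
  · exact B.energy_ψ1 R k hR
  · exact B.energy_ψ2 R k hR

theorem Is.mono {B : BU Q 𝒢 u1 u2 O} {u : C(Z, ℝ)} (h : B.Is u) : MonoOn u O := by
  rcases h with rfl | rfl
  · simpa using B.mono 1 0
  · simpa using B.mono 0 1

theorem ev_ge (R : ℕ) : ∀ᶠ k in (om : Filter ℕ), R ≤ k := om_le (eventually_ge_atTop R)

/-- eventually a compact set missing the pole is zoomed into `O` -/
theorem ev_sub (R : ℕ) : ∀ᶠ k in (om : Filter ℕ), 𝒢.Sh R (B.g k) ⊆ O := by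
  filter_upwards [ev_ge R] with k hk
  exact (sh_mono hk (B.g k)).trans (B.typ k).sub

theorem equi {u : C(Z, ℝ)} (hu : B.Is u) {x : Z} (hx : x ≠ B.a) {ε : ℝ} (hε : 0 < ε) :
    ∃ N ∈ 𝓝 x, ∀ᶠ k in (om : Filter ℕ), ∀ y ∈ N, ∀ z ∈ N, |B.bl u k y - B.bl u k z| ≤ ε := by
  have hd : 0 < dist x B.a := dist_pos.2 hx
  set W : Set Z := Metric.closedBall x (dist x B.a / 2) with hW
  have haW : B.a ∉ W := by
    rw [hW, Metric.mem_closedBall, dist_comm, not_le]; linarith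
  obtain ⟨R, hR⟩ := B.pole1 W Metric.isClosed_closedBall.isCompact haW
  set ε' := ε ^ 2 / (|B.K R| + 1) with hε'
  have hε'0 : 0 < ε' := by positivity
  obtain ⟨N, hN, hosc⟩ := B.osc x W (Metric.closedBall_mem_nhds x (by positivity)) ε' hε'0
  refine ⟨N, hN, ?_⟩
  filter_upwards [hR, B.ev_sub R, ev_ge R] with k h1 h2 h3 y hy z hz
  have hm : MonoOn (B.bl u k) W := by
    have e1 := MonoOn_comp S hu.mono (B.g k)
    have e2 := MonoOn_affine e1 (B.s_pos k) (-(B.s k * u (B.g k • B.x0)))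
    have e3 : (fun x => B.s k * u (B.g k • x) + -(B.s k * u (B.g k • B.x0))) = ⇑(B.bl u k) := by
      ext x; simp [bl]
    rw [e3] at e2
    exact MonoOn.mono e2 (fun x hx => h2 (h1 x hx))
  have h4 := hosc (B.bl u k) (B.bl_mem hu.mem k) hm (B.ψ R k) (B.ψ_nonneg R k)
    (fun y hy => B.ψ_one (h1 y hy)) y hy z hz
  have h5 := hu.energy R k h3
  refine abs_le_of_sq_le_sq (h4.trans ?_) hε.le
  calc ε' * Q.Γ (B.bl u k) (B.bl u k) (B.ψ R k) ≤ ε' * |B.K R| :=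
        mul_le_mul_of_nonneg_left (h5.trans (le_abs_self _)) hε'0.le
    _ = ε ^ 2 * (|B.K R| / (|B.K R| + 1)) := by rw [hε']; ring
    _ ≤ ε ^ 2 * 1 := by
        gcongr
        rw [div_le_one (by positivity)]
        linarith
    _ = ε ^ 2 := mul_one _

theorem bdd {u : C(Z, ℝ)} (hu : B.Is u) {x : Z} (hx : x ≠ B.a) :
    ∃ C : ℝ, ∀ᶠ k in (om : Filter ℕ), |B.bl u k x| ≤ C := by
  set A : Set Z := {x | x ≠ B.a ∧ ∃ C : ℝ, ∀ᶠ k in (om : Filter ℕ), |B.bl u k x| ≤ C} with hA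
  set A' : Set Z := {x | x ≠ B.a ∧ ¬ ∃ C : ℝ, ∀ᶠ k in (om : Filter ℕ), |B.bl u k x| ≤ C} with hA'
  have hAo : IsOpen A := by
    rw [isOpen_iff_mem_nhds]
    rintro y ⟨hy, C, hC⟩
    obtain ⟨N, hN, h1⟩ := B.equi hu hy one_pos
    filter_upwards [hN, isOpen_compl_singleton.mem_nhds hy] with z hz hza
    refine ⟨hza, C + 1, ?_⟩
    filter_upwards [hC, h1] with k h2 h3
    have h4 := h3 z hz y (mem_of_mem_nhds hN)
    have := abs_sub_abs_le_abs_sub (B.bl u k z) (B.bl u k y)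
    linarith
  have hAo' : IsOpen A' := by
    rw [isOpen_iff_mem_nhds]
    rintro y ⟨hy, hC⟩
    obtain ⟨N, hN, h1⟩ := B.equi hu hy one_pos
    filter_upwards [hN, isOpen_compl_singleton.mem_nhds hy] with z hz hza
    refine ⟨hza, ?_⟩
    rintro ⟨C, h2⟩
    refine hC ⟨C + 1, ?_⟩
    filter_upwards [h2, h1] with k h2 h3
    have h4 := h3 y (mem_of_mem_nhds hN) z hz
    have := abs_sub_abs_le_abs_sub (B.bl u k y) (B.bl u k z)
    linarith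
  by_contra hcon
  obtain ⟨z, -, h1, h2⟩ := 𝒢.conn B.a A A' hAo hAo' (fun y hy => by
    by_cases h : ∃ C : ℝ, ∀ᶠ k in (om : Filter ℕ), |B.bl u k y| ≤ C
    · exact Or.inl ⟨hy, h⟩
    · exact Or.inr ⟨hy, h⟩) ⟨B.x0, B.hx0, B.hx0, 0, Eventually.of_forall (fun k => by
      rw [B.bl_apply]; simp)⟩ ⟨x, hx, hx, hcon⟩
  exact h2.2 h1.2

theorem exists_lim {u : C(Z, ℝ)} (hu : B.Is u) (x : Z) :
    ∃ y : ℝ, x ≠ B.a → Tendsto (fun k => B.bl u k x) (om : Filter ℕ) (𝓝 y) := by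
  by_cases hx : x = B.a
  · exact ⟨0, fun h => absurd hx h⟩
  · obtain ⟨C, hC⟩ := B.bdd hu hx
    have h1 : Icc (-C) C ∈ (om.map (fun k => B.bl u k x)) := by
      rw [Ultrafilter.mem_map]
      filter_upwards [hC] with k hk
      exact abs_le.1 hk
    obtain ⟨y, -, hy⟩ := isCompact_Icc.ultrafilter_le_nhds _ (le_principal_iff.2 h1)
    exact ⟨y, fun _ => hy⟩

/-- the limit function -/
def lim {u : C(Z, ℝ)} (hu : B.Is u) (x : Z) : ℝ := Classical.choose (B.exists_lim hu x)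

theorem tendsto_lim {u : C(Z, ℝ)} (hu : B.Is u) {x : Z} (hx : x ≠ B.a) :
    Tendsto (fun k => B.bl u k x) (om : Filter ℕ) (𝓝 (B.lim hu x)) :=
  Classical.choose_spec (B.exists_lim hu x) hx

theorem equi_lim {u : C(Z, ℝ)} (hu : B.Is u) {x : Z} (hx : x ≠ B.a) {ε : ℝ} (hε : 0 < ε) :
    ∃ N ∈ 𝓝 x, (∀ y ∈ N, |B.lim hu y - B.lim hu x| ≤ ε) ∧
      ∀ᶠ k in (om : Filter ℕ), ∀ y ∈ N, |B.bl u k y - B.bl u k x| ≤ ε := by
  obtain ⟨N, hN, h1⟩ := B.equi hu hx hε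
  refine ⟨N ∩ {B.a}ᶜ, inter_mem hN (isOpen_compl_singleton.mem_nhds hx), ?_, ?_⟩
  · rintro y ⟨hy, hya⟩
    have h2 := (B.tendsto_lim hu hya).sub (B.tendsto_lim hu hx)
    refine le_of_tendsto h2.abs ?_
    filter_upwards [h1] with k hk
    exact hk y hy x (mem_of_mem_nhds hN)
  · filter_upwards [h1] with k hk y hy
    exact hk y hy.1 x (mem_of_mem_nhds hN)

theorem continuousAt_lim {u : C(Z, ℝ)} (hu : B.Is u) {x : Z} (hx : x ≠ B.a) :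
    ContinuousAt (B.lim hu) x := by
  rw [Metric.continuousAt_iff']
  intro ε hε
  obtain ⟨N, hN, h1, -⟩ := B.equi_lim hu hx (half_pos hε)
  filter_upwards [hN] with y hy
  rw [Real.dist_eq]
  have := h1 y hy
  linarith

theorem unif {u : C(Z, ℝ)} (hu : B.Is u) {K : Set Z} (hK : IsCompact K) (ha : B.a ∉ K) {ε : ℝ}
    (hε : 0 < ε) : ∀ᶠ k in (om : Filter ℕ), ∀ x ∈ K, |B.bl u k x - B.lim hu x| ≤ ε := by
  have hmain : ∃ t : Set Z, K ⊆ t ∧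
      ∀ᶠ k in (om : Filter ℕ), ∀ x ∈ t, |B.bl u k x - B.lim hu x| ≤ ε := by
    refine ⟨K, Subset.rfl, ?_⟩
    refine hK.induction_on (p := fun t => ∀ᶠ k in (om : Filter ℕ), ∀ x ∈ t,
      |B.bl u k x - B.lim hu x| ≤ ε) ?_ ?_ ?_ ?_
    · exact Eventually.of_forall (fun k x hx => absurd hx (Set.notMem_empty x))
    · intro s t hst h
      filter_upwards [h] with k hk x hx
      exact hk x (hst hx)
    · intro s t h h'
      filter_upwards [h, h'] with k hk hk' x hx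
      rcases hx with hx | hx
      · exact hk x hx
      · exact hk' x hx
    · intro x hx
      have hxa : x ≠ B.a := fun h => ha (h ▸ hx)
      obtain ⟨N, hN, h1, h2⟩ := B.equi_lim hu hxa (show 0 < ε / 3 by positivity)
      refine ⟨N, mem_nhdsWithin_of_mem_nhds hN, ?_⟩
      have h3 := (B.tendsto_lim hu hxa).eventually (Metric.ball_mem_nhds _ (show 0 < ε / 3 by positivity))
      filter_upwards [h2, h3] with k h2 h3 y hy
      have e1 := h1 y hy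
      have e2 := h2 y hy
      rw [Real.dist_eq] at h3
      have : B.bl u k y - B.lim hu y = (B.bl u k y - B.bl u k x) + (B.bl u k x - B.lim hu x) +
        -(B.lim hu y - B.lim hu x) := by ring
      rw [this]
      refine (abs_add_three _ _ _).trans ?_
      rw [abs_neg]
      linarith
  obtain ⟨t, ht, h⟩ := hmain
  filter_upwards [h] with k hk x hx
  exact hk x (ht hx)

/-- the cut-off limit function -/
def cl {u : C(Z, ℝ)} (hu : B.Is u) (χ : C(Z, ℝ)) (hχ : B.a ∉ tsupport χ) : C(Z, ℝ) where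
  toFun := fun x => χ x * B.lim hu x
  continuous_toFun := by
    rw [continuous_iff_continuousAt]
    intro x
    by_cases hx : x = B.a
    · have h1 : (fun x => χ x * B.lim hu x) =ᶠ[𝓝 x] fun _ => 0 := by
        have : (tsupport ⇑χ)ᶜ ∈ 𝓝 x := by
          rw [hx]; exact (isClosed_tsupport _).isOpen_compl.mem_nhds hχ
        filter_upwards [this] with y hy
        have : χ y = 0 := by
          by_contra hne
          exact hy (subset_tsupport _ hne)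
        rw [this, zero_mul]
      exact (continuousAt_const (y := (0 : ℝ))).congr h1.symm
    · exact χ.continuous.continuousAt.mul (B.continuousAt_lim hu hx)

theorem cl_apply {u : C(Z, ℝ)} (hu : B.Is u) (χ : C(Z, ℝ)) (hχ : B.a ∉ tsupport χ) (x : Z) :
    B.cl hu χ hχ x = χ x * B.lim hu x := rfl

theorem cl_unif {u : C(Z, ℝ)} (hu : B.Is u) {χ : C(Z, ℝ)} (hχ : B.a ∉ tsupport χ)
    (h01 : ∀ y, 0 ≤ χ y ∧ χ y ≤ 1) {ε : ℝ} (hε : 0 < ε) :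
    ∀ᶠ k in (om : Filter ℕ), ∀ x, |(χ * B.bl u k - B.cl hu χ hχ) x| ≤ ε := by
  filter_upwards [B.unif hu (isClosed_tsupport ⇑χ).isCompact hχ hε] with k hk x
  rw [ContinuousMap.sub_apply, ContinuousMap.mul_apply, cl_apply, ← mul_sub, abs_mul,
    abs_of_nonneg (h01 x).1]
  by_cases hx : χ x = 0
  · rw [hx, zero_mul]; exact hε.le
  · have h1 := hk x (subset_tsupport _ hx)
    have h2 := h01 x
    nlinarith [abs_nonneg (B.bl u k x - B.lim hu x)]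

/-- locally bounded energy of the cut-off blow-ups -/
theorem cut_energy {u : C(Z, ℝ)} (hu : B.Is u) {χ : C(Z, ℝ)} (hχD : χ ∈ Q.Dom)
    (hχ : B.a ∉ tsupport χ) (h01 : ∀ y, 0 ≤ χ y ∧ χ y ≤ 1) :
    ∃ C : ℝ, ∀ᶠ k in (om : Filter ℕ), Q.Γ (χ * B.bl u k) (χ * B.bl u k) 1 ≤ C := by
  obtain ⟨W, hW, hKW, hWa⟩ := normal_exists_closure_subset (isClosed_tsupport ⇑χ)
    (isOpen_compl_singleton (x := B.a)) (fun x hx h => hχ (by
      rw [mem_singleton_iff] at h; exact h ▸ hx))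
  have haW : B.a ∉ closure W := fun h => hWa h rfl
  obtain ⟨R, hR⟩ := B.pole1 (closure W) isClosed_closure.isCompact haW
  -- bound for the limit on the compact closure of W
  obtain ⟨M, hM⟩ : ∃ M : ℝ, ∀ x ∈ closure W, |B.lim hu x| ≤ M := by
    have hc : ContinuousOn (B.lim hu) (closure W) := fun x hx =>
      (B.continuousAt_lim hu (fun h => haW (h ▸ hx))).continuousWithinAt
    obtain ⟨M, hM⟩ := isClosed_closure.isCompact.exists_bound_of_continuousOn hc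
    exact ⟨M, fun x hx => by simpa using hM x hx⟩
  set o := max M 0 + 1 with ho
  have ho0 : 0 ≤ o := by positivity
  refine ⟨(o ^ 2 + o) * Q.Γ χ χ 1 + (1 + o) * |B.K R|, ?_⟩
  filter_upwards [hR, B.unif hu isClosed_closure.isCompact haW one_pos, ev_ge R] with k h1 h2 h3
  have h4 : ∀ x ∈ W, |B.bl u k x| ≤ o := fun x hx => by
    have e1 := h2 x (subset_closure hx)
    have e2 := hM x (subset_closure hx)
    have e3 := abs_sub_abs_le_abs_sub (B.bl u k x) (B.lim hu x)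
    have e4 := le_max_left M 0
    linarith
  have h5 : ∀ y, χ y ≤ B.ψ R k y := fun y => by
    by_cases hy : χ y = 0
    · rw [hy]; exact B.ψ_nonneg R k y
    · rw [B.ψ_one (h1 y (subset_closure (hKW (subset_tsupport _ hy))))]
      exact (h01 y).2
  refine (energy_cut hχD (B.bl_mem hu.mem k) h01 hW hKW ho0 h4 (B.ψ R k) h5).trans ?_
  have h6 := hu.energy R k h3
  have h7 := le_abs_self (B.K R)
  have h8 : (1 + o) * Q.Γ (B.bl u k) (B.bl u k) (B.ψ R k) ≤ (1 + o) * |B.K R| :=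
    mul_le_mul_of_nonneg_left (h6.trans h7) (by positivity)
  linarith

theorem cl_mem {u : C(Z, ℝ)} (hu : B.Is u) {χ : C(Z, ℝ)} (hχD : χ ∈ Q.Dom)
    (hχ : B.a ∉ tsupport χ) (h01 : ∀ y, 0 ≤ χ y ∧ χ y ≤ 1) : B.cl hu χ hχ ∈ Q.Dom := by
  obtain ⟨C, hC⟩ := B.cut_energy hu hχD hχ h01
  refine closed_mem (Q := Q) (C := C) (fun ε hε => ?_)
  obtain ⟨k, h1, h2⟩ := (hC.and (B.cl_unif hu hχ h01 hε)).exists
  exact ⟨_, Q.mul_mem _ hχD _ (B.bl_mem hu.mem k), fun x => by simpa using h2 x, h1⟩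

/-- almost harmonicity of the blow-ups -/
theorem harm_ev {u : C(Z, ℝ)} (hu : B.Is u) {K : Set Z} (hK : IsCompact K) (ha : B.a ∉ K) (C : ℝ) :
    ∀ᶠ k in (om : Filter ℕ), ∀ w ∈ Q.Dom, (∀ x, x ∉ K → w x = 0) → (∀ x, |w x| ≤ C) →
      Q.Γ w w 1 ≤ C → |Q.Γ w (B.bl u k) 1| ≤ 1 / (k + 1) := by
  obtain ⟨R, hR⟩ := B.pole1 K hK ha
  obtain ⟨N, hN⟩ := exists_nat_ge (max C (C ^ 2))
  filter_upwards [hR, ev_ge R, ev_ge N] with k h1 h2 h3 w hw hw0 hwC hwE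
  have hm := (B.typ k).pos
  have hNk : (N : ℝ) ≤ k := by exact_mod_cast h3
  have hCk : C ≤ k := (le_max_left _ _).trans (hN.trans hNk)
  have hC2k : C ^ 2 ≤ k := (le_max_right _ _).trans (hN.trans hNk)
  set w' : C(Z, ℝ) := Real.sqrt (B.m k) • tr S (B.g k)⁻¹ w with hw'
  have hD : tr S (B.g k)⁻¹ w ∈ Q.Dom := tr_mem _ hw
  have hD' : w' ∈ Q.Dom := Q.smul_mem _ _ hD
  have e1 : ∀ y, y ∉ 𝒢.Sh k (B.g k) → w' y = 0 := by
    intro y hy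
    have : (B.g k)⁻¹ • y ∉ K := by
      intro hc
      have := h1 _ hc
      rw [smul_inv_smul] at this
      exact hy (sh_mono h2 _ this)
    simp [hw', hw0 _ this]
  have e2 : ∀ y, (w' y) ^ 2 ≤ k * B.m k := by
    intro y
    have h4 := hwC ((B.g k)⁻¹ • y)
    have h5 : (w ((B.g k)⁻¹ • y)) ^ 2 ≤ C ^ 2 := by
      rw [← sq_abs (w _)]
      exact pow_le_pow_left₀ (abs_nonneg _) h4 2
    simp only [hw', ContinuousMap.smul_apply, tr_apply, smul_eq_mul, mul_pow,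
      Real.sq_sqrt hm.le]
    nlinarith
  have e3 : Q.Γ w' w' 1 = B.m k * Q.Γ w w 1 := by
    rw [hw', Q.smul_left _ _ hD _ hD', smul_right hD hD, ← mul_assoc,
      Real.mul_self_sqrt hm.le, tr_Γ' _ hw hw, tr_one]
  have e4 : Q.Γ w' w' 1 ≤ k * B.m k := by
    rw [e3]; nlinarith
  have e5 : Q.Γ w (B.bl u k) 1 = (B.m k)⁻¹ * Q.Γ w' u 1 := by
    rw [B.bl_Γ_w hu.mem hw, hw', Q.smul_left _ _ hD _ hu.mem, ← mul_assoc]
    congr 1
    unfold s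
    have h6 : Real.sqrt (B.m k) ≠ 0 := (Real.sqrt_pos.2 hm).ne'
    have h7 : (B.m k)⁻¹ = (Real.sqrt (B.m k))⁻¹ * (Real.sqrt (B.m k))⁻¹ := by
      rw [← mul_inv, Real.mul_self_sqrt hm.le]
    rw [h7]
    field_simp
  have e6 : |Q.Γ w' u 1| ≤ B.m k / (k + 1) := by
    obtain ⟨h8, h9⟩ := (B.typ k).harm w' hD' e1 e2 e4
    rcases hu with rfl | rfl
    · exact h8
    · exact h9
  rw [e5, abs_mul, abs_of_pos (inv_pos.2 hm), inv_mul_le_iff₀ hm]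
  calc |Q.Γ w' u 1| ≤ B.m k / (k + 1) := e6
    _ = B.m k * (1 / (k + 1)) := by ring

end BU

end Crest.Agent.R193.D56_Blow
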