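import Mathlib

/-!
# R193, block D5: approximation of a dominated functional by a continuous density
(an elementary pre-Hilbert space argument, no measures)
-/

set_option autoImplicit false

noncomputable section

open Set Filter Topology

namespace Crest.Agent.R193.D56_Dens

variable {Z : Type*} [TopologicalSpace Z] [CompactSpace Z]

theorem discr {X Y η : ℝ} (hη : 0 < η) (hY : 0 ≤ Y) (h : ∀ s : ℝ, 2 * s * X ≤ η + s ^ 2 * Y) :
    X ^ 2 ≤ η * Y := by
  rcases hY.eq_or_lt with h0 | h0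
  · rcases eq_or_ne X 0 with hX | hX
    · rw [hX, ← h0]; simp
    · exfalso
      have := h (η / X)
      rw [← h0] at this
      have e : 2 * (η / X) * X = 2 * η := by field_simp
      rw [e] at this
      linarith
  · have := h (X / Y)
    have e1 : 2 * (X / Y) * X = 2 * (X ^ 2 / Y) := by ring
    have e2 : (X / Y) ^ 2 * Y = X ^ 2 / Y := by field_simp
    rw [e1, e2] at this
    have h3 : X ^ 2 / Y ≤ η := by linarith
    rwa [div_le_iff₀ h0] at h3

theorem dens (ν ℓ : C(Z, ℝ) →ₗ[ℝ] ℝ) (hν : ∀ φ : C(Z, ℝ), 0 ≤ ν (φ * φ)) {L : ℝ}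
    (h : ∀ φ : C(Z, ℝ), (ℓ φ) ^ 2 ≤ L * ν (φ * φ)) {ε : ℝ} (hε : 0 < ε) :
    ∃ b : C(Z, ℝ), ∀ φ : C(Z, ℝ), (ℓ φ - ν (b * φ)) ^ 2 ≤ ε * ν (φ * φ) := by
  set A : Set ℝ := {t | ∃ φ : C(Z, ℝ), ν (φ * φ) ≤ 1 ∧ t = (ℓ φ) ^ 2} with hA
  have hbdd : BddAbove A := by
    refine ⟨|L|, ?_⟩
    rintro t ⟨φ, h1, rfl⟩
    calc (ℓ φ) ^ 2 ≤ L * ν (φ * φ) := h φ
      _ ≤ |L| * ν (φ * φ) := mul_le_mul_of_nonneg_right (le_abs_self L) (hν φ)
      _ ≤ |L| * 1 := mul_le_mul_of_nonneg_left h1 (abs_nonneg L)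
      _ = |L| := mul_one _
  have hne : A.Nonempty := ⟨0, 0, by simp, by simp⟩
  set s := sSup A with hs
  have hs0 : 0 ≤ s := le_csSup hbdd ⟨0, by simp, by simp⟩
  have hom : ∀ φ : C(Z, ℝ), (ℓ φ) ^ 2 ≤ s * ν (φ * φ) := by
    intro φ
    rcases (hν φ).eq_or_lt with h0 | h0
    · have := h φ
      rw [← h0] at this ⊢
      simpa using this
    · set c := 1 / Real.sqrt (ν (φ * φ)) with hc
      have hsq : 0 < Real.sqrt (ν (φ * φ)) := Real.sqrt_pos.2 h0
      have hc2 : c ^ 2 * ν (φ * φ) = 1 := by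
        rw [hc, div_pow, one_pow, Real.sq_sqrt h0.le]
        field_simp
      have e1 : ν ((c • φ) * (c • φ)) = 1 := by
        have : (c • φ) * (c • φ) = (c ^ 2) • (φ * φ) := by
          ext x; simp; ring
        rw [this, map_smul, smul_eq_mul, hc2]
      have e2 : (ℓ (c • φ)) ^ 2 ≤ s := le_csSup hbdd ⟨c • φ, e1.le, rfl⟩
      rw [map_smul, smul_eq_mul, mul_pow] at e2
      have hcpos : 0 < c ^ 2 := by positivity
      have : c ^ 2 * (ℓ φ) ^ 2 ≤ c ^ 2 * (s * ν (φ * φ)) := by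
        calc c ^ 2 * (ℓ φ) ^ 2 ≤ s := e2
          _ = c ^ 2 * (s * ν (φ * φ)) := by rw [mul_left_comm, hc2, mul_one]
      exact le_of_mul_le_mul_left this hcpos
  rcases hs0.eq_or_lt with h0 | h0
  · refine ⟨0, fun φ => ?_⟩
    have h1 := hom φ
    rw [← h0, zero_mul] at h1
    have h2 : ℓ φ = 0 := by
      have := sq_nonneg (ℓ φ)
      exact pow_eq_zero_iff (two_ne_zero) |>.1 (le_antisymm h1 this)
    rw [h2, zero_mul, map_zero, sub_zero]
    have := mul_nonneg hε.le (hν φ)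
    simpa using this
  · set η := min (s / 2) (ε / 2) with hη
    have hη0 : 0 < η := lt_min (by positivity) (by positivity)
    obtain ⟨t, ⟨φ0, h1, rfl⟩, h2⟩ := exists_lt_of_lt_csSup hne (show s - η < s by linarith)
    have hη1 : η ≤ s / 2 := min_le_left _ _
    have hη2 : η ≤ ε / 2 := min_le_right _ _
    have hl0 : 0 < (ℓ φ0) ^ 2 := by linarith
    have hl : ℓ φ0 ≠ 0 := by
      intro h; rw [h] at hl0; simp at hl0
    refine ⟨(s / ℓ φ0) • φ0, fun φ => ?_⟩
    set X := ℓ φ0 * ℓ φ - s * ν (φ0 * φ) with hX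
    set Y := s * ν (φ * φ) - (ℓ φ) ^ 2 with hY
    have hY0 : 0 ≤ Y := by have := hom φ; simp only [hY]; linarith
    have hXY : X ^ 2 ≤ η * Y := by
      refine discr hη0 hY0 (fun t => ?_)
      have h3 := hom (φ0 + t • φ)
      have e1 : ℓ (φ0 + t • φ) = ℓ φ0 + t * ℓ φ := by simp
      have e2 : ν ((φ0 + t • φ) * (φ0 + t • φ)) =
          ν (φ0 * φ0) + 2 * t * ν (φ0 * φ) + t ^ 2 * ν (φ * φ) := by
        have : (φ0 + t • φ) * (φ0 + t • φ) = φ0 * φ0 + (2 * t) • (φ0 * φ) + (t ^ 2) • (φ * φ) := by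
          ext x; simp; ring
        rw [this, map_add, map_add, map_smul, map_smul, smul_eq_mul, smul_eq_mul]
      rw [e1, e2] at h3
      have h4 : s * ν (φ0 * φ0) ≤ s := by
        have := mul_le_mul_of_nonneg_left h1 h0.le
        simpa using this
      simp only [hX, hY]
      nlinarith
    have e3 : ℓ φ - ν ((s / ℓ φ0) • φ0 * φ) = X / ℓ φ0 := by
      rw [smul_mul_assoc, map_smul, smul_eq_mul, hX]
      field_simp
    rw [e3, div_pow, div_le_iff₀ hl0]
    have hνφ := hν φ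
    have h5 : Y ≤ s * ν (φ * φ) := by
      have := sq_nonneg (ℓ φ)
      simp only [hY]; linarith
    calc X ^ 2 ≤ η * Y := hXY
      _ ≤ η * (s * ν (φ * φ)) := mul_le_mul_of_nonneg_left h5 hη0.le
      _ ≤ ε * ν (φ * φ) * (ℓ φ0) ^ 2 := by
        have h6 : s / 2 ≤ (ℓ φ0) ^ 2 := by linarith
        have h7 : η * s ≤ ε * (ℓ φ0) ^ 2 := by
          calc η * s ≤ (ε / 2) * s := mul_le_mul_of_nonneg_right hη2 h0.le
            _ = ε * (s / 2) := by ring
            _ ≤ ε * (ℓ φ0) ^ 2 := mul_le_mul_of_nonneg_left h6 hε.le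
        nlinarith [mul_le_mul_of_nonneg_right h7 hνφ]

/-- Cauchy-Schwarz for a positive functional -/
theorem cs_pos (ν : C(Z, ℝ) →ₗ[ℝ] ℝ) (hν : ∀ φ : C(Z, ℝ), 0 ≤ ν (φ * φ)) (f g : C(Z, ℝ)) :
    (ν (f * g)) ^ 2 ≤ ν (f * f) * ν (g * g) := by
  by_contra hcon
  push Not at hcon
  -- quadratic form in two variables
  have key : ∀ s t : ℝ, 0 ≤ s ^ 2 * ν (f * f) + 2 * s * t * ν (f * g) + t ^ 2 * ν (g * g) := by
    intro s t
    have := hν (s • f + t • g)
    have e : (s • f + t • g) * (s • f + t • g) =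
        (s ^ 2) • (f * f) + (2 * s * t) • (f * g) + (t ^ 2) • (g * g) := by
      ext x; simp; ring
    rwa [e, map_add, map_add, map_smul, map_smul, map_smul, smul_eq_mul, smul_eq_mul,
      smul_eq_mul] at this
  have hf := hν f
  have hg := hν g
  rcases hg.eq_or_lt with h0 | h0
  · -- ν(gg)=0
    rw [← h0] at key hcon
    rw [mul_zero] at hcon
    have hne : ν (f * g) ≠ 0 := by
      intro h; rw [h] at hcon; simp at hcon
    have := key 1 (-(ν (f * f) + 1) / (2 * ν (f * g)))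
    have e : 2 * 1 * (-(ν (f * f) + 1) / (2 * ν (f * g))) * ν (f * g) = -(ν (f * f) + 1) := by
      field_simp
    rw [e] at this
    linarith
  · have := key (ν (g * g)) (-(ν (f * g)))
    nlinarith

end Crest.Agent.R193.D56_Dens
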