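import Crest.Agent.R193.D56_Atom
import Crest.Agent.R193.D56_Dens

/-!
# R193, block D5: abstract geometry, overlap, and the two Chebyshev lemmas
-/

set_option autoImplicit false

noncomputable section

open Set Filter Topology

namespace Crest.Agent.R193.D56_Geo

open Crest.Agent.R193 Crest.Agent.R193.D56_Basic Crest.Agent.R193.D56_Atom
  Crest.Agent.R193.D56_Dens

open scoped Classical in
/-- the geometric input of the blow-up argument -/
structure Geo (G Z : Type) [Group G] [MetricSpace Z] [MulAction G Z] where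
  lev : ℕ → Finset G
  Sh : ℕ → G → Set Z
  isClosed : ∀ R g, IsClosed (Sh R g)
  sub : ∀ R g, Sh R g ⊆ interior (Sh (R + 1) g)
  cover : ∀ n x, ∃ g ∈ lev n, x ∈ Sh 0 g
  val : ℕ → ℕ
  card_le : ∀ R n, ∀ g ∈ lev n, ((lev n).filter (fun h => (Sh R h ∩ Sh R g).Nonempty)).card ≤ val R
  small : ∀ R, ∀ ε > (0 : ℝ), ∃ n0, ∀ n ≥ n0, ∀ g ∈ lev n, ∀ x ∈ Sh R g, ∀ y ∈ Sh R g,
    dist x y ≤ ε
  pole : ∀ (ω : Ultrafilter ℕ) (g : ℕ → G) (n : ℕ → ℕ), Tendsto n ω atTop →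
    (∀ k, g k ∈ lev (n k)) → ∃ a : Z,
      (∀ K : Set Z, IsCompact K → a ∉ K → ∃ R, ∀ᶠ k in (ω : Filter ℕ), ∀ x ∈ K, g k • x ∈ Sh R (g k)) ∧
      (∀ R, ∃ N ∈ 𝓝 a, ∀ᶠ k in (ω : Filter ℕ), ∀ x ∈ N, g k • x ∉ Sh R (g k))
  conn : ∀ a : Z, IsPreconnected ({a}ᶜ : Set Z)

variable {G Z : Type} [Group G] [MetricSpace Z] [MulAction G Z] {S : Setup G Z} {Q : DForm S}
variable (𝒢 : Geo G Z)

/-- pointwise overlap bound -/
theorem overlap {R n : ℕ} {A : Finset G} (hA : A ⊆ 𝒢.lev n) (f : G → Z → ℝ) {M : ℝ} (hM : 0 ≤ M)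
    (hf : ∀ g ∈ A, ∀ x, |f g x| ≤ M) (hf0 : ∀ g ∈ A, ∀ x, x ∉ 𝒢.Sh R g → f g x = 0) (x : Z) :
    |∑ g ∈ A, f g x| ≤ 𝒢.val R * M := by
  classical
  by_cases hne : ∃ g ∈ A, x ∈ 𝒢.Sh R g
  · obtain ⟨g0, hg0, hx0⟩ := hne
    have h1 : ∑ g ∈ A, f g x = ∑ g ∈ A.filter (fun g => x ∈ 𝒢.Sh R g), f g x := by
      rw [Finset.sum_filter]
      refine Finset.sum_congr rfl (fun g hg => ?_)
      split_ifs with h
      · rfl
      · exact hf0 g hg x h
    rw [h1]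
    calc |∑ g ∈ A.filter (fun g => x ∈ 𝒢.Sh R g), f g x|
        ≤ ∑ g ∈ A.filter (fun g => x ∈ 𝒢.Sh R g), |f g x| := Finset.abs_sum_le_sum_abs _ _
      _ ≤ ∑ g ∈ A.filter (fun g => x ∈ 𝒢.Sh R g), M :=
          Finset.sum_le_sum (fun g hg => hf g (Finset.mem_filter.1 hg).1 x)
      _ = (A.filter (fun g => x ∈ 𝒢.Sh R g)).card * M := by rw [Finset.sum_const, nsmul_eq_mul]
      _ ≤ 𝒢.val R * M := by
          refine mul_le_mul_of_nonneg_right ?_ hM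
          have : (A.filter (fun g => x ∈ 𝒢.Sh R g)).card ≤ 𝒢.val R := by
            refine le_trans (Finset.card_le_card ?_) (𝒢.card_le R n g0 (hA hg0))
            intro g hg
            rw [Finset.mem_filter] at hg ⊢
            exact ⟨hA hg.1, ⟨x, hg.2, hx0⟩⟩
          exact_mod_cast this
  · push Not at hne
    rw [Finset.sum_eq_zero (fun g hg => hf0 g hg x (hne g hg)), abs_zero]
    positivity

section bump
variable [CompactSpace Z]

/-- a bump function: one on `Sh R g`, zero off `Sh (R+1) g` -/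
def bump (R : ℕ) (g : G) : C(Z, ℝ) :=
  Classical.choose (exists_continuous_zero_one_of_isClosed
    (s := (interior (𝒢.Sh (R + 1) g))ᶜ) (t := 𝒢.Sh R g) isOpen_interior.isClosed_compl
    (𝒢.isClosed R g) (disjoint_left.2 fun _ hx hx' => hx (𝒢.sub R g hx')))

theorem bump_spec (R : ℕ) (g : G) :
    EqOn (bump 𝒢 R g) 0 (interior (𝒢.Sh (R + 1) g))ᶜ ∧ EqOn (bump 𝒢 R g) 1 (𝒢.Sh R g) ∧
      ∀ x, bump 𝒢 R g x ∈ Icc (0 : ℝ) 1 :=
  Classical.choose_spec (exists_continuous_zero_one_of_isClosed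
    (s := (interior (𝒢.Sh (R + 1) g))ᶜ) (t := 𝒢.Sh R g) isOpen_interior.isClosed_compl
    (𝒢.isClosed R g) (disjoint_left.2 fun _ hx hx' => hx (𝒢.sub R g hx')))

theorem bump_nonneg (R : ℕ) (g : G) (x : Z) : 0 ≤ bump 𝒢 R g x := ((bump_spec 𝒢 R g).2.2 x).1
theorem bump_le_one (R : ℕ) (g : G) (x : Z) : bump 𝒢 R g x ≤ 1 := ((bump_spec 𝒢 R g).2.2 x).2
theorem bump_one {R : ℕ} {g : G} {x : Z} (hx : x ∈ 𝒢.Sh R g) : bump 𝒢 R g x = 1 :=
  (bump_spec 𝒢 R g).2.1 hx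
theorem bump_zero {R : ℕ} {g : G} {x : Z} (hx : x ∉ 𝒢.Sh (R + 1) g) : bump 𝒢 R g x = 0 :=
  (bump_spec 𝒢 R g).1 (fun h => hx (interior_subset h))

end bump

section cheb
variable [CompactSpace Z]

/-- total mass of the bumps at one level -/
theorem sum_mass (ν : C(Z, ℝ) →ₗ[ℝ] ℝ) (hν : ∀ φ : C(Z, ℝ), (∀ x, 0 ≤ φ x) → 0 ≤ ν φ)
    (R n : ℕ) : ∑ g ∈ 𝒢.lev n, ν (bump 𝒢 R g) ≤ 𝒢.val (R + 1) * ν 1 := by
  rw [← map_sum]
  have h := hν ((𝒢.val (R + 1) : ℝ) • (1 : C(Z, ℝ)) - ∑ g ∈ 𝒢.lev n, bump 𝒢 R g) (fun x => by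
    have := overlap 𝒢 (R := R + 1) (Finset.Subset.refl (𝒢.lev n)) (fun g x => bump 𝒢 R g x)
      (M := 1) zero_le_one (fun g _ x => by
        rw [abs_of_nonneg (bump_nonneg 𝒢 R g x)]; exact bump_le_one 𝒢 R g x)
      (fun g _ x hx => bump_zero 𝒢 hx) x
    have h2 := (le_abs_self _).trans this
    simp only [ContinuousMap.sub_apply, ContinuousMap.smul_apply, ContinuousMap.one_apply,
      smul_eq_mul, ContinuousMap.coe_sum, Finset.sum_apply]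
    linarith)
  rw [map_sub, map_smul, smul_eq_mul] at h
  linarith

/-- first Chebyshev lemma: dominated functionals have locally constant density on most tiles -/
theorem badc (ν ℓ : C(Z, ℝ) →ₗ[ℝ] ℝ) (hν : ∀ φ : C(Z, ℝ), (∀ x, 0 ≤ φ x) → 0 ≤ ν φ)
    (hℓ : ∀ φ : C(Z, ℝ), |ℓ φ| ≤ ν |φ|) (m : ℕ → G → ℝ) (R : ℕ) (xx : G → Z)
    (hxx : ∀ g, (𝒢.Sh R g).Nonempty → xx g ∈ 𝒢.Sh R g) {δ η : ℝ} (hδ : 0 < δ) (hη : 0 < η) :
    ∃ (b : C(Z, ℝ)) (n0 : ℕ), ∀ n ≥ n0, ∀ A : Finset G, A ⊆ 𝒢.lev n →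
      (∀ g ∈ A, ∃ φ : C(Z, ℝ), (∀ y, |φ y| ≤ 1) ∧ (∀ y, y ∉ 𝒢.Sh R g → φ y = 0) ∧
        δ * m n g < |ℓ φ - b (xx g) * ν φ|) → ∑ g ∈ A, m n g ≤ η := by
  classical
  have hν2 : ∀ φ : C(Z, ℝ), 0 ≤ ν (φ * φ) := fun φ => hν _ (fun x => by
    simp only [ContinuousMap.mul_apply]; exact mul_self_nonneg _)
  have hν1 : 0 ≤ ν 1 := hν 1 (fun x => zero_le_one)
  have hL : ∀ φ : C(Z, ℝ), (ℓ φ) ^ 2 ≤ ν 1 * ν (φ * φ) := by
    intro φ
    have h1 := hℓ φ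
    have h2 := cs_pos ν hν2 1 |φ|
    have e : |φ| * |φ| = φ * φ := by ext x; simp
    rw [one_mul, one_mul, e] at h2
    have h3 : (ℓ φ) ^ 2 ≤ (ν |φ|) ^ 2 := by
      rw [← sq_abs (ℓ φ)]
      exact pow_le_pow_left₀ (abs_nonneg _) h1 2
    linarith
  set κ : ℝ := δ * η / (2 * (𝒢.val R + 1)) with hκ
  have hvR : (0 : ℝ) ≤ 𝒢.val R := Nat.cast_nonneg _
  have hκ0 : 0 < κ := by positivity
  -- density with small L2 error
  obtain ⟨b, hb⟩ := dens ν ℓ hν2 hL (ε := κ ^ 2 / (ν 1 + 1)) (by positivity)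
  have hb1 : ∀ φ : C(Z, ℝ), ∀ M : ℝ, 0 ≤ M → (∀ x, |φ x| ≤ M) → |ℓ φ - ν (b * φ)| ≤ M * κ := by
    intro φ M hM hφ
    have h1 := hb φ
    have h2 : ν (φ * φ) ≤ M ^ 2 * ν 1 := by
      have := hν (M ^ 2 • (1 : C(Z, ℝ)) - φ * φ) (fun x => by
        have := abs_le.1 (hφ x)
        simp only [ContinuousMap.sub_apply, ContinuousMap.smul_apply, ContinuousMap.one_apply,
          smul_eq_mul, ContinuousMap.mul_apply]
        nlinarith)
      rw [map_sub, map_smul, smul_eq_mul] at this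
      linarith
    have h3 : (ℓ φ - ν (b * φ)) ^ 2 ≤ (M * κ) ^ 2 := by
      calc (ℓ φ - ν (b * φ)) ^ 2 ≤ κ ^ 2 / (ν 1 + 1) * ν (φ * φ) := h1
        _ ≤ κ ^ 2 / (ν 1 + 1) * (M ^ 2 * ν 1) := by gcongr
        _ = (M * κ) ^ 2 * (ν 1 / (ν 1 + 1)) := by ring
        _ ≤ (M * κ) ^ 2 * 1 := by
            gcongr
            rw [div_le_one (by linarith)]
            linarith
        _ = (M * κ) ^ 2 := mul_one _
    exact abs_le_of_sq_le_sq h3 (by positivity)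
  -- uniform continuity of b
  have hbu : UniformContinuous b := CompactSpace.uniformContinuous_of_continuous b.continuous
  obtain ⟨r, hr, hbr⟩ := Metric.uniformContinuous_iff.1 hbu (κ / (ν 1 + 1)) (by positivity)
  obtain ⟨n0, hn0⟩ := 𝒢.small R (r / 2) (by positivity)
  refine ⟨b, n0, fun n hn A hA hbad => ?_⟩
  choose! φ hφ1 hφ0 hφ using hbad
  -- sign-adjusted
  set σ : G → ℝ := fun g => if 0 ≤ ℓ (φ g) - b (xx g) * ν (φ g) then 1 else -1 with hσ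
  set ψ : G → C(Z, ℝ) := fun g => σ g • φ g with hψ
  have hσ1 : ∀ g, |σ g| = 1 := fun g => by simp only [hσ]; split_ifs <;> simp
  have hψ1 : ∀ g ∈ A, ∀ y, |ψ g y| ≤ 1 := fun g hg y => by
    simp only [hψ, ContinuousMap.smul_apply, smul_eq_mul, abs_mul, hσ1, one_mul]
    exact hφ1 g hg y
  have hψ0 : ∀ g ∈ A, ∀ y, y ∉ 𝒢.Sh R g → ψ g y = 0 := fun g hg y hy => by
    simp only [hψ, ContinuousMap.smul_apply, smul_eq_mul, hφ0 g hg y hy, mul_zero]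
  have hψ2 : ∀ g ∈ A, δ * m n g ≤ ℓ (ψ g) - b (xx g) * ν (ψ g) := fun g hg => by
    have h1 := hφ g hg
    simp only [hψ, map_smul, smul_eq_mul]
    have : σ g * ℓ (φ g) - b (xx g) * (σ g * ν (φ g)) = |ℓ (φ g) - b (xx g) * ν (φ g)| := by
      simp only [hσ]
      split_ifs with h
      · rw [abs_of_nonneg h]; ring
      · rw [abs_of_neg (not_le.1 h)]; ring
    rw [this]; exact h1.le
  -- first error
  have h1 : ℓ (∑ g ∈ A, ψ g) - ν (b * ∑ g ∈ A, ψ g) ≤ 𝒢.val R * κ := by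
    refine (le_abs_self _).trans (hb1 _ (𝒢.val R) hvR (fun x => ?_))
    have := overlap 𝒢 (R := R) hA (fun g x => ψ g x) (M := 1) zero_le_one hψ1 hψ0 x
    simpa using this
  -- second error
  have h2 : ∀ g ∈ A, ν (b * ψ g) - b (xx g) * ν (ψ g) ≤ κ / (ν 1 + 1) * ν |ψ g| := by
    intro g hg
    have := hν ((κ / (ν 1 + 1)) • |ψ g| - (b * ψ g - b (xx g) • ψ g)) (fun x => by
      simp only [ContinuousMap.sub_apply, ContinuousMap.smul_apply, smul_eq_mul,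
        ContinuousMap.mul_apply, absC_apply]
      by_cases hx : x ∈ 𝒢.Sh R g
      · have h3 : |b x - b (xx g)| ≤ κ / (ν 1 + 1) := by
          have h4 := hn0 n hn g (hA hg) x hx (xx g) (hxx g ⟨x, hx⟩)
          have := hbr (lt_of_le_of_lt h4 (by linarith))
          rw [Real.dist_eq] at this
          exact this.le
        have h5 : (b x - b (xx g)) * ψ g x ≤ κ / (ν 1 + 1) * |ψ g x| := by
          calc (b x - b (xx g)) * ψ g x ≤ |(b x - b (xx g)) * ψ g x| := le_abs_self _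
            _ = |b x - b (xx g)| * |ψ g x| := abs_mul _ _
            _ ≤ κ / (ν 1 + 1) * |ψ g x| := mul_le_mul_of_nonneg_right h3 (abs_nonneg _)
        linarith
      · rw [hψ0 g hg x hx]; simp)
    rw [map_sub, map_sub, map_smul, map_smul, smul_eq_mul, smul_eq_mul] at this
    linarith
  have h3 : ∑ g ∈ A, ν |ψ g| ≤ 𝒢.val R * ν 1 := by
    rw [← map_sum]
    have h := hν ((𝒢.val R : ℝ) • (1 : C(Z, ℝ)) - ∑ g ∈ A, |ψ g|) (fun x => by
      have := overlap 𝒢 (R := R) hA (fun g x => |ψ g x|) (M := 1) zero_le_one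
        (fun g hg x => by rw [abs_abs]; exact hψ1 g hg x)
        (fun g hg x hx => by rw [hψ0 g hg x hx, abs_zero]) x
      have h2 := (le_abs_self _).trans this
      simp only [ContinuousMap.sub_apply, ContinuousMap.smul_apply, ContinuousMap.one_apply,
        smul_eq_mul, ContinuousMap.coe_sum, Finset.sum_apply, absC_apply]
      linarith)
    rw [map_sub, map_smul, smul_eq_mul] at h
    linarith
  have h4 : δ * ∑ g ∈ A, m n g ≤ δ * η := by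
    calc δ * ∑ g ∈ A, m n g = ∑ g ∈ A, δ * m n g := Finset.mul_sum _ _ _
      _ ≤ ∑ g ∈ A, (ℓ (ψ g) - b (xx g) * ν (ψ g)) := Finset.sum_le_sum hψ2
      _ = (∑ g ∈ A, (ℓ (ψ g) - ν (b * ψ g))) + ∑ g ∈ A, (ν (b * ψ g) - b (xx g) * ν (ψ g)) := by
          rw [← Finset.sum_add_distrib]
          exact Finset.sum_congr rfl (fun g _ => by ring)
      _ = (ℓ (∑ g ∈ A, ψ g) - ν (b * ∑ g ∈ A, ψ g)) +
            ∑ g ∈ A, (ν (b * ψ g) - b (xx g) * ν (ψ g)) := by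
          rw [Finset.sum_sub_distrib, Finset.mul_sum, map_sum, map_sum]
      _ ≤ 𝒢.val R * κ + ∑ g ∈ A, κ / (ν 1 + 1) * ν |ψ g| :=
          add_le_add h1 (Finset.sum_le_sum h2)
      _ = 𝒢.val R * κ + κ / (ν 1 + 1) * ∑ g ∈ A, ν |ψ g| := by rw [Finset.mul_sum]
      _ ≤ 𝒢.val R * κ + κ / (ν 1 + 1) * (𝒢.val R * ν 1) := by gcongr
      _ ≤ 𝒢.val R * κ + 𝒢.val R * κ := by
          have : κ / (ν 1 + 1) * (𝒢.val R * ν 1) = 𝒢.val R * κ * (ν 1 / (ν 1 + 1)) := by ring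
          rw [this]
          have h5 : ν 1 / (ν 1 + 1) ≤ 1 := by
            rw [div_le_one (by linarith)]; linarith
          have h6 : 0 ≤ (𝒢.val R : ℝ) * κ := by positivity
          nlinarith
      _ = δ * η * (𝒢.val R / (𝒢.val R + 1)) := by rw [hκ]; field_simp; ring
      _ ≤ δ * η * 1 := by
          gcongr
          rw [div_le_one (by linarith)]
          linarith
      _ = δ * η := mul_one _
  exact le_of_mul_le_mul_left h4 hδ

/-- second Chebyshev lemma: a function of the domain is almost harmonic on most tiles -/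
theorem badd {u : C(Z, ℝ)} (hu : u ∈ Q.Dom) (m : ℕ → G → ℝ) (hm : ∀ n g, 0 ≤ m n g) {T : ℝ}
    (hT : ∀ n, ∑ g ∈ 𝒢.lev n, m n g ≤ T)
    (hsm : ∀ ε > 0, ∃ n0, ∀ n ≥ n0, ∀ g ∈ 𝒢.lev n, m n g ≤ ε) (R : ℕ) {K δ η : ℝ}
    (hK : 0 ≤ K) (hδ : 0 < δ) (hη : 0 < η) :
    ∃ n0 : ℕ, ∀ n ≥ n0, ∀ A : Finset G, A ⊆ 𝒢.lev n →
      (∀ g ∈ A, ∃ w ∈ Q.Dom, (∀ y, y ∉ 𝒢.Sh R g → w y = 0) ∧ (∀ y, (w y) ^ 2 ≤ K * m n g) ∧
        Q.Γ w w 1 ≤ K * m n g ∧ δ * m n g < |Q.Γ w u 1|) → ∑ g ∈ A, m n g ≤ η := by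
  classical
  have hvR : (0 : ℝ) ≤ 𝒢.val R := Nat.cast_nonneg _
  obtain ⟨τ, hτ, hweak⟩ := weak (Q := Q) hu (𝒢.val R * (K * T)) (mul_pos hδ hη)
  set e : ℝ := (τ / (𝒢.val R + 1)) ^ 2 / (K + 1) with he
  have he0 : 0 < e := by positivity
  obtain ⟨n0, hn0⟩ := hsm e he0
  refine ⟨n0, fun n hn A hA hbad => ?_⟩
  choose! w hwD hw0 hw1 hwE hw using hbad
  set σ : G → ℝ := fun g => if 0 ≤ Q.Γ (w g) u 1 then 1 else -1 with hσ
  have hσ1 : ∀ g, |σ g| = 1 := fun g => by simp only [hσ]; split_ifs <;> simp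
  have hσ2 : ∀ g, σ g * σ g = 1 := fun g => by simp only [hσ]; split_ifs <;> simp
  set ψ : G → C(Z, ℝ) := fun g => σ g • w g with hψ
  have hψD : ∀ g ∈ A, ψ g ∈ Q.Dom := fun g hg => Q.smul_mem _ _ (hwD g hg)
  have hψ0 : ∀ g ∈ A, ∀ y, y ∉ 𝒢.Sh R g → ψ g y = 0 := fun g hg y hy => by
    simp only [hψ, ContinuousMap.smul_apply, smul_eq_mul, hw0 g hg y hy, mul_zero]
  have hψ1 : ∀ g ∈ A, ∀ y, |ψ g y| ≤ τ / (𝒢.val R + 1) := fun g hg y => by
    simp only [hψ, ContinuousMap.smul_apply, smul_eq_mul, abs_mul, hσ1, one_mul]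
    refine abs_le_of_sq_le_sq (?_ : (w g y) ^ 2 ≤ (τ / (𝒢.val R + 1)) ^ 2) (by positivity)
    calc (w g y) ^ 2 ≤ K * m n g := hw1 g hg y
      _ ≤ K * e := mul_le_mul_of_nonneg_left (hn0 n hn g (hA hg)) hK
      _ = (τ / (𝒢.val R + 1)) ^ 2 * (K / (K + 1)) := by rw [he]; ring
      _ ≤ (τ / (𝒢.val R + 1)) ^ 2 * 1 := by
          gcongr
          rw [div_le_one (by linarith)]; linarith
      _ = _ := mul_one _
  have hψE : ∀ g ∈ A, Q.Γ (ψ g) (ψ g) 1 ≤ K * m n g := fun g hg => by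
    simp only [hψ]
    rw [Q.smul_left _ _ (hwD g hg) _ (Q.smul_mem _ _ (hwD g hg)),
      smul_right (hwD g hg) (hwD g hg), ← mul_assoc, hσ2, one_mul]
    exact hwE g hg
  have hψu : ∀ g ∈ A, δ * m n g ≤ Q.Γ (ψ g) u 1 := fun g hg => by
    have h1 := hw g hg
    simp only [hψ]
    rw [Q.smul_left _ _ (hwD g hg) _ hu]
    have : σ g * Q.Γ (w g) u 1 = |Q.Γ (w g) u 1| := by
      simp only [hσ]
      split_ifs with h
      · rw [abs_of_nonneg h]; ring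
      · rw [abs_of_neg (not_le.1 h)]; ring
    rw [this]; exact h1.le
  have hWD := sum_mem A ψ hψD
  have hW1 : ∀ x, |(∑ g ∈ A, ψ g) x| ≤ τ := by
    intro x
    have := overlap 𝒢 (R := R) hA (fun g x => ψ g x) (M := τ / (𝒢.val R + 1)) (by positivity)
      hψ1 hψ0 x
    rw [ContinuousMap.coe_sum, Finset.sum_apply]
    refine this.trans ?_
    rw [← mul_div_assoc, div_le_iff₀ (by linarith)]
    nlinarith
  have hdisj : ∀ g ∈ A, ∀ h ∈ A, ¬ (𝒢.Sh R h ∩ 𝒢.Sh R g).Nonempty → Q.Γ (ψ g) (ψ h) 1 = 0 := by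
    intro g hg h hh hne
    refine disjoint_supp (hψD g hg) (hψD h hh) ?_ 1
    have e1 : tsupport ⇑(ψ g) ⊆ 𝒢.Sh R g := closure_minimal (fun y hy => by
      by_contra hc; exact hy (hψ0 g hg y hc)) (𝒢.isClosed R g)
    have e2 : tsupport ⇑(ψ h) ⊆ 𝒢.Sh R h := closure_minimal (fun y hy => by
      by_contra hc; exact hy (hψ0 h hh y hc)) (𝒢.isClosed R h)
    refine disjoint_left.2 (fun y hy hy' => hne ⟨y, e2 hy', e1 hy⟩)
  have hWE : Q.Γ (∑ g ∈ A, ψ g) (∑ g ∈ A, ψ g) 1 ≤ 𝒢.val R * (K * T) := by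
    rw [sum_left A ψ hψD hWD]
    have h1 : ∀ g ∈ A, Q.Γ (ψ g) (∑ h ∈ A, ψ h) 1 ≤
        ∑ h ∈ A, if (𝒢.Sh R h ∩ 𝒢.Sh R g).Nonempty then (K * m n g + K * m n h) / 2 else 0 := by
      intro g hg
      rw [sum_right A ψ hψD (hψD g hg)]
      refine Finset.sum_le_sum (fun h hh => ?_)
      split_ifs with hne
      · have h2 := cs_nonneg (Q := Q) (hψD g hg) (hψD h hh) (φ := 1) (fun x => zero_le_one)
        have h3 := hψE g hg
        have h4 := hψE h hh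
        have h5 := le_abs_self (Q.Γ (ψ g) (ψ h) 1)
        linarith
      · rw [hdisj g hg h hh hne]
    refine (Finset.sum_le_sum h1).trans ?_
    have h2 : ∑ g ∈ A, ∑ h ∈ A, (if (𝒢.Sh R h ∩ 𝒢.Sh R g).Nonempty then
        (K * m n g + K * m n h) / 2 else 0) =
        ∑ g ∈ A, ∑ h ∈ A, (if (𝒢.Sh R h ∩ 𝒢.Sh R g).Nonempty then K * m n g else 0) := by
      have e1 : ∀ g h : G, (if (𝒢.Sh R h ∩ 𝒢.Sh R g).Nonempty then
          (K * m n g + K * m n h) / 2 else 0) =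
          (if (𝒢.Sh R h ∩ 𝒢.Sh R g).Nonempty then K * m n g else 0) / 2 +
          (if (𝒢.Sh R h ∩ 𝒢.Sh R g).Nonempty then K * m n h else 0) / 2 := fun g h => by
        split_ifs <;> ring
      simp only [e1, Finset.sum_add_distrib]
      have e2 : ∑ g ∈ A, ∑ h ∈ A,
          (if (𝒢.Sh R h ∩ 𝒢.Sh R g).Nonempty then K * m n h else 0) / 2 =
          ∑ g ∈ A, ∑ h ∈ A,
          (if (𝒢.Sh R h ∩ 𝒢.Sh R g).Nonempty then K * m n g else 0) / 2 := by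
        rw [Finset.sum_comm]
        refine Finset.sum_congr rfl (fun g _ => Finset.sum_congr rfl (fun h _ => ?_))
        rw [Set.inter_comm]
      rw [e2, ← Finset.sum_add_distrib]
      refine Finset.sum_congr rfl (fun g _ => ?_)
      rw [← Finset.sum_add_distrib]
      exact Finset.sum_congr rfl (fun h _ => by ring)
    rw [h2]
    have h3 : ∀ g ∈ A, ∑ h ∈ A, (if (𝒢.Sh R h ∩ 𝒢.Sh R g).Nonempty then K * m n g else 0) ≤
        𝒢.val R * (K * m n g) := by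
      intro g hg
      rw [← Finset.sum_filter, Finset.sum_const, nsmul_eq_mul]
      refine mul_le_mul_of_nonneg_right ?_ (mul_nonneg hK (hm n g))
      have : (A.filter (fun h => (𝒢.Sh R h ∩ 𝒢.Sh R g).Nonempty)).card ≤ 𝒢.val R := by
        refine le_trans (Finset.card_le_card ?_) (𝒢.card_le R n g (hA hg))
        intro h hh
        rw [Finset.mem_filter] at hh ⊢
        exact ⟨hA hh.1, hh.2⟩
      exact_mod_cast this
    refine (Finset.sum_le_sum h3).trans ?_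
    rw [← Finset.mul_sum, ← Finset.mul_sum]
    refine mul_le_mul_of_nonneg_left (mul_le_mul_of_nonneg_left ?_ hK) hvR
    exact (Finset.sum_le_sum_of_subset_of_nonneg hA (fun g _ _ => hm n g)).trans (hT n)
  have h1 := hweak _ hWD hW1 hWE
  rw [sum_left A ψ hψD hu] at h1
  have h2 : δ * ∑ g ∈ A, m n g ≤ δ * η := by
    rw [Finset.mul_sum]
    exact (Finset.sum_le_sum hψu).trans ((le_abs_self _).trans h1)
  exact le_of_mul_le_mul_left h2 hδ

end cheb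

end Crest.Agent.R193.D56_Geo
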