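import Crest.Agent.R193.D56_Lim

/-!
# R193, block D6: the Gram matrix of the limit, the conformal pair
-/

set_option autoImplicit false

noncomputable section

open Set Filter Topology MeasureTheory

namespace Crest.Agent.R193.D56_Gram

open Crest.Agent.R193 Crest.Agent.R193.D56_Basic Crest.Agent.R193.D56_Atom
  Crest.Agent.R193.D56_Dens Crest.Agent.R193.D56_Geo Crest.Agent.R193.D56_Sel
  Crest.Agent.R193.D56_Blow Crest.Agent.R193.D56_Lim Crest.Agent.R193.D56_Lim.BU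
  Crest.Agent.R193.D56_Lim.BU.Cuts

variable {G Z : Type} [Group G] [MetricSpace Z] [MulAction G Z] {S : Setup G Z}
variable [CompactSpace Z]
variable {Q : DForm S} {𝒢 : Geo G Z} {u1 u2 : C(Z, ℝ)} {O : Set Z} (B : BU Q 𝒢 u1 u2 O)

/-- normalised Gram matrix on the bump -/
def M (u v : C(Z, ℝ)) (k : ℕ) : ℝ := Q.Γ u v (bump 𝒢 B.R1 (B.g k)) / B.m k

theorem M_sum (k : ℕ) : M B u1 u1 k + M B u2 u2 k = 1 := by
  have h1 := (B.typ k).mass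
  have h2 := (B.typ k).pos
  unfold M
  rw [← add_div, ← h1, div_self h2.ne']

theorem M_nonneg {u : C(Z, ℝ)} (hu : B.Is u) (k : ℕ) : 0 ≤ M B u u k :=
  div_nonneg (Q.nonneg u hu.mem _ (bump_nonneg 𝒢 _ _)) (B.typ k).pos.le

theorem M_det (k : ℕ) : B.θ ^ 2 ≤ M B u1 u1 k * M B u2 u2 k - (M B u1 u2 k) ^ 2 := by
  have h1 := (B.typ k).det
  have h2 := (B.typ k).pos
  unfold M
  rw [div_mul_div_comm, div_pow, ← pow_two, ← sub_div, le_div_iff₀ (by positivity)]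
  rw [mul_pow] at h1
  exact h1

theorem M_near : ∀ᶠ k in (om : Filter ℕ), |M B u1 u1 k - B.b11 k| ≤ 1 / (k + 1) ∧
    |M B u1 u2 k - B.b12 k| ≤ 1 / (k + 1) ∧ |M B u2 u2 k - B.b22 k| ≤ 1 / (k + 1) := by
  filter_upwards [D56_Blow.BU.ev_ge (B.R1 + 1)] with k hk
  have hm := (B.typ k).pos
  obtain ⟨h1, h2, h3⟩ := (B.typ k).dens (bump 𝒢 B.R1 (B.g k)) (fun y => by
    rw [abs_of_nonneg (bump_nonneg 𝒢 _ _ _)]; exact bump_le_one 𝒢 _ _ _) (fun y hy =>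
    bump_zero 𝒢 (fun h => hy (sh_mono hk _ h)))
  rw [← (B.typ k).mass] at h1 h2 h3
  have key : ∀ X b : ℝ, |X - b * B.m k| ≤ B.m k / (k + 1) → |X / B.m k - b| ≤ 1 / (k + 1) := by
    intro X b h
    have e : X / B.m k - b = (X - b * B.m k) / B.m k := by field_simp
    rw [e, abs_div, abs_of_pos hm, div_le_iff₀ hm]
    calc |X - b * B.m k| ≤ B.m k / (k + 1) := h
      _ = 1 / (k + 1) * B.m k := by ring
  exact ⟨key _ _ h1, key _ _ h2, key _ _ h3⟩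

theorem exists_lim_of_bdd {f : ℕ → ℝ} {C : ℝ} (h : ∀ᶠ k in (om : Filter ℕ), |f k| ≤ C) :
    ∃ y : ℝ, Tendsto f (om : Filter ℕ) (𝓝 y) := by
  have h1 : Icc (-C) C ∈ (om.map f) := by
    rw [Ultrafilter.mem_map]
    filter_upwards [h] with k hk
    exact abs_le.1 hk
  obtain ⟨y, -, hy⟩ := isCompact_Icc.ultrafilter_le_nhds _ (le_principal_iff.2 h1)
  exact ⟨y, hy⟩

theorem M_bdd (k : ℕ) : |M B u1 u1 k| ≤ 1 ∧ |M B u1 u2 k| ≤ 1 ∧ |M B u2 u2 k| ≤ 1 := by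
  have h1 := M_sum B k
  have h2 := M_nonneg B (Or.inl rfl : B.Is u1) k
  have h3 := M_nonneg B (Or.inr rfl : B.Is u2) k
  have h4 := M_det B k
  refine ⟨abs_le.2 ⟨by linarith, by linarith⟩, ?_, abs_le.2 ⟨by linarith, by linarith⟩⟩
  refine abs_le_of_sq_le_sq ?_ zero_le_one
  nlinarith [sq_nonneg B.θ]

/-- the limit Gram matrix -/
theorem gram_lim : ∃ β11 β12 β22 : ℝ, Tendsto B.b11 (om : Filter ℕ) (𝓝 β11) ∧
    Tendsto B.b12 (om : Filter ℕ) (𝓝 β12) ∧ Tendsto B.b22 (om : Filter ℕ) (𝓝 β22) ∧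
    β11 + β22 = 1 ∧ 0 ≤ β11 ∧ 0 ≤ β22 ∧ B.θ ^ 2 ≤ β11 * β22 - β12 ^ 2 := by
  obtain ⟨β11, h11⟩ := exists_lim_of_bdd (Eventually.of_forall (fun k => (M_bdd B k).1))
  obtain ⟨β12, h12⟩ := exists_lim_of_bdd (Eventually.of_forall (fun k => (M_bdd B k).2.1))
  obtain ⟨β22, h22⟩ := exists_lim_of_bdd (Eventually.of_forall (fun k => (M_bdd B k).2.2))
  have key : ∀ (f b : ℕ → ℝ) (β : ℝ), Tendsto f (om : Filter ℕ) (𝓝 β) →
      (∀ᶠ k in (om : Filter ℕ), |f k - b k| ≤ 1 / (k + 1)) → Tendsto b (om : Filter ℕ) (𝓝 β) := by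
    intro f b β h1 h2
    have h3 : Tendsto (fun k => f k - b k) (om : Filter ℕ) (𝓝 0) :=
      squeeze_zero_norm' (by simpa only [Real.norm_eq_abs] using h2) tends_one_div
    have h4 := h1.sub h3
    rw [sub_zero] at h4
    refine h4.congr (fun k => by ring)
  refine ⟨β11, β12, β22, key _ _ _ h11 ((M_near B).mono fun k h => h.1),
    key _ _ _ h12 ((M_near B).mono fun k h => h.2.1),
    key _ _ _ h22 ((M_near B).mono fun k h => h.2.2), ?_, ?_, ?_, ?_⟩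
  · have h1 := h11.add h22
    simp_rw [M_sum B] at h1
    exact (tendsto_nhds_unique h1 tendsto_const_nhds)
  · exact ge_of_tendsto h11 (Eventually.of_forall fun k => M_nonneg B (Or.inl rfl) k)
  · exact ge_of_tendsto h22 (Eventually.of_forall fun k => M_nonneg B (Or.inr rfl) k)
  · exact ge_of_tendsto ((h11.mul h22).sub (h12.pow 2)) (Eventually.of_forall fun k => M_det B k)

/-- transport of a test function into the tile -/
theorem tr_zero {φ : C(Z, ℝ)} (hφ : B.a ∉ tsupport φ) :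
    ∀ᶠ k in (om : Filter ℕ), ∀ y, y ∉ 𝒢.Sh k (B.g k) → tr S (B.g k)⁻¹ φ y = 0 := by
  obtain ⟨R, hR⟩ := B.pole1 _ (isClosed_tsupport ⇑φ).isCompact hφ
  filter_upwards [hR, D56_Blow.BU.ev_ge R] with k h1 h2 y hy
  rw [tr_apply]
  by_contra hne
  have := h1 _ (subset_tsupport _ hne)
  rw [smul_inv_smul] at this
  exact hy (sh_mono h2 _ this)

variable {K : Set Z} (C : Cuts B K)

theorem V_Γ {u v : C(Z, ℝ)} (hu : B.Is u) (hv : B.Is v) (k : ℕ) {φ : C(Z, ℝ)}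
    (hφ : tsupport φ ⊆ C.W0) : Q.Γ (C.V u k) (C.V v k) φ =
      (B.m k)⁻¹ * Q.Γ u v (tr S (B.g k)⁻¹ φ) := by
  have h1 : tsupport φ ⊆ C.W1 := hφ.trans C.W0_sub
  rw [local_congr (C.V_mem hu k) (B.bl_mem hu.mem k) (C.V_mem hv k) C.o1
    (fun x hx => C.V_eq k hx) h1,
    local_congr_right (B.bl_mem hu.mem k) (C.V_mem hv k) (B.bl_mem hv.mem k) C.o1
    (fun x hx => C.V_eq k hx) h1, B.bl_Γ hu.mem hv.mem]

theorem gram_aux {u v : C(Z, ℝ)} (hu : B.Is u) (hv : B.Is v) {b : ℕ → ℝ} {β : ℝ}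
    (hb : Tendsto b (om : Filter ℕ) (𝓝 β))
    (hd : ∀ k, ∀ φ : C(Z, ℝ), (∀ y, |φ y| ≤ 1) → (∀ y, y ∉ 𝒢.Sh k (B.g k) → φ y = 0) →
      |Q.Γ u v φ - b k * (Q.Γ u1 u1 φ + Q.Γ u2 u2 φ)| ≤ B.m k / (k + 1))
    {φ : C(Z, ℝ)} (hφ : tsupport φ ⊆ C.W0) :
    Q.Γ (C.U hu) (C.U hv) φ = β * (Q.Γ (C.U (Or.inl rfl : B.Is u1)) (C.U (Or.inl rfl : B.Is u1)) φ +
      Q.Γ (C.U (Or.inr rfl : B.Is u2)) (C.U (Or.inr rfl : B.Is u2)) φ) := by
  obtain ⟨A, hA, hφA⟩ := C.dom_of_supp hφ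
  have hau : B.a ∉ tsupport φ := fun h => C.a_W1 (C.W0_sub (hφ h))
  set s : ℝ := ‖φ‖ + 1 with hs
  have hs0 : 0 < s := by positivity
  have t1 := C.tends_Γ hu hv hA hφA
  have t2 := C.tends_Γ (Or.inl rfl : B.Is u1) (Or.inl rfl : B.Is u1) hA hφA
  have t3 := C.tends_Γ (Or.inr rfl : B.Is u2) (Or.inr rfl : B.Is u2) hA hφA
  have t4 := t1.sub (hb.mul (t2.add t3))
  have t5 : Tendsto (fun k => Q.Γ (C.V u k) (C.V v k) φ -
      b k * (Q.Γ (C.V u1 k) (C.V u1 k) φ + Q.Γ (C.V u2 k) (C.V u2 k) φ)) (om : Filter ℕ)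
      (𝓝 0) := by
    have t6 : Tendsto (fun k : ℕ => s * (1 / ((k : ℝ) + 1))) (om : Filter ℕ) (𝓝 0) := by
      simpa using tends_one_div.const_mul s
    refine squeeze_zero_norm' ?_ t6
    filter_upwards [tr_zero B hau] with k hk
    have hm := (B.typ k).pos
    have h1 := hd k (s⁻¹ • tr S (B.g k)⁻¹ φ) (fun y => by
      rw [ContinuousMap.smul_apply, smul_eq_mul, abs_mul, abs_of_pos (inv_pos.2 hs0),
        inv_mul_le_iff₀ hs0, mul_one, tr_apply]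
      have := φ.norm_coe_le_norm ((B.g k)⁻¹ • y)
      rw [Real.norm_eq_abs] at this
      linarith) (fun y hy => by rw [ContinuousMap.smul_apply, hk y hy, smul_zero])
    rw [Q.smul_test _ _ hu.mem _ hv.mem, Q.smul_test _ _ B.h1 _ B.h1,
      Q.smul_test _ _ B.h2 _ B.h2] at h1
    rw [Real.norm_eq_abs, V_Γ B C hu hv k hφ, V_Γ B C (Or.inl rfl) (Or.inl rfl) k hφ,
      V_Γ B C (Or.inr rfl) (Or.inr rfl) k hφ]
    set X := Q.Γ u v (tr S (B.g k)⁻¹ φ)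
    set X1 := Q.Γ u1 u1 (tr S (B.g k)⁻¹ φ)
    set X2 := Q.Γ u2 u2 (tr S (B.g k)⁻¹ φ)
    have e1 : s⁻¹ * X - b k * (s⁻¹ * X1 + s⁻¹ * X2) = s⁻¹ * (X - b k * (X1 + X2)) := by ring
    rw [e1, abs_mul, abs_of_pos (inv_pos.2 hs0), inv_mul_le_iff₀ hs0] at h1
    have e2 : (B.m k)⁻¹ * X - b k * ((B.m k)⁻¹ * X1 + (B.m k)⁻¹ * X2) =
      (B.m k)⁻¹ * (X - b k * (X1 + X2)) := by ring
    rw [e2, abs_mul, abs_of_pos (inv_pos.2 hm), inv_mul_le_iff₀ hm]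
    calc |X - b k * (X1 + X2)| ≤ s * (B.m k / (k + 1)) := h1
      _ = B.m k * (s * (1 / (k + 1))) := by ring
  have := tendsto_nhds_unique t4 t5
  linarith

end Crest.Agent.R193.D56_Gram
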