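import Crest.Agent.R193.D56_Blow
import Crest.Agent.R193.D_Defs

/-!
# R193, block D6: strong convergence of the blow-ups, the limit is a conformal pair
-/

set_option autoImplicit false

noncomputable section

open Set Filter Topology MeasureTheory

namespace Crest.Agent.R193.D56_Lim

open Crest.Agent.R193 Crest.Agent.R193.D56_Basic Crest.Agent.R193.D56_Atom
  Crest.Agent.R193.D56_Dens Crest.Agent.R193.D56_Geo Crest.Agent.R193.D56_Sel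
  Crest.Agent.R193.D56_Blow

variable {G Z : Type} [Group G] [MetricSpace Z] [MulAction G Z] {S : Setup G Z}

section gen
variable {Q : DForm S}

/-- Cauchy-Schwarz, product form -/
theorem cs_sq {u v : C(Z, ℝ)} (hu : u ∈ Q.Dom) (hv : v ∈ Q.Dom) (φ : C(Z, ℝ)) :
    (Q.Γ u v φ) ^ 2 ≤ Q.Γ u u |φ| * Q.Γ v v |φ| := by
  have habs : ∀ x, 0 ≤ (|φ| : C(Z, ℝ)) x := fun x => abs_nonneg (φ x)
  have hA := Q.nonneg u hu _ habs
  have hB := Q.nonneg v hv _ habs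
  have key : ∀ ε > 0, (Q.Γ u v φ) ^ 2 ≤ (Q.Γ u u |φ| + ε) * Q.Γ v v |φ| := by
    intro ε hε
    refine discr (by positivity) hB (fun s => ?_)
    have h1 := cs hu (Q.smul_mem s v hv) φ
    rw [smul_right hu hv, Q.smul_left _ _ hv _ (Q.smul_mem s v hv), smul_right hv hv] at h1
    have h2 := le_abs_self (s * Q.Γ u v φ)
    nlinarith
  refine le_of_forall_pos_le_add (fun ε hε => ?_)
  have h1 := key (ε / (Q.Γ v v |φ| + 1)) (by positivity)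
  have h2 : ε / (Q.Γ v v |φ| + 1) * Q.Γ v v |φ| ≤ ε := by
    rw [div_mul_eq_mul_div, div_le_iff₀ (by positivity)]
    nlinarith
  nlinarith

/-- Cauchy-Schwarz with a dominating test function -/
theorem cs_dom {u v : C(Z, ℝ)} (hu : u ∈ Q.Dom) (hv : v ∈ Q.Dom) {φ χ : C(Z, ℝ)} {M : ℝ}
    (hM : ∀ x, |φ x| ≤ M * χ x) : (Q.Γ u v φ) ^ 2 ≤ M * Q.Γ u u χ * (M * Q.Γ v v χ) := by
  have habs : ∀ x, 0 ≤ (|φ| : C(Z, ℝ)) x := fun x => abs_nonneg (φ x)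
  have h1 : Q.Γ u u |φ| ≤ M * Q.Γ u u χ := by
    rw [← Q.smul_test M u hu u hu χ]
    exact mono hu (fun x => by simpa using hM x)
  have h2 : Q.Γ v v |φ| ≤ M * Q.Γ v v χ := by
    rw [← Q.smul_test M v hv v hv χ]
    exact mono hv (fun x => by simpa using hM x)
  exact (cs_sq hu hv φ).trans (mul_le_mul h1 h2 (Q.nonneg v hv _ habs)
    ((Q.nonneg u hu _ habs).trans h1))

theorem energy_sub_le {u v : C(Z, ℝ)} (hu : u ∈ Q.Dom) (hv : v ∈ Q.Dom) {φ : C(Z, ℝ)}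
    (hφ : ∀ x, 0 ≤ φ x) : Q.Γ (u - v) (u - v) φ ≤ 2 * Q.Γ u u φ + 2 * Q.Γ v v φ := by
  have h1 := Q.nonneg (u + v) (Q.add_mem _ hu _ hv) φ hφ
  rw [Q.add_left _ hu _ hv _ (Q.add_mem _ hu _ hv), add_right hu hu hv, add_right hv hu hv,
    Q.symm _ hv _ hu] at h1
  rw [sub_left hu hv (sub_mem hu hv), sub_right hu hu hv, sub_right hv hu hv,
    Q.symm _ hv _ hu]
  linarith

theorem energy_add_le {u v : C(Z, ℝ)} (hu : u ∈ Q.Dom) (hv : v ∈ Q.Dom) {φ : C(Z, ℝ)}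
    (hφ : ∀ x, 0 ≤ φ x) : Q.Γ (u + v) (u + v) φ ≤ 2 * Q.Γ u u φ + 2 * Q.Γ v v φ := by
  have h1 := Q.nonneg (u - v) (sub_mem hu hv) φ hφ
  rw [sub_left hu hv (sub_mem hu hv), sub_right hu hu hv, sub_right hv hu hv,
    Q.symm _ hv _ hu] at h1
  rw [Q.add_left _ hu _ hv _ (Q.add_mem _ hu _ hv), add_right hu hu hv, add_right hv hu hv,
    Q.symm _ hv _ hu]
  linarith

theorem tsupport_mul_left (χ w : C(Z, ℝ)) : tsupport ⇑(χ * w) ⊆ tsupport ⇑χ := by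
  refine closure_mono (fun x hx => ?_)
  intro h
  exact hx (by simp [h])

end gen

variable [CompactSpace Z]

namespace BU

variable {Q : DForm S} {𝒢 : Geo G Z} {u1 u2 : C(Z, ℝ)} {O : Set Z} (B : BU Q 𝒢 u1 u2 O)

/-- two nested cut-offs around a compact set missing the pole -/
structure Cuts (B : BU Q 𝒢 u1 u2 O) (K : Set Z) where
  χ0 : C(Z, ℝ)
  χ1 : C(Z, ℝ)
  W0 : Set Z
  W1 : Set Z
  hχ0 : χ0 ∈ Q.Dom
  hχ1 : χ1 ∈ Q.Dom
  h0 : ∀ y, 0 ≤ χ0 y ∧ χ0 y ≤ 1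
  h1 : ∀ y, 0 ≤ χ1 y ∧ χ1 y ≤ 1
  o0 : IsOpen W0
  o1 : IsOpen W1
  sub : K ⊆ W0
  one0 : ∀ y ∈ W0, χ0 y = 1
  supp0 : tsupport χ0 ⊆ W1
  one1 : ∀ y ∈ W1, χ1 y = 1
  supp1 : B.a ∉ tsupport χ1

theorem exists_cuts {K : Set Z} (hK : IsCompact K) (ha : B.a ∉ K) : Nonempty (Cuts B K) := by
  obtain ⟨χ1, h1, W1, h2, h3, h4, h5, h6⟩ := cut_nhds (Q := Q) hK.isClosed
    (isOpen_compl_singleton (x := B.a)) (fun x hx h => ha (by
      rw [mem_singleton_iff] at h; exact h ▸ hx))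
  obtain ⟨χ0, g1, W0, g2, g3, g4, g5, g6⟩ := cut_nhds (Q := Q) hK.isClosed h3 h4
  exact ⟨⟨χ0, χ1, W0, W1, g1, h1, g2, h2, g3, h3, g4, g5, g6, h5, fun h => h6 h rfl⟩⟩

namespace Cuts
variable {B} {K : Set Z} (C : Cuts B K)

theorem W0_sub : C.W0 ⊆ C.W1 := fun x hx => C.supp0 (subset_tsupport _ (by
  rw [Function.mem_support, C.one0 x hx]; exact one_ne_zero))

theorem one01 {y : Z} (hy : y ∈ C.W0) : C.χ1 y = 1 := C.one1 y (C.W0_sub hy)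

theorem a_W1 : B.a ∉ C.W1 := fun h => C.supp1 (subset_tsupport _ (by
  rw [Function.mem_support, C.one1 _ h]; exact one_ne_zero))

/-- the limit -/
def U {u : C(Z, ℝ)} (hu : B.Is u) : C(Z, ℝ) := B.cl hu C.χ1 C.supp1

/-- the cut-off blow-up -/
def V (u : C(Z, ℝ)) (k : ℕ) : C(Z, ℝ) := C.χ1 * B.bl u k

/-- the difference -/
def D {u : C(Z, ℝ)} (hu : B.Is u) (k : ℕ) : C(Z, ℝ) := C.V u k - C.U hu

theorem U_mem {u : C(Z, ℝ)} (hu : B.Is u) : C.U hu ∈ Q.Dom := B.cl_mem hu C.hχ1 C.supp1 C.h1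

theorem V_mem {u : C(Z, ℝ)} (hu : B.Is u) (k : ℕ) : C.V u k ∈ Q.Dom :=
  Q.mul_mem _ C.hχ1 _ (B.bl_mem hu.mem k)

theorem D_mem {u : C(Z, ℝ)} (hu : B.Is u) (k : ℕ) : C.D hu k ∈ Q.Dom :=
  sub_mem (C.V_mem hu k) (C.U_mem hu)

theorem V_eq {u : C(Z, ℝ)} (k : ℕ) {x : Z} (hx : x ∈ C.W1) : C.V u k x = B.bl u k x := by
  simp [V, C.one1 x hx]

theorem U_eq {u : C(Z, ℝ)} (hu : B.Is u) {x : Z} (hx : x ∈ C.W1) : C.U hu x = B.lim hu x := by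
  rw [U, B.cl_apply, C.one1 x hx, one_mul]

theorem V_energy {u : C(Z, ℝ)} (hu : B.Is u) :
    ∃ M : ℝ, ∀ᶠ k in (om : Filter ℕ), Q.Γ (C.V u k) (C.V u k) 1 ≤ M :=
  B.cut_energy hu C.hχ1 C.supp1 C.h1

theorem D_small {u : C(Z, ℝ)} (hu : B.Is u) {ε : ℝ} (hε : 0 < ε) :
    ∀ᶠ k in (om : Filter ℕ), ∀ x, |C.D hu k x| ≤ ε := B.cl_unif hu C.supp1 C.h1 hε

theorem D_energy {u : C(Z, ℝ)} (hu : B.Is u) :
    ∃ M : ℝ, ∀ᶠ k in (om : Filter ℕ), Q.Γ (C.D hu k) (C.D hu k) 1 ≤ M := by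
  obtain ⟨M, hM⟩ := C.V_energy hu
  refine ⟨2 * M + 2 * Q.Γ (C.U hu) (C.U hu) 1, ?_⟩
  filter_upwards [hM] with k hk
  have := energy_sub_le (C.V_mem hu k) (C.U_mem hu) (φ := 1) (fun x => zero_le_one)
  unfold D
  linarith

theorem tends_abs {f : ℕ → ℝ} (h : ∀ ε > 0, ∀ᶠ k in (om : Filter ℕ), |f k| ≤ ε) :
    Tendsto f (om : Filter ℕ) (𝓝 0) := by
  rw [Metric.tendsto_nhds]
  intro ε hε
  filter_upwards [h (ε / 2) (half_pos hε)] with k hk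
  rw [Real.dist_eq, sub_zero]
  linarith

theorem tends_one_div : Tendsto (fun k : ℕ => 1 / ((k : ℝ) + 1)) (om : Filter ℕ) (𝓝 0) :=
  tendsto_one_div_add_atTop_nhds_zero_nat.mono_left om_le

/-- the key lemma: `Γ(w, V) = Γ(w, bl)` is small for `w` supported in `W1` -/
theorem V_harm {u : C(Z, ℝ)} (hu : B.Is u) {K' : Set Z} (hK' : IsCompact K') (hKW : K' ⊆ C.W1)
    (M : ℝ) : ∀ᶠ k in (om : Filter ℕ), ∀ w ∈ Q.Dom, tsupport ⇑w ⊆ K' → (∀ x, |w x| ≤ M) →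
      Q.Γ w w 1 ≤ M → |Q.Γ w (C.V u k) 1| ≤ 1 / (k + 1) := by
  filter_upwards [B.harm_ev hu hK' (fun h => C.a_W1 (hKW h)) M] with k hk w hw h1 h2 h3
  have h4 := hk w hw (fun x hx => by
    by_contra hne
    exact hx (h1 (subset_tsupport _ hne))) h2 h3
  have h5 : Q.Γ w (C.V u k - B.bl u k) 1 = 0 := by
    refine disjoint_supp hw (sub_mem (C.V_mem hu k) (B.bl_mem hu.mem k)) ?_ 1
    refine disjoint_left.2 (fun x hx hx' => ?_)
    have h6 : tsupport ⇑(C.V u k - B.bl u k) ⊆ C.W1ᶜ := by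
      refine closure_minimal ?_ C.o1.isClosed_compl
      intro y hy hyW
      exact hy (by simp [C.V_eq k hyW])
    exact h6 hx' (hKW (h1 hx))
  rw [sub_right hw (C.V_mem hu k) (B.bl_mem hu.mem k)] at h5
  rw [show Q.Γ w (C.V u k) 1 = Q.Γ w (B.bl u k) 1 by linarith]
  exact h4

theorem cutD_energy {u : C(Z, ℝ)} (hu : B.Is u) :
    ∃ M : ℝ, ∀ᶠ k in (om : Filter ℕ), Q.Γ (C.χ0 * C.D hu k) (C.χ0 * C.D hu k) 1 ≤ M := by
  obtain ⟨M, hM⟩ := C.D_energy hu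
  refine ⟨2 * Q.Γ C.χ0 C.χ0 1 + 2 * M, ?_⟩
  filter_upwards [hM, C.D_small hu one_pos] with k h1 h2
  have h3 := energy_cut C.hχ0 (C.D_mem hu k) C.h0 isOpen_univ (subset_univ _) zero_le_one
    (fun x _ => h2 x) 1 (fun y => (C.h0 y).2)
  linarith

/-- strong convergence -/
theorem strong {u : C(Z, ℝ)} (hu : B.Is u) :
    Tendsto (fun k => Q.Γ (C.D hu k) (C.D hu k) C.χ0) (om : Filter ℕ) (𝓝 0) := by
  obtain ⟨M, hM⟩ := C.cutD_energy hu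
  obtain ⟨M', hM'⟩ := C.D_energy hu
  set N : ℝ := max M 1 with hN
  -- first term
  have t1 : Tendsto (fun k => Q.Γ (C.χ0 * C.D hu k) (C.U hu) 1) (om : Filter ℕ) (𝓝 0) := by
    refine tends_abs (fun ε hε => ?_)
    obtain ⟨δ, hδ, hw⟩ := weak (C.U_mem hu) M hε
    filter_upwards [hM, C.D_small hu hδ] with k h1 h2
    refine hw _ (Q.mul_mem _ C.hχ0 _ (C.D_mem hu k)) (fun x => ?_) h1
    rw [ContinuousMap.mul_apply, abs_mul, abs_of_nonneg (C.h0 x).1]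
    have := h2 x
    have h3 := (C.h0 x).2
    nlinarith [abs_nonneg (C.D hu k x)]
  have t2 : Tendsto (fun k => Q.Γ (C.χ0 * C.D hu k) (C.V u k) 1) (om : Filter ℕ) (𝓝 0) := by
    refine squeeze_zero_norm' ?_ tends_one_div
    filter_upwards [hM, C.D_small hu one_pos,
      C.V_harm hu (isClosed_tsupport ⇑C.χ0).isCompact C.supp0 N] with k h1 h2 h3
    rw [Real.norm_eq_abs]
    refine h3 _ (Q.mul_mem _ C.hχ0 _ (C.D_mem hu k)) (tsupport_mul_left _ _) (fun x => ?_)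
      (h1.trans (le_max_left _ _))
    rw [ContinuousMap.mul_apply, abs_mul, abs_of_nonneg (C.h0 x).1]
    have := h2 x
    have h4 := (C.h0 x).2
    have h5 := le_max_right M 1
    nlinarith [abs_nonneg (C.D hu k x)]
  have t3 : Tendsto (fun k => Q.Γ C.χ0 (C.D hu k) (C.D hu k)) (om : Filter ℕ) (𝓝 0) := by
    refine tends_abs (fun ε hε => ?_)
    set E : ℝ := |Q.Γ C.χ0 C.χ0 1 + M'| + 1 with hE
    have hE0 : 0 < E := by positivity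
    filter_upwards [hM', C.D_small hu (div_pos hε hE0)] with k h1 h2
    have h3 := abs_le_energy C.hχ0 (C.D_mem hu k) h2
    have h4 : Q.Γ C.χ0 C.χ0 1 + Q.Γ (C.D hu k) (C.D hu k) 1 ≤ E := by
      have := le_abs_self (Q.Γ C.χ0 C.χ0 1 + M')
      linarith
    have h5 : ε / E * (Q.Γ C.χ0 C.χ0 1 + Q.Γ (C.D hu k) (C.D hu k) 1) ≤ ε / E * E :=
      mul_le_mul_of_nonneg_left h4 (by positivity)
    rw [div_mul_cancel₀ _ hE0.ne'] at h5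
    have := abs_nonneg (Q.Γ C.χ0 (C.D hu k) (C.D hu k))
    linarith
  have e : ∀ k, Q.Γ (C.D hu k) (C.D hu k) C.χ0 = Q.Γ (C.χ0 * C.D hu k) (C.V u k) 1 -
      Q.Γ (C.χ0 * C.D hu k) (C.U hu) 1 - Q.Γ C.χ0 (C.D hu k) (C.D hu k) := by
    intro k
    have h1 := leibniz C.hχ0 (C.D_mem hu k) (C.D_mem hu k) 1
    rw [one_mul, one_mul] at h1
    have h2 := sub_right (Q := Q) (Q.mul_mem _ C.hχ0 _ (C.D_mem hu k)) (C.V_mem hu k) (C.U_mem hu) 1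
    have h3 : Q.Γ (C.χ0 * C.D hu k) (C.D hu k) 1 =
      Q.Γ (C.χ0 * C.D hu k) (C.V u k) 1 - Q.Γ (C.χ0 * C.D hu k) (C.U hu) 1 := h2
    linarith
  simp_rw [e]
  simpa using (t2.sub t1).sub t3

/-- passing to the limit in `Γ(D_k, v_k)(φ)` -/
theorem tends_D {u : C(Z, ℝ)} (hu : B.Is u) (v : ℕ → C(Z, ℝ)) (hv : ∀ k, v k ∈ Q.Dom) {M : ℝ}
    (hM : ∀ᶠ k in (om : Filter ℕ), Q.Γ (v k) (v k) 1 ≤ M) {φ : C(Z, ℝ)} {A : ℝ} (hA : 0 ≤ A)
    (hφ : ∀ x, |φ x| ≤ A * C.χ0 x) :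
    Tendsto (fun k => Q.Γ (C.D hu k) (v k) φ) (om : Filter ℕ) (𝓝 0) := by
  have h1 : Tendsto (fun k => A * Q.Γ (C.D hu k) (C.D hu k) C.χ0 * (A * M)) (om : Filter ℕ)
      (𝓝 0) := by
    simpa using ((C.strong hu).const_mul A).mul_const (A * M)
  have h2 : Tendsto (fun k => (Q.Γ (C.D hu k) (v k) φ) ^ 2) (om : Filter ℕ) (𝓝 0) := by
    refine squeeze_zero' (Eventually.of_forall (fun k => sq_nonneg _)) ?_ h1
    filter_upwards [hM] with k hk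
    refine (cs_dom (C.D_mem hu k) (hv k) hφ).trans ?_
    have h3 : Q.Γ (v k) (v k) C.χ0 ≤ M :=
      (mono (hv k) (fun x => (C.h0 x).2)).trans hk
    have h4 := Q.nonneg _ (C.D_mem hu k) C.χ0 (fun x => (C.h0 x).1)
    gcongr
  have h3 := h2.sqrt
  rw [Real.sqrt_zero] at h3
  simp_rw [Real.sqrt_sq_eq_abs] at h3
  exact tendsto_zero_iff_abs_tendsto_zero _ |>.2 h3

/-- convergence of the energy densities -/
theorem tends_Γ {u v : C(Z, ℝ)} (hu : B.Is u) (hv : B.Is v) {φ : C(Z, ℝ)}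
    {A : ℝ} (hA : 0 ≤ A) (hφ : ∀ x, |φ x| ≤ A * C.χ0 x) :
    Tendsto (fun k => Q.Γ (C.V u k) (C.V v k) φ) (om : Filter ℕ)
      (𝓝 (Q.Γ (C.U hu) (C.U hv) φ)) := by
  obtain ⟨M, hM⟩ := C.V_energy hv
  have h1 := C.tends_D hu (fun k => C.V v k) (fun k => C.V_mem hv k) hM hA hφ
  have h2 := C.tends_D hv (fun _ => C.U hu) (fun _ => C.U_mem hu)
    (M := Q.Γ (C.U hu) (C.U hu) 1) (Eventually.of_forall (fun _ => le_rfl)) hA hφ
  have e : ∀ k, Q.Γ (C.V u k) (C.V v k) φ = Q.Γ (C.D hu k) (C.V v k) φ +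
      Q.Γ (C.D hv k) (C.U hu) φ + Q.Γ (C.U hu) (C.U hv) φ := by
    intro k
    have e1 : Q.Γ (C.D hu k) (C.V v k) φ = Q.Γ (C.V u k) (C.V v k) φ - Q.Γ (C.U hu) (C.V v k) φ :=
      sub_left (C.V_mem hu k) (C.U_mem hu) (C.V_mem hv k) φ
    have e2 : Q.Γ (C.D hv k) (C.U hu) φ = Q.Γ (C.V v k) (C.U hu) φ - Q.Γ (C.U hv) (C.U hu) φ :=
      sub_left (C.V_mem hv k) (C.U_mem hv) (C.U_mem hu) φ
    rw [e1, e2, Q.symm _ (C.V_mem hv k) _ (C.U_mem hu), Q.symm _ (C.U_mem hv) _ (C.U_mem hu)]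
    ring
  simp_rw [e]
  simpa using (h1.add h2).add_const (Q.Γ (C.U hu) (C.U hv) φ)

theorem dom_of_supp {φ : C(Z, ℝ)} (hφ : tsupport φ ⊆ C.W0) : ∃ A : ℝ, 0 ≤ A ∧
    ∀ x, |φ x| ≤ A * C.χ0 x := by
  refine ⟨‖φ‖, norm_nonneg _, fun x => ?_⟩
  by_cases hx : φ x = 0
  · rw [hx, abs_zero]; exact mul_nonneg (norm_nonneg _) (C.h0 x).1
  · rw [C.one0 x (hφ (subset_tsupport _ hx)), mul_one]
    exact φ.norm_coe_le_norm x

/-- the limit is harmonic -/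
theorem harm {u : C(Z, ℝ)} (hu : B.Is u) {w : C(Z, ℝ)} (hw : w ∈ Q.Dom) (hs : tsupport w ⊆ C.W0) :
    Q.Γ (C.U hu) w 1 = 0 := by
  have h1 := C.tends_D hu (fun _ => w) (fun _ => hw) (M := Q.Γ w w 1)
    (Eventually.of_forall (fun _ => le_rfl)) (φ := C.χ0) zero_le_one
    (fun x => by rw [abs_of_nonneg (C.h0 x).1, one_mul])
  have h2 : Tendsto (fun k => Q.Γ w (C.V u k) 1) (om : Filter ℕ) (𝓝 0) := by
    refine squeeze_zero_norm' ?_ tends_one_div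
    filter_upwards [C.V_harm hu (isClosed_tsupport ⇑w).isCompact (hs.trans C.W0_sub)
      (max ‖w‖ (Q.Γ w w 1))] with k hk
    rw [Real.norm_eq_abs]
    exact hk w hw Subset.rfl (fun x => (w.norm_coe_le_norm x).trans (le_max_left _ _))
      (le_max_right _ _)
  have e : ∀ k, Q.Γ (C.U hu) w 1 = Q.Γ w (C.V u k) 1 - Q.Γ (C.D hu k) w C.χ0 := by
    intro k
    have e1 : Q.Γ w (C.D hu k) 1 = Q.Γ w (C.V u k) 1 - Q.Γ w (C.U hu) 1 :=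
      sub_right hw (C.V_mem hu k) (C.U_mem hu) 1
    have e2 : Q.Γ w (C.D hu k) 1 = Q.Γ w (C.D hu k) C.χ0 :=
      test_congr hw (C.D_mem hu k) C.o0 hs (fun x hx => by simp [C.one0 x hx])
    rw [Q.symm _ (C.D_mem hu k) _ hw, Q.symm _ (C.U_mem hu) _ hw]
    linarith
  have h3 : Tendsto (fun _ : ℕ => Q.Γ (C.U hu) w 1) (om : Filter ℕ) (𝓝 (0 - 0)) := by
    refine (h2.sub h1).congr (fun k => ?_)
    rw [← e k]
  rw [sub_zero] at h3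
  exact tendsto_nhds_unique tendsto_const_nhds h3

end Cuts

end BU

end Crest.Agent.R193.D56_Lim
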