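import Crest.Agent.R193.D3b3

/-!
# R193, end pieces of D5 + D6 (helper666): linear change making a pair conformal, and
mixed strong convergence.
-/

set_option autoImplicit false
set_option linter.unusedSectionVars false

open Set Filter Topology

namespace Crest.Agent.R193.D56_Lin

open Crest.Agent.R193 Crest.Agent.R193.D3b1 Crest.Agent.R193.D3b2 Crest.Agent.R193.D3b3

variable {G Z : Type} [Group G] [MetricSpace Z] [MulAction G Z] {S : Setup G Z}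
variable {Q : DForm S}

/-- harmonic functions form a vector space -/
lemma harm_lin {O : Set Z} {U₁ U₂ : C(Z, ℝ)} (h1 : Harm Q O U₁) (h2 : Harm Q O U₂) (a b : ℝ) :
    Harm Q O (a • U₁ + b • U₂) := by
  have m1 := smul_mem a h1.1
  have m2 := smul_mem b h2.1
  refine ⟨add_mem m1 m2, fun w hw hs => ?_⟩
  rw [Q.add_left _ m1 _ m2 w hw, Q.smul_left a _ h1.1 w hw, Q.smul_left b _ h2.1 w hw,
    h1.2 w hw hs, h2.2 w hw hs]
  ring

/-- **The linear change of variables.**  If `Γ(Uᵢ,Uⱼ) = aᵢⱼ ν` on `O` with a constant positive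
definite matrix `a`, then `U = U₁`, `V = (a₁₁ U₂ - a₁₂ U₁) / √det a` is a conformal pair on `O`. -/
theorem confOn_lin {O : Set Z} {U₁ U₂ : C(Z, ℝ)} (h1 : Harm Q O U₁) (h2 : Harm Q O U₂)
    {a11 a12 a22 : ℝ} (hdet : 0 < a11 * a22 - a12 ^ 2)
    {ν : C(Z, ℝ) → ℝ}
    (e11 : ∀ φ : C(Z, ℝ), tsupport φ ⊆ O → Q.Γ U₁ U₁ φ = a11 * ν φ)
    (e12 : ∀ φ : C(Z, ℝ), tsupport φ ⊆ O → Q.Γ U₁ U₂ φ = a12 * ν φ)
    (e22 : ∀ φ : C(Z, ℝ), tsupport φ ⊆ O → Q.Γ U₂ U₂ φ = a22 * ν φ) :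
    ConfOn Q O U₁ ((-(a12 / √(a11 * a22 - a12 ^ 2))) • U₁ + (a11 / √(a11 * a22 - a12 ^ 2)) • U₂) := by
  set d : ℝ := a11 * a22 - a12 ^ 2 with hd
  have hs : 0 < √d := Real.sqrt_pos.2 hdet
  have hss : √d * √d = d := Real.mul_self_sqrt hdet.le
  have hV := harm_lin h1 h2 (-(a12 / √d)) (a11 / √d)
  refine ⟨h1.1, hV.1, fun w hw hw' => ⟨h1.2 w hw hw', hV.2 w hw hw'⟩, fun φ hφ => ?_⟩
  have m1 := smul_mem (-(a12 / √d)) h1.1
  have m2 := smul_mem (a11 / √d) h2.1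
  have f11 := e11 φ hφ
  have f12 := e12 φ hφ
  have f22 := e22 φ hφ
  constructor
  · rw [add_right m1 m2 h1.1, smul_right _ h1.1 h1.1, smul_right _ h2.1 h1.1, f11, f12]
    field_simp
    ring
  · rw [Γ_add_add m1 m2, Γ_smul_smul _ h1.1, Γ_smul_smul _ h2.1, Q.smul_left _ _ h1.1 _ m2,
      smul_right _ h2.1 h1.1, f11, f12, f22]
    have key : (-(a12 / √d)) ^ 2 * (a11 * ν φ) +
        2 * (-(a12 / √d) * (a11 / √d * (a12 * ν φ))) + (a11 / √d) ^ 2 * (a22 * ν φ) =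
        a11 * ν φ * ((a11 * a22 - a12 ^ 2) / (√d * √d)) := by
      field_simp
      ring
    rw [key, hss, ← hd, div_self hdet.ne', mul_one]

variable {α : Type*} {l : Filter α}

/-- **Mixed strong convergence.** -/
theorem tendsto_mixed {u v : α → C(Z, ℝ)} {U V η φ : C(Z, ℝ)} (hu : ∀ k, u k ∈ Q.Dom)
    (hv : ∀ k, v k ∈ Q.Dom) (hU : U ∈ Q.Dom) (hV : V ∈ Q.Dom) (hφ : ∀ x, |φ x| ≤ η x)
    (h1 : Tendsto (fun k => Q.Γ (u k - U) (u k - U) η) l (𝓝 0))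
    (h2 : Tendsto (fun k => Q.Γ (v k - V) (v k - V) η) l (𝓝 0)) :
    Tendsto (fun k => Q.Γ (u k) (v k) φ) l (𝓝 (Q.Γ U V φ)) := by
  have hη : ∀ x, 0 ≤ η x := fun x => (abs_nonneg _).trans (hφ x)
  rw [tendsto_iff_norm_sub_tendsto_zero]
  have hb : ∀ k, ‖Q.Γ (u k) (v k) φ - Q.Γ U V φ‖ ≤
      √(Q.Γ (u k - U) (u k - U) η) * (√(Q.Γ (v k - V) (v k - V) η) + √(Q.Γ V V η)) +
        √(Q.Γ U U η) * √(Q.Γ (v k - V) (v k - V) η) := by
    intro k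
    have e : Q.Γ (u k) (v k) φ - Q.Γ U V φ =
        Q.Γ (u k - U) (v k) φ + Q.Γ U (v k - V) φ := by
      rw [sub_left (hu k) hU (hv k), sub_right (hv k) hV hU]; ring
    rw [e]
    refine (norm_add_le _ _).trans (add_le_add ?_ ?_)
    · rw [Real.norm_eq_abs]
      refine (abs_Γ_le_abs (sub_mem (hu k) hU) (hv k) hφ).trans ?_
      refine mul_le_mul_of_nonneg_left ?_ (Real.sqrt_nonneg _)
      have := sqrt_Γ_add_le (sub_mem (hv k) hV) hV hη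
      rwa [sub_add_cancel] at this
    · rw [Real.norm_eq_abs]
      exact abs_Γ_le_abs hU (sub_mem (hv k) hV) hφ
  refine squeeze_zero (fun k => norm_nonneg _) hb ?_
  have s1 : Tendsto (fun k => √(Q.Γ (u k - U) (u k - U) η)) l (𝓝 0) := by simpa using h1.sqrt
  have s2 : Tendsto (fun k => √(Q.Γ (v k - V) (v k - V) η)) l (𝓝 0) := by simpa using h2.sqrt
  have := (s1.mul (s2.add_const (√(Q.Γ V V η)))).add (s2.const_mul (√(Q.Γ U U η)))
  simpa using this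

/-- non-constancy is preserved by the linear change -/
theorem const_iff {X : Type*} (F₁ F₂ : X → ℝ) {a11 a12 d : ℝ} (ha : a11 ≠ 0) (hd : 0 < d)
    (s : Set X) (h : ∃ c : ℝ × ℝ, ∀ x ∈ s, (F₁ x, (-(a12 / √d)) * F₁ x + (a11 / √d) * F₂ x) = c) :
    ∃ c : ℝ × ℝ, ∀ x ∈ s, (F₁ x, F₂ x) = c := by
  obtain ⟨c, hc⟩ := h
  have hs : 0 < √d := Real.sqrt_pos.2 hd
  refine ⟨(c.1, (c.2 + (a12 / √d) * c.1) / (a11 / √d)), fun x hx => ?_⟩
  have h1 := hc x hx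
  have e1 : F₁ x = c.1 := by rw [← h1]
  have e2 : (-(a12 / √d)) * F₁ x + (a11 / √d) * F₂ x = c.2 := by rw [← h1]
  refine Prod.ext e1 ?_
  change F₂ x = (c.2 + (a12 / √d) * c.1) / (a11 / √d)
  rw [← e2, ← e1]
  field_simp
  ring

end Crest.Agent.R193.D56_Lin
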