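import Crest.Agent.R193.D56_Pair
import Crest.Agent.R193.GEO_Levels
import Crest.Agent.R193.OSC

/-!
# R193, block D5 + D6: the output (a non-constant conformal pair off a point)
-/

set_option autoImplicit false

noncomputable section

open Set Filter Topology MeasureTheory

namespace Crest.Agent.R193.D56_Main

open Crest.Agent.R193 Crest.Agent.R193.D56_Basic Crest.Agent.R193.D56_Geo
  Crest.Agent.R193.D56_Sel Crest.Agent.R193.D56_Blow

variable {G Z : Type} [Group G] [MetricSpace Z] [MulAction G Z] {S : Setup G Z}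

/-- the geometry -/
def geo (S : Setup G Z) [CompactSpace Z] (Φ : Z ≃ₜ S2) : Geo G Z where
  lev := S.sph
  Sh := GEO_Levels.Shc S
  isClosed := GEO_Levels.isClosed_Shc S
  sub := GEO_Levels.Shc_subset_interior S
  cover := fun n x => GEO_Levels.cover_Shc S x n
  val := fun R => Classical.choose (GEO_Levels.overlap_Shc S R)
  card_le := fun R n g hg => by
    classical
    refine le_trans (le_of_eq ?_) (Classical.choose_spec (GEO_Levels.overlap_Shc S R) n g hg)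
    congr 1
    ext h
    rw [Finset.mem_filter, Finset.mem_filter, inter_comm]
  small := fun R ε hε => by
    obtain ⟨N, hN⟩ := GEO_Levels.diam_Shc S R ε hε
    exact ⟨N, fun n hn g hg => hN g (by rw [(GEO_Levels.mem_sph S).1 hg]; exact hn)⟩
  pole := fun ω g n hn hg => by
    obtain ⟨a, h1, h2⟩ := GEO_Levels.exists_pole_Shc S ω g (by
      refine hn.congr (fun k => ?_)
      exact ((GEO_Levels.mem_sph S).1 (hg k)).symm)
    exact ⟨a, fun K hK ha => h1 K hK.isClosed ha, h2⟩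
  conn := fun a => (GEO_Levels.compl_singleton_connected Φ a).isPreconnected

theorem oscGlob [CompactSpace Z] (Q : DForm S) (Φ : Z ≃ₜ S2) : OscGlob Q (geo S Φ) := by
  obtain ⟨R1, C, hR1, hC, h⟩ := OSC.osc_Sh Q Φ (GEO_Levels.rad S 0 + S.δ)
  refine ⟨C + 1, ⌈R1⌉₊, 0, by linarith, fun n _ g _ u hu hm φ hφ hφ1 y hy z hz => ?_⟩
  have hsub : S.Sh R1 g ⊆ GEO_Levels.Shc S ⌈R1⌉₊ g :=
    (GEO_Levels.Sh_mono S ((Nat.le_ceil R1).trans (GEO_Levels.le_rad S _)) g).trans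
      (GEO_Levels.Sh_subset_Shc S _ g)
  have h1 := h g _ hsub u hu hm φ hφ (fun y hy => (hφ1 y (hsub hy)).ge) y
    (GEO_Levels.Shc_subset_Sh S 0 g hy) z (GEO_Levels.Shc_subset_Sh S 0 g hz)
  rw [sq_abs] at h1
  have h2 := Q.nonneg u hu φ hφ
  nlinarith

theorem oscLoc [LocallyConnectedSpace Z] (Q : DForm S) : OscLoc Q := by
  intro x O hO ε hε
  obtain ⟨N, hN, h⟩ := OSC.osc_nhds Q x O hO hε
  refine ⟨N, hN, fun u hu hm φ hφ hφ1 y hy z hz => ?_⟩
  have := h u hu hm φ hφ (fun y hy => (hφ1 y hy).ge) y hy z hz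
  rwa [sq_abs] at this

/-- **output of D5 + D6**, with the approximation of the pair by rescalings of the original
functions -/
theorem outPair_approx (Q : DForm S) (Φ : Z ≃ₜ S2) :
    ∃ (O : Set Z) (u1 u2 : C(Z, ℝ)), IsOpen O ∧ u1 ∈ Q.Dom ∧ u2 ∈ Q.Dom ∧
    (∀ a b : ℝ, MonoOn (fun x => a * u1 x + b * u2 x) O) ∧
    ∃ (a : Z) (F : Z → ℝ × ℝ),
    (∀ K : Set Z, IsCompact K → a ∉ K → ∃ O' : Set Z, IsOpen O' ∧ K ⊆ O' ∧ ∃ U V : C(Z, ℝ),
      ConfOn Q O' U V ∧ ∀ x ∈ O', F x = (U x, V x)) ∧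
    (¬ ∃ c, ∀ x, x ≠ a → F x = c) ∧
    ∃ p q : ℝ, 0 < p ∧ ∀ K : Set Z, IsCompact K → a ∉ K → ∀ ε > 0, ∃ g : G,
      (∀ x ∈ K, g • x ∈ O) ∧ ∃ s c1 c2 : ℝ, 0 < s ∧ ∀ x ∈ K,
        |s * (u1 (g • x) - c1) - (F x).1| ≤ ε ∧
        |p * (s * (u2 (g • x) - c2)) + q * (s * (u1 (g • x) - c1)) - (F x).2| ≤ ε := by
  haveI : CompactSpace Z := GEO_Levels.compactSpace_of_homeo Φ
  haveI : LocallyConnectedSpace Z := OSC.locConn Φ
  obtain ⟨O, X, u1, u2, hO, hX, hXO, h1, h2, hmono, hint⟩ := Q.pair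
  have hvol : volume ((fun x => (u1 x, u2 x)) '' X) ≠ 0 := by
    intro h0
    have h3 := isOpen_interior.measure_pos (volume : Measure (ℝ × ℝ)) hint
    exact h3.ne' (measure_mono_null interior_subset h0)
  obtain ⟨R1, θ, K, hθ, hsel⟩ := select (oscGlob Q Φ) h1 h2 hO hX hXO hmono hvol
  choose n hn g hg m b11 b12 b22 htyp using hsel
  have htend : Tendsto n (om : Filter ℕ) atTop :=
    (tendsto_atTop_mono hn tendsto_id).mono_left om_le
  obtain ⟨a, hp1, hp2⟩ := (geo S Φ).pole om g n htend hg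
  obtain ⟨x0, hx0⟩ := (GEO_Levels.compl_singleton_connected Φ a).nonempty
  let B : BU Q (geo S Φ) u1 u2 O :=
    { R1 := R1, θ := θ, K := K, θ_pos := hθ, h1 := h1, h2 := h2, mono := hmono, osc := oscLoc Q,
      n := n, g := g, m := m, b11 := b11, b12 := b12, b22 := b22, typ := htyp, a := a,
      pole1 := hp1, pole2 := hp2, x0 := x0, hx0 := hx0 }
  exact ⟨O, u1, u2, hO, h1, h2, hmono, D56_Pair.pair B⟩

/-- **output of D5 + D6** -/
theorem outPair (S : Setup G Z) (Q : DForm S) (Φ : Z ≃ₜ S2) : OutPair Q := by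
  obtain ⟨O, u1, u2, -, -, -, -, a, F, h1, h2, -⟩ := outPair_approx Q Φ
  exact ⟨a, F, h1, h2⟩

end Crest.Agent.R193.D56_Main
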