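import Crest.Agent.R193.D56_Gram

/-!
# R193, block D6: the blow-up limit is a non-constant conformal pair on `Z ∖ {a}`
-/

set_option autoImplicit false

noncomputable section

open Set Filter Topology MeasureTheory

namespace Crest.Agent.R193.D56_Pair

open Crest.Agent.R193 Crest.Agent.R193.D56_Basic Crest.Agent.R193.D56_Atom
  Crest.Agent.R193.D56_Dens Crest.Agent.R193.D56_Geo Crest.Agent.R193.D56_Sel
  Crest.Agent.R193.D56_Blow Crest.Agent.R193.D56_Lim Crest.Agent.R193.D56_Lim.BU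
  Crest.Agent.R193.D56_Lim.BU.Cuts Crest.Agent.R193.D56_Gram

variable {G Z : Type} [Group G] [MetricSpace Z] [MulAction G Z] {S : Setup G Z}
variable [CompactSpace Z]
variable {Q : DForm S} {𝒢 : Geo G Z} {u1 u2 : C(Z, ℝ)} {O : Set Z} (B : BU Q 𝒢 u1 u2 O)

theorem i1 : B.Is u1 := Or.inl rfl
theorem i2 : B.Is u2 := Or.inr rfl

/-- conformality of the linear combination -/
theorem conf {β11 β12 β22 : ℝ} (hb11 : Tendsto B.b11 (om : Filter ℕ) (𝓝 β11))
    (hb12 : Tendsto B.b12 (om : Filter ℕ) (𝓝 β12)) (hb22 : Tendsto B.b22 (om : Filter ℕ) (𝓝 β22))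
    (hdet : 0 < β11 * β22 - β12 ^ 2) {K : Set Z} (C : Cuts B K) :
    ConfOn Q C.W0 (C.U (i1 B))
      ((β11 / Real.sqrt (β11 * β22 - β12 ^ 2)) • C.U (i2 B) +
        (-β12 / Real.sqrt (β11 * β22 - β12 ^ 2)) • C.U (i1 B)) := by
  set d : ℝ := Real.sqrt (β11 * β22 - β12 ^ 2) with hd
  have hd0 : 0 < d := Real.sqrt_pos.2 hdet
  have hd2 : d * d = β11 * β22 - β12 ^ 2 := Real.mul_self_sqrt hdet.le
  have m1 := C.U_mem (i1 B)
  have m2 := C.U_mem (i2 B)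
  have m1' := Q.smul_mem (-β12 / d) _ m1
  have m2' := Q.smul_mem (β11 / d) _ m2
  have m3 := Q.add_mem _ m2' _ m1'
  refine ⟨m1, m3, fun w hw hs => ⟨C.harm (i1 B) hw hs, ?_⟩, fun φ hφ => ?_⟩
  · rw [Q.add_left _ m2' _ m1' _ hw, Q.smul_left _ _ m2 _ hw, Q.smul_left _ _ m1 _ hw,
      C.harm (i1 B) hw hs, C.harm (i2 B) hw hs]
    ring
  · have g11 := gram_aux B C (i1 B) (i1 B) hb11 (fun k φ h1 h2 => ((B.typ k).dens φ h1 h2).1) hφ
    have g12 := gram_aux B C (i1 B) (i2 B) hb12 (fun k φ h1 h2 => ((B.typ k).dens φ h1 h2).2.1) hφ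
    have g22 := gram_aux B C (i2 B) (i2 B) hb22 (fun k φ h1 h2 => ((B.typ k).dens φ h1 h2).2.2) hφ
    set N := Q.Γ (C.U (Or.inl rfl : B.Is u1)) (C.U (Or.inl rfl : B.Is u1)) φ +
      Q.Γ (C.U (Or.inr rfl : B.Is u2)) (C.U (Or.inr rfl : B.Is u2)) φ with hN
    constructor
    · rw [add_right m1 m2' m1', smul_right m1 m2, smul_right m1 m1, g11, g12]
      field_simp
      ring
    · rw [quad m2 m1, Q.symm _ m2 _ m1, g11, g12, g22]
      have e : (β11 / d) ^ 2 * (β22 * N) + 2 * (β11 / d) * (-β12 / d) * (β12 * N) +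
          (-β12 / d) ^ 2 * (β11 * N) = β11 * N * (β11 * β22 - β12 ^ 2) / (d * d) := by
        field_simp
        ring
      rw [e, hd2, mul_div_assoc, div_self hdet.ne', mul_one]

/-- the limit is not constant -/
theorem nonconst (c1 c2 : ℝ) (h1 : ∀ x, x ≠ B.a → B.lim (i1 B) x = c1)
    (h2 : ∀ x, x ≠ B.a → B.lim (i2 B) x = c2) : False := by
  obtain ⟨N, hN, hNe⟩ := B.pole2 (B.R1 + 1)
  have hKc : IsCompact (interior N)ᶜ := isOpen_interior.isClosed_compl.isCompact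
  have haK : B.a ∉ (interior N)ᶜ := fun h => h (mem_interior_iff_mem_nhds.2 hN)
  obtain ⟨C⟩ := D56_Lim.BU.exists_cuts B hKc haK
  have key : ∀ {u : C(Z, ℝ)} (hu : B.Is u) (c : ℝ), (∀ x, x ≠ B.a → B.lim hu x = c) →
      ∀ φ : C(Z, ℝ), tsupport φ ⊆ C.W0 → Q.Γ (C.U hu) (C.U hu) φ = 0 := by
    intro u hu c hc φ hφ
    refine local_const (C.U_mem hu) (C.U_mem hu) C.o1 (c := c) (fun x hx => ?_)
      (hφ.trans C.W0_sub)
    rw [C.U_eq hu hx]
    exact hc x (fun h => C.a_W1 (h ▸ hx))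
  have s1 := C.strong (i1 B)
  have s2 := C.strong (i2 B)
  have s3 := (s1.const_mul 2).add (s2.const_mul 2)
  rw [mul_zero, add_zero] at s3
  have hev : ∀ᶠ k in (om : Filter ℕ), (1 : ℝ) ≤ 2 * Q.Γ (C.D (i1 B) k) (C.D (i1 B) k) C.χ0 +
      2 * Q.Γ (C.D (i2 B) k) (C.D (i2 B) k) C.χ0 := by
    filter_upwards [hNe] with k hk
    have hm := (B.typ k).pos
    have hz : ∀ x, x ∈ N → B.ψ B.R1 k x = 0 := fun x hx => B.ψ_zero (hk x hx)
    have hsupp : tsupport (B.ψ B.R1 k) ⊆ (interior N)ᶜ := by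
      refine closure_minimal (fun x hx hxN => hx (hz x (interior_subset hxN))) ?_
      exact isOpen_interior.isClosed_compl
    have hsupp' : tsupport (B.ψ B.R1 k) ⊆ C.W0 := hsupp.trans C.sub
    have hle : ∀ x, B.ψ B.R1 k x ≤ C.χ0 x := by
      intro x
      by_cases hx : B.ψ B.R1 k x = 0
      · rw [hx]; exact (C.h0 x).1
      · rw [C.one0 x (hsupp' (subset_tsupport _ hx))]
        exact B.ψ_le_one _ _ _
    have hV : ∀ {u : C(Z, ℝ)} (hu : B.Is u) (c : ℝ), (∀ x, x ≠ B.a → B.lim hu x = c) →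
        (B.m k)⁻¹ * Q.Γ u u (bump 𝒢 B.R1 (B.g k)) ≤ 2 * Q.Γ (C.D hu k) (C.D hu k) C.χ0 := by
      intro u hu c hc
      have e1 := V_Γ B C hu hu k hsupp'
      have e2 : tr S (B.g k)⁻¹ (B.ψ B.R1 k) = bump 𝒢 B.R1 (B.g k) := by
        unfold D56_Blow.BU.ψ
        rw [tr_inv_tr]
      rw [e2] at e1
      rw [← e1]
      have e3 : C.V u k = C.D hu k + C.U hu := by
        simp [D56_Lim.BU.Cuts.D]
      have e4 := energy_add_le (C.D_mem hu k) (C.U_mem hu) (B.ψ_nonneg B.R1 k)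
      rw [← e3, key hu c hc _ hsupp'] at e4
      have e5 := mono (C.D_mem hu k) hle
      linarith
    have g1 := hV (i1 B) c1 h1
    have g2 := hV (i2 B) c2 h2
    have g3 : (B.m k)⁻¹ * Q.Γ u1 u1 (bump 𝒢 B.R1 (B.g k)) +
        (B.m k)⁻¹ * Q.Γ u2 u2 (bump 𝒢 B.R1 (B.g k)) = 1 := by
      rw [← mul_add, ← (B.typ k).mass, inv_mul_cancel₀ hm.ne']
    linarith
  have := ge_of_tendsto s3 hev
  linarith

include B in
/-- **the blow-up theorem** -/
theorem pair : ∃ (a : Z) (F : Z → ℝ × ℝ),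
    (∀ K : Set Z, IsCompact K → a ∉ K → ∃ O' : Set Z, IsOpen O' ∧ K ⊆ O' ∧ ∃ U V : C(Z, ℝ),
      ConfOn Q O' U V ∧ ∀ x ∈ O', F x = (U x, V x)) ∧
    (¬ ∃ c, ∀ x, x ≠ a → F x = c) ∧
    ∃ p q : ℝ, 0 < p ∧ ∀ K : Set Z, IsCompact K → a ∉ K → ∀ ε > 0, ∃ g : G,
      (∀ x ∈ K, g • x ∈ O) ∧ ∃ s c1 c2 : ℝ, 0 < s ∧ ∀ x ∈ K,
        |s * (u1 (g • x) - c1) - (F x).1| ≤ ε ∧
        |p * (s * (u2 (g • x) - c2)) + q * (s * (u1 (g • x) - c1)) - (F x).2| ≤ ε := by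
  obtain ⟨β11, β12, β22, h11, h12, h22, hs, hn1, hn2, hdet⟩ := gram_lim B
  have hθ := B.θ_pos
  have hdet' : 0 < β11 * β22 - β12 ^ 2 := lt_of_lt_of_le (by positivity) hdet
  set d : ℝ := Real.sqrt (β11 * β22 - β12 ^ 2) with hd
  have hd0 : 0 < d := Real.sqrt_pos.2 hdet'
  have hβ : 0 < β11 := by
    rcases hn1.eq_or_lt with h | h
    · rw [← h] at hdet'; nlinarith [sq_nonneg β12]
    · exact h
  have hp : 0 < β11 / d := div_pos hβ hd0
  refine ⟨B.a, fun x => (B.lim (i1 B) x, β11 / d * B.lim (i2 B) x + -β12 / d * B.lim (i1 B) x),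
    ?_, ?_, β11 / d, -β12 / d, hp, ?_⟩
  · intro K hK ha
    obtain ⟨C⟩ := D56_Lim.BU.exists_cuts B hK ha
    refine ⟨C.W0, C.o0, C.sub, _, _, conf B h11 h12 h22 hdet' C, fun x hx => ?_⟩
    have hx1 := C.W0_sub hx
    simp [C.U_eq (i1 B) hx1, C.U_eq (i2 B) hx1, hd]
  · rintro ⟨c, hc⟩
    have e1 : ∀ x, x ≠ B.a → B.lim (i1 B) x = c.1 := fun x hx => by rw [← hc x hx]
    refine nonconst B c.1 ((c.2 - -β12 / d * c.1) / (β11 / d)) e1 (fun x hx => ?_)
    have e2 : β11 / d * B.lim (i2 B) x + -β12 / d * B.lim (i1 B) x = c.2 := by rw [← hc x hx]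
    rw [e1 x hx] at e2
    rw [eq_div_iff hp.ne']
    linarith
  · intro K hK ha ε hε
    obtain ⟨R, hR⟩ := B.pole1 K hK ha
    set T : ℝ := 1 + β11 / d + |(-β12 / d)| with hT
    have hT0 : 0 < T := by positivity
    obtain ⟨k, h1, h2, h3, h4⟩ := (hR.and ((B.ev_sub R).and
      ((B.unif (i1 B) hK ha (div_pos hε hT0)).and (B.unif (i2 B) hK ha (div_pos hε hT0))))).exists
    refine ⟨B.g k, fun x hx => h2 (h1 x hx), B.s k, u1 (B.g k • B.x0), u2 (B.g k • B.x0),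
      B.s_pos k, fun x hx => ?_⟩
    have e1 := h3 x hx
    have e2 := h4 x hx
    rw [B.bl_apply] at e1 e2
    have e3 : ε / T ≤ ε := by
      rw [div_le_iff₀ hT0]
      have : 1 ≤ T := by
        have := abs_nonneg (-β12 / d)
        linarith
      nlinarith
    refine ⟨e1.trans e3, ?_⟩
    have e4 : β11 / d * (B.s k * (u2 (B.g k • x) - u2 (B.g k • B.x0))) +
        -β12 / d * (B.s k * (u1 (B.g k • x) - u1 (B.g k • B.x0))) -
        (β11 / d * B.lim (i2 B) x + -β12 / d * B.lim (i1 B) x) =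
        β11 / d * (B.s k * (u2 (B.g k • x) - u2 (B.g k • B.x0)) - B.lim (i2 B) x) +
        -β12 / d * (B.s k * (u1 (B.g k • x) - u1 (B.g k • B.x0)) - B.lim (i1 B) x) := by ring
    simp only
    rw [e4]
    refine (abs_add_le _ _).trans ?_
    rw [abs_mul, abs_mul, abs_of_pos hp]
    calc β11 / d * _ + |(-β12 / d)| * _ ≤ β11 / d * (ε / T) + |(-β12 / d)| * (ε / T) := by
          gcongr
      _ ≤ T * (ε / T) := by
          rw [← add_mul]
          refine mul_le_mul_of_nonneg_right (by linarith) (by positivity)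
      _ = ε := by field_simp

end Crest.Agent.R193.D56_Pair
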