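import Crest.Agent.R193.D56_Geo
import Crest.Agent.R193.D56_Area

/-!
# R193, block D5: selection of a typical tile
-/

set_option autoImplicit false

noncomputable section

open Set Filter Topology MeasureTheory

namespace Crest.Agent.R193.D56_Sel

open Crest.Agent.R193 Crest.Agent.R193.D56_Basic Crest.Agent.R193.D56_Atom
  Crest.Agent.R193.D56_Dens Crest.Agent.R193.D56_Geo

variable {G Z : Type} [Group G] [MetricSpace Z] [MulAction G Z] {S : Setup G Z} (Q : DForm S)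
variable (𝒢 : Geo G Z)

/-- scale invariant oscillation estimate on tiles -/
def OscGlob : Prop :=
  ∃ (C : ℝ) (R1 n0 : ℕ), 0 < C ∧ ∀ n ≥ n0, ∀ g ∈ 𝒢.lev n, ∀ u ∈ Q.Dom, MonoOn u (𝒢.Sh R1 g) →
    ∀ φ : C(Z, ℝ), (∀ y, 0 ≤ φ y) → (∀ y ∈ 𝒢.Sh R1 g, φ y = 1) →
      ∀ y ∈ 𝒢.Sh 0 g, ∀ z ∈ 𝒢.Sh 0 g, (u y - u z) ^ 2 ≤ C * Q.Γ u u φ

theorem MonoOn.mono {u : Z → ℝ} {O O' : Set Z} (h : MonoOn u O) (hO : O' ⊆ O) : MonoOn u O' :=
  fun D h1 h2 h3 => h D h1 h2 (h3.trans hO)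

variable {Q 𝒢}

/-- the functional `φ ↦ Γ(u,v)(φ)` -/
def lin (u v : C(Z, ℝ)) (hu : u ∈ Q.Dom) (hv : v ∈ Q.Dom) : C(Z, ℝ) →ₗ[ℝ] ℝ where
  toFun := Q.Γ u v
  map_add' := Q.add_test u hu v hv
  map_smul' := fun c φ => by simpa using Q.smul_test c u hu v hv φ

@[simp] theorem lin_apply {u v : C(Z, ℝ)} (hu : u ∈ Q.Dom) (hv : v ∈ Q.Dom) (φ : C(Z, ℝ)) :
    lin u v hu hv φ = Q.Γ u v φ := rfl

theorem gram_det {u v : C(Z, ℝ)} (hu : u ∈ Q.Dom) (hv : v ∈ Q.Dom) {φ : C(Z, ℝ)}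
    (hφ : ∀ x, 0 ≤ φ x) : 0 ≤ Q.Γ u u φ * Q.Γ v v φ - (Q.Γ u v φ) ^ 2 := by
  have key : ∀ s t : ℝ, 0 ≤ s ^ 2 * Q.Γ u u φ + 2 * s * t * Q.Γ u v φ + t ^ 2 * Q.Γ v v φ := by
    intro s t
    have hsu := Q.smul_mem s _ hu
    have htv := Q.smul_mem t _ hv
    have := Q.nonneg _ (Q.add_mem _ hsu _ htv) φ hφ
    rw [Q.add_left _ hsu _ htv _ (Q.add_mem _ hsu _ htv), add_right hsu hsu htv,
      add_right htv hsu htv, Q.smul_left _ _ hu _ hsu, Q.smul_left _ _ hu _ htv,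
      Q.smul_left _ _ hv _ hsu, Q.smul_left _ _ hv _ htv, smul_right hu hu, smul_right hu hv,
      smul_right hv hu, smul_right hv hv, Q.symm _ hv _ hu] at this
    linarith
  have hf := Q.nonneg u hu φ hφ
  have hg := Q.nonneg v hv φ hφ
  by_contra hcon
  push Not at hcon
  rcases hg.eq_or_lt with h0 | h0
  · rw [← h0] at key hcon
    rw [mul_zero, zero_sub] at hcon
    have hne : Q.Γ u v φ ≠ 0 := by
      intro h; rw [h] at hcon; simp at hcon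
    have := key 1 (-(Q.Γ u u φ + 1) / (2 * Q.Γ u v φ))
    have e : 2 * 1 * (-(Q.Γ u u φ + 1) / (2 * Q.Γ u v φ)) * Q.Γ u v φ = -(Q.Γ u u φ + 1) := by
      field_simp
    rw [e] at this
    linarith
  · have := key (Q.Γ v v φ) (-(Q.Γ u v φ))
    nlinarith

theorem quad {u v : C(Z, ℝ)} (hu : u ∈ Q.Dom) (hv : v ∈ Q.Dom) (s t : ℝ) (φ : C(Z, ℝ)) :
    Q.Γ (s • u + t • v) (s • u + t • v) φ =
      s ^ 2 * Q.Γ u u φ + 2 * s * t * Q.Γ u v φ + t ^ 2 * Q.Γ v v φ := by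
  have hsu := Q.smul_mem s _ hu
  have htv := Q.smul_mem t _ hv
  rw [Q.add_left _ hsu _ htv _ (Q.add_mem _ hsu _ htv), add_right hsu hsu htv,
    add_right htv hsu htv, Q.smul_left _ _ hu _ hsu, Q.smul_left _ _ hu _ htv,
    Q.smul_left _ _ hv _ hsu, Q.smul_left _ _ hv _ htv, smul_right hu hu, smul_right hu hv,
    smul_right hv hu, smul_right hv hv, Q.symm _ hv _ hu]
  ring

variable [CompactSpace Z]

/-- what we want of a typical tile -/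
structure Typical (Q : DForm S) (𝒢 : Geo G Z) (u1 u2 : C(Z, ℝ)) (O : Set Z) (R1 : ℕ) (θ : ℝ)
    (K : ℕ → ℝ) (k : ℕ) (g : G) (m b11 b12 b22 : ℝ) : Prop where
  sub : 𝒢.Sh k g ⊆ O
  pos : 0 < m
  mass : m = Q.Γ u1 u1 (bump 𝒢 R1 g) + Q.Γ u2 u2 (bump 𝒢 R1 g)
  det : (θ * m) ^ 2 ≤ Q.Γ u1 u1 (bump 𝒢 R1 g) * Q.Γ u2 u2 (bump 𝒢 R1 g) -
    (Q.Γ u1 u2 (bump 𝒢 R1 g)) ^ 2
  dbl : ∀ R ≤ k, Q.Γ u1 u1 (bump 𝒢 R g) + Q.Γ u2 u2 (bump 𝒢 R g) ≤ K R * m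
  dens : ∀ φ : C(Z, ℝ), (∀ y, |φ y| ≤ 1) → (∀ y, y ∉ 𝒢.Sh k g → φ y = 0) →
    |Q.Γ u1 u1 φ - b11 * (Q.Γ u1 u1 φ + Q.Γ u2 u2 φ)| ≤ m / (k + 1) ∧
    |Q.Γ u1 u2 φ - b12 * (Q.Γ u1 u1 φ + Q.Γ u2 u2 φ)| ≤ m / (k + 1) ∧
    |Q.Γ u2 u2 φ - b22 * (Q.Γ u1 u1 φ + Q.Γ u2 u2 φ)| ≤ m / (k + 1)
  harm : ∀ w ∈ Q.Dom, (∀ y, y ∉ 𝒢.Sh k g → w y = 0) → (∀ y, (w y) ^ 2 ≤ k * m) →
    Q.Γ w w 1 ≤ k * m → |Q.Γ w u1 1| ≤ m / (k + 1) ∧ |Q.Γ w u2 1| ≤ m / (k + 1)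

theorem sh_mono {R R' : ℕ} (h : R ≤ R') (g : G) : 𝒢.Sh R g ⊆ 𝒢.Sh R' g := by
  induction h with
  | refl => exact Subset.rfl
  | step _ ih => exact ih.trans ((𝒢.sub _ g).trans interior_subset)

omit [CompactSpace Z] [MetricSpace Z] [MulAction G Z] [Group G] in
theorem sum_biUnion_le [DecidableEq G] (f : G → ℝ) (hf : ∀ g, 0 ≤ f g) (s : Finset ℕ)
    (t : ℕ → Finset G) : ∑ g ∈ s.biUnion t, f g ≤ ∑ i ∈ s, ∑ g ∈ t i, f g := by
  induction s using Finset.induction_on with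
  | empty => simp
  | insert i s hi ih =>
    rw [Finset.biUnion_insert, Finset.sum_insert hi]
    have h1 := Finset.sum_union_inter (s₁ := t i) (s₂ := s.biUnion t) (f := f)
    have h3 : 0 ≤ ∑ g ∈ t i ∩ s.biUnion t, f g := Finset.sum_nonneg (fun g _ => hf g)
    linarith

theorem select (hosc : OscGlob Q 𝒢) {u1 u2 : C(Z, ℝ)} (h1 : u1 ∈ Q.Dom) (h2 : u2 ∈ Q.Dom)
    {O X : Set Z} (hO : IsOpen O) (hX : IsCompact X) (hXO : X ⊆ O)
    (hmono : ∀ a b : ℝ, MonoOn (fun x => a * u1 x + b * u2 x) O)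
    (hvol : volume ((fun x => (u1 x, u2 x)) '' X) ≠ 0) :
    ∃ (R1 : ℕ) (θ : ℝ) (K : ℕ → ℝ), 0 < θ ∧ ∀ k : ℕ, ∃ n ≥ k, ∃ g ∈ 𝒢.lev n, ∃ m b11 b12 b22 : ℝ,
      Typical Q 𝒢 u1 u2 O R1 θ K k g m b11 b12 b22 := by
  classical
  obtain ⟨C, R1, nO, hC, hosc⟩ := hosc
  set ν : C(Z, ℝ) →ₗ[ℝ] ℝ := lin u1 u1 h1 h1 + lin u2 u2 h2 h2 with hν
  have hνa : ∀ φ, ν φ = Q.Γ u1 u1 φ + Q.Γ u2 u2 φ := fun φ => rfl
  have hνp : ∀ φ : C(Z, ℝ), (∀ x, 0 ≤ φ x) → 0 ≤ ν φ := fun φ hφ =>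
    add_nonneg (Q.nonneg u1 h1 φ hφ) (Q.nonneg u2 h2 φ hφ)
  set M : ℕ → G → ℝ := fun _ g => ν (bump 𝒢 R1 g) with hM
  have hM0 : ∀ n g, 0 ≤ M n g := fun n g => hνp _ (bump_nonneg 𝒢 R1 g)
  set T : ℝ := 𝒢.val (R1 + 1) * ν 1 with hT
  have hTn : ∀ n, ∑ g ∈ 𝒢.lev n, M n g ≤ T := fun n => sum_mass 𝒢 ν hνp R1 n
  have hν1 : 0 ≤ ν 1 := hνp 1 (fun x => zero_le_one)
  have hT0 : 0 ≤ T := mul_nonneg (Nat.cast_nonneg _) hν1
  -- the constant c1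
  set V := volume ((fun x => (u1 x, u2 x)) '' X) with hV
  obtain ⟨c1, hc1, hc1V⟩ : ∃ c1 > 0, ENNReal.ofReal (4 * C * c1) ≤ V := by
    have hmin : min V 1 ≠ ⊤ := ne_of_lt (lt_of_le_of_lt (min_le_right _ _) ENNReal.one_lt_top)
    have hmin0 : min V 1 ≠ 0 := by
      intro h
      rcases min_choice V 1 with h' | h'
      · exact hvol (h' ▸ h)
      · rw [h'] at h; exact one_ne_zero h
    have hpos : 0 < (min V 1).toReal := ENNReal.toReal_pos hmin0 hmin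
    refine ⟨(min V 1).toReal / (4 * C), by positivity, ?_⟩
    have : 4 * C * ((min V 1).toReal / (4 * C)) = (min V 1).toReal := by field_simp
    rw [this, ENNReal.ofReal_toReal hmin]
    exact min_le_left _ _
  set θ : ℝ := c1 / (2 * T + 1) with hθ
  have hθ0 : 0 < θ := by positivity
  have hθT : θ * T ≤ c1 / 2 := by
    rw [hθ, div_mul_eq_mul_div, div_le_iff₀ (by positivity)]
    nlinarith
  set TR : ℕ → ℝ := fun R => 𝒢.val (R + 1) * ν 1 with hTR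
  have hTR0 : ∀ R, 0 ≤ TR R := fun R => mul_nonneg (Nat.cast_nonneg _) hν1
  set K : ℕ → ℝ := fun R => 2 ^ (R + 3) * (TR R + 1) / c1 with hK
  have hK0 : ∀ R, 0 < K R := fun R => by
    have := hTR0 R
    simp only [hK]; positivity
  refine ⟨R1, θ, K, hθ0, fun k => ?_⟩
  -- thickening: tiles meeting X have their k-shadows inside O
  obtain ⟨r, hr, hrO⟩ := hX.exists_thickening_subset_open hO hXO
  set R2 := max k R1 with hR2
  obtain ⟨n1, hn1⟩ := 𝒢.small R2 (r / 2) (by positivity)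
  -- small masses
  have hsm : ∀ ε > 0, ∃ n0, ∀ n ≥ n0, ∀ g ∈ 𝒢.lev n, M n g ≤ ε := by
    intro ε hε
    obtain ⟨ρ1, hρ1, ha1⟩ := no_atom_unif (Q := Q) h1 (half_pos hε)
    obtain ⟨ρ2, hρ2, ha2⟩ := no_atom_unif (Q := Q) h2 (half_pos hε)
    obtain ⟨n0, hn0⟩ := 𝒢.small (R1 + 1) (min ρ1 ρ2 / 2) (by positivity)
    refine ⟨n0, fun n hn g hg => ?_⟩
    have hmin : 0 < min ρ1 ρ2 := lt_min hρ1 hρ2
    rcases (𝒢.Sh (R1 + 1) g).eq_empty_or_nonempty with he | ⟨x0, hx0⟩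
    · have : bump 𝒢 R1 g = 0 := by
        ext y; exact bump_zero 𝒢 (by rw [he]; exact Set.notMem_empty y)
      simp only [hM, this, map_zero]; exact hε.le
    · have e1 := ha1 x0 (bump 𝒢 R1 g) (fun y => ⟨bump_nonneg 𝒢 R1 g y, bump_le_one 𝒢 R1 g y⟩)
        (fun y hy => bump_zero 𝒢 (fun hc => by
          have := hn0 n hn g hg y hc x0 hx0
          have := min_le_left ρ1 ρ2
          linarith))
      have e2 := ha2 x0 (bump 𝒢 R1 g) (fun y => ⟨bump_nonneg 𝒢 R1 g y, bump_le_one 𝒢 R1 g y⟩)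
        (fun y hy => bump_zero 𝒢 (fun hc => by
          have := hn0 n hn g hg y hc x0 hx0
          have := min_le_right ρ1 ρ2
          linarith))
      simp only [hM, hνa]
      linarith
  -- base points
  obtain ⟨xx, hxx⟩ : ∃ xx : G → Z, ∀ g, (𝒢.Sh k g).Nonempty → xx g ∈ 𝒢.Sh k g := by
    have hne : Nonempty Z := by
      by_contra hc
      rw [not_nonempty_iff] at hc
      apply hvol
      rw [hV, show X = ∅ from Set.eq_empty_of_isEmpty X]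
      simp
    refine ⟨fun g => if h : (𝒢.Sh k g).Nonempty then h.some else hne.some, fun g h => ?_⟩
    simp only [h, dif_pos]
    exact h.some_mem
  -- constant densities
  have hℓ : ∀ {v w : C(Z, ℝ)} (hv : v ∈ Q.Dom) (hw : w ∈ Q.Dom), (v = u1 ∨ v = u2) →
      (w = u1 ∨ w = u2) → ∀ φ, |lin v w hv hw φ| ≤ ν |φ| := by
    intro v w hv hw hv' hw' φ
    have h3 := cs hv hw φ
    have hp : ∀ x, 0 ≤ (|φ| : C(Z, ℝ)) x := fun x => abs_nonneg _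
    have e1 := Q.nonneg u1 h1 |φ| hp
    have e2 := Q.nonneg u2 h2 |φ| hp
    rw [lin_apply, hνa]
    rcases hv' with rfl | rfl <;> rcases hw' with rfl | rfl <;> linarith
  have hδ : (0 : ℝ) < 1 / (k + 1) := by positivity
  obtain ⟨b11, na, hna⟩ := badc 𝒢 ν (lin u1 u1 h1 h1) hνp (hℓ h1 h1 (Or.inl rfl) (Or.inl rfl)) M k xx
    hxx hδ (show 0 < c1 / 16 by positivity)
  obtain ⟨b12, nb, hnb⟩ := badc 𝒢 ν (lin u1 u2 h1 h2) hνp (hℓ h1 h2 (Or.inl rfl) (Or.inr rfl)) M k xx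
    hxx hδ (show 0 < c1 / 16 by positivity)
  obtain ⟨b22, nc, hnc⟩ := badc 𝒢 ν (lin u2 u2 h2 h2) hνp (hℓ h2 h2 (Or.inr rfl) (Or.inr rfl)) M k xx
    hxx hδ (show 0 < c1 / 16 by positivity)
  obtain ⟨nd, hnd⟩ := badd (Q := Q) 𝒢 h1 M hM0 hTn hsm k (Nat.cast_nonneg k) hδ
    (show 0 < c1 / 16 by positivity)
  obtain ⟨ne, hne⟩ := badd (Q := Q) 𝒢 h2 M hM0 hTn hsm k (Nat.cast_nonneg k) hδ
    (show 0 < c1 / 16 by positivity)
  set n := max k (max nO (max n1 (max na (max nb (max nc (max nd ne)))))) with hn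
  have hnk : n ≥ k := le_max_left _ _
  have hnO : n ≥ nO := by omega
  have hnn1 : n ≥ n1 := by omega
  have hnna : n ≥ na := by omega
  have hnnb : n ≥ nb := by omega
  have hnnc : n ≥ nc := by omega
  have hnnd : n ≥ nd := by omega
  have hnne : n ≥ ne := by omega
  refine ⟨n, hnk, ?_⟩
  -- tiles meeting X
  set A : Finset G := (𝒢.lev n).filter (fun g => (𝒢.Sh 0 g ∩ X).Nonempty) with hA
  have hAl : A ⊆ 𝒢.lev n := Finset.filter_subset _ _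
  have hAO : ∀ g ∈ A, 𝒢.Sh R2 g ⊆ O := by
    intro g hg y hy
    obtain ⟨hg1, x, hx1, hx2⟩ := Finset.mem_filter.1 hg
    refine hrO (Metric.mem_thickening_iff.2 ⟨x, hx2, ?_⟩)
    have := hn1 n hnn1 g hg1 y hy x (sh_mono (Nat.zero_le _) g hx1)
    linarith
  set D : G → ℝ := fun g => Q.Γ u1 u1 (bump 𝒢 R1 g) * Q.Γ u2 u2 (bump 𝒢 R1 g) -
    (Q.Γ u1 u2 (bump 𝒢 R1 g)) ^ 2 with hD
  have hD0 : ∀ g, 0 ≤ D g := fun g => gram_det h1 h2 (bump_nonneg 𝒢 R1 g)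
  -- area of tiles
  have htile : ∀ g ∈ A, volume ((fun x => (u1 x, u2 x)) '' 𝒢.Sh 0 g) ≤
      ENNReal.ofReal (4 * C * Real.sqrt (D g)) := by
    intro g hg
    refine D56_Area.tile u1 u2 (𝒢.Sh 0 g) hC.le (Q.nonneg u1 h1 _ (bump_nonneg 𝒢 R1 g)) (hD0 g)
      (fun α β y hy z hz => ?_)
    have hu : α • u1 + β • u2 ∈ Q.Dom := Q.add_mem _ (Q.smul_mem _ _ h1) _ (Q.smul_mem _ _ h2)
    have hmo : MonoOn (⇑(α • u1 + β • u2)) (𝒢.Sh R1 g) :=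
      MonoOn.mono (hmono α β) ((sh_mono (le_max_right k R1) g).trans (hAO g hg))
    have := hosc n hnO g (hAl hg) _ hu hmo (bump 𝒢 R1 g) (bump_nonneg 𝒢 R1 g)
      (fun y hy => bump_one 𝒢 hy) y hy z hz
    rw [quad h1 h2] at this
    simpa using this
  have hcov : (fun x => (u1 x, u2 x)) '' X ⊆ ⋃ g ∈ A, (fun x => (u1 x, u2 x)) '' 𝒢.Sh 0 g := by
    rintro p ⟨x, hx, rfl⟩
    obtain ⟨g, hg, hxg⟩ := 𝒢.cover n x
    simp only [mem_iUnion]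
    exact ⟨g, Finset.mem_filter.2 ⟨hg, ⟨x, hxg, hx⟩⟩, ⟨x, hxg, rfl⟩⟩
  have hsum : c1 ≤ ∑ g ∈ A, Real.sqrt (D g) := by
    have e1 : V ≤ ENNReal.ofReal (4 * C * ∑ g ∈ A, Real.sqrt (D g)) := by
      calc V ≤ volume (⋃ g ∈ A, (fun x => (u1 x, u2 x)) '' 𝒢.Sh 0 g) := measure_mono hcov
        _ ≤ ∑ g ∈ A, volume ((fun x => (u1 x, u2 x)) '' 𝒢.Sh 0 g) := measure_biUnion_finset_le _ _
        _ ≤ ∑ g ∈ A, ENNReal.ofReal (4 * C * Real.sqrt (D g)) := Finset.sum_le_sum htile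
        _ = ENNReal.ofReal (∑ g ∈ A, 4 * C * Real.sqrt (D g)) :=
            (ENNReal.ofReal_sum_of_nonneg (fun g _ => by positivity)).symm
        _ = _ := by rw [Finset.mul_sum]
    have e2 := hc1V.trans e1
    have e3 : 0 ≤ 4 * C * ∑ g ∈ A, Real.sqrt (D g) :=
      mul_nonneg (by positivity) (Finset.sum_nonneg fun g _ => Real.sqrt_nonneg _)
    have e4 := (ENNReal.ofReal_le_ofReal_iff e3).1 e2
    exact le_of_mul_le_mul_left e4 (by positivity)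
  -- good determinant
  set B : Finset G := A.filter (fun g => θ * M n g < Real.sqrt (D g)) with hB
  have hBm : c1 ≤ ∑ g ∈ B, M n g := by
    have e1 : ∑ g ∈ A, Real.sqrt (D g) =
        ∑ g ∈ B, Real.sqrt (D g) + ∑ g ∈ A.filter (fun g => ¬ θ * M n g < Real.sqrt (D g)),
          Real.sqrt (D g) := (Finset.sum_filter_add_sum_filter_not A _ _).symm
    have e2 : ∑ g ∈ B, Real.sqrt (D g) ≤ ∑ g ∈ B, M n g / 2 := by
      refine Finset.sum_le_sum (fun g _ => ?_)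
      have h3 : D g ≤ (M n g / 2) ^ 2 := by
        simp only [hD, hM, hνa]
        nlinarith [sq_nonneg (Q.Γ u1 u1 (bump 𝒢 R1 g) - Q.Γ u2 u2 (bump 𝒢 R1 g)),
          sq_nonneg (Q.Γ u1 u2 (bump 𝒢 R1 g))]
      rw [← Real.sqrt_sq (show 0 ≤ M n g / 2 by have := hM0 n g; positivity)]
      exact Real.sqrt_le_sqrt h3
    have e3 : ∑ g ∈ A.filter (fun g => ¬ θ * M n g < Real.sqrt (D g)), Real.sqrt (D g) ≤
        θ * T := by
      calc ∑ g ∈ A.filter (fun g => ¬ θ * M n g < Real.sqrt (D g)), Real.sqrt (D g)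
          ≤ ∑ g ∈ A.filter (fun g => ¬ θ * M n g < Real.sqrt (D g)), θ * M n g :=
            Finset.sum_le_sum (fun g hg => not_lt.1 (Finset.mem_filter.1 hg).2)
        _ ≤ ∑ g ∈ 𝒢.lev n, θ * M n g := Finset.sum_le_sum_of_subset_of_nonneg
            ((Finset.filter_subset _ _).trans hAl) (fun g _ _ => mul_nonneg hθ0.le (hM0 n g))
        _ = θ * ∑ g ∈ 𝒢.lev n, M n g := (Finset.mul_sum _ _ _).symm
        _ ≤ θ * T := mul_le_mul_of_nonneg_left (hTn n) hθ0.le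
    rw [← Finset.sum_div] at e2
    linarith
  -- bad sets
  set B1 : ℕ → Finset G := fun R => B.filter (fun g => K R * M n g < ν (bump 𝒢 R g)) with hB1
  have hB1m : ∀ R, ∑ g ∈ B1 R, M n g ≤ c1 / 2 ^ (R + 3) := by
    intro R
    have e1 : K R * ∑ g ∈ B1 R, M n g ≤ TR R := by
      calc K R * ∑ g ∈ B1 R, M n g = ∑ g ∈ B1 R, K R * M n g := Finset.mul_sum _ _ _
        _ ≤ ∑ g ∈ B1 R, ν (bump 𝒢 R g) :=
            Finset.sum_le_sum (fun g hg => (Finset.mem_filter.1 hg).2.le)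
        _ ≤ ∑ g ∈ 𝒢.lev n, ν (bump 𝒢 R g) := Finset.sum_le_sum_of_subset_of_nonneg
            (((Finset.filter_subset _ _).trans (Finset.filter_subset _ _)).trans hAl)
            (fun g _ _ => hνp _ (bump_nonneg 𝒢 R g))
        _ ≤ TR R := sum_mass 𝒢 ν hνp R n
    have e2 := hTR0 R
    rw [le_div_iff₀ (by positivity)]
    have e3 : K R * c1 = 2 ^ (R + 3) * (TR R + 1) := by simp only [hK]; field_simp
    by_contra hcon
    push Not at hcon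
    have hs0 : 0 ≤ ∑ g ∈ B1 R, M n g := Finset.sum_nonneg (fun g _ => hM0 n g)
    have e4 : K R * c1 < K R * ((∑ g ∈ B1 R, M n g) * 2 ^ (R + 3)) :=
      mul_lt_mul_of_pos_left hcon (hK0 R)
    rw [e3] at e4
    have e5 : K R * ((∑ g ∈ B1 R, M n g) * 2 ^ (R + 3)) ≤ 2 ^ (R + 3) * TR R := by
      calc K R * ((∑ g ∈ B1 R, M n g) * 2 ^ (R + 3))
          = 2 ^ (R + 3) * (K R * ∑ g ∈ B1 R, M n g) := by ring
        _ ≤ 2 ^ (R + 3) * TR R := mul_le_mul_of_nonneg_left e1 (by positivity)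
    have e6 : (0 : ℝ) < 2 ^ (R + 3) := by positivity
    nlinarith
  set Ba : Finset G := B.filter (fun g => ∃ φ : C(Z, ℝ), (∀ y, |φ y| ≤ 1) ∧
    (∀ y, y ∉ 𝒢.Sh k g → φ y = 0) ∧
    1 / (k + 1) * M n g < |lin u1 u1 h1 h1 φ - b11 (xx g) * ν φ|) with hBa
  set Bb : Finset G := B.filter (fun g => ∃ φ : C(Z, ℝ), (∀ y, |φ y| ≤ 1) ∧
    (∀ y, y ∉ 𝒢.Sh k g → φ y = 0) ∧
    1 / (k + 1) * M n g < |lin u1 u2 h1 h2 φ - b12 (xx g) * ν φ|) with hBb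
  set Bc : Finset G := B.filter (fun g => ∃ φ : C(Z, ℝ), (∀ y, |φ y| ≤ 1) ∧
    (∀ y, y ∉ 𝒢.Sh k g → φ y = 0) ∧
    1 / (k + 1) * M n g < |lin u2 u2 h2 h2 φ - b22 (xx g) * ν φ|) with hBc
  set Bd : Finset G := B.filter (fun g => ∃ w ∈ Q.Dom, (∀ y, y ∉ 𝒢.Sh k g → w y = 0) ∧
    (∀ y, (w y) ^ 2 ≤ k * M n g) ∧ Q.Γ w w 1 ≤ k * M n g ∧
    1 / (k + 1) * M n g < |Q.Γ w u1 1|) with hBd
  set Be : Finset G := B.filter (fun g => ∃ w ∈ Q.Dom, (∀ y, y ∉ 𝒢.Sh k g → w y = 0) ∧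
    (∀ y, (w y) ^ 2 ≤ k * M n g) ∧ Q.Γ w w 1 ≤ k * M n g ∧
    1 / (k + 1) * M n g < |Q.Γ w u2 1|) with hBe
  have hBl : B ⊆ 𝒢.lev n := (Finset.filter_subset _ _).trans hAl
  have hBam : ∑ g ∈ Ba, M n g ≤ c1 / 16 := hna n hnna Ba ((Finset.filter_subset _ _).trans hBl)
    (fun g hg => (Finset.mem_filter.1 hg).2)
  have hBbm : ∑ g ∈ Bb, M n g ≤ c1 / 16 := hnb n hnnb Bb ((Finset.filter_subset _ _).trans hBl)
    (fun g hg => (Finset.mem_filter.1 hg).2)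
  have hBcm : ∑ g ∈ Bc, M n g ≤ c1 / 16 := hnc n hnnc Bc ((Finset.filter_subset _ _).trans hBl)
    (fun g hg => (Finset.mem_filter.1 hg).2)
  have hBdm : ∑ g ∈ Bd, M n g ≤ c1 / 16 := hnd n hnnd Bd ((Finset.filter_subset _ _).trans hBl)
    (fun g hg => (Finset.mem_filter.1 hg).2)
  have hBem : ∑ g ∈ Be, M n g ≤ c1 / 16 := hne n hnne Be ((Finset.filter_subset _ _).trans hBl)
    (fun g hg => (Finset.mem_filter.1 hg).2)
  set B0 : Finset G := (Finset.range (k + 1)).biUnion B1 with hB0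
  have hB0m : ∑ g ∈ B0, M n g ≤ c1 / 4 := by
    calc ∑ g ∈ B0, M n g ≤ ∑ R ∈ Finset.range (k + 1), ∑ g ∈ B1 R, M n g :=
          sum_biUnion_le (M n) (hM0 n) _ _
      _ ≤ ∑ R ∈ Finset.range (k + 1), c1 / 2 ^ (R + 3) := Finset.sum_le_sum (fun R _ => hB1m R)
      _ = c1 / 8 * ∑ R ∈ Finset.range (k + 1), (1 / 2 : ℝ) ^ R := by
          rw [Finset.mul_sum]
          refine Finset.sum_congr rfl (fun R _ => ?_)
          rw [pow_add, one_div, inv_pow]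
          field_simp
          norm_num
      _ ≤ c1 / 8 * 2 := by
          refine mul_le_mul_of_nonneg_left ?_ (by positivity)
          exact sum_geometric_two_le (k + 1)
      _ = c1 / 4 := by ring
  -- existence of a good tile
  have hex : ∃ g ∈ B, g ∉ B0 ∧ g ∉ Ba ∧ g ∉ Bb ∧ g ∉ Bc ∧ g ∉ Bd ∧ g ∉ Be := by
    by_contra hcon
    push Not at hcon
    have hsub : B ⊆ B0 ∪ (Ba ∪ (Bb ∪ (Bc ∪ (Bd ∪ Be)))) := by
      intro g hg
      simp only [Finset.mem_union]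
      by_contra hc
      push Not at hc
      exact hc.2.2.2.2.2 (hcon g hg hc.1 hc.2.1 hc.2.2.1 hc.2.2.2.1 hc.2.2.2.2.1)
    have hun : ∀ s t : Finset G, ∑ g ∈ s ∪ t, M n g ≤ ∑ g ∈ s, M n g + ∑ g ∈ t, M n g := by
      intro s t
      have := Finset.sum_union_inter (s₁ := s) (s₂ := t) (f := M n)
      have h3 : 0 ≤ ∑ g ∈ s ∩ t, M n g := Finset.sum_nonneg (fun g _ => hM0 n g)
      linarith
    have h3 : ∑ g ∈ B, M n g ≤ ∑ g ∈ B0 ∪ (Ba ∪ (Bb ∪ (Bc ∪ (Bd ∪ Be)))), M n g :=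
      Finset.sum_le_sum_of_subset_of_nonneg hsub (fun g _ _ => hM0 n g)
    have i1 := hun B0 (Ba ∪ (Bb ∪ (Bc ∪ (Bd ∪ Be))))
    have i2 := hun Ba (Bb ∪ (Bc ∪ (Bd ∪ Be)))
    have i3 := hun Bb (Bc ∪ (Bd ∪ Be))
    have i4 := hun Bc (Bd ∪ Be)
    have i5 := hun Bd Be
    linarith
  obtain ⟨g, hgB, hg0, hga, hgb, hgc, hgd, hge⟩ := hex
  have hgA : g ∈ A := (Finset.mem_filter.1 hgB).1
  have hgdet : θ * M n g < Real.sqrt (D g) := (Finset.mem_filter.1 hgB).2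
  have hmpos : 0 < M n g := by
    rcases (hM0 n g).eq_or_lt with h0 | h0
    · exfalso
      have e1 : D g ≤ 0 := by
        have h3 : D g ≤ (M n g / 2) ^ 2 := by
          simp only [hD, hM, hνa]
          nlinarith [sq_nonneg (Q.Γ u1 u1 (bump 𝒢 R1 g) - Q.Γ u2 u2 (bump 𝒢 R1 g)),
            sq_nonneg (Q.Γ u1 u2 (bump 𝒢 R1 g))]
        rw [← h0] at h3
        simpa using h3
      rw [← h0, Real.sqrt_eq_zero_of_nonpos e1] at hgdet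
      simp at hgdet
    · exact h0
  have hk1 : (0 : ℝ) < (k : ℝ) + 1 := by positivity
  refine ⟨g, hAl hgA, M n g, b11 (xx g), b12 (xx g), b22 (xx g), ?_⟩
  refine ⟨(sh_mono (le_max_left k R1) g).trans (hAO g hgA), hmpos, rfl, ?_, ?_, ?_, ?_⟩
  · have h3 : 0 ≤ θ * M n g := by positivity
    have h4 := pow_le_pow_left₀ h3 hgdet.le 2
    rwa [Real.sq_sqrt (hD0 g)] at h4
  · intro R hR
    by_contra hcon
    push Not at hcon
    refine hg0 (Finset.mem_biUnion.2 ⟨R, Finset.mem_range.2 (by omega), ?_⟩)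
    exact Finset.mem_filter.2 ⟨hgB, hcon⟩
  · intro φ hφ1 hφ0
    refine ⟨?_, ?_, ?_⟩
    · by_contra hcon
      push Not at hcon
      refine hga (Finset.mem_filter.2 ⟨hgB, φ, hφ1, hφ0, ?_⟩)
      rw [one_div, inv_mul_eq_div]; exact hcon
    · by_contra hcon
      push Not at hcon
      refine hgb (Finset.mem_filter.2 ⟨hgB, φ, hφ1, hφ0, ?_⟩)
      rw [one_div, inv_mul_eq_div]; exact hcon
    · by_contra hcon
      push Not at hcon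
      refine hgc (Finset.mem_filter.2 ⟨hgB, φ, hφ1, hφ0, ?_⟩)
      rw [one_div, inv_mul_eq_div]; exact hcon
  · intro w hwD hw0 hw1 hwE
    refine ⟨?_, ?_⟩
    · by_contra hcon
      push Not at hcon
      refine hgd (Finset.mem_filter.2 ⟨hgB, w, hwD, hw0, hw1, hwE, ?_⟩)
      rw [one_div, inv_mul_eq_div]; exact hcon
    · by_contra hcon
      push Not at hcon
      refine hge (Finset.mem_filter.2 ⟨hgB, w, hwD, hw0, hw1, hwE, ?_⟩)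
      rw [one_div, inv_mul_eq_div]; exact hcon

end Crest.Agent.R193.D56_Sel
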