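import Mathlib

/-!
# R193, block D8 (c): holomorphic homeomorphisms of the Riemann sphere are Moebius maps

Author: helper997.
-/

set_option autoImplicit false

open Complex Filter Topology Set Metric Bornology OnePoint

namespace Crest.Agent.R193.D8

/-- An entire function with at most linear growth is affine. -/
lemma affine_of_linear_growth {H : ℂ → ℂ} (hH : Differentiable ℂ H) (z0 : ℂ) (C : ℝ)
    (hC : ∀ z, ‖H z‖ ≤ C * (1 + ‖z - z0‖)) : ∃ b : ℂ, ∀ z, H z = H z0 + b * (z - z0) := by
  have hC0 : 0 ≤ C := by
    have := hC z0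
    simp at this
    exact (norm_nonneg _).trans this
  have hK : Differentiable ℂ (dslope H z0) := by
    rw [← differentiableOn_univ, differentiableOn_dslope (univ_mem : univ ∈ 𝓝 z0)]
    exact hH.differentiableOn
  obtain ⟨M, hM⟩ := (isCompact_closedBall z0 1).exists_bound_of_continuousOn
    (hK.continuous.continuousOn)
  have hb : IsBounded (range (dslope H z0)) := by
    rw [isBounded_iff_forall_norm_le]
    refine ⟨max M (2 * C + ‖H z0‖), ?_⟩
    rintro _ ⟨z, rfl⟩
    by_cases hz : z ∈ closedBall z0 1
    · exact (hM z hz).trans (le_max_left _ _)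
    · refine le_trans ?_ (le_max_right _ _)
      rw [mem_closedBall, dist_eq_norm, not_le] at hz
      have hne : z ≠ z0 := by
        rintro rfl
        simp at hz
        linarith
      rw [dslope_of_ne _ hne, slope_def_field, norm_div, div_le_iff₀ (by linarith)]
      calc ‖H z - H z0‖ ≤ ‖H z‖ + ‖H z0‖ := norm_sub_le _ _
        _ ≤ C * (1 + ‖z - z0‖) + ‖H z0‖ := by linarith [hC z]
        _ ≤ (2 * C + ‖H z0‖) * ‖z - z0‖ := by nlinarith [norm_nonneg (H z0)]
  refine ⟨dslope H z0 z0, fun z => ?_⟩
  have h1 := hK.apply_eq_apply_of_bounded hb z z0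
  have h2 := sub_smul_dslope H z0 z
  rw [h1, smul_eq_mul] at h2
  linear_combination -h2

/-- An injective entire function tending to infinity is affine. -/
lemma affine_of_injective {f : ℂ → ℂ} (hf : Differentiable ℂ f) (hinj : Function.Injective f)
    (hinf : Tendsto f (cocompact ℂ) (cocompact ℂ)) : ∃ a b : ℂ, a ≠ 0 ∧ ∀ z, f z = a * z + b := by
  obtain ⟨z0, hz0⟩ : ∃ z0, deriv f z0 ≠ 0 := by
    by_contra hcon
    push Not at hcon
    have := is_const_of_deriv_eq_zero hf hcon 0 1
    exact zero_ne_one (hinj this)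
  have hg : Differentiable ℂ (dslope f z0) := by
    rw [← differentiableOn_univ, differentiableOn_dslope (univ_mem : univ ∈ 𝓝 z0)]
    exact hf.differentiableOn
  have hg0 : ∀ z, dslope f z0 z ≠ 0 := by
    intro z
    by_cases hz : z = z0
    · rw [hz, dslope_same]
      exact hz0
    · rw [dslope_of_ne _ hz, slope_def_field]
      exact div_ne_zero (sub_ne_zero.mpr (fun h => hz (hinj h))) (sub_ne_zero.mpr hz)
  set H : ℂ → ℂ := fun z => (dslope f z0 z)⁻¹ with hHdef
  have hH : Differentiable ℂ H := fun z => (hg z).inv (hg0 z)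
  -- growth
  have h1 : ∀ᶠ z in cocompact ℂ, 1 ≤ ‖f z - f z0‖ := by
    have h2 : ∀ᶠ w in cocompact ℂ, 1 ≤ ‖w - f z0‖ := by
      have h3 : Tendsto (fun w : ℂ => ‖w - f z0‖) (cocompact ℂ) atTop := by
        have h4 : Tendsto (fun w : ℂ => w - f z0) (cocompact ℂ) (cocompact ℂ) := by
          have := (Homeomorph.subRight (f z0)).isClosedEmbedding.tendsto_cocompact
          exact this
        exact (tendsto_norm_cocompact_atTop (E := ℂ)).comp h4
      exact h3.eventually (eventually_ge_atTop 1)
    exact hinf.eventually h2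
  rw [← cobounded_eq_cocompact] at h1
  obtain ⟨R, -, hR⟩ := (Metric.hasBasis_cobounded_compl_closedBall (0 : ℂ)).eventually_iff.mp h1
  obtain ⟨M, hM⟩ := (isCompact_closedBall (0 : ℂ) (max R 0)).exists_bound_of_continuousOn
    (hH.continuous.continuousOn)
  have hgrow : ∀ z, ‖H z‖ ≤ max M 1 * (1 + ‖z - z0‖) := by
    intro z
    have hn : 0 ≤ ‖z - z0‖ := norm_nonneg _
    by_cases hz : z ∈ closedBall (0 : ℂ) (max R 0)
    · have h5 := hM z hz
      have h6 := le_max_left M 1
      have h7 := le_max_right M 1
      nlinarith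
    · rw [mem_closedBall, dist_zero_right, not_le] at hz
      have hzR : R < ‖z‖ := lt_of_le_of_lt (le_max_left _ _) hz
      have h5 : 1 ≤ ‖f z - f z0‖ := hR (by
        simp only [mem_compl_iff, mem_closedBall, dist_zero_right, not_le]
        exact hzR)
      have hne : z ≠ z0 := by
        rintro rfl
        simp at h5
        linarith
      have h6 : ‖H z‖ ≤ ‖z - z0‖ := by
        rw [hHdef]
        simp only
        rw [dslope_of_ne _ hne, slope_def_field, inv_div, norm_div, div_le_iff₀ (by linarith)]
        nlinarith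
      have h7 := le_max_right M 1
      nlinarith
  obtain ⟨b, hb⟩ := affine_of_linear_growth hH z0 _ hgrow
  have hb0 : b = 0 := by
    by_contra hb0
    have h2 := hb (z0 - H z0 / b)
    have h3 : H (z0 - H z0 / b) = 0 := by
      rw [h2]
      field_simp
      ring
    exact (inv_ne_zero (hg0 _)) h3
  have hconst : ∀ z, dslope f z0 z = dslope f z0 z0 := by
    intro z
    have h2 := hb z
    rw [hb0, zero_mul, add_zero] at h2
    exact inv_injective h2
  refine ⟨deriv f z0, f z0 - deriv f z0 * z0, hz0, fun z => ?_⟩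
  have h2 := sub_smul_dslope f z0 z
  rw [hconst, dslope_same, smul_eq_mul] at h2
  linear_combination -h2

/-- The two normal forms of a Moebius transformation of the Riemann sphere. -/
inductive MobForm (h : OnePoint ℂ → OnePoint ℂ) : Prop
  | aff (a b : ℂ) (ha : a ≠ 0) (h1 : h ∞ = ∞) (h2 : ∀ z : ℂ, h z = ((a * z + b : ℂ) : OnePoint ℂ))
  | inv (a b q : ℂ) (ha : a ≠ 0) (h1 : h ∞ = (q : OnePoint ℂ))
      (h2 : ∀ z : ℂ, a * z + b ≠ 0 → h z = ((q + (a * z + b)⁻¹ : ℂ) : OnePoint ℂ))
      (h3 : ∀ z : ℂ, a * z + b = 0 → h z = ∞)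

lemma cocompact_eq : coclosedCompact ℂ = cocompact ℂ := coclosedCompact_eq_cocompact

/-- A homeomorphism of the Riemann sphere which is holomorphic in the affine chart, off the
preimage of infinity, is a Moebius transformation. -/
theorem mob_of_holo (h : OnePoint ℂ ≃ₜ OnePoint ℂ) (f : ℂ → ℂ)
    (hf : ∀ z : ℂ, h z ≠ ∞ → h z = (f z : OnePoint ℂ))
    (hd : DifferentiableOn ℂ f {z : ℂ | h z ≠ ∞}) : MobForm h := by
  by_cases hinf : h ∞ = ∞
  · -- affine case
    have hne : ∀ z : ℂ, h z ≠ ∞ := by
      intro z hz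
      have : ((z : OnePoint ℂ)) = ∞ := h.injective (hz.trans hinf.symm)
      exact coe_ne_infty z this
    have hU : {z : ℂ | h z ≠ ∞} = univ := by
      ext z
      simp [hne z]
    rw [hU, differentiableOn_univ] at hd
    have hinj : Function.Injective f := by
      intro z w hzw
      have : h z = h w := by rw [hf z (hne z), hf w (hne w), hzw]
      exact coe_injective (h.injective this)
    have ht : Tendsto f (cocompact ℂ) (cocompact ℂ) := by
      have h1 : Tendsto (fun z : ℂ => h (z : OnePoint ℂ)) (coclosedCompact ℂ) (𝓝 (h ∞)) :=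
        (h.continuous.tendsto ∞).comp tendsto_coe_infty
      rw [hinf] at h1
      have h2 : Tendsto (fun z : ℂ => ((f z : ℂ) : OnePoint ℂ)) (coclosedCompact ℂ) (𝓝 ∞) :=
        h1.congr (fun z => hf z (hne z))
      rw [← cocompact_eq]
      conv_rhs => rw [← comap_coe_nhds_infty]
      exact tendsto_comap_iff.mpr h2
    obtain ⟨a, b, ha, hab⟩ := affine_of_injective hd hinj ht
    exact MobForm.aff a b ha hinf (fun z => by rw [hf z (hne z), hab z])
  · obtain ⟨q, hq⟩ := ne_infty_iff_exists.mp hinf
    have hp' : h.symm ∞ ≠ ∞ := by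
      intro hcon
      apply hinf
      rw [← hcon, h.apply_symm_apply]
      exact hcon.symm ▸ rfl
    obtain ⟨p, hp⟩ := ne_infty_iff_exists.mp hp'
    have hhp : h (p : OnePoint ℂ) = ∞ := by rw [hp, h.apply_symm_apply]
    have hne : ∀ z : ℂ, z ≠ p → h z ≠ ∞ := by
      intro z hz hcon
      exact hz (coe_injective (h.injective (hcon.trans hhp.symm)))
    have hU : {z : ℂ | h z ≠ ∞} = {p}ᶜ := by
      ext z
      simp only [mem_ofPred_eq, mem_compl_iff, mem_singleton_iff]
      exact ⟨fun h1 h2 => h1 (by rw [h2, hhp]), fun h1 => hne z h1⟩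
    rw [hU] at hd
    have hfq : ∀ z : ℂ, z ≠ p → f z ≠ q := by
      intro z hz hcon
      have h1 : h z = h ∞ := by rw [hf z (hne z hz), hcon, hq]
      exact coe_ne_infty z (h.injective h1)
    have hcp : IsClosed ({p} : Set ℂ) := isClosed_singleton
    have hpop : IsOpen ({p}ᶜ : Set ℂ) := hcp.isOpen_compl
    set k : ℂ → ℂ := fun z => if z = p then 0 else (f z - q)⁻¹ with hk
    have hkp : k p = 0 := by simp [hk]
    have hkne : ∀ z, z ≠ p → k z = (f z - q)⁻¹ := fun z hz => by simp [hk, hz]
    -- differentiable off p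
    have hkd : DifferentiableOn ℂ k {p}ᶜ := by
      have : DifferentiableOn ℂ (fun z => (f z - q)⁻¹) {p}ᶜ :=
        (hd.sub_const q).inv (fun z hz => sub_ne_zero.mpr (hfq z hz))
      exact this.congr (fun z hz => hkne z hz)
    -- continuity at p
    have hfp : Tendsto f (𝓝[≠] p) (cocompact ℂ) := by
      have h1 : Tendsto (fun z : ℂ => h (z : OnePoint ℂ)) (𝓝[≠] p) (𝓝 ∞) := by
        have h2 : Tendsto (fun z : ℂ => h (z : OnePoint ℂ)) (𝓝 p) (𝓝 (h p)) :=
          (h.continuous.comp continuous_coe).tendsto p
        rw [hhp] at h2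
        exact h2.mono_left nhdsWithin_le_nhds
      have h3 : Tendsto (fun z : ℂ => ((f z : ℂ) : OnePoint ℂ)) (𝓝[≠] p) (𝓝 ∞) := by
        refine h1.congr' ?_
        filter_upwards [self_mem_nhdsWithin] with z hz using hf z (hne z hz)
      rw [← cocompact_eq, ← comap_coe_nhds_infty]
      exact tendsto_comap_iff.mpr h3
    have hsub : Tendsto (fun w : ℂ => w - q) (cocompact ℂ) (cocompact ℂ) :=
      (Homeomorph.subRight q).isClosedEmbedding.tendsto_cocompact
    have hkc : ContinuousAt k p := by
      rw [continuousAt_iff_punctured_nhds, hkp]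
      have h1 : Tendsto (fun z => (f z - q)⁻¹) (𝓝[≠] p) (𝓝 0) := by
        have h2 := hsub.comp hfp
        rw [← cobounded_eq_cocompact] at h2
        exact tendsto_inv₀_cobounded.comp h2
      refine h1.congr' ?_
      filter_upwards [self_mem_nhdsWithin] with z hz using (hkne z hz).symm
    have hkdiff : Differentiable ℂ k := by
      rw [← differentiableOn_univ, ← differentiableOn_compl_singleton_and_continuousAt_iff
        (univ_mem : univ ∈ 𝓝 p)]
      refine ⟨?_, hkc⟩
      rw [← compl_eq_univ_sdiff]
      exact hkd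
    have hkinj : Function.Injective k := by
      intro z w hzw
      by_cases hz : z = p
      · by_cases hw : w = p
        · rw [hz, hw]
        · rw [hz, hkp, hkne w hw] at hzw
          exact absurd hzw.symm (inv_ne_zero (sub_ne_zero.mpr (hfq w hw)))
      · by_cases hw : w = p
        · rw [hw, hkp, hkne z hz] at hzw
          exact absurd hzw (inv_ne_zero (sub_ne_zero.mpr (hfq z hz)))
        · rw [hkne z hz, hkne w hw] at hzw
          have h1 : f z = f w := by
            have := inv_injective hzw
            exact sub_left_injective this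
          have h2 : h z = h w := by rw [hf z (hne z hz), hf w (hne w hw), h1]
          exact coe_injective (h.injective h2)
    have hkinf : Tendsto k (cocompact ℂ) (cocompact ℂ) := by
      have h1 : Tendsto (fun z : ℂ => h (z : OnePoint ℂ)) (cocompact ℂ) (𝓝 (h ∞)) := by
        rw [← cocompact_eq]
        exact (h.continuous.tendsto ∞).comp tendsto_coe_infty
      rw [← hq] at h1
      have hnep : ∀ᶠ z in cocompact ℂ, z ≠ p := by
        have : ({p}ᶜ : Set ℂ) ∈ cocompact ℂ := (isCompact_singleton).compl_mem_cocompact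
        filter_upwards [this] with z hz using hz
      have h2 : Tendsto (fun z : ℂ => ((f z : ℂ) : OnePoint ℂ)) (cocompact ℂ) (𝓝 (q : OnePoint ℂ)) := by
        refine h1.congr' ?_
        filter_upwards [hnep] with z hz using hf z (hne z hz)
      have h3 : Tendsto f (cocompact ℂ) (𝓝 q) := by
        rw [← comap_coe_nhds]
        exact tendsto_comap_iff.mpr h2
      have h4 : Tendsto (fun z => f z - q) (cocompact ℂ) (𝓝[≠] 0) := by
        rw [tendsto_nhdsWithin_iff]
        refine ⟨?_, ?_⟩
        · have := h3.sub_const q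
          rwa [sub_self] at this
        · filter_upwards [hnep] with z hz using sub_ne_zero.mpr (hfq z hz)
      have h5 : Tendsto (fun z => (f z - q)⁻¹) (cocompact ℂ) (cocompact ℂ) := by
        rw [← cobounded_eq_cocompact]
        rw [← cobounded_eq_cocompact] at h4
        exact tendsto_inv₀_nhdsNE_zero.comp h4
      refine h5.congr' ?_
      filter_upwards [hnep] with z hz using (hkne z hz).symm
    obtain ⟨a, b, ha, hab⟩ := affine_of_injective hkdiff hkinj hkinf
    have hz0 : ∀ z, a * z + b = 0 ↔ z = p := by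
      intro z
      rw [← hab z]
      constructor
      · intro h1
        exact hkinj (h1.trans hkp.symm)
      · rintro rfl
        exact hkp
    refine MobForm.inv a b q ha hq.symm (fun z hz => ?_) (fun z hz => ?_)
    · have hzp : z ≠ p := fun h1 => hz ((hz0 z).mpr h1)
      rw [hf z (hne z hzp)]
      congr 1
      have h1 := hkne z hzp
      rw [hab z] at h1
      rw [h1, inv_inv]
      ring
    · rw [(hz0 z).mp hz, hhp]

end Crest.Agent.R193.D8
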