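import Crest.Agent.R097.HF2
import Crest.Agent.R193.D8_Mob

/-!
# R193, block D8 (a), (b): Weyl's lemma on `ℂ`, conformal harmonic maps

Author: helper997.
-/

set_option autoImplicit false

open Complex Filter Topology Set Metric Bornology InnerProductSpace MeasureTheory
open scoped Laplacian ContDiff ComplexConjugate

namespace Crest.Agent.R193.D8

lemma laplacian_comp_isometry {E F : Type*} [NormedAddCommGroup E] [InnerProductSpace ℝ E]
    [FiniteDimensional ℝ E] [NormedAddCommGroup F] [InnerProductSpace ℝ F]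
    [FiniteDimensional ℝ F] (e : E ≃ₗᵢ[ℝ] F) (f : F → ℝ) (x : E) :
    (Δ (f ∘ e)) x = (Δ f) (e x) := by
  set b := stdOrthonormalBasis ℝ E with hb
  rw [laplacian_eq_iteratedFDeriv_orthonormalBasis _ b,
    laplacian_eq_iteratedFDeriv_orthonormalBasis _ (b.map e)]
  simp only
  refine Finset.sum_congr rfl fun i _ => ?_
  have h1 := e.toContinuousLinearEquiv.iteratedFDerivWithin_comp_right f uniqueDiffOn_univ
    (x := x) (mem_univ _) 2
  simp only [preimage_univ, iteratedFDerivWithin_univ] at h1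
  have h2 : f ∘ e = f ∘ (e.toContinuousLinearEquiv : E → F) := rfl
  rw [h2, h1]
  simp only [ContinuousMultilinearMap.compContinuousLinearMap_apply, OrthonormalBasis.map_apply]
  congr 1
  ext j
  fin_cases j <;> rfl

/-- Weyl's lemma in the complex plane. -/
theorem weylC {U : Set ℂ} (hU : IsOpen U) {φ : ℂ → ℝ} (hφ : ContinuousOn φ U)
    (h : ∀ ψ : ℂ → ℝ, ContDiff ℝ ∞ ψ → HasCompactSupport ψ → tsupport ψ ⊆ U →
      ∫ z, φ z * (Δ ψ) z = 0) : HarmonicOnNhd φ U := by
  set e : ℂ ≃ₗᵢ[ℝ] EuclideanSpace ℝ (Fin 2) := Complex.orthonormalBasisOneI.repr with he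
  set V : Set (EuclideanSpace ℝ (Fin 2)) := e.symm ⁻¹' U with hV
  have hVo : IsOpen V := hU.preimage e.symm.continuous
  have hΦ : ContinuousOn (φ ∘ e.symm) V :=
    hφ.comp e.symm.continuous.continuousOn (fun x hx => hx)
  have key := Crest.Agent.R097.weyl_cont hVo hΦ (by
    intro χ hχ hχc hχs
    have h1 := h (χ ∘ e) (hχ.comp e.contDiff) (hχc.comp_homeomorph e.toHomeomorph) (by
      intro z hz
      have h2 : e z ∈ tsupport χ := by
        have := tsupport_comp_subset_preimage χ e.continuous hz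
        exact this
      have h3 := hχs h2
      rw [hV, mem_preimage, e.symm_apply_apply] at h3
      exact h3)
    have h2 : ∫ z, φ z * (Δ (χ ∘ e)) z = ∫ x, (φ ∘ e.symm) x * (Δ χ) x := by
      have hmp : MeasurePreserving e volume volume := e.measurePreserving
      rw [← hmp.integral_comp e.toHomeomorph.measurableEmbedding]
      congr 1
      ext z
      rw [laplacian_comp_isometry]
      simp
    rw [← h2, h1])
  obtain ⟨k1, k2⟩ := key
  have hlap : ∀ z ∈ U, (Δ φ) z = 0 := by
    intro z hz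
    have h1 : φ = (φ ∘ e.symm) ∘ e := by
      ext w
      simp
    rw [h1, laplacian_comp_isometry]
    apply k2
    rw [hV, mem_preimage, e.symm_apply_apply]
    exact hz
  intro z hz
  refine ⟨?_, ?_⟩
  · have h1 : φ = (φ ∘ e.symm) ∘ e := by
      ext w
      simp
    rw [h1]
    have h2 : ContDiffAt ℝ 2 (φ ∘ e.symm) (e z) := by
      have h3 := k1.contDiffAt (hVo.mem_nhds (by
        rw [hV, mem_preimage, e.symm_apply_apply]
        exact hz))
      exact contDiffAt_infty.mp h3 2
    exact h2.comp z e.contDiff.contDiffAt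
  · filter_upwards [hU.mem_nhds hz] with w hw using hlap w hw

lemma hasF {u v : ℂ → ℝ} {z : ℂ} (hu : DifferentiableAt ℝ u z) (hv : DifferentiableAt ℝ v z)
    (c : ℂ) : HasFDerivAt (𝕜 := ℝ) (fun z => (u z : ℂ) + c * (v z : ℂ))
      (ofRealCLM.comp (fderiv ℝ u z) + c • ofRealCLM.comp (fderiv ℝ v z)) z := by
  have h1 : HasFDerivAt (𝕜 := ℝ) (fun z => (u z : ℂ)) (ofRealCLM.comp (fderiv ℝ u z)) z :=
    ofRealCLM.hasFDerivAt.comp z hu.hasFDerivAt
  have h2 : HasFDerivAt (𝕜 := ℝ) (fun z => (v z : ℂ)) (ofRealCLM.comp (fderiv ℝ v z)) z :=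
    ofRealCLM.hasFDerivAt.comp z hv.hasFDerivAt
  exact h1.add (h2.const_smul c)

/-- A conformal harmonic map is holomorphic or antiholomorphic. -/
theorem holo_or_antiholo {U : Set ℂ} (hc : IsPreconnected U) {u v : ℂ → ℝ}
    (hu : HarmonicOnNhd u U) (hv : HarmonicOnNhd v U)
    (h1 : ∀ z ∈ U, fderiv ℝ u z 1 * fderiv ℝ v z 1 + fderiv ℝ u z I * fderiv ℝ v z I = 0)
    (h2 : ∀ z ∈ U, fderiv ℝ u z 1 ^ 2 + fderiv ℝ u z I ^ 2 =
      fderiv ℝ v z 1 ^ 2 + fderiv ℝ v z I ^ 2) :
    DifferentiableOn ℂ (fun z => (u z : ℂ) + v z * I) U ∨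
      DifferentiableOn ℂ (fun z => (u z : ℂ) - v z * I) U := by
  set a : ℂ → ℂ := fun z => fderiv ℝ u z 1 - I * fderiv ℝ u z I with ha
  set b : ℂ → ℂ := fun z => fderiv ℝ v z 1 - I * fderiv ℝ v z I with hb
  have haA : AnalyticOnNhd ℂ a U := fun z hz =>
    _root_.HarmonicAt.analyticAt_complex_partial (hu z hz)
  have hbA : AnalyticOnNhd ℂ b U := fun z hz =>
    _root_.HarmonicAt.analyticAt_complex_partial (hv z hz)
  have hud : ∀ z ∈ U, DifferentiableAt ℝ u z := fun z hz =>
    (hu z hz).1.differentiableAt (by norm_num)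
  have hvd : ∀ z ∈ U, DifferentiableAt ℝ v z := fun z hz =>
    (hv z hz).1.differentiableAt (by norm_num)
  have hprod : ∀ z ∈ U, (b z + I * a z) * (b z - I * a z) = 0 := by
    intro z hz
    have e1 : (b z + I * a z) * (b z - I * a z) = b z ^ 2 + a z ^ 2 := by
      linear_combination (-(a z) ^ 2) * I_sq
    rw [e1, ha, hb]
    simp only
    have k1 : ((fderiv ℝ u z 1 : ℝ) : ℂ) * (fderiv ℝ v z 1 : ℝ) +
        (fderiv ℝ u z I : ℝ) * (fderiv ℝ v z I : ℝ) = 0 := by exact_mod_cast h1 z hz
    have k2 : ((fderiv ℝ u z 1 : ℝ) : ℂ) ^ 2 + (fderiv ℝ u z I : ℝ) ^ 2 =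
        (fderiv ℝ v z 1 : ℝ) ^ 2 + (fderiv ℝ v z I : ℝ) ^ 2 := by exact_mod_cast h2 z hz
    -- real identities: the orthogonality forces `v' = ± J u'`
    have r1 := h1 z hz
    have r2 := h2 z hz
    set p := fderiv ℝ u z 1
    set q := fderiv ℝ u z I
    set r := fderiv ℝ v z 1
    set s := fderiv ℝ v z I
    have t1 : (r ^ 2 - q ^ 2) * (p ^ 2 + q ^ 2) = 0 := by
      linear_combination (-q ^ 2) * r2 + (p * r - q * s) * r1 
    have t2 : (r * s + p * q) * (p ^ 2 + q ^ 2) = 0 := by
      linear_combination (p * q) * r2 + (q * r + p * s) * r1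
    rcases eq_or_ne (p ^ 2 + q ^ 2) 0 with h0 | h0
    · have hp : p = 0 := by nlinarith [sq_nonneg p, sq_nonneg q]
      have hq : q = 0 := by nlinarith [sq_nonneg p, sq_nonneg q]
      have hr : r = 0 := by nlinarith [sq_nonneg r, sq_nonneg s]
      have hs : s = 0 := by nlinarith [sq_nonneg r, sq_nonneg s]
      rw [hp, hq, hr, hs]
      simp
    · have m1 : r ^ 2 = q ^ 2 := by
        have := (mul_eq_zero.mp t1).resolve_right h0
        linarith
      have m2 : r * s + p * q = 0 := (mul_eq_zero.mp t2).resolve_right h0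
      have m3 : s ^ 2 = p ^ 2 := by linarith
      have n1 : (r : ℂ) ^ 2 = q ^ 2 := by exact_mod_cast m1
      have n2 : (r : ℂ) * s + p * q = 0 := by exact_mod_cast m2
      have n3 : (s : ℂ) ^ 2 = p ^ 2 := by exact_mod_cast m3
      linear_combination n1 - n3 - 2 * I * n2 + (s ^ 2 + q ^ 2) * I_sq
  have hbI : AnalyticOnNhd ℂ (fun z => b z + I * a z) U :=
    hbA.add (analyticOnNhd_const.mul haA)
  have hbI' : AnalyticOnNhd ℂ (fun z => b z - I * a z) U :=
    hbA.sub (analyticOnNhd_const.mul haA)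
  rcases hbI.eq_zero_or_eq_zero_of_mul_eq_zero hbI' hprod hc with h0 | h0
  · left
    intro z hz
    have e0 := h0 z hz
    simp only [ha, hb] at e0
    have er := congrArg Complex.re e0
    have ei := congrArg Complex.im e0
    simp at er ei
    have hF := hasF (hud z hz) (hvd z hz) I
    refine DifferentiableAt.differentiableWithinAt ?_
    rw [differentiableAt_complex_iff_differentiableAt_real]
    have hfe : (fun z => (u z : ℂ) + v z * I) = fun z => (u z : ℂ) + I * (v z : ℂ) := by
      ext w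
      ring
    rw [hfe]
    refine ⟨hF.differentiableAt, ?_⟩
    rw [hF.fderiv]
    apply Complex.ext
    · simp
      linarith
    · simp
      linarith
  · right
    intro z hz
    have e0 := h0 z hz
    simp only [ha, hb] at e0
    have er := congrArg Complex.re e0
    have ei := congrArg Complex.im e0
    simp at er ei
    have hF := hasF (hud z hz) (hvd z hz) (-I)
    refine DifferentiableAt.differentiableWithinAt ?_
    rw [differentiableAt_complex_iff_differentiableAt_real]
    have hfe : (fun z => (u z : ℂ) - v z * I) = fun z => (u z : ℂ) + (-I) * (v z : ℂ) := by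
      ext w
      ring
    rw [hfe]
    refine ⟨hF.differentiableAt, ?_⟩
    rw [hF.fderiv]
    apply Complex.ext
    · simp
      linarith
    · simp
      linarith

end Crest.Agent.R193.D8
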