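import Mathlib
import Crest.Agent.R193.Defs
import Crest.Agent.R193.S_Basic
import Crest.Agent.R193.CPDefs
import Crest.Agent.R193.OSC

/-!
# R193, block D7, step (C5) by AREA (no Loewner inequality)

`exists_net` : finite nets of `Z` at every scale `r` with uniformly bounded multiplicity;
`PushC.image_superset` : `c > 0` implies that the square is in the image;
`C5` : there is an absolute constant `c0 > 0` with `c0 ≤ c` for every nonconstant conformal pair.
-/

set_option autoImplicit false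

noncomputable section

open Set Filter Topology MeasureTheory Metric

namespace Crest.Agent.R193.D_Area

open Crest.Agent.R193

variable {G Z : Type} [Group G] [MetricSpace Z] [MulAction G Z] {S : Setup G Z}

/-- finite nets with bounded multiplicity at every scale -/
theorem exists_net (S : Setup G Z) (Λ : ℝ) (hΛ : 1 ≤ Λ) : ∃ N : ℝ, 0 < N ∧ ∀ r : ℝ, 0 < r →
    ∃ (A : Finset G) (x : G → Z), (∀ y : Z, ∃ g ∈ A, dist y (x g) ≤ r) ∧
      ∀ (y : Z) (B : Finset G), B ⊆ A → (∀ g ∈ B, dist y (x g) ≤ Λ * r) → (B.card : ℝ) ≤ N := by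
  classical
  have hδ := S_Basic.δ_pos S
  have hε := S.ε_pos
  set C : ℝ := 4 * S.δ + 1 + Real.log Λ / S.ε with hC
  have hlog : 0 ≤ Real.log Λ / S.ε := div_nonneg (Real.log_nonneg hΛ) hε.le
  refine ⟨Real.exp (S.v * ⌊2 * C + 2 * S.δ⌋₊), Real.exp_pos _, fun r hr => ?_⟩
  -- the level
  set t : ℝ := 2 * S.δ - Real.log r / S.ε with ht
  set n : ℕ := ⌈t⌉₊ with hn
  have hnt : t ≤ n := Nat.le_ceil t
  choose x hx using fun g : G => S.star g
  have hxSh : ∀ g, x g ∈ S.Sh S.δ g := fun g => hx g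
  refine ⟨S.sph n, x, fun y => ?_, fun y B hB hd => ?_⟩
  · obtain ⟨g, hg, hs⟩ := S.ray y n
    refine ⟨g, (S_Basic.mem_sph S).2 hg, ?_⟩
    have hy : y ∈ S.Sh S.δ g := by
      rw [S_Basic.mem_Sh, hg]; exact hs
    refine (S_Basic.dist_le_of_mem_Sh S hy (hxSh g)).trans ?_
    rw [hg]
    have h1 : -S.ε * (n - S.δ - S.δ) ≤ Real.log r := by
      have : Real.log r / S.ε ≥ 2 * S.δ - n := by linarith
      have h2 : Real.log r = S.ε * (Real.log r / S.ε) := by field_simp
      rw [h2]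
      nlinarith
    calc Real.exp (-S.ε * (n - S.δ - S.δ)) ≤ Real.exp (Real.log r) := Real.exp_le_exp.2 h1
      _ = r := Real.exp_log hr
  · refine S_Basic.card_Sh_point_le S (R := C) n y B (fun g hg => ?_)
    have hgn : S.len g = n := (S_Basic.mem_sph S).1 (hB hg)
    refine ⟨hgn, ?_⟩
    rw [S_Basic.mem_Sh, hgn]
    rcases Nat.eq_zero_or_pos n with h0 | hpos
    · rw [h0]
      have := S.s_nonneg y g
      have hC0 : 0 ≤ C := by rw [hC]; positivity
      push_cast
      linarith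
    · -- `n < t + 1`
      have ht0 : 0 < t := by
        by_contra hcon
        push Not at hcon
        have : n = 0 := Nat.ceil_eq_zero.2 hcon
        omega
      have hlt : (n : ℝ) < t + 1 := Nat.ceil_lt_add_one ht0.le
      have hd' := hd g hg
      rw [dist_comm] at hd'
      have hle : dist (x g) y ≤ Real.exp (-S.ε * (n - 1 - 2 * S.δ - Real.log Λ / S.ε)) := by
        refine hd'.trans ?_
        have h3 : Real.log (Λ * r) ≤ -S.ε * (n - 1 - 2 * S.δ - Real.log Λ / S.ε) := by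
          rw [Real.log_mul (by positivity) hr.ne']
          have h2 : Real.log r = S.ε * (Real.log r / S.ε) := by field_simp
          have h4 : Real.log Λ = S.ε * (Real.log Λ / S.ε) := by field_simp
          have h5 : (n : ℝ) - 1 - 2 * S.δ ≤ -(Real.log r / S.ε) := by linarith
          have : S.ε * ((n : ℝ) - 1 - 2 * S.δ) ≤ S.ε * (-(Real.log r / S.ε)) :=
            mul_le_mul_of_nonneg_left h5 hε.le
          linarith
        calc Λ * r = Real.exp (Real.log (Λ * r)) := (Real.exp_log (by positivity)).symm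
          _ ≤ _ := Real.exp_le_exp.2 h3
      have h6 := S_Basic.s_ge_of_dist_le S hle g
      have h7 : (n : ℝ) - S.δ ≤ S.s (x g) g := by
        have := hx g
        rwa [hgn] at this
      have h8 : (n : ℝ) - 1 - 2 * S.δ - Real.log Λ / S.ε ≤
          min (S.s (x g) g) ((n : ℝ) - 1 - 2 * S.δ - Real.log Λ / S.ε) := by
        refine le_min ?_ le_rfl
        linarith
      rw [hC]
      linarith

/-! ### elementary facts on `DForm` -/

section
variable (Q : DForm S)

theorem G_zero_test {u v : C(Z, ℝ)} (hu : u ∈ Q.Dom) (hv : v ∈ Q.Dom) : Q.Γ u v 0 = 0 := by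
  have := Q.smul_test 0 u hu v hv 0
  simpa using this

theorem G_sum_test {ι : Type*} {u v : C(Z, ℝ)} (hu : u ∈ Q.Dom) (hv : v ∈ Q.Dom)
    (s : Finset ι) (φ : ι → C(Z, ℝ)) : Q.Γ u v (∑ i ∈ s, φ i) = ∑ i ∈ s, Q.Γ u v (φ i) := by
  classical
  induction s using Finset.induction_on with
  | empty => simp [G_zero_test Q hu hv]
  | insert a s ha ih => rw [Finset.sum_insert ha, Finset.sum_insert ha, Q.add_test u hu v hv, ih]

theorem G_mono {u : C(Z, ℝ)} (hu : u ∈ Q.Dom) {φ φ' : C(Z, ℝ)} (h : ∀ x, φ x ≤ φ' x) :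
    Q.Γ u u φ ≤ Q.Γ u u φ' := by
  have h1 : φ' = φ + (φ' - φ) := by abel
  have h2 := Q.add_test u hu u hu φ (φ' - φ)
  have h3 := Q.nonneg u hu (φ' - φ) (fun x => by simpa using h x)
  rw [h1, h2]
  linarith

end

/-- oscillation of monotone functions (hypothesis provided by block OSC) -/
def OscBall (Q : DForm S) : Prop :=
  ∀ (O : Set Z) (u : C(Z, ℝ)), IsOpen O → u ∈ Q.Dom → MonoOn u O → ∀ (x : Z) (r : ℝ), 0 < r →
    r ≤ Q.ρ0 → closedBall x (Q.lam * r) ⊆ O → ∀ φ : C(Z, ℝ), (∀ y, 0 ≤ φ y) →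
    (∀ y, r ≤ dist y x → dist y x ≤ Q.lam * r → 1 ≤ φ y) →
    ∀ a ∈ closedBall x r, ∀ b ∈ closedBall x r, |u a - u b| ≤ Q.C0 * Real.sqrt (Q.Γ u u φ)

/-- the maximum principle for harmonic functions (the corrected `InMax`: the open set has a
nonempty complement) -/
def MaxP (Q : DForm S) : Prop :=
  ∀ (O : Set Z) (U : C(Z, ℝ)), IsOpen O → Oᶜ.Nonempty → Harm Q O U → MonoOn U O

/-- the cut-off test function of a ball -/
def bump (x : Z) (s : ℝ) : C(Z, ℝ) where
  toFun y := max 0 (min 1 (2 - dist y x / s))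
  continuous_toFun := by fun_prop

theorem bump_nonneg (x : Z) (s : ℝ) (y : Z) : 0 ≤ bump x s y := le_max_left _ _

theorem bump_le_one (x : Z) (s : ℝ) (y : Z) : bump x s y ≤ 1 :=
  max_le zero_le_one (min_le_left _ _)

theorem bump_eq_one (x : Z) {s : ℝ} (hs : 0 < s) {y : Z} (h : dist y x ≤ s) :
    bump x s y = 1 := by
  have : (1 : ℝ) ≤ 2 - dist y x / s := by
    have : dist y x / s ≤ 1 := (div_le_one hs).2 h
    linarith
  show max 0 (min 1 (2 - dist y x / s)) = 1
  rw [min_eq_left this, max_eq_right zero_le_one]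

theorem bump_eq_zero (x : Z) {s : ℝ} (hs : 0 < s) {y : Z} (h : 2 * s ≤ dist y x) :
    bump x s y = 0 := by
  have : 2 - dist y x / s ≤ 0 := by
    have : 2 ≤ dist y x / s := (le_div_iff₀ hs).2 h
    linarith
  show max 0 (min 1 (2 - dist y x / s)) = 0
  rw [max_eq_left]
  exact (min_le_right _ _).trans this

theorem tsupport_bump (x : Z) {s : ℝ} (hs : 0 < s) :
    tsupport (bump x s) ⊆ closedBall x (2 * s) := by
  refine closure_minimal (fun y hy => ?_) isClosed_closedBall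
  by_contra hcon
  rw [mem_closedBall, not_le] at hcon
  exact hy (bump_eq_zero x hs hcon.le)

theorem bump_ne_zero {x : Z} {s : ℝ} (hs : 0 < s) {y : Z} (h : bump x s y ≠ 0) :
    dist y x < 2 * s := by
  by_contra hcon
  exact h (bump_eq_zero x hs (not_lt.1 hcon))

/-- `c > 0` in the push-forward identity implies that the whole square is covered -/
theorem image_superset [CompactSpace Z] {Q : DForm S} {U V : C(Z, ℝ)} (hU : U ∈ Q.Dom)
    {W : Set Z} {p : ℝ × ℝ} {ρ c : ℝ}
    (hfr : ∀ x ∈ frontier W, (U x, V x) ∉ ball p ρ) (hP : PushC Q U V W p ρ c) (hc : c ≠ 0) :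
    ball p ρ ⊆ (fun x => (U x, V x)) '' W := by
  intro q hq
  by_contra hcon
  set F : Z → ℝ × ℝ := fun x => (U x, V x) with hF
  have hFc : Continuous F := by fun_prop
  have hK : IsCompact (F '' closure W) := (isClosed_closure.isCompact).image hFc
  have hq' : q ∉ F '' closure W := by
    rintro ⟨x, hx, hxq⟩
    by_cases hxW : x ∈ interior W
    · exact hcon ⟨x, interior_subset hxW, hxq⟩
    · exact hfr x ⟨hx, hxW⟩ (by rw [← hxq] at hq; exact hq)
  have hopen : IsOpen (ball p ρ ∩ (F '' closure W)ᶜ) := isOpen_ball.inter hK.isClosed.isOpen_compl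
  obtain ⟨s, hs, hsub⟩ := Metric.isOpen_iff.1 hopen q ⟨hq, hq'⟩
  -- bump function at q
  let ψ : ℝ × ℝ → ℝ := fun y => max 0 (s / 2 - dist y q)
  have hψc : Continuous ψ := by fun_prop
  have hψ0 : ∀ y, 0 ≤ ψ y := fun y => le_max_left _ _
  have hsupp : tsupport ψ ⊆ closedBall q (s / 2) := by
    refine closure_minimal (fun y hy => ?_) isClosed_closedBall
    by_contra h
    rw [mem_closedBall, not_le] at h
    exact hy (max_eq_left (by linarith))
  have hsupp' : tsupport ψ ⊆ ball q s := hsupp.trans (closedBall_subset_ball (by linarith))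
  have h1 := hP ψ hψc (hsupp'.trans (hsub.trans inter_subset_left)) 0
    (fun x hx => by
      have : F x ∉ tsupport ψ := fun h => (hsub (hsupp' h)).2 ⟨x, subset_closure hx, rfl⟩
      have := image_eq_zero_of_notMem_tsupport this
      simpa [hF] using this.symm)
    (fun x _ => rfl)
  rw [G_zero_test Q hU hU] at h1
  have hcs : HasCompactSupport ψ :=
    HasCompactSupport.of_support_subset_isCompact (isCompact_closedBall q (s / 2))
      ((subset_tsupport ψ).trans hsupp)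
  have hpos : 0 < ∫ y, ψ y := by
    refine hψc.integral_pos_of_hasCompactSupport_nonneg_nonzero hcs hψ0 (x := q) ?_
    have : ψ q = s / 2 := by
      show max 0 (s / 2 - dist q q) = s / 2
      rw [dist_self, sub_zero, max_eq_right (by linarith)]
    rw [this]
    exact (half_pos hs).ne'
  rcases mul_eq_zero.1 h1.symm with h | h
  · exact hc h
  · exact hpos.ne' h


theorem Q_lam_pos (Q : DForm S) : 0 < Q.lam := lt_trans one_pos Q.one_lt_lam

/-- area of the image of a ball -/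
theorem volume_image_ball_le {Q : DForm S} (hmax : MaxP Q) (hosc : OscBall Q) {O : Set Z}
    {U V : C(Z, ℝ)} (hO : IsOpen O) (h : ConfOn Q O U V) {x : Z} {r : ℝ} (hr : 0 < r)
    (hr0 : r ≤ Q.ρ0) (hx : closedBall x (2 * (Q.lam * r)) ⊆ O) {p₁ p₂ : Z}
    (hpp : 4 * (Q.lam * r) < dist p₁ p₂) :
    volume ((fun y => (U y, V y)) '' closedBall x r) ≤
      ENNReal.ofReal (4 * Q.C0 ^ 2 * Q.Γ U U (bump x (Q.lam * r))) := by
  have hlam := Q_lam_pos Q
  have hs : 0 < Q.lam * r := mul_pos hlam hr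
  have hsub : closedBall x (Q.lam * r) ⊆ O :=
    (closedBall_subset_closedBall (by linarith)).trans hx
  have hts : tsupport (bump x (Q.lam * r)) ⊆ O := (tsupport_bump x hs).trans hx
  have e : Q.Γ V V (bump x (Q.lam * r)) = Q.Γ U U (bump x (Q.lam * r)) :=
    ((h.2.2.2 _ hts).2).symm
  -- remove a point
  obtain ⟨x₁, hx₁⟩ : ∃ x₁ : Z, x₁ ∉ closedBall x (Q.lam * r) := by
    by_contra hcon
    push Not at hcon
    have h1 := hcon p₁
    have h2 := hcon p₂
    rw [mem_closedBall] at h1 h2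
    have := dist_triangle p₁ x p₂
    rw [dist_comm x p₂] at this
    linarith
  have hO' : IsOpen (O \ {x₁}) := hO.sdiff isClosed_singleton
  have hOc' : (O \ {x₁})ᶜ.Nonempty := ⟨x₁, by simp⟩
  have hsub' : closedBall x (Q.lam * r) ⊆ O \ {x₁} := fun y hy =>
    ⟨hsub hy, fun hyx => hx₁ (by rw [mem_singleton_iff] at hyx; rwa [hyx] at hy)⟩
  have h0 : 0 ≤ Q.Γ U U (bump x (Q.lam * r)) := Q.nonneg U h.1 _ (bump_nonneg x _)
  set E := Q.Γ U U (bump x (Q.lam * r)) with hE
  have hU := hosc _ U hO' h.1 (hmax _ U hO' hOc' (h.harm_left.mono sdiff_subset)) x r hr hr0 hsub'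
    (bump x (Q.lam * r)) (bump_nonneg x _) (fun y _ hy => (bump_eq_one x hs hy).ge)
  have hV := hosc _ V hO' h.2.1 (hmax _ V hO' hOc' (h.harm_right.mono sdiff_subset)) x r hr hr0 hsub'
    (bump x (Q.lam * r)) (bump_nonneg x _) (fun y _ hy => (bump_eq_one x hs hy).ge)
  rw [e] at hV
  set ω := Q.C0 * Real.sqrt E with hω
  have hω0 : 0 ≤ ω := mul_nonneg Q.C0_pos.le (Real.sqrt_nonneg _)
  have hxx : x ∈ closedBall x r := mem_closedBall_self hr.le
  have himg : (fun y => (U y, V y)) '' closedBall x r ⊆ closedBall (U x, V x) ω := by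
    rintro _ ⟨y, hy, rfl⟩
    rw [mem_closedBall, Prod.dist_eq, Real.dist_eq, Real.dist_eq]
    exact max_le (hU y hy x hxx) (hV y hy x hxx)
  have hvol : volume (closedBall (U x, V x) ω) = ENNReal.ofReal (4 * Q.C0 ^ 2 * E) := by
    rw [← closedBall_prod_same, Measure.volume_eq_prod, Measure.prod_prod, Real.volume_closedBall,
      Real.volume_closedBall, ← ENNReal.ofReal_mul (by linarith)]
    congr 1
    have : ω ^ 2 = Q.C0 ^ 2 * E := by
      rw [hω, mul_pow, Real.sq_sqrt h0]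
    nlinarith
  exact (measure_mono himg).trans hvol.le

/-- **(C5) by area**: the constant of the push-forward identity is bounded below -/
theorem exists_c0 [CompactSpace Z] [Nontrivial Z] (Q : DForm S) (hmax : MaxP Q)
    (hosc : OscBall Q) :
    ∃ c0 : ℝ, 0 < c0 ∧ ∀ (O : Set Z) (U V : C(Z, ℝ)), IsOpen O → ConfOn Q O U V →
      ∀ W : Set Z, IsOpen W → closure W ⊆ O → ∀ (p : ℝ × ℝ) (ρ c : ℝ), 0 < ρ →
      (∀ x ∈ frontier W, (U x, V x) ∉ ball p ρ) → PushC Q U V W p ρ c →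
      closedBall p (ρ / 2) ⊆ (fun x => (U x, V x)) '' W → c0 ≤ c := by
  classical
  have hlam := Q_lam_pos Q
  obtain ⟨p₁, p₂, hp₁₂⟩ := exists_pair_ne Z
  have hd0 : 0 < dist p₁ p₂ := dist_pos.2 hp₁₂
  obtain ⟨N, hN, hnet⟩ := exists_net S (2 * Q.lam) (by linarith [Q.one_lt_lam])
  refine ⟨1 / (16 * Q.C0 ^ 2 * N), by have := Q.C0_pos; positivity, ?_⟩
  intro O U V hO hconf W hW hWO p ρ c hρ hfr hP himg
  set F : Z → ℝ × ℝ := fun x => (U x, V x) with hF
  have hFc : Continuous F := by fun_prop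
  -- the compact set K
  set K : Set Z := closure W ∩ F ⁻¹' closedBall p (ρ / 2) with hKdef
  have hK : IsCompact K :=
    (isClosed_closure.inter (isClosed_closedBall.preimage hFc)).isCompact
  set W' : Set Z := W ∩ F ⁻¹' ball p ρ with hW'
  have hW'o : IsOpen W' := hW.inter (isOpen_ball.preimage hFc)
  have hKW : K ⊆ W' := by
    rintro x ⟨hx1, hx2⟩
    have hb : F x ∈ ball p ρ := closedBall_subset_ball (by linarith) hx2
    refine ⟨?_, hb⟩
    by_contra hxW
    refine hfr x ⟨hx1, ?_⟩ hb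
    rw [hW.interior_eq]
    exact hxW
  obtain ⟨δ, hδ, hδK⟩ := hK.exists_cthickening_subset_open hW'o hKW
  -- the scale
  obtain ⟨r, hr, hr0, hrδ, hrd⟩ : ∃ r : ℝ, 0 < r ∧ r ≤ Q.ρ0 ∧ r + 2 * (Q.lam * r) ≤ δ ∧
      4 * (Q.lam * r) < dist p₁ p₂ := by
    refine ⟨min (min Q.ρ0 (δ / (1 + 2 * Q.lam))) (dist p₁ p₂ / (8 * Q.lam)),
      lt_min (lt_min Q.ρ0_pos (by positivity)) (by positivity),
      (min_le_left _ _).trans (min_le_left _ _), ?_, ?_⟩
    · have h1 : min (min Q.ρ0 (δ / (1 + 2 * Q.lam))) (dist p₁ p₂ / (8 * Q.lam)) ≤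
        δ / (1 + 2 * Q.lam) := (min_le_left _ _).trans (min_le_right _ _)
      have h2 : δ / (1 + 2 * Q.lam) * (1 + 2 * Q.lam) = δ := by field_simp
      nlinarith
    · have h1 : min (min Q.ρ0 (δ / (1 + 2 * Q.lam))) (dist p₁ p₂ / (8 * Q.lam)) ≤
        dist p₁ p₂ / (8 * Q.lam) := min_le_right _ _
      have h2 : dist p₁ p₂ / (8 * Q.lam) * (8 * Q.lam) = dist p₁ p₂ := by field_simp
      nlinarith
  have hs : 0 < Q.lam * r := mul_pos hlam hr
  obtain ⟨A, x, hcov, hmult⟩ := hnet r hr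
  set A' : Finset G := A.filter (fun g => (closedBall (x g) r ∩ K).Nonempty) with hA'
  set T : Set Z := cthickening δ K with hT
  have hballT : ∀ g ∈ A', closedBall (x g) (2 * (Q.lam * r)) ⊆ T := by
    intro g hg y hy
    obtain ⟨z, hz1, hz2⟩ := (Finset.mem_filter.1 hg).2
    refine mem_cthickening_of_dist_le y z δ K hz2 ?_
    rw [mem_closedBall] at hy hz1
    have := dist_triangle y (x g) z
    rw [dist_comm (x g) z] at this
    linarith
  have hTW : T ⊆ W' := hδK
  have hTc : IsCompact T := (isClosed_cthickening).isCompact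
  have hTO : T ⊆ O := fun y hy => hWO (subset_closure (hTW hy).1)
  -- the test function on the plane
  have hK1 : IsCompact (F '' T) := hTc.image hFc
  have hK1b : F '' T ⊆ ball p ρ := by
    rintro _ ⟨y, hy, rfl⟩
    exact (hTW hy).2
  obtain ⟨ψ, hψs, hψ1, hψ01⟩ := exists_tsupport_one_of_isOpen_isClosed
    (isOpen_ball (x := p) (ε := ρ)) (isCompact_closedBall p ρ |>.of_isClosed_subset
      isClosed_closure closure_ball_subset_closedBall) hK1.isClosed hK1b
  have hcont : Continuous (W.indicator (fun x => ψ (F x))) := by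
    refine continuous_indicator (fun a ha => ?_) (ψ.continuous.comp hFc).continuousOn
    exact image_eq_zero_of_notMem_tsupport (fun h => hfr a ha (hψs h))
  set Ψ : C(Z, ℝ) := ⟨W.indicator (fun x => ψ (F x)), hcont⟩ with hΨ
  have hΨW : ∀ y ∈ W, Ψ y = ψ (U y, V y) := fun y hy => by
    show W.indicator (fun x => ψ (F x)) y = _
    rw [Set.indicator_of_mem hy]
  have hΨn : ∀ y, y ∉ W → Ψ y = 0 := fun y hy => by
    show W.indicator (fun x => ψ (F x)) y = _
    rw [Set.indicator_of_notMem hy]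
  have hΨ0 : ∀ y, 0 ≤ Ψ y := by
    intro y
    by_cases hy : y ∈ W
    · rw [hΨW y hy]; exact (hψ01 _).1
    · rw [hΨn y hy]
  have hpush := hP ψ ψ.continuous hψs Ψ hΨW hΨn
  -- the sum of the bumps
  set Φ : C(Z, ℝ) := ∑ g ∈ A', bump (x g) (Q.lam * r) with hΦ
  have hΦle : ∀ y, Φ y ≤ (N • Ψ) y := by
    intro y
    have hval : Φ y = ∑ g ∈ A', bump (x g) (Q.lam * r) y := by
      rw [hΦ]; simp [ContinuousMap.sum_apply]
    have hsm : (N • Ψ) y = N * Ψ y := rfl
    rw [hval, hsm]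
    set B : Finset G := A'.filter (fun g => bump (x g) (Q.lam * r) y ≠ 0) with hB
    have hBA : B ⊆ A := (Finset.filter_subset _ _).trans (Finset.filter_subset _ _)
    have hBd : ∀ g ∈ B, dist y (x g) ≤ 2 * Q.lam * r := by
      intro g hg
      have := bump_ne_zero hs (Finset.mem_filter.1 hg).2
      linarith
    have hsum : ∑ g ∈ A', bump (x g) (Q.lam * r) y = ∑ g ∈ B, bump (x g) (Q.lam * r) y := by
      rw [hB, Finset.sum_filter_ne_zero]
    rw [hsum]
    rcases B.eq_empty_or_nonempty with hBe | ⟨g, hg⟩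
    · rw [hBe, Finset.sum_empty]
      exact mul_nonneg hN.le (hΨ0 y)
    · have hgA' : g ∈ A' := (Finset.mem_filter.1 hg).1
      have hyT : y ∈ T := hballT g hgA' (mem_closedBall.2 (by have := hBd g hg; linarith))
      have hy1 : Ψ y = 1 := by
        rw [hΨW y (hTW hyT).1]
        exact hψ1 ⟨y, hyT, rfl⟩
      rw [hy1, mul_one]
      calc ∑ g ∈ B, bump (x g) (Q.lam * r) y ≤ ∑ g ∈ B, (1 : ℝ) :=
            Finset.sum_le_sum (fun g _ => bump_le_one _ _ _)
        _ = B.card := by simp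
        _ ≤ N := hmult y B hBA hBd
  have hΓΦ : Q.Γ U U Φ ≤ N * (c * ∫ y, ψ y) := by
    calc Q.Γ U U Φ ≤ Q.Γ U U (N • Ψ) := G_mono Q hconf.1 hΦle
      _ = N * Q.Γ U U Ψ := Q.smul_test N U hconf.1 U hconf.1 Ψ
      _ = N * (c * ∫ y, ψ y) := by rw [hpush]
  -- integral of ψ
  have hint0 : 0 ≤ ∫ y, ψ y := integral_nonneg (fun y => (hψ01 y).1)
  have hint : ∫ y, ψ y ≤ 4 * ρ ^ 2 := by
    have h1 : ∫ y, ψ y = ∫ y in ball p ρ, ψ y := by
      refine (setIntegral_eq_integral_of_forall_compl_eq_zero (fun y hy => ?_)).symm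
      exact image_eq_zero_of_notMem_tsupport (fun h => hy (hψs h))
    have hfin : volume (ball p ρ) ≠ ⊤ := measure_ball_lt_top.ne
    have h2 : ∫ y in ball p ρ, ψ y ≤ ∫ y in ball p ρ, (1 : ℝ) := by
      refine integral_mono_of_nonneg (Eventually.of_forall (fun y => (hψ01 y).1)) ?_
        (Eventually.of_forall (fun y => (hψ01 y).2))
      exact integrableOn_const hfin
    have h3 : ∫ y in ball p ρ, (1 : ℝ) = 4 * ρ ^ 2 := by
      rw [setIntegral_const, smul_eq_mul, mul_one, measureReal_def]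
      have : ball p ρ = ball p.1 ρ ×ˢ ball p.2 ρ := (ball_prod_same p.1 p.2 ρ).symm
      rw [this, Measure.volume_eq_prod, Measure.prod_prod, Real.volume_ball, Real.volume_ball,
        ← ENNReal.ofReal_mul (by linarith), ENNReal.toReal_ofReal (by positivity)]
      ring
    rw [h1]
    exact h2.trans h3.le
  -- area
  have hcover : closedBall p (ρ / 2) ⊆ ⋃ g ∈ A', F '' closedBall (x g) r := by
    intro q hq
    obtain ⟨y, hyW, hyq⟩ := himg hq
    have hyK : y ∈ K := ⟨subset_closure hyW, by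
      show F y ∈ closedBall p (ρ / 2)
      rw [← hyq] at hq
      exact hq⟩
    obtain ⟨g, hg, hgy⟩ := hcov y
    rw [mem_iUnion₂]
    exact ⟨g, Finset.mem_filter.2 ⟨hg, ⟨y, mem_closedBall.2 hgy, hyK⟩⟩,
      ⟨y, mem_closedBall.2 hgy, hyq⟩⟩
  have harea : volume (closedBall p (ρ / 2)) ≤
      ENNReal.ofReal (4 * Q.C0 ^ 2 * Q.Γ U U Φ) := by
    calc volume (closedBall p (ρ / 2)) ≤ volume (⋃ g ∈ A', F '' closedBall (x g) r) :=
          measure_mono hcover
      _ ≤ ∑ g ∈ A', volume (F '' closedBall (x g) r) := measure_biUnion_finset_le _ _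
      _ ≤ ∑ g ∈ A', ENNReal.ofReal (4 * Q.C0 ^ 2 * Q.Γ U U (bump (x g) (Q.lam * r))) :=
          Finset.sum_le_sum (fun g hg => volume_image_ball_le hmax hosc hO hconf hr hr0
            ((hballT g hg).trans hTO) hrd)
      _ = ENNReal.ofReal (∑ g ∈ A', 4 * Q.C0 ^ 2 * Q.Γ U U (bump (x g) (Q.lam * r))) := by
          rw [ENNReal.ofReal_sum_of_nonneg]
          intro g _
          have := Q.nonneg U hconf.1 _ (bump_nonneg (x g) (Q.lam * r))
          positivity
      _ = ENNReal.ofReal (4 * Q.C0 ^ 2 * Q.Γ U U Φ) := by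
          rw [hΦ, G_sum_test Q hconf.1 hconf.1, Finset.mul_sum]
  have hvol : volume (closedBall p (ρ / 2)) = ENNReal.ofReal (ρ ^ 2) := by
    have : closedBall p (ρ / 2) = closedBall p.1 (ρ / 2) ×ˢ closedBall p.2 (ρ / 2) :=
      (closedBall_prod_same p.1 p.2 (ρ / 2)).symm
    rw [this, Measure.volume_eq_prod, Measure.prod_prod, Real.volume_closedBall,
      Real.volume_closedBall, ← ENNReal.ofReal_mul (by linarith)]
    congr 1
    ring
  rw [hvol] at harea
  have hΦ0 : 0 ≤ Q.Γ U U Φ := by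
    refine Q.nonneg U hconf.1 _ (fun y => ?_)
    have hval : Φ y = ∑ g ∈ A', bump (x g) (Q.lam * r) y := by
      rw [hΦ]; simp [ContinuousMap.sum_apply]
    rw [hval]
    exact Finset.sum_nonneg (fun g _ => bump_nonneg _ _ _)
  have h1 : ρ ^ 2 ≤ 4 * Q.C0 ^ 2 * Q.Γ U U Φ :=
    (ENNReal.ofReal_le_ofReal_iff (by positivity)).1 harea
  have hC := Q.C0_pos
  -- c ≥ 0
  have hc : 0 ≤ c := by
    by_contra hneg
    push Not at hneg
    have : c * ∫ y, ψ y ≤ 0 := mul_nonpos_of_nonpos_of_nonneg hneg.le hint0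
    have h2 : Q.Γ U U Φ ≤ 0 := hΓΦ.trans (mul_nonpos_of_nonneg_of_nonpos hN.le this)
    have : ρ ^ 2 ≤ 0 := h1.trans (mul_nonpos_of_nonneg_of_nonpos (by positivity) h2)
    nlinarith [sq_nonneg ρ, pow_pos hρ 2]
  have h2 : ρ ^ 2 ≤ 16 * Q.C0 ^ 2 * N * c * ρ ^ 2 := by
    calc ρ ^ 2 ≤ 4 * Q.C0 ^ 2 * Q.Γ U U Φ := h1
      _ ≤ 4 * Q.C0 ^ 2 * (N * (c * (4 * ρ ^ 2))) := by
          refine mul_le_mul_of_nonneg_left ?_ (by positivity)
          refine hΓΦ.trans (mul_le_mul_of_nonneg_left ?_ hN.le)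
          exact mul_le_mul_of_nonneg_left hint hc
      _ = _ := by ring
  have h3 : 1 ≤ 16 * Q.C0 ^ 2 * N * c := by
    have hρ2 : 0 < ρ ^ 2 := by positivity
    by_contra hcon
    push Not at hcon
    nlinarith
  rw [div_le_iff₀ (by positivity)]
  linarith

theorem nontrivial_of_homeo (Φ : Z ≃ₜ S2) : Nontrivial Z := by
  refine ⟨Φ.symm ⟨EuclideanSpace.single 0 1, by simp⟩, Φ.symm ⟨EuclideanSpace.single 1 1, by simp⟩,
    fun h => ?_⟩
  have h1 := congrArg (fun v : S2 => (v : EuclideanSpace ℝ (Fin 3)) 0) (Φ.symm.injective h)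
  simp at h1

/-- `OscBall` holds (block OSC, helper256) -/
theorem oscBall (Φ : Z ≃ₜ S2) (Q : DForm S) : OscBall Q := by
  intro O u _ hu hm x r hr hr0 hO φ hφ hφ1 a ha b hb
  have : LocallyConnectedSpace Z := OSC.locConn Φ
  exact OSC.osc_annulus Q hr hr0 hu hO hm hφ hφ1 (mem_closedBall.1 ha) (mem_closedBall.1 hb)

/-- **(C5)**: no Loewner inequality is needed -/
theorem C5 [CompactSpace Z] (Φ : Z ≃ₜ S2) (Q : DForm S) (hmax : MaxP Q) :
    ∃ c0 : ℝ, 0 < c0 ∧ ∀ (O : Set Z) (U V : C(Z, ℝ)), IsOpen O → ConfOn Q O U V →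
      ∀ W : Set Z, IsOpen W → closure W ⊆ O → ∀ (p : ℝ × ℝ) (ρ c : ℝ), 0 < ρ →
      (∀ x ∈ frontier W, (U x, V x) ∉ ball p ρ) → PushC Q U V W p ρ c → c ≠ 0 →
      c0 ≤ c ∧ ball p ρ ⊆ (fun x => (U x, V x)) '' W := by
  have : Nontrivial Z := nontrivial_of_homeo Φ
  obtain ⟨c0, h0, h⟩ := exists_c0 Q hmax (oscBall Φ Q)
  refine ⟨c0, h0, fun O U V hO hconf W hW hWO p ρ c hρ hfr hP hc => ?_⟩
  have himg := image_superset hconf.1 hfr hP hc
  exact ⟨h O U V hO hconf W hW hWO p ρ c hρ hfr hP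
    ((closedBall_subset_ball (by linarith)).trans himg), himg⟩

/-- if the constant vanishes, the pair is locally constant at the points mapped in the square -/
theorem const_of_zero [CompactSpace Z] (Φ : Z ≃ₜ S2) (Q : DForm S) (hmax : MaxP Q) {O : Set Z}
    {U V : C(Z, ℝ)} (hO : IsOpen O) (hconf : ConfOn Q O U V) {W : Set Z} (hW : IsOpen W)
    (hWO : closure W ⊆ O) {p : ℝ × ℝ} {ρ : ℝ}
    (hfr : ∀ x ∈ frontier W, (U x, V x) ∉ ball p ρ) (hP : PushC Q U V W p ρ 0) {x : Z}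
    (hx : x ∈ W) (hxp : (U x, V x) ∈ ball p ρ) :
    ∀ᶠ y in 𝓝 x, U y = U x ∧ V y = V x := by
  set F : Z → ℝ × ℝ := fun x => (U x, V x) with hF
  have hFc : Continuous F := by fun_prop
  have hlam := Q_lam_pos Q
  -- test function on the plane equal to one near `F x`
  obtain ⟨s, hs, hsub⟩ := Metric.isOpen_iff.1 (isOpen_ball (x := p) (ε := ρ)) (F x) hxp
  obtain ⟨ψ, hψs, hψ1, hψ01⟩ := exists_tsupport_one_of_isOpen_isClosed
    (isOpen_ball (x := p) (ε := ρ)) (isCompact_closedBall p ρ |>.of_isClosed_subset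
      isClosed_closure closure_ball_subset_closedBall)
      (isClosed_closedBall (x := F x) (ε := s / 2))
      ((closedBall_subset_ball (by linarith)).trans hsub)
  have hcont : Continuous (W.indicator (fun x => ψ (F x))) := by
    refine continuous_indicator (fun a ha => ?_) (ψ.continuous.comp hFc).continuousOn
    exact image_eq_zero_of_notMem_tsupport (fun h => hfr a ha (hψs h))
  set Ψ : C(Z, ℝ) := ⟨W.indicator (fun x => ψ (F x)), hcont⟩ with hΨ
  have hΨW : ∀ y ∈ W, Ψ y = ψ (U y, V y) := fun y hy => by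
    show W.indicator (fun x => ψ (F x)) y = _
    rw [Set.indicator_of_mem hy]
  have hΨn : ∀ y, y ∉ W → Ψ y = 0 := fun y hy => by
    show W.indicator (fun x => ψ (F x)) y = _
    rw [Set.indicator_of_notMem hy]
  have hΨ0 : ∀ y, 0 ≤ Ψ y := by
    intro y
    by_cases hy : y ∈ W
    · rw [hΨW y hy]; exact (hψ01 _).1
    · rw [hΨn y hy]
  have hpush := hP ψ ψ.continuous hψs Ψ hΨW hΨn
  rw [zero_mul] at hpush
  -- a point different from x
  have : Nontrivial Z := nontrivial_of_homeo Φ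
  obtain ⟨x₁, hx₁⟩ := exists_ne x
  have hO' : IsOpen (O \ {x₁}) := hO.sdiff isClosed_singleton
  have hOc' : (O \ {x₁})ᶜ.Nonempty := ⟨x₁, by simp⟩
  -- a small ball around x
  have hnh : (W ∩ F ⁻¹' closedBall (F x) (s / 2)) ∩ {x₁}ᶜ ∈ 𝓝 x :=
    inter_mem (inter_mem (hW.mem_nhds hx) (hFc.continuousAt.preimage_mem_nhds
      (closedBall_mem_nhds _ (half_pos hs)))) (isOpen_compl_singleton.mem_nhds
        (fun h => hx₁ (by rw [mem_singleton_iff] at h; exact h.symm)))
  obtain ⟨t, ht, htsub⟩ := Metric.mem_nhds_iff.1 hnh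
  obtain ⟨r, hr, hr0, hrt⟩ : ∃ r : ℝ, 0 < r ∧ r ≤ Q.ρ0 ∧ 2 * (Q.lam * r) < t := by
    refine ⟨min Q.ρ0 (t / (4 * Q.lam)), lt_min Q.ρ0_pos (by positivity), min_le_left _ _, ?_⟩
    have h1 : min Q.ρ0 (t / (4 * Q.lam)) ≤ t / (4 * Q.lam) := min_le_right _ _
    have h2 : t / (4 * Q.lam) * (4 * Q.lam) = t := by field_simp
    nlinarith
  have hs' : 0 < Q.lam * r := mul_pos hlam hr
  have hcb : closedBall x (2 * (Q.lam * r)) ⊆ ball x t := closedBall_subset_ball hrt
  have hle : ∀ y, bump x (Q.lam * r) y ≤ Ψ y := by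
    intro y
    by_cases hy : bump x (Q.lam * r) y = 0
    · rw [hy]; exact hΨ0 y
    · have hyb : y ∈ ball x t := hcb (mem_closedBall.2 (bump_ne_zero hs' hy).le)
      have h2 := htsub hyb
      rw [hΨW y h2.1.1]
      have : ψ (U y, V y) = 1 := hψ1 h2.1.2
      rw [this]
      exact bump_le_one _ _ _
  have hE : Q.Γ U U (bump x (Q.lam * r)) = 0 := by
    refine le_antisymm ?_ (Q.nonneg U hconf.1 _ (bump_nonneg x _))
    rw [← hpush]
    exact G_mono Q hconf.1 hle
  have hsubO : closedBall x (2 * (Q.lam * r)) ⊆ O \ {x₁} := fun y hy =>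
    ⟨hWO (subset_closure (htsub (hcb hy)).1.1), (htsub (hcb hy)).2⟩
  have hts : tsupport (bump x (Q.lam * r)) ⊆ O :=
    (tsupport_bump x hs').trans (hsubO.trans sdiff_subset)
  have hEV : Q.Γ V V (bump x (Q.lam * r)) = 0 := by
    rw [← (hconf.2.2.2 _ hts).2, hE]
  have hsub1 : closedBall x (Q.lam * r) ⊆ O \ {x₁} :=
    (closedBall_subset_closedBall (by linarith)).trans hsubO
  have hosc := oscBall Φ Q
  have hU := hosc _ U hO' hconf.1 (hmax _ U hO' hOc' (hconf.harm_left.mono sdiff_subset)) x r hr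
    hr0 hsub1 (bump x (Q.lam * r)) (bump_nonneg x _) (fun y _ hy => (bump_eq_one x hs' hy).ge)
  have hV := hosc _ V hO' hconf.2.1 (hmax _ V hO' hOc' (hconf.harm_right.mono sdiff_subset)) x r hr
    hr0 hsub1 (bump x (Q.lam * r)) (bump_nonneg x _) (fun y _ hy => (bump_eq_one x hs' hy).ge)
  rw [hE, Real.sqrt_zero, mul_zero] at hU
  rw [hEV, Real.sqrt_zero, mul_zero] at hV
  filter_upwards [closedBall_mem_nhds x hr] with y hy
  have h1 := hU y hy x (mem_closedBall_self hr.le)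
  have h2 := hV y hy x (mem_closedBall_self hr.le)
  exact ⟨sub_eq_zero.1 (abs_nonpos_iff.1 h1), sub_eq_zero.1 (abs_nonpos_iff.1 h2)⟩

end Crest.Agent.R193.D_Area
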