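import Mathlib
import Crest.Agent.R193.D_Defs
import Crest.Agent.R193.D3b2
import Crest.Agent.R193.P_Comp

/-!
# R193, block D (C7-C8): basic facts on conformal charts
-/

set_option autoImplicit false

noncomputable section

open Set Filter Topology MeasureTheory Metric

namespace Crest.Agent.R193.D_Chart

open Crest.Agent.R193 Crest.Agent.R193.D3b1 Crest.Agent.R193.D3b2

variable {G Z : Type} [Group G] [MetricSpace Z] [MulAction G Z] {S : Setup G Z} {Q : DForm S}

/-! ### locality -/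

/-- if `u = u'` on an open set containing the support of `v` then `Γ u v = Γ u' v` -/
theorem congr_of_tsupport [CompactSpace Z] {u u' v : C(Z, ℝ)} (hu : u ∈ Q.Dom) (hu' : u' ∈ Q.Dom)
    (hv : v ∈ Q.Dom) {W : Set Z} (hW : IsOpen W) (h : ∀ x ∈ W, u x = u' x) (hs : tsupport v ⊆ W)
    (φ : C(Z, ℝ)) : Q.Γ u v φ = Q.Γ u' v φ := by
  obtain ⟨χ, -, -, ⟨V, hV, hKV, hχ1⟩, hχW⟩ :=
    exists_cutoff Q (isClosed_tsupport v).isCompact hW hs
  have hsplit : φ = φ * χ + φ * (1 - χ) := by ring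
  have e1 : ∀ u0 ∈ Q.Dom, Q.Γ u0 v (φ * (1 - χ)) = 0 := by
    intro u0 hu0
    rw [Q.symm u0 hu0 v hv]
    refine Γ_eq_zero_of_const hv hu0 0 (fun x hx => ?_)
    by_contra hvx
    apply hx
    have : x ∈ tsupport v := subset_tsupport _ hvx
    simp [hχ1 x (hKV this)]
  have e2 : Q.Γ u v (φ * χ) = Q.Γ u' v (φ * χ) := by
    refine local_left hu hu' hv 0 (fun x hx => ?_)
    rw [add_zero]
    apply h
    apply hχW
    apply subset_tsupport
    intro h0
    apply hx
    simp [h0]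
  rw [hsplit, Q.add_test u hu v hv, Q.add_test u' hu' v hv, e1 u hu, e1 u' hu', e2]

/-! ### the chart -/

namespace CC

variable (X : ConfChart Q)

/-- the chart map -/
def F (x : Z) : ℝ × ℝ := (X.U x, X.V x)

theorem F_cont : Continuous (F X) := X.U.continuous.prodMk X.V.continuous

open Classical in
/-- the inverse of the chart map -/
def H (q : ℝ × ℝ) : Z :=
  if h : ∃ x ∈ X.W, F X x = q then h.choose else X.W_ne.choose

theorem F_mem {x : Z} (hx : x ∈ X.W) : F X x ∈ ball X.p X.ρ := by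
  have := X.img
  rw [← this]; exact ⟨x, hx, rfl⟩

theorem H_spec {q : ℝ × ℝ} (hq : q ∈ ball X.p X.ρ) : H X q ∈ X.W ∧ F X (H X q) = q := by
  have h : ∃ x ∈ X.W, F X x = q := by
    rw [← X.img] at hq
    obtain ⟨x, hx, hxq⟩ := hq
    exact ⟨x, hx, hxq⟩
  unfold H
  rw [dif_pos h]
  exact h.choose_spec

theorem H_mem {q : ℝ × ℝ} (hq : q ∈ ball X.p X.ρ) : H X q ∈ X.W := (H_spec X hq).1

theorem F_H {q : ℝ × ℝ} (hq : q ∈ ball X.p X.ρ) : F X (H X q) = q := (H_spec X hq).2

theorem F_inj {x y : Z} (hx : x ∈ X.W) (hy : y ∈ X.W) (h : F X x = F X y) : x = y :=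
  X.inj hx hy h

theorem H_F {x : Z} (hx : x ∈ X.W) : H X (F X x) = x :=
  F_inj X (H_mem X (F_mem X hx)) hx (F_H X (F_mem X hx))

theorem H_inj {q q' : ℝ × ℝ} (hq : q ∈ ball X.p X.ρ) (hq' : q' ∈ ball X.p X.ρ)
    (h : H X q = H X q') : q = q' := by
  rw [← F_H X hq, ← F_H X hq', h]

theorem mem_W_of {x : Z} (hx : x ∈ closure X.W) (hF : F X x ∈ ball X.p X.ρ) : x ∈ X.W := by
  by_contra hxW
  have : x ∈ frontier X.W := by
    rw [frontier, X.W_open.interior_eq]
    exact ⟨hx, hxW⟩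
  exact X.bdry x this hF

/-- `H` is continuous on the square -/
theorem H_contOn [CompactSpace Z] : ContinuousOn (H X) (ball X.p X.ρ) := by
  intro q hq
  rw [ContinuousWithinAt, tendsto_iff_ultrafilter]
  intro l hl
  have hlW : ∀ᶠ y in (l : Filter (ℝ × ℝ)), y ∈ ball X.p X.ρ := by
    have : (ball X.p X.ρ) ∈ 𝓝[ball X.p X.ρ] q := self_mem_nhdsWithin
    exact hl this
  obtain ⟨x, -, hx⟩ := (isCompact_univ (X := Z)).ultrafilter_le_nhds (l.map (H X)) (by simp)
  have hx' : Tendsto (H X) l (𝓝 x) := hx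
  have h1 : Tendsto (fun y => F X (H X y)) l (𝓝 (F X x)) := ((F_cont X).tendsto x).comp hx'
  have h2 : Tendsto (fun y : ℝ × ℝ => y) l (𝓝 q) := by
    exact tendsto_id'.2 (hl.trans nhdsWithin_le_nhds)
  have h3 : F X x = q := by
    apply tendsto_nhds_unique h1
    apply h2.congr'
    filter_upwards [hlW] with y hy
    rw [F_H X hy]
  have h4 : x ∈ closure X.W := by
    apply mem_closure_of_tendsto hx'
    filter_upwards [hlW] with y hy
    exact H_mem X hy
  have h5 : x ∈ X.W := mem_W_of X h4 (by rw [h3]; exact hq)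
  have h6 : H X q = x := by rw [← h3, H_F X h5]
  rw [h6]
  exact hx'

theorem H_image {A : Set (ℝ × ℝ)} (hA : A ⊆ ball X.p X.ρ) :
    H X '' A = X.W ∩ F X ⁻¹' A := by
  ext x
  constructor
  · rintro ⟨q, hq, rfl⟩
    exact ⟨H_mem X (hA hq), by rw [mem_preimage, F_H X (hA hq)]; exact hq⟩
  · rintro ⟨hx, hxA⟩
    exact ⟨F X x, hxA, H_F X hx⟩

theorem isOpen_H_image {A : Set (ℝ × ℝ)} (hA : A ⊆ ball X.p X.ρ) (hAo : IsOpen A) :
    IsOpen (H X '' A) := by
  rw [H_image X hA]
  exact X.W_open.inter (hAo.preimage (F_cont X))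

theorem isPreconnected_H_image [CompactSpace Z] {A : Set (ℝ × ℝ)} (hA : A ⊆ ball X.p X.ρ)
    (hAc : IsPreconnected A) : IsPreconnected (H X '' A) :=
  hAc.image _ ((H_contOn X).mono hA)

theorem isCompact_H_image [CompactSpace Z] {A : Set (ℝ × ℝ)} (hA : A ⊆ ball X.p X.ρ)
    (hAc : IsCompact A) : IsCompact (H X '' A) :=
  hAc.image_of_continuousOn ((H_contOn X).mono hA)

theorem rank_prod : 1 < Module.rank ℝ (ℝ × ℝ) := by
  simp only [rank_prod', Module.rank_self]
  rw [one_add_one_eq_two]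
  exact Cardinal.one_lt_two

/-- the complement of the image of a small square is connected -/
theorem isPreconnected_compl [CompactSpace Z] [PreconnectedSpace Z] {b : ℝ × ℝ} {r : ℝ}
    (hr : 0 < r) (hb : closedBall b r ⊆ ball X.p X.ρ) :
    IsPreconnected ((H X '' ball b r)ᶜ) := by
  have hbo : ball b r ⊆ ball X.p X.ρ := ball_subset_closedBall.trans hb
  have hfr : frontier (H X '' ball b r) = H X '' sphere b r := by
    have hcl : closure (H X '' ball b r) = H X '' closedBall b r := by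
      apply Subset.antisymm
      · exact closure_minimal (image_mono ball_subset_closedBall)
          (isCompact_H_image X hb (isCompact_closedBall b r)).isClosed
      · rw [← closure_ball b hr.ne']
        have := ((H_contOn X).mono (by rw [closure_ball b hr.ne']; exact hb :
          closure (ball b r) ⊆ ball X.p X.ρ)).image_closure
        exact this
    rw [frontier, hcl, (isOpen_H_image X hbo isOpen_ball).interior_eq]
    ext x
    constructor
    · rintro ⟨⟨q, hq, rfl⟩, hx⟩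
      refine ⟨q, ?_, rfl⟩
      rw [mem_sphere]
      rw [mem_closedBall] at hq
      rcases hq.lt_or_eq with h | h
      · exact absurd ⟨q, mem_ball.2 h, rfl⟩ hx
      · exact h
    · rintro ⟨q, hq, rfl⟩
      refine ⟨⟨q, sphere_subset_closedBall hq, rfl⟩, ?_⟩
      rintro ⟨q', hq', h⟩
      have := H_inj X (hbo hq') (hb (sphere_subset_closedBall hq)) h
      rw [this] at hq'
      rw [mem_ball] at hq'
      rw [mem_sphere] at hq
      linarith
  apply P_Comp.isPreconnected_compl_of_frontier (isOpen_H_image X hbo isOpen_ball)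
  rw [hfr]
  exact isPreconnected_H_image X (sphere_subset_closedBall.trans hb)
    (isPreconnected_sphere rank_prod b r)

/-! ### lifting functions from the square -/

/-- the closed set carrying the lifted functions -/
theorem lift_support {ψ : ℝ × ℝ → ℝ} (hs : tsupport ψ ⊆ ball X.p X.ρ) :
    closure X.W ∩ F X ⁻¹' (tsupport ψ) ⊆ X.W :=
  fun _ hx => mem_W_of X hx.1 (hs hx.2)

open Classical in
theorem lift_cont {ψ : ℝ × ℝ → ℝ} (hψ : ContinuousOn ψ (ball X.p X.ρ))
    (hs : tsupport ψ ⊆ ball X.p X.ρ) :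
    Continuous (fun x => if x ∈ X.W then ψ (F X x) else 0) := by
  set K := closure X.W ∩ F X ⁻¹' (tsupport ψ) with hK
  have hKc : IsClosed K := isClosed_closure.inter ((isClosed_tsupport ψ).preimage (F_cont X))
  rw [continuous_iff_continuousAt]
  intro x
  by_cases hx : x ∈ X.W
  · have h1 : ContinuousAt (fun x => ψ (F X x)) x :=
      ContinuousAt.comp (g := ψ) ((hψ.continuousAt (isOpen_ball.mem_nhds (F_mem X hx))))
        (F_cont X).continuousAt
    refine h1.congr ?_
    filter_upwards [X.W_open.mem_nhds hx] with y hy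
    rw [if_pos hy]
  · have hxK : x ∉ K := fun h => hx (lift_support X hs h)
    have h1 : ContinuousAt (fun _ : Z => (0 : ℝ)) x := continuousAt_const
    refine h1.congr ?_
    filter_upwards [hKc.isOpen_compl.mem_nhds hxK] with y hy
    by_cases hyW : y ∈ X.W
    · rw [if_pos hyW]
      by_contra hne
      exact hy ⟨subset_closure hyW, subset_tsupport _ (Ne.symm hne)⟩
    · rw [if_neg hyW]

open Classical in
/-- the lift of a function supported in the square -/
def lift (ψ : ℝ × ℝ → ℝ) (hψ : ContinuousOn ψ (ball X.p X.ρ)) (hs : tsupport ψ ⊆ ball X.p X.ρ) :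
    C(Z, ℝ) := ⟨_, lift_cont X hψ hs⟩

theorem lift_of_mem {ψ : ℝ × ℝ → ℝ} (hψ : ContinuousOn ψ (ball X.p X.ρ))
    (hs : tsupport ψ ⊆ ball X.p X.ρ) {x : Z} (hx : x ∈ X.W) : lift X ψ hψ hs x = ψ (F X x) := by
  classical
  show (if x ∈ X.W then ψ (F X x) else 0) = _
  exact if_pos hx

theorem lift_of_not_mem {ψ : ℝ × ℝ → ℝ} (hψ : ContinuousOn ψ (ball X.p X.ρ))
    (hs : tsupport ψ ⊆ ball X.p X.ρ) {x : Z} (hx : x ∉ X.W) : lift X ψ hψ hs x = 0 := by
  classical
  show (if x ∈ X.W then ψ (F X x) else 0) = _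
  exact if_neg hx

theorem lift_H {ψ : ℝ × ℝ → ℝ} (hψ : ContinuousOn ψ (ball X.p X.ρ))
    (hs : tsupport ψ ⊆ ball X.p X.ρ) {q : ℝ × ℝ} (hq : q ∈ ball X.p X.ρ) :
    lift X ψ hψ hs (H X q) = ψ q := by
  rw [lift_of_mem X hψ hs (H_mem X hq), F_H X hq]

theorem tsupport_lift {ψ : ℝ × ℝ → ℝ} (hψ : ContinuousOn ψ (ball X.p X.ρ))
    (hs : tsupport ψ ⊆ ball X.p X.ρ) :
    tsupport (lift X ψ hψ hs) ⊆ closure X.W ∩ F X ⁻¹' (tsupport ψ) := by
  refine closure_minimal ?_ (isClosed_closure.inter ((isClosed_tsupport ψ).preimage (F_cont X)))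
  intro x hx
  rw [Function.mem_support] at hx
  by_cases hxW : x ∈ X.W
  · rw [lift_of_mem X hψ hs hxW] at hx
    exact ⟨subset_closure hxW, subset_tsupport _ hx⟩
  · exact absurd (lift_of_not_mem X hψ hs hxW) hx

theorem tsupport_lift_W {ψ : ℝ × ℝ → ℝ} (hψ : ContinuousOn ψ (ball X.p X.ρ))
    (hs : tsupport ψ ⊆ ball X.p X.ρ) : tsupport (lift X ψ hψ hs) ⊆ X.W :=
  (tsupport_lift X hψ hs).trans (lift_support X hs)

end CC

end Crest.Agent.R193.D_Chart
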