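import Mathlib
import Crest.Agent.R193.D_Chart1

/-!
# R193, block D (C7-C8): the Laplacian identity in a conformal chart
-/

set_option autoImplicit false

noncomputable section

open Set Filter Topology MeasureTheory Metric

namespace Crest.Agent.R193.D_Chart

open Crest.Agent.R193 Crest.Agent.R193.D3b1 Crest.Agent.R193.D3b2

variable {G Z : Type} [Group G] [MetricSpace Z] [MulAction G Z] {S : Setup G Z} {Q : DForm S}

/-! ### the planar Laplacian -/

theorem lap2_cont {ψ : ℝ × ℝ → ℝ} (hψ : ContDiff ℝ (⊤ : ℕ∞) ψ) : Continuous (lap2 ψ) := by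
  have h2 : ContDiff ℝ ((2 : ℕ) : WithTop ℕ∞) ψ := by
    apply hψ.of_le
    show (((2 : ℕ) : ℕ∞) : WithTop ℕ∞) ≤ ((⊤ : ℕ∞) : WithTop ℕ∞)
    exact WithTop.coe_le_coe.2 le_top
  have h : Continuous (iteratedFDeriv ℝ 2 ψ) := h2.continuous_iteratedFDeriv'
  unfold lap2
  exact (h.eval_const _).add (h.eval_const _)

theorem lap2_zero_of_eventually {ψ : ℝ × ℝ → ℝ} {q : ℝ × ℝ} {c : ℝ} (h : ∀ᶠ y in 𝓝 q, ψ y = c) :
    lap2 ψ q = 0 := by
  have h1 : iteratedFDeriv ℝ 2 ψ q = iteratedFDeriv ℝ 2 (fun _ => c) q :=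
    (Filter.EventuallyEq.iteratedFDeriv (f₂ := fun _ => c) ℝ h 2).eq_of_nhds
  unfold lap2
  rw [h1, iteratedFDeriv_const_of_ne (by norm_num)]
  simp

theorem lap2_zero_of_notMem {ψ : ℝ × ℝ → ℝ} {q : ℝ × ℝ} (h : q ∉ tsupport ψ) :
    lap2 ψ q = 0 := by
  apply lap2_zero_of_eventually (c := 0)
  filter_upwards [(isClosed_tsupport ψ).isOpen_compl.mem_nhds h] with y hy
  exact image_eq_zero_of_notMem_tsupport hy

theorem tsupport_lap2 (ψ : ℝ × ℝ → ℝ) : tsupport (lap2 ψ) ⊆ tsupport ψ := by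
  refine closure_minimal ?_ (isClosed_tsupport ψ)
  intro q hq
  by_contra h
  exact hq (lap2_zero_of_notMem h)

namespace CC

variable (X : ConfChart Q)

section
variable [CompactSpace Z]

theorem lift_dom (hC1 : InC1 Q) {ψ : ℝ × ℝ → ℝ} (hψ : ContDiff ℝ (⊤ : ℕ∞) ψ)
    (hs : tsupport ψ ⊆ ball X.p X.ρ) : lift X ψ hψ.continuous.continuousOn hs ∈ Q.Dom := by
  set P : C(Z, ℝ) := ⟨fun x => ψ (F X x), hψ.continuous.comp (F_cont X)⟩ with hP
  set L : C(Z, ℝ) := ⟨fun x => lap2 ψ (F X x), (lap2_cont hψ).comp (F_cont X)⟩ with hL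
  have hPD : P ∈ Q.Dom := (hC1 X.O X.U X.V X.O_open X.conf ψ hψ P L (fun _ => rfl)
    (fun _ => rfl)).1
  have hK : IsCompact (closure X.W ∩ F X ⁻¹' (tsupport ψ)) :=
    (isClosed_closure.inter ((isClosed_tsupport ψ).preimage (F_cont X))).isCompact
  obtain ⟨χ, hχD, -, ⟨V, hV, hKV, hχ1⟩, hχW⟩ := exists_cutoff Q hK X.W_open (lift_support X hs)
  have : lift X ψ hψ.continuous.continuousOn hs = χ * P := by
    ext x
    by_cases hx : x ∈ X.W
    · rw [lift_of_mem X _ hs hx]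
      by_cases h0 : ψ (F X x) = 0
      · simp [hP, h0]
      · have : x ∈ closure X.W ∩ F X ⁻¹' (tsupport ψ) :=
          ⟨subset_closure hx, subset_tsupport _ h0⟩
        simp [hP, hχ1 x (hKV this)]
    · rw [lift_of_not_mem X _ hs hx]
      have : χ x = 0 := by
        by_contra h
        exact hx (hχW (subset_tsupport _ h))
      simp [this]
  rw [this]
  exact mul_mem hχD hPD

/-- **The Laplacian identity.** -/
theorem lift_lap (hC1 : InC1 Q) {ψ : ℝ × ℝ → ℝ} (hψ : ContDiff ℝ (⊤ : ℕ∞) ψ)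
    (hs : tsupport ψ ⊆ ball X.p X.ρ) {w : C(Z, ℝ)} (hw : w ∈ Q.Dom) :
    Q.Γ (lift X ψ hψ.continuous.continuousOn hs) w 1 = - (X.c * ∫ q, w (H X q) * lap2 ψ q) := by
  set P : C(Z, ℝ) := ⟨fun x => ψ (F X x), hψ.continuous.comp (F_cont X)⟩ with hP
  set L : C(Z, ℝ) := ⟨fun x => lap2 ψ (F X x), (lap2_cont hψ).comp (F_cont X)⟩ with hL
  obtain ⟨hPD, hPL⟩ := hC1 X.O X.U X.V X.O_open X.conf ψ hψ P L (fun _ => rfl) (fun _ => rfl)
  have hK : IsCompact (closure X.W ∩ F X ⁻¹' (tsupport ψ)) :=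
    (isClosed_closure.inter ((isClosed_tsupport ψ).preimage (F_cont X))).isCompact
  obtain ⟨χ, hχD, -, ⟨V, hV, hKV, hχ1⟩, hχW⟩ := exists_cutoff Q hK X.W_open (lift_support X hs)
  set l := lift X ψ hψ.continuous.continuousOn hs with hl
  have hlD : l ∈ Q.Dom := lift_dom X hC1 hψ hs
  have hχwD : χ * w ∈ Q.Dom := mul_mem hχD hw
  have hsχw : tsupport (χ * w) ⊆ X.W := (tsupport_mul_subset_left).trans hχW
  -- replace `w` by `χ w`
  have h1 : Q.Γ l w 1 = Q.Γ l (χ * w) 1 := by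
    rw [Q.symm l hlD w hw, Q.symm l hlD _ hχwD]
    refine congr_of_tsupport hw hχwD hlD hV (fun x hx => ?_)
      ((tsupport_lift X _ hs).trans hKV) 1
    simp [hχ1 x hx]
  -- replace `l` by `P`
  have h2 : Q.Γ l (χ * w) 1 = Q.Γ P (χ * w) 1 := by
    refine congr_of_tsupport hlD hPD hχwD X.W_open (fun x hx => ?_) hsχw 1
    rw [hl, lift_of_mem X _ hs hx]
    rfl
  have h3 := hPL (χ * w) hχwD (hsχw.trans (subset_closure.trans X.W_sub))
  -- push forward
  have hcont : Continuous (fun q => w (H X q) * lap2 ψ q) := by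
    rw [continuous_iff_continuousAt]
    intro q
    by_cases hq : q ∈ ball X.p X.ρ
    · have hH : ContinuousAt (H X) q := (H_contOn X).continuousAt (isOpen_ball.mem_nhds hq)
      exact (ContinuousAt.comp (g := w) w.continuous.continuousAt hH).mul
        (lap2_cont hψ).continuousAt
    · have hq' : q ∉ tsupport ψ := fun h => hq (hs h)
      have : ContinuousAt (fun _ : ℝ × ℝ => (0 : ℝ)) q := continuousAt_const
      refine this.congr ?_
      filter_upwards [(isClosed_tsupport ψ).isOpen_compl.mem_nhds hq'] with y hy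
      rw [lap2_zero_of_notMem hy, mul_zero]
  have hsupp : tsupport (fun q => w (H X q) * lap2 ψ q) ⊆ ball X.p X.ρ :=
    (tsupport_mul_subset_right).trans ((tsupport_lap2 ψ).trans hs)
  have h4 := X.push (fun q => w (H X q) * lap2 ψ q) hcont hsupp (χ * w * L)
    (fun x hx => by
      show χ x * w x * lap2 ψ (F X x) = w (H X (F X x)) * lap2 ψ (F X x)
      rw [H_F X hx]
      by_cases h0 : lap2 ψ (F X x) = 0
      · rw [h0]; simp
      · have h5 : F X x ∈ tsupport ψ := by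
          by_contra h; exact h0 (lap2_zero_of_notMem h)
        rw [hχ1 x (hKV ⟨subset_closure hx, h5⟩), one_mul])
    (fun x hx => by
      have : χ x = 0 := by
        by_contra h
        exact hx (hχW (subset_tsupport _ h))
      simp [this])
  rw [h1, h2, h3, h4]

end

end CC

end Crest.Agent.R193.D_Chart
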