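import Mathlib
import Crest.Agent.R193.D_Chart2

/-!
# R193, block D (C7-C8): logarithmic cut-off functions and the modulus lemma
-/

set_option autoImplicit false

noncomputable section

open Set Filter Topology MeasureTheory Metric

namespace Crest.Agent.R193.D_Chart

open Crest.Agent.R193 Crest.Agent.R193.D3b1 Crest.Agent.R193.D3b2

variable {G Z : Type} [Group G] [MetricSpace Z] [MulAction G Z] {S : Setup G Z} {Q : DForm S}

/-! ### scaling -/

/-- affine rescaling of a function of the plane -/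
def sc (a : ℝ) (b : ℝ × ℝ) (ψ : ℝ × ℝ → ℝ) (q : ℝ × ℝ) : ℝ := ψ (a • (q - b))

theorem sc_contDiff {ψ : ℝ × ℝ → ℝ} (hψ : ContDiff ℝ (⊤ : ℕ∞) ψ) (a : ℝ) (b : ℝ × ℝ) :
    ContDiff ℝ (⊤ : ℕ∞) (sc a b ψ) := by
  unfold sc
  exact hψ.comp ((contDiff_id.sub contDiff_const).const_smul a)

theorem lap2_sc {ψ : ℝ × ℝ → ℝ} (hψ : ContDiff ℝ (⊤ : ℕ∞) ψ) (a : ℝ) (b q : ℝ × ℝ) :
    lap2 (sc a b ψ) q = a ^ 2 * lap2 ψ (a • (q - b)) := by
  have h2 : ContDiff ℝ ((2 : ℕ) : WithTop ℕ∞) ψ := by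
    apply hψ.of_le
    show (((2 : ℕ) : ℕ∞) : WithTop ℕ∞) ≤ ((⊤ : ℕ∞) : WithTop ℕ∞)
    exact WithTop.coe_le_coe.2 le_top
  set g : (ℝ × ℝ) →L[ℝ] (ℝ × ℝ) := a • ContinuousLinearMap.id ℝ (ℝ × ℝ) with hg
  have h3 : sc a b ψ = fun q => (ψ ∘ g) (q - b) := by
    ext q; simp [sc, hg]
  have h4 : iteratedFDeriv ℝ 2 (sc a b ψ) q = iteratedFDeriv ℝ 2 (ψ ∘ g) (q - b) := by
    rw [h3, iteratedFDeriv_comp_sub' 2 b]
  have h5 := ContinuousLinearMap.iteratedFDeriv_comp_right g h2 (q - b) (le_refl _)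
  unfold lap2
  rw [h4, h5]
  have hgq : g (q - b) = a • (q - b) := by simp [hg]
  rw [hgq]
  simp only [ContinuousMultilinearMap.compContinuousLinearMap_apply]
  have key : ∀ e : ℝ × ℝ, (fun i : Fin 2 => g ((![e, e] : Fin 2 → ℝ × ℝ) i))
      = fun i => (fun _ : Fin 2 => a) i • (![e, e] : Fin 2 → ℝ × ℝ) i := by
    intro e
    ext i <;> simp [hg]
  rw [key, key, ContinuousMultilinearMap.map_smul_univ, ContinuousMultilinearMap.map_smul_univ]
  simp only [Finset.prod_const, Finset.card_univ, Fintype.card_fin, smul_eq_mul]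
  ring

theorem integral_sc (f : ℝ × ℝ → ℝ) {a : ℝ} (ha : 0 < a) (b : ℝ × ℝ) :
    ∫ q, f (a • (q - b)) = (a ^ 2)⁻¹ * ∫ q, f q := by
  have h1 : ∫ q : ℝ × ℝ, f (a • (q - b)) = ∫ q : ℝ × ℝ, f (a • q) :=
    integral_sub_right_eq_self (fun q => f (a • q)) b
  rw [h1, Measure.integral_comp_smul_of_nonneg (μ := volume) f a (hR := ha.le)]
  have : Module.finrank ℝ (ℝ × ℝ) = 2 := by simp
  rw [this, smul_eq_mul]

theorem integral_sc_lap2 {ψ : ℝ × ℝ → ℝ} (hψ : ContDiff ℝ (⊤ : ℕ∞) ψ) {a : ℝ} (ha : 0 < a)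
    (b : ℝ × ℝ) :
    ∫ q, sc a b ψ q * lap2 (sc a b ψ) q = ∫ q, ψ q * lap2 ψ q := by
  have h1 : ∀ q, sc a b ψ q * lap2 (sc a b ψ) q
      = a ^ 2 * ((fun y => ψ y * lap2 ψ y) (a • (q - b))) := by
    intro q
    rw [lap2_sc hψ]
    simp only [sc]
    ring
  simp_rw [h1]
  rw [integral_const_mul, integral_sc (fun y => ψ y * lap2 ψ y) ha b]
  field_simp

/-! ### the standard bump -/

/-- the standard bump function: `1` on the square of half side `1`, `0` off half side `2` -/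
def bmp : ContDiffBump (0 : ℝ × ℝ) := ⟨1, 2, one_pos, one_lt_two⟩

/-- cut-off between the squares of half sides `r` and `2 r` around `b` -/
def cut (b : ℝ × ℝ) (r : ℝ) : ℝ × ℝ → ℝ := sc r⁻¹ b bmp

theorem cut_contDiff (b : ℝ × ℝ) (r : ℝ) : ContDiff ℝ (⊤ : ℕ∞) (cut b r) :=
  sc_contDiff bmp.contDiff _ _

theorem norm_sc {b q : ℝ × ℝ} {r : ℝ} (hr : 0 < r) : dist (r⁻¹ • (q - b)) 0 = dist q b / r := by
  rw [dist_zero_right, norm_smul, Real.norm_eq_abs, abs_of_pos (inv_pos.2 hr), dist_eq_norm]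
  field_simp

theorem cut_one {b q : ℝ × ℝ} {r : ℝ} (hr : 0 < r) (hq : q ∈ closedBall b r) : cut b r q = 1 := by
  apply bmp.one_of_mem_closedBall
  rw [mem_closedBall, norm_sc hr]
  rw [mem_closedBall] at hq
  show dist q b / r ≤ 1
  rw [div_le_one hr]
  exact hq

theorem cut_zero {b q : ℝ × ℝ} {r : ℝ} (hr : 0 < r) (hq : q ∉ ball b (2 * r)) :
    cut b r q = 0 := by
  apply bmp.zero_of_le_dist
  rw [norm_sc hr]
  rw [mem_ball, not_lt] at hq
  show 2 ≤ dist q b / r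
  rw [le_div_iff₀ hr]
  exact hq

theorem cut_nonneg (b q : ℝ × ℝ) (r : ℝ) : 0 ≤ cut b r q := bmp.nonneg

theorem cut_le_one (b q : ℝ × ℝ) (r : ℝ) : cut b r q ≤ 1 := bmp.le_one

theorem tsupport_cut (b : ℝ × ℝ) {r : ℝ} (hr : 0 < r) : tsupport (cut b r) ⊆ closedBall b (2 * r) := by
  refine closure_minimal ?_ isClosed_closedBall
  intro q hq
  by_contra h
  exact hq (cut_zero hr (fun h' => h (ball_subset_closedBall h')))

/-- the energy of the standard bump -/
def e0 : ℝ := - ∫ q, bmp q * lap2 bmp q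

theorem integral_cut (b : ℝ × ℝ) {r : ℝ} (hr : 0 < r) :
    ∫ q, cut b r q * lap2 (cut b r) q = - e0 := by
  rw [e0, neg_neg]
  exact integral_sc_lap2 bmp.contDiff (inv_pos.2 hr) b

namespace CC

variable (X : ConfChart Q) [CompactSpace Z]

theorem exists_cut_aux (hC1 : InC1 Q) {b : ℝ × ℝ} {r : ℝ} (hr : 0 < r) (N : ℕ)
    (hb : closedBall b (2 ^ N * r) ⊆ ball X.p X.ρ) :
    ∃ s ∈ Q.Dom, (∀ x, 0 ≤ s x ∧ s x ≤ N) ∧ (∀ q ∈ closedBall b r, s (H X q) = N) ∧
      (∀ x, x ∉ H X '' ball b (2 ^ N * r) → s x = 0) ∧ Q.Γ s s 1 = N * (X.c * e0) := by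
  induction N with
  | zero =>
    refine ⟨0, D3b1.zero_mem Q, fun x => by simp, fun q _ => by simp, fun x _ => by simp, ?_⟩
    rw [zero_left (D3b1.zero_mem Q)]; simp
  | succ N ih =>
    have h2N : (0 : ℝ) < 2 ^ N := by positivity
    have hrN : 0 < 2 ^ N * r := by positivity
    have hle : (2 : ℝ) ^ N * r ≤ 2 ^ (N + 1) * r := by
      rw [pow_succ]; nlinarith
    obtain ⟨s, hsD, hs1, hs2, hs3, hs4⟩ := ih ((closedBall_subset_closedBall hle).trans hb)
    have hrw : 2 * (2 ^ N * r) = 2 ^ (N + 1) * r := by rw [pow_succ]; ring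
    have hts : tsupport (cut b (2 ^ N * r)) ⊆ ball X.p X.ρ :=
      (tsupport_cut b hrN).trans (by rw [hrw]; exact hb)
    set l := lift X (cut b (2 ^ N * r)) (cut_contDiff b _).continuous.continuousOn hts with hl
    have hlD : l ∈ Q.Dom := lift_dom X hC1 (cut_contDiff b _) hts
    have hb' : closedBall b r ⊆ closedBall b (2 ^ N * r) :=
      closedBall_subset_closedBall (by nlinarith [one_le_pow₀ (one_le_two (α := ℝ)) (n := N)])
    have hbr : closedBall b (2 ^ N * r) ⊆ ball X.p X.ρ :=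
      (closedBall_subset_closedBall hle).trans hb
    refine ⟨s + l, add_mem hsD hlD, ?_, ?_, ?_, ?_⟩
    · intro x
      have hl1 : 0 ≤ l x ∧ l x ≤ 1 := by
        by_cases hx : x ∈ X.W
        · rw [hl, lift_of_mem X _ hts hx]
          exact ⟨cut_nonneg _ _ _, cut_le_one _ _ _⟩
        · rw [hl, lift_of_not_mem X _ hts hx]
          simp
      have := hs1 x
      constructor
      · simp only [ContinuousMap.add_apply]; linarith
      · simp only [ContinuousMap.add_apply]; push_cast; linarith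
    · intro q hq
      simp only [ContinuousMap.add_apply]
      rw [hs2 q hq, hl, lift_H X _ hts (hbr (hb' hq)), cut_one hrN (hb' hq)]
      push_cast; ring
    · intro x hx
      simp only [ContinuousMap.add_apply]
      have h1 : x ∉ H X '' ball b (2 ^ N * r) := fun h =>
        hx (image_mono (ball_subset_ball hle) h)
      rw [hs3 x h1, zero_add]
      by_cases hxW : x ∈ X.W
      · rw [hl, lift_of_mem X _ hts hxW]
        apply cut_zero hrN
        rw [hrw]
        intro h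
        exact hx ⟨F X x, h, H_F X hxW⟩
      · rw [hl, lift_of_not_mem X _ hts hxW]
    · have hcross : Q.Γ l s 1 = 0 := by
        rw [hl, lift_lap X hC1 (cut_contDiff b _) hts hsD]
        have : ∀ q, s (H X q) * lap2 (cut b (2 ^ N * r)) q = 0 := by
          intro q
          by_cases h1 : q ∈ ball b (2 ^ N * r)
          · rw [lap2_zero_of_eventually (c := 1), mul_zero]
            filter_upwards [isOpen_ball.mem_nhds h1] with y hy
            exact cut_one hrN (ball_subset_closedBall hy)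
          · by_cases h2 : q ∈ ball X.p X.ρ
            · rw [hs3 (H X q), zero_mul]
              rintro ⟨q', hq', h⟩
              have := H_inj X (hbr (ball_subset_closedBall hq')) h2 h
              rw [this] at hq'
              exact h1 hq'
            · rw [lap2_zero_of_notMem (fun h => h2 (hts h)), mul_zero]
        simp_rw [this]
        simp
      have hself : Q.Γ l l 1 = X.c * e0 := by
        have h1 := lift_lap X hC1 (cut_contDiff b (2 ^ N * r)) hts hlD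
        rw [← hl] at h1
        rw [h1]
        have : ∀ q, l (H X q) * lap2 (cut b (2 ^ N * r)) q
            = cut b (2 ^ N * r) q * lap2 (cut b (2 ^ N * r)) q := by
          intro q
          by_cases h2 : q ∈ ball X.p X.ρ
          · rw [hl, lift_H X _ hts h2]
          · rw [lap2_zero_of_notMem (fun h => h2 (hts h)), mul_zero, mul_zero]
        simp_rw [this]
        rw [integral_cut b hrN]; ring
      rw [Γ_add_add hsD hlD, hs4, Q.symm s hsD l hlD, hcross, hself]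
      push_cast; ring

/-- **Logarithmic cut-offs.** -/
theorem exists_cut (hC1 : InC1 Q) {b : ℝ × ℝ} {r : ℝ} (hr : 0 < r) {N : ℕ} (hN : 1 ≤ N)
    (hb : closedBall b (2 ^ N * r) ⊆ ball X.p X.ρ) :
    ∃ w ∈ Q.Dom, (∀ q ∈ closedBall b r, w (H X q) = 1) ∧
      (∀ x, x ∉ H X '' ball b (2 ^ N * r) → w x = 0) ∧ Q.Γ w w 1 = X.c * e0 / N := by
  obtain ⟨s, hsD, -, hs2, hs3, hs4⟩ := exists_cut_aux X hC1 hr N hb
  have hN' : (N : ℝ) ≠ 0 := by positivity
  refine ⟨(N : ℝ)⁻¹ • s, smul_mem _ hsD, ?_, ?_, ?_⟩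
  · intro q hq
    simp only [ContinuousMap.smul_apply, smul_eq_mul]
    rw [hs2 q hq]; field_simp
  · intro x hx
    simp only [ContinuousMap.smul_apply, smul_eq_mul]
    rw [hs3 x hx]; simp
  · rw [Γ_smul_smul _ hsD, hs4]; field_simp

/-- **Modulus lemma.** -/
theorem modulus (hC1 : InC1 Q) (hL : InLoewUnit Q) {d : ℝ} (hd : 0 < d) :
    ∃ N : ℕ, ∀ (b : ℝ × ℝ) (r : ℝ), 0 < r → closedBall b (2 ^ N * r) ⊆ ball X.p X.ρ →
      ∀ (g : G) (A B : Set Z), IsPreconnected A → IsPreconnected B →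
      (∀ x ∈ A, g • x ∈ H X '' closedBall b r) → (∀ x ∈ B, g • x ∉ H X '' ball b (2 ^ N * r)) →
      ∀ a ∈ A, ∀ a' ∈ A, ∀ y ∈ B, ∀ y' ∈ B, d ≤ dist a a' → d ≤ dist y y' → False := by
  obtain ⟨c, hc, hLc⟩ := hL d hd
  obtain ⟨N, hN⟩ := exists_nat_gt (max 1 (X.c * e0 / c))
  have hN1 : (1 : ℝ) < N := lt_of_le_of_lt (le_max_left _ _) hN
  have hN2 : X.c * e0 / c < N := lt_of_le_of_lt (le_max_right _ _) hN
  have hN0 : (0 : ℝ) < N := by linarith
  have hN1' : 1 ≤ N := by exact_mod_cast hN1.le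
  refine ⟨N, fun b r hr hb g A B hA hB hA1 hB1 a ha a' ha' y hy y' hy' hda hdy => ?_⟩
  obtain ⟨w, hwD, hw1, hw2, hw3⟩ := exists_cut X hC1 hr hN1' hb
  set w' : C(Z, ℝ) := ⟨fun x => w (g • x), w.continuous.comp (S.cont g)⟩ with hw'
  obtain ⟨hw'D, hinv⟩ := Q.inv g w w 1 w' w' 1 hwD hwD (fun _ => rfl) (fun _ => rfl)
    (fun _ => rfl)
  have h1 := hLc A B hA hB a ha a' ha' y hy y' hy' hda hdy w' hw'D
    (fun x hx => by
      obtain ⟨q, hq, hqx⟩ := hA1 x hx
      show 1 ≤ w (g • x)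
      rw [← hqx, hw1 q hq])
    (fun x hx => (hw2 _ (hB1 x hx)).le)
  rw [hinv, hw3] at h1
  rw [div_lt_iff₀ hc] at hN2
  rw [le_div_iff₀ hN0] at h1
  nlinarith

end CC

end Crest.Agent.R193.D_Chart
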