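import Mathlib
import Crest.Agent.R193.D_Chart3
import Crest.Agent.R193.OSC

/-!
# R193, block D (C7-C8): harmonicity in the chart, energy bounds, rings, outer maximum principle
-/

set_option autoImplicit false

noncomputable section

open Set Filter Topology MeasureTheory Metric

namespace Crest.Agent.R193.D_Chart

open Crest.Agent.R193 Crest.Agent.R193.D3b1 Crest.Agent.R193.D3b2

variable {G Z : Type} [Group G] [MetricSpace Z] [MulAction G Z] {S : Setup G Z} {Q : DForm S}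

/-- the total mass of the standard bump -/
def m0 : ℝ := ∫ q, bmp q

theorem m0_nonneg : 0 ≤ m0 := integral_nonneg fun _ => bmp.nonneg

theorem integral_cut_one (b : ℝ × ℝ) {r : ℝ} (hr : 0 < r) : ∫ q, cut b r q = r ^ 2 * m0 := by
  have h := integral_sc (fun q => bmp q) (inv_pos.2 hr) b
  have h2 : ∫ q, cut b r q = ∫ q, bmp (r⁻¹ • (q - b)) := rfl
  rw [h2, h, m0, inv_pow, inv_inv]

namespace CC

variable (X : ConfChart Q) [CompactSpace Z]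

/-- (D8W, one level) harmonic polynomials of `F ∘ h` are weakly harmonic in the chart. -/
theorem lift_harm (hC1 : InC1 Q) {ψ : ℝ × ℝ → ℝ} (hψ : ContDiff ℝ (⊤ : ℕ∞) ψ)
    (hs : tsupport ψ ⊆ ball X.p X.ρ) (h : G) (hh : ∀ q ∈ tsupport ψ, h • H X q ∈ X.W)
    {P : ℝ × ℝ → ℝ} (hP : ContDiff ℝ (⊤ : ℕ∞) P) (hPh : ∀ q, lap2 P q = 0) :
    ∫ q, P (F X (h • H X q)) * lap2 ψ q = 0 := by
  set l := lift X ψ hψ.continuous.continuousOn hs with hl
  have hlD : l ∈ Q.Dom := lift_dom X hC1 hψ hs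
  set PF : C(Z, ℝ) := ⟨fun x => P (F X x), hP.continuous.comp (F_cont X)⟩ with hPF
  obtain ⟨hPFD, hPFL⟩ := hC1 X.O X.U X.V X.O_open X.conf P hP PF 0 (fun _ => rfl)
    (fun x => by rw [hPh]; rfl)
  set θ : C(Z, ℝ) := ⟨fun x => l (h⁻¹ • x), l.continuous.comp (S.cont h⁻¹)⟩ with hθ
  have hθD : θ ∈ Q.Dom :=
    (Q.inv h⁻¹ l l 1 θ θ 1 hlD hlD (fun _ => rfl) (fun _ => rfl) (fun _ => rfl)).1
  set w : C(Z, ℝ) := ⟨fun x => PF (h • x), PF.continuous.comp (S.cont h)⟩ with hw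
  obtain ⟨hwD, -⟩ := Q.inv h PF PF 1 w w 1 hPFD hPFD (fun _ => rfl) (fun _ => rfl) (fun _ => rfl)
  have h1 := (Q.inv h θ PF 1 l w 1 hθD hPFD (fun x => by simp [hθ]) (fun _ => rfl)
    (fun _ => rfl)).2
  have h2 : Q.Γ l w 1 = 0 := by
    rw [h1, Q.symm θ hθD PF hPFD, hPFL θ hθD ?_]
    · rw [mul_zero, zero_test X.conf.1 X.conf.1, neg_zero]
    · have hcl : IsClosed ((fun x : Z => h⁻¹ • x) ⁻¹' (tsupport l)) :=
        (isClosed_tsupport l).preimage (S.cont h⁻¹)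
      refine (closure_minimal (fun x hx => ?_) hcl).trans (fun x hx => ?_)
      · exact subset_tsupport _ hx
      · have hx1 : h⁻¹ • x ∈ tsupport l := hx
        have hx2 := tsupport_lift X _ hs hx1
        have hx3 := tsupport_lift_W X _ hs hx1
        have h4 := hh (F X (h⁻¹ • x)) hx2.2
        rw [H_F X hx3, smul_inv_smul] at h4
        exact X.W_sub (subset_closure h4)
  rw [hl, lift_lap X hC1 hψ hs hwD] at h2
  have h3 : X.c * ∫ q, w (H X q) * lap2 ψ q = 0 := by linarith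
  rcases mul_eq_zero.1 h3 with h4 | h4
  · exact absurd h4 X.c_pos.ne'
  · exact h4

/-- energy bound for the chart map: `Γ U U φ ≤ c m₀ r²` if `φ ≤ 1` is carried by `F⁻¹ (ball b r)` -/
theorem energy_chart {b : ℝ × ℝ} {r : ℝ} (hr : 0 < r)
    (hb : closedBall b (2 * r) ⊆ ball X.p X.ρ) {φ : C(Z, ℝ)} (hφ1 : ∀ x, φ x ≤ 1)
    (hφ : ∀ x, φ x ≠ 0 → x ∈ X.W ∧ F X x ∈ closedBall b r) :
    Q.Γ X.U X.U φ ≤ X.c * m0 * r ^ 2 ∧ Q.Γ X.V X.V φ ≤ X.c * m0 * r ^ 2 := by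
  have hts : tsupport (cut b r) ⊆ ball X.p X.ρ := (tsupport_cut b hr).trans hb
  set l := lift X (cut b r) (cut_contDiff b r).continuous.continuousOn hts with hl
  have hle : ∀ x, φ x ≤ l x := by
    intro x
    by_cases h0 : φ x = 0
    · rw [h0]
      by_cases hx : x ∈ X.W
      · rw [hl, lift_of_mem X _ hts hx]; exact cut_nonneg _ _ _
      · rw [hl, lift_of_not_mem X _ hts hx]
    · obtain ⟨h1, h2⟩ := hφ x h0
      rw [hl, lift_of_mem X _ hts h1, cut_one hr h2]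
      exact hφ1 x
  have hpush := X.push (cut b r) (cut_contDiff b r).continuous hts l
    (fun x hx => lift_of_mem X _ hts hx) (fun x hx => lift_of_not_mem X _ hts hx)
  rw [integral_cut_one b hr] at hpush
  have hUV := (X.conf.2.2.2 l ((tsupport_lift_W X _ hts).trans
    (subset_closure.trans X.W_sub))).2
  have e : X.c * (r ^ 2 * m0) = X.c * m0 * r ^ 2 := by ring
  constructor
  · calc Q.Γ X.U X.U φ ≤ Q.Γ X.U X.U l := OSC.Γ_mono_test Q X.conf.1 hle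
      _ = _ := by rw [hpush, e]
  · calc Q.Γ X.V X.V φ ≤ Q.Γ X.V X.V l := OSC.Γ_mono_test Q X.conf.2.1 hle
      _ = _ := by rw [← hUV, hpush, e]

end CC

/-! ### rings -/

theorem rings (Q : DForm S) (a : Z) {d : ℝ} (hd : 0 < d) (n : ℕ) :
    ∃ (ρ : ℕ → ℝ) (ψ : ℕ → C(Z, ℝ)) (d' : ℝ), 0 < d' ∧
      (∀ i, 0 < ρ i ∧ ρ i ≤ Q.ρ0 ∧ Q.lam * ρ i ≤ d) ∧ (∀ i p, 0 ≤ ψ i p) ∧
      (∀ i p, ρ i ≤ dist p a → dist p a ≤ Q.lam * ρ i → 1 ≤ ψ i p) ∧
      (∀ p, (∑ i ∈ Finset.range n, ψ i) p ≤ 1) ∧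
      (∀ i ∈ Finset.range n, ∀ p, ψ i p ≠ 0 → d' ≤ dist p a) ∧
      (∀ i ∈ Finset.range n, d' ≤ ρ i) := by
  have hl := Q.one_lt_lam
  have hl0 : 0 < Q.lam := by linarith
  set ρ1 := min Q.ρ0 (d / (2 * Q.lam)) with hρ1
  have hρ1p : 0 < ρ1 := lt_min Q.ρ0_pos (by positivity)
  set ρ : ℕ → ℝ := fun i => ρ1 / (4 * Q.lam) ^ i with hρ
  have hρp : ∀ i, 0 < ρ i := fun i => by simp only [hρ]; positivity
  have h4 : 1 < 4 * Q.lam := by linarith
  have hρle : ∀ i, ρ i ≤ ρ1 := fun i => by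
    simp only [hρ]
    apply div_le_self hρ1p.le
    exact one_le_pow₀ h4.le
  have hanti : ∀ i j, i ≤ j → ρ j ≤ ρ i := by
    intro i j hij
    simp only [hρ]
    apply div_le_div_of_nonneg_left hρ1p.le (by positivity)
    exact pow_le_pow_right₀ h4.le hij
  have hsucc : ∀ i, 2 * Q.lam * ρ (i + 1) = ρ i / 2 := by
    intro i
    simp only [hρ, pow_succ]
    field_simp
    ring
  have hρd : 2 * Q.lam * ρ1 ≤ d := by
    have : ρ1 ≤ d / (2 * Q.lam) := min_le_right _ _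
    rw [le_div_iff₀ (by positivity)] at this
    linarith
  let ψ : ℕ → C(Z, ℝ) := fun i => ⟨fun p => OSC.tent Q.lam (ρ i) (dist p a),
    (OSC.tent_cont _ _).comp (continuous_id.dist continuous_const)⟩
  have hψ : ∀ i p, ψ i p = OSC.tent Q.lam (ρ i) (dist p a) := fun i p => rfl
  refine ⟨ρ, ψ, ρ n / 2, by have := hρp n; linarith, fun i => ⟨hρp i,
    (hρle i).trans (min_le_left _ _), ?_⟩, fun i p => ?_, fun i p h1 h2 => ?_, fun p => ?_,
    fun i hi p hp => ?_, fun i hi => ?_⟩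
  · have h1 := hρle i
    have h2 := hρp i
    nlinarith
  · rw [hψ]; exact OSC.tent_nonneg _ _ _
  · rw [hψ]; exact OSC.tent_one hl (hρp i) h1 h2
  · rw [ContinuousMap.coe_sum, Finset.sum_apply]
    by_cases hex : ∃ i ∈ Finset.range n, ψ i p ≠ 0
    · obtain ⟨i, hi, hne⟩ := hex
      rw [hψ] at hne
      obtain ⟨ha, hb⟩ := OSC.tent_ne hl (hρp i) hne
      rw [Finset.sum_eq_single_of_mem i hi]
      · exact OSC.tent_le_one _ _ _
      · intro j hj hji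
        by_contra hne2
        rw [hψ] at hne2
        obtain ⟨hc, hd⟩ := OSC.tent_ne hl (hρp j) hne2
        rcases lt_or_gt_of_ne hji with hlt | hlt
        · have h1 := hanti (j + 1) i hlt
          have h2 := hsucc j
          nlinarith
        · have h1 := hanti (i + 1) j hlt
          have h2 := hsucc i
          nlinarith
    · push Not at hex
      rw [Finset.sum_eq_zero (fun i hi => hex i hi)]
      exact zero_le_one
  · rw [hψ] at hp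
    obtain ⟨ha, hb⟩ := OSC.tent_ne hl (hρp i) hp
    have h1 := hanti i n (Finset.mem_range.1 hi).le
    linarith
  · have h1 := hanti i n (Finset.mem_range.1 hi).le
    have h2 := hρp n
    linarith

/-- maximum principle outside a loop around `a` -/
theorem outer_max [LocallyConnectedSpace Z] {a : Z} {ρ lam : ℝ} {σ : Set Z} (hσc : IsCompact σ)
    (hσs : Separates σ (closedBall a ρ) (ball a (lam * ρ))ᶜ) {u : Z → ℝ} {O : Set Z}
    (hO : {x | ρ ≤ dist x a} ⊆ O) (hm : MonoOn u O) {w : Z} (hw : lam * ρ ≤ dist w a)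
    (hwσ : w ∉ σ) : (∃ b ∈ σ, u w ≤ u b) ∧ (∃ b ∈ σ, u b ≤ u w) := by
  set D := connectedComponentIn σᶜ w with hD
  have hwD : w ∈ D := mem_connectedComponentIn hwσ
  have hDo : IsOpen D := hσc.isClosed.isOpen_compl.connectedComponentIn
  have hDσ : D ⊆ σᶜ := connectedComponentIn_subset _ _
  have hDb : D ⊆ {x | ρ ≤ dist x a} := by
    intro p hp
    by_contra hpb
    have hp2 : p ∈ closedBall a ρ := by
      rw [mem_closedBall]
      have : ¬ ρ ≤ dist p a := hpb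
      linarith [not_le.1 this]
    obtain ⟨q, hq1, hq2⟩ := hσs D isPreconnected_connectedComponentIn
      ⟨p, hp, hp2⟩ ⟨w, hwD, by rw [mem_compl_iff, mem_ball]; linarith⟩
    exact hDσ hq1 hq2
  have hcl : closure D ⊆ O :=
    (closure_minimal hDb (isClosed_le continuous_const (continuous_id.dist continuous_const))).trans hO
  obtain ⟨⟨b, hb, hb'⟩, ⟨c, hc, hc'⟩⟩ := hm D hDo ⟨w, hwD⟩ hcl w hwD
  exact ⟨⟨b, OSC.frontier_comp hσc.isClosed w hb, hb'⟩,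
    ⟨c, OSC.frontier_comp hσc.isClosed w hc, hc'⟩⟩

/-- oscillation of a monotone function between two points outside many rings -/
theorem osc_outer (Q : DForm S) [LocallyConnectedSpace Z] {a : Z} {n : ℕ} (hn : 0 < n)
    {ρ : ℕ → ℝ} {ψ : ℕ → C(Z, ℝ)} (hρ : ∀ i, 0 < ρ i ∧ ρ i ≤ Q.ρ0)
    (hψ0 : ∀ i p, 0 ≤ ψ i p)
    (hψ1 : ∀ i p, ρ i ≤ dist p a → dist p a ≤ Q.lam * ρ i → 1 ≤ ψ i p)
    {u : C(Z, ℝ)} (hu : u ∈ Q.Dom) {O : Set Z} (hO : ∀ i ∈ Finset.range n, {x | ρ i ≤ dist x a} ⊆ O)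
    (hm : MonoOn u O) {E : ℝ} (hE : Q.Γ u u (∑ i ∈ Finset.range n, ψ i) ≤ E) {w w' : Z}
    (hw : ∀ i ∈ Finset.range n, Q.lam * ρ i ≤ dist w a)
    (hw' : ∀ i ∈ Finset.range n, Q.lam * ρ i ≤ dist w' a) :
    |u w - u w'| ≤ Q.C0 * Real.sqrt (E / n) := by
  have hn0 : (0 : ℝ) < n := by exact_mod_cast hn
  obtain ⟨i, hi, hi2⟩ : ∃ i ∈ Finset.range n, Q.Γ u u (ψ i) ≤ E / n := by
    apply Finset.exists_le_of_sum_le ⟨0, Finset.mem_range.2 hn⟩
    rw [Finset.sum_const, Finset.card_range, nsmul_eq_mul]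
    have : (n : ℝ) * (E / n) = E := by field_simp
    rw [this, ← OSC.Γ_sum_test Q hu hu]; exact hE
  have hsq : Q.C0 * Real.sqrt (Q.Γ u u (ψ i)) ≤ Q.C0 * Real.sqrt (E / n) :=
    mul_le_mul_of_nonneg_left (Real.sqrt_le_sqrt hi2) Q.C0_pos.le
  refine le_trans ?_ hsq
  apply le_of_forall_pos_le_add
  intro η hη
  obtain ⟨σ, hσc, -, hσa, hσs, hσo⟩ := Q.CL a (ρ i) (hρ i).1 (hρ i).2 u hu (ψ i) (hψ0 i)
    (hψ1 i) η hη
  have hnot : ∀ w : Z, Q.lam * ρ i ≤ dist w a → w ∉ σ := fun w hw h => by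
    have := (hσa w h).2
    linarith
  obtain ⟨⟨b, hb, hb'⟩, ⟨c, hc, hc'⟩⟩ := outer_max hσc hσs (hO i hi) hm (hw i hi) (hnot w (hw i hi))
  obtain ⟨⟨b2, hb2, hb2'⟩, ⟨c2, hc2, hc2'⟩⟩ :=
    outer_max hσc hσs (hO i hi) hm (hw' i hi) (hnot w' (hw' i hi))
  have e1 := hσo b hb c2 hc2
  have e2 := hσo b2 hb2 c hc
  rw [abs_le] at e1 e2 ⊢
  constructor <;> linarith

/-- two connected sets crossing all rings around `a` cost energy -/
theorem cross_rings (Q : DForm S) {a : Z} {n : ℕ} {ρ : ℕ → ℝ} {ψ : ℕ → C(Z, ℝ)}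
    (hρ : ∀ i, 0 < ρ i ∧ ρ i ≤ Q.ρ0) (hψ0 : ∀ i p, 0 ≤ ψ i p)
    (hψ1 : ∀ i p, ρ i ≤ dist p a → dist p a ≤ Q.lam * ρ i → 1 ≤ ψ i p)
    (hψs : ∀ p, (∑ i ∈ Finset.range n, ψ i) p ≤ 1)
    {w : C(Z, ℝ)} (hw : w ∈ Q.Dom) {A B : Set Z} (hA : IsPreconnected A) (hB : IsPreconnected B)
    (hwA : ∀ x ∈ A, w x = 1) (hwB : ∀ x ∈ B, w x = 0)
    {y y' z z' : Z} (hy : y ∈ A) (hy' : y' ∈ A) (hz : z ∈ B) (hz' : z' ∈ B)
    (h1 : ∀ i ∈ Finset.range n, dist y a ≤ ρ i) (h2 : ∀ i ∈ Finset.range n, Q.lam * ρ i ≤ dist y' a)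
    (h3 : ∀ i ∈ Finset.range n, dist z a ≤ ρ i)
    (h4 : ∀ i ∈ Finset.range n, Q.lam * ρ i ≤ dist z' a) :
    n ≤ Q.C0 ^ 2 * Q.Γ w w 1 := by
  have hC0 := Q.C0_pos
  have key : ∀ i ∈ Finset.range n, 1 / Q.C0 ^ 2 ≤ Q.Γ w w (ψ i) := by
    intro i hi
    have hΓ0 : 0 ≤ Q.Γ w w (ψ i) := Q.nonneg w hw _ (hψ0 i)
    have h5 : 1 ≤ Q.C0 * Real.sqrt (Q.Γ w w (ψ i)) := by
      apply le_of_forall_pos_le_add
      intro η hη
      obtain ⟨σ, hσc, -, hσa, hσs, hσo⟩ := Q.CL a (ρ i) (hρ i).1 (hρ i).2 w hw (ψ i) (hψ0 i)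
        (hψ1 i) η hη
      obtain ⟨p, hp1, hp2⟩ := hσs A hA ⟨y, hy, mem_closedBall.2 (h1 i hi)⟩
        ⟨y', hy', by rw [mem_compl_iff, mem_ball]; linarith [h2 i hi]⟩
      obtain ⟨q, hq1, hq2⟩ := hσs B hB ⟨z, hz, mem_closedBall.2 (h3 i hi)⟩
        ⟨z', hz', by rw [mem_compl_iff, mem_ball]; linarith [h4 i hi]⟩
      have := hσo p hp2 q hq2
      rw [hwA p hp1, hwB q hq1] at this
      simpa using this
    have h6 : 1 ≤ Q.C0 ^ 2 * Q.Γ w w (ψ i) := by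
      calc (1 : ℝ) = 1 ^ 2 := by norm_num
        _ ≤ (Q.C0 * Real.sqrt (Q.Γ w w (ψ i))) ^ 2 := pow_le_pow_left₀ zero_le_one h5 2
        _ = Q.C0 ^ 2 * Q.Γ w w (ψ i) := by rw [mul_pow, Real.sq_sqrt hΓ0]
    rw [div_le_iff₀ (by positivity)]
    linarith
  have hsum : ∑ i ∈ Finset.range n, (1 / Q.C0 ^ 2) ≤ Q.Γ w w 1 := by
    calc ∑ i ∈ Finset.range n, (1 / Q.C0 ^ 2) ≤ ∑ i ∈ Finset.range n, Q.Γ w w (ψ i) :=
          Finset.sum_le_sum key
      _ = Q.Γ w w (∑ i ∈ Finset.range n, ψ i) := (OSC.Γ_sum_test Q hw hw _ _).symm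
      _ ≤ Q.Γ w w 1 := OSC.Γ_mono_test Q hw hψs
  rw [Finset.sum_const, Finset.card_range, nsmul_eq_mul, mul_one_div,
    div_le_iff₀ (by positivity)] at hsum
  linarith

end Crest.Agent.R193.D_Chart
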