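import Mathlib
import Crest.Agent.R193.D_Defs

/-!
# R193, block D: abstract zoom families (interface between C7, C8 and D8W)
-/

set_option autoImplicit false

noncomputable section

open Set Filter Topology MeasureTheory Metric

namespace Crest.Agent.R193

/-- an abstract zoom family: `F k` maps `Z` to the plane, is injective on `Dk k` with inverse `H k`;
all bounds hold along the ultrafilter `hyperfilter ℕ`. -/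
structure ZF {Z : Type} [MetricSpace Z] (a : Z) (F : ℕ → Z → ℝ × ℝ) (H : ℕ → ℝ × ℝ → Z)
    (Dk : ℕ → Set Z) : Prop where
  cont : ∀ k, Continuous (F k)
  dom : ∀ K : Set Z, IsCompact K → a ∉ K → ∀ᶠ k in (hyperfilter ℕ : Filter ℕ), K ⊆ Dk k
  upper : ∀ K : Set Z, IsCompact K → a ∉ K → ∃ M : ℝ, ∀ᶠ k in (hyperfilter ℕ : Filter ℕ),
    ∀ y ∈ K, ‖F k y‖ ≤ M
  equi : ∀ x : Z, x ≠ a → ∀ ε : ℝ, 0 < ε → ∃ r : ℝ, 0 < r ∧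
    ∀ᶠ k in (hyperfilter ℕ : Filter ℕ), ∀ y ∈ closedBall x r, dist (F k y) (F k x) ≤ ε
  lower : ∀ d R : ℝ, 0 < d → ∃ δ : ℝ, 0 < δ ∧ ∀ᶠ k in (hyperfilter ℕ : Filter ℕ),
    ∀ y ∈ Dk k, ∀ y' ∈ Dk k, ‖F k y‖ ≤ R → d ≤ dist y y' → δ ≤ dist (F k y') (F k y)
  proper : ∀ R : ℝ, ∃ ρ : ℝ, 0 < ρ ∧ ∀ᶠ k in (hyperfilter ℕ : Filter ℕ),
    ∀ x ∈ Dk k, ‖F k x‖ ≤ R → ρ ≤ dist x a
  right : ∀ R : ℝ, ∀ᶠ k in (hyperfilter ℕ : Filter ℕ), ∀ q : ℝ × ℝ, ‖q‖ ≤ R →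
    H k q ∈ Dk k ∧ F k (H k q) = q
  left : ∀ k, ∀ x ∈ Dk k, H k (F k x) = x

/-- the finite part of a point of the sphere, in the real plane -/
def toR (w : OnePoint ℂ) : ℝ × ℝ := Complex.equivRealProd (toC w)

/-- the point of the sphere given by a point of the real plane -/
def ofR (q : ℝ × ℝ) : OnePoint ℂ := ((Complex.equivRealProd.symm q : ℂ) : OnePoint ℂ)

/-- OUTPUT 1 (topological limit) -/
def ZFLim {Z : Type} [MetricSpace Z] (a : Z) (F : ℕ → Z → ℝ × ℝ) (H : ℕ → ℝ × ℝ → Z)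
    (Φ : Z ≃ₜ OnePoint ℂ) : Prop :=
  Φ a = OnePoint.infty ∧
  (∀ K : Set Z, IsCompact K → a ∉ K → ∀ ε : ℝ, 0 < ε → ∀ᶠ k in (hyperfilter ℕ : Filter ℕ),
    ∀ x ∈ K, dist (F k x) (toR (Φ x)) < ε) ∧
  (∀ R ε : ℝ, 0 < ε → ∀ᶠ k in (hyperfilter ℕ : Filter ℕ), ∀ q : ℝ × ℝ, ‖q‖ ≤ R →
    dist (H k q) (Φ.symm (ofR q)) < ε)

/-- the harmonicity identity of the zoom family under a group action -/
def ZFHarm {G Z : Type} [Group G] [MetricSpace Z] [MulAction G Z] (F : ℕ → Z → ℝ × ℝ)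
    (H : ℕ → ℝ × ℝ → Z) (Dk : ℕ → Set Z) (g : G) : Prop :=
  ∀ P : ℝ × ℝ → ℝ, ContDiff ℝ (⊤ : ℕ∞) P → (∀ q, lap2 P q = 0) →
  ∀ ψ : ℝ × ℝ → ℝ, ContDiff ℝ (⊤ : ℕ∞) ψ → HasCompactSupport ψ →
    ∀ᶠ k in (hyperfilter ℕ : Filter ℕ), (∀ q ∈ tsupport ψ, g • H k q ∈ Dk k) →
      ∫ q, P (F k (g • H k q)) * lap2 ψ q = 0

/-
TASK `limit` :
theorem limit {Z : Type} [MetricSpace Z] [CompactSpace Z] {a : Z} {F : ℕ → Z → ℝ × ℝ}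
    {H : ℕ → ℝ × ℝ → Z} {Dk : ℕ → Set Z} (h : ZF a F H Dk) : ∃ Φ : Z ≃ₜ OnePoint ℂ, ZFLim a F H Φ

TASK `weakConf` :
theorem weakConf {G Z : Type} [Group G] [MetricSpace Z] [CompactSpace Z] [MulAction G Z]
    {a : Z} {F : ℕ → Z → ℝ × ℝ} {H : ℕ → ℝ × ℝ → Z} {Dk : ℕ → Set Z} (h : ZF a F H Dk)
    {Φ : Z ≃ₜ OnePoint ℂ} (hΦ : ZFLim a F H Φ) (g : G) (hg : Continuous fun x : Z => g • x)
    (hH : ZFHarm F H Dk g) : WeakConf (fun w => Φ (g • Φ.symm w))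
-/

end Crest.Agent.R193
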