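import Mathlib
import Crest.Agent.R193.D_Chart4
import Crest.Agent.R193.D_ZF

/-!
# R193, block D (C7-C8): zooming a conformal chart
-/

set_option autoImplicit false

noncomputable section

open Set Filter Topology MeasureTheory Metric

namespace Crest.Agent.R193.D_Chart

open Crest.Agent.R193 Crest.Agent.R193.D3b1 Crest.Agent.R193.D3b2

variable {G Z : Type} [Group G] [MetricSpace Z] [MulAction G Z] {S : Setup G Z} {Q : DForm S}

/-- the ultrafilter -/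
abbrev om : Filter ℕ := (hyperfilter ℕ : Filter ℕ)

/-- zoom data for a chart -/
structure ZD (X : ConfChart Q) where
  a : Z
  g : ℕ → G
  x0 : Z
  x1 : Z
  h0 : x0 ≠ a
  h1 : x1 ≠ a
  h01 : x0 ≠ x1
  zoom : ∀ K : Set Z, IsCompact K → a ∉ K → ∀ U ∈ 𝓝 (CC.H X X.p), ∀ᶠ k in om,
    ∀ x ∈ K, g k • x ∈ U

namespace ZD

open CC

variable {X : ConfChart Q} (D : ZD X)

/-- zoomed chart map (not normalised) -/
def f (k : ℕ) (x : Z) : ℝ × ℝ := F X (D.g k • x)

/-- the scale -/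
def s (k : ℕ) : ℝ := dist (D.f k D.x1) (D.f k D.x0)

theorem f_cont (k : ℕ) : Continuous (D.f k) := (F_cont X).comp (S.cont (D.g k))

theorem p_mem : X.p ∈ ball X.p X.ρ := mem_ball_self X.ρ_pos

theorem ev_W {K : Set Z} (hK : IsCompact K) (ha : D.a ∉ K) : ∀ᶠ k in om, ∀ x ∈ K, D.g k • x ∈ X.W :=
  D.zoom K hK ha X.W (X.W_open.mem_nhds (H_mem X p_mem))

theorem ev_near {K : Set Z} (hK : IsCompact K) (ha : D.a ∉ K) {ε : ℝ} (hε : 0 < ε) :
    ∀ᶠ k in om, ∀ x ∈ K, dist (D.f k x) X.p < ε := by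
  refine D.zoom K hK ha (F X ⁻¹' ball X.p ε) ?_
  apply (F_cont X).continuousAt
  rw [F_H X p_mem]
  exact ball_mem_nhds _ hε

theorem isCompact_pair : IsCompact ({D.x0, D.x1} : Set Z) := (Set.toFinite _).isCompact

theorem a_notMem_pair : D.a ∉ ({D.x0, D.x1} : Set Z) := by
  rintro (h | h)
  · exact D.h0 h.symm
  · exact D.h1 h.symm

theorem ev_pair : ∀ᶠ k in om, D.g k • D.x0 ∈ X.W ∧ D.g k • D.x1 ∈ X.W := by
  filter_upwards [D.ev_W D.isCompact_pair D.a_notMem_pair] with k hk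
  exact ⟨hk _ (by simp), hk _ (by simp)⟩

theorem s_pos : ∀ᶠ k in om, 0 < D.s k := by
  filter_upwards [D.ev_pair] with k hk
  apply dist_pos.2
  intro h
  have := F_inj X hk.2 hk.1 h
  exact D.h01 (smul_left_cancel _ this).symm

theorem s_small {ε : ℝ} (hε : 0 < ε) : ∀ᶠ k in om, D.s k < ε := by
  filter_upwards [D.ev_near D.isCompact_pair D.a_notMem_pair (half_pos hε)] with k hk
  have h1 := hk D.x0 (by simp)
  have h2 := hk D.x1 (by simp)
  have h3 := dist_triangle_right (D.f k D.x1) (D.f k D.x0) X.p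
  unfold s
  linarith

theorem ev_ball {K : Set Z} (hK : IsCompact K) (ha : D.a ∉ K) (R : ℝ) :
    ∀ᶠ k in om, ∀ x ∈ K, closedBall (D.f k x) (R * D.s k) ⊆ ball X.p X.ρ := by
  have hρ := X.ρ_pos
  filter_upwards [D.ev_near hK ha (half_pos hρ), D.s_small (ε := X.ρ / (2 * (|R| + 1)))
    (by positivity), D.s_pos] with k h1 h2 h3 x hx
  intro y hy
  rw [mem_closedBall] at hy
  rw [mem_ball]
  have h4 := h1 x hx
  have h5 := dist_triangle y (D.f k x) X.p
  have h6 : R * D.s k < X.ρ / 2 := by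
    rw [lt_div_iff₀ (by positivity)] at h2
    have : R * D.s k ≤ |R| * D.s k := mul_le_mul_of_nonneg_right (le_abs_self R) h3.le
    nlinarith
  linarith

theorem ev_ball0 (R : ℝ) : ∀ᶠ k in om, closedBall (D.f k D.x0) (R * D.s k) ⊆ ball X.p X.ρ := by
  filter_upwards [D.ev_ball D.isCompact_pair D.a_notMem_pair R] with k hk
  exact hk _ (by simp)

theorem ev_pole [CompactSpace Z] {y : Z} (hy : y ∉ X.W) {ε : ℝ} (hε : 0 < ε) :
    ∀ᶠ k in om, dist ((D.g k)⁻¹ • y) D.a < ε := by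
  have hK : IsCompact ((ball D.a ε)ᶜ) := isOpen_ball.isClosed_compl.isCompact
  filter_upwards [D.ev_W hK (fun h => h (mem_ball_self hε))] with k hk
  by_contra hcon
  have := hk ((D.g k)⁻¹ • y) (fun h => hcon h)
  rw [smul_inv_smul] at this
  exact hy this

/-! connected sets -/

theorem preconn_pre (S : Setup G Z) {A : Set Z} (hA : IsPreconnected A) (g : G) :
    IsPreconnected {x : Z | g • x ∈ A} := by
  have : {x : Z | g • x ∈ A} = (fun x : Z => g⁻¹ • x) '' A := by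
    ext x
    constructor
    · intro hx; exact ⟨g • x, hx, by simp⟩
    · rintro ⟨y, hy, rfl⟩; simpa using hy
  rw [this]
  exact hA.image _ (S.cont g⁻¹).continuousOn

theorem preconn_in [CompactSpace Z] (g : G) {b : ℝ × ℝ} {r : ℝ}
    (hb : closedBall b r ⊆ ball X.p X.ρ) :
    IsPreconnected {x : Z | g • x ∈ H X '' closedBall b r} :=
  preconn_pre S (isPreconnected_H_image X hb (convex_closedBall b r).isPreconnected) g

theorem preconn_out [CompactSpace Z] [PreconnectedSpace Z] (g : G) {b : ℝ × ℝ} {r : ℝ}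
    (hr : 0 < r) (hb : closedBall b r ⊆ ball X.p X.ρ) :
    IsPreconnected {x : Z | g • x ∉ H X '' ball b r} :=
  preconn_pre S (isPreconnected_compl X hr hb) g

theorem mem_in {g : G} {b : ℝ × ℝ} {r : ℝ} {x : Z} (hx : g • x ∈ X.W)
    (h : dist (F X (g • x)) b ≤ r) : g • x ∈ H X '' closedBall b r :=
  ⟨F X (g • x), h, H_F X hx⟩

theorem notMem_out {g : G} {b : ℝ × ℝ} {r : ℝ} {x : Z} (hb : ball b r ⊆ ball X.p X.ρ)
    (h : r ≤ dist (F X (g • x)) b) : g • x ∉ H X '' ball b r := by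
  rintro ⟨q, hq, hqx⟩
  rw [← hqx, F_H X (hb hq)] at h
  rw [mem_ball] at hq
  linarith

theorem notMem_out' {g : G} {b : ℝ × ℝ} {r : ℝ} {y : Z} (hb : ball b r ⊆ ball X.p X.ρ)
    (hy : y ∉ X.W) : g • (g⁻¹ • y) ∉ H X '' ball b r := by
  rw [smul_inv_smul]
  rintro ⟨q, hq, hqx⟩
  exact hy (hqx ▸ H_mem X (hb hq))

/-- **Upper bound** on compact sets -/
theorem upper [CompactSpace Z] [PreconnectedSpace Z] (hC1 : InC1 Q) (hL : InLoewUnit Q)
    {K : Set Z} (hK : IsCompact K) (ha : D.a ∉ K) :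
    ∃ M : ℝ, 0 < M ∧ ∀ᶠ k in om, ∀ y ∈ K, dist (D.f k y) (D.f k D.x0) ≤ M * D.s k := by
  obtain ⟨δ, hδ, hball⟩ := Metric.isOpen_iff.1 hK.isClosed.isOpen_compl D.a ha
  have hKd : ∀ y ∈ K, δ ≤ dist y D.a := by
    intro y hy
    by_contra h
    exact hball (mem_ball.2 (not_le.1 h)) hy
  set d := min (dist D.x0 D.x1) (δ / 2) with hd
  have hd0 : 0 < d := lt_min (dist_pos.2 D.h01) (half_pos hδ)
  obtain ⟨N, hN⟩ := modulus X hC1 hL hd0
  have h2N : (0 : ℝ) < 2 ^ N := by positivity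
  refine ⟨2 ^ N, h2N, ?_⟩
  obtain ⟨y1, hy1⟩ := X.W_ne
  filter_upwards [D.ev_W hK ha, D.ev_pair, D.s_pos, D.ev_ball0 (2 ^ N), D.ev_ball0 1,
    D.ev_pole hy1 (half_pos hδ)] with k hKW hpair hs hb hb1 hpole y hy
  by_contra hcon
  push Not at hcon
  rw [one_mul] at hb1
  have hbo : ball (D.f k D.x0) (2 ^ N * D.s k) ⊆ ball X.p X.ρ := ball_subset_closedBall.trans hb
  refine hN (D.f k D.x0) (D.s k) hs hb (D.g k)
    {x | D.g k • x ∈ H X '' closedBall (D.f k D.x0) (D.s k)}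
    {x | D.g k • x ∉ H X '' ball (D.f k D.x0) (2 ^ N * D.s k)}
    (preconn_in _ hb1) (preconn_out _ (by positivity) hb) (fun x hx => hx) (fun x hx => hx)
    D.x0 (mem_in hpair.1 (by
      show dist (D.f k D.x0) (D.f k D.x0) ≤ D.s k
      rw [dist_self]; exact hs.le))
    D.x1 (mem_in hpair.2 (le_refl _))
    y (notMem_out hbo hcon.le) ((D.g k)⁻¹ • y1) (notMem_out' hbo hy1) (min_le_left _ _) ?_
  have h1 := hKd y hy
  have h2 := dist_triangle y ((D.g k)⁻¹ • y1) D.a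
  have h3 : d ≤ δ / 2 := min_le_right _ _
  linarith

/-- **Lower bound** -/
theorem lower [CompactSpace Z] [PreconnectedSpace Z] (hC1 : InC1 Q) (hL : InLoewUnit Q)
    {d R : ℝ} (hd : 0 < d) (hR : 0 < R) :
    ∃ δ : ℝ, 0 < δ ∧ ∀ᶠ k in om, ∀ y y' : Z, D.g k • y ∈ X.W → D.g k • y' ∈ X.W →
      dist (D.f k y) (D.f k D.x0) ≤ R * D.s k → d ≤ dist y y' →
      δ * D.s k ≤ dist (D.f k y') (D.f k y) := by
  set e := min (dist D.x0 D.a) (dist D.x1 D.a) with he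
  have he0 : 0 < e := lt_min (dist_pos.2 D.h0) (dist_pos.2 D.h1)
  set d' := min d (e / 2) with hd'
  have hd'0 : 0 < d' := lt_min hd (half_pos he0)
  obtain ⟨N, hN⟩ := modulus X hC1 hL hd'0
  have h2N : (0 : ℝ) < 2 ^ N := by positivity
  have h1N : (1 : ℝ) ≤ 2 ^ N := one_le_pow₀ one_le_two
  refine ⟨1 / (2 * 2 ^ N), by positivity, ?_⟩
  obtain ⟨y1, hy1⟩ := X.W_ne
  filter_upwards [D.ev_pair, D.s_pos, D.ev_ball0 (R + 1), D.ev_pole hy1 (half_pos he0)] with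
    k hpair hs hb hpole y y' hy hy' hyR hyy
  by_contra hcon
  push Not at hcon
  set r := dist (D.f k y') (D.f k y) with hr
  have hr0 : 0 < r := by
    rcases (dist_nonneg (x := D.f k y') (y := D.f k y)).lt_or_eq with h | h
    · exact h
    · exfalso
      have h1 : D.f k y' = D.f k y := dist_eq_zero.1 h.symm
      have h2 := smul_left_cancel _ (F_inj X hy' hy h1)
      rw [h2, dist_self] at hyy
      linarith
  have hr2 : 2 ^ N * r < D.s k / 2 := by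
    have : 2 ^ N * r < 2 ^ N * (1 / (2 * 2 ^ N) * D.s k) := by gcongr
    have h3 : (2 : ℝ) ^ N * (1 / (2 * 2 ^ N) * D.s k) = D.s k / 2 := by field_simp
    linarith
  have hb' : closedBall (D.f k y) (2 ^ N * r) ⊆ ball X.p X.ρ := by
    refine Subset.trans (closedBall_subset_closedBall' ?_) hb
    linarith
  have hbr : closedBall (D.f k y) r ⊆ ball X.p X.ρ :=
    (closedBall_subset_closedBall (by nlinarith)).trans hb'
  have hbo : ball (D.f k y) (2 ^ N * r) ⊆ ball X.p X.ρ := ball_subset_closedBall.trans hb'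
  -- one of `x0`, `x1` is far
  have hfar : ∃ x, (x = D.x0 ∨ x = D.x1) ∧ 2 ^ N * r ≤ dist (D.f k x) (D.f k y) := by
    by_contra hno
    push Not at hno
    have h1 := hno D.x0 (Or.inl rfl)
    have h2 := hno D.x1 (Or.inr rfl)
    have h3 := dist_triangle_right (D.f k D.x1) (D.f k D.x0) (D.f k y)
    have h4 : D.s k = dist (D.f k D.x1) (D.f k D.x0) := rfl
    linarith
  obtain ⟨x, hx, hxr⟩ := hfar
  have hxa : e ≤ dist x D.a := by
    rcases hx with rfl | rfl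
    · exact min_le_left _ _
    · exact min_le_right _ _
  refine hN (D.f k y) r hr0 hb' (D.g k)
    {x | D.g k • x ∈ H X '' closedBall (D.f k y) r}
    {x | D.g k • x ∉ H X '' ball (D.f k y) (2 ^ N * r)}
    (preconn_in _ hbr) (preconn_out _ (by positivity) hb') (fun x hx => hx) (fun x hx => hx)
    y (mem_in hy (by
      show dist (D.f k y) (D.f k y) ≤ r
      rw [dist_self]; exact hr0.le))
    y' (mem_in hy' (le_refl _))
    x (notMem_out hbo hxr) ((D.g k)⁻¹ • y1) (notMem_out' hbo hy1)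
    ((min_le_left _ _).trans hyy) ?_
  have h2 := dist_triangle x ((D.g k)⁻¹ • y1) D.a
  have h3 : d' ≤ e / 2 := min_le_right _ _
  linarith

/-- the two components pulled back by `g k` -/
def Uk (k : ℕ) : C(Z, ℝ) := ⟨fun x => X.U (D.g k • x), X.U.continuous.comp (S.cont (D.g k))⟩
def Vk (k : ℕ) : C(Z, ℝ) := ⟨fun x => X.V (D.g k • x), X.V.continuous.comp (S.cont (D.g k))⟩

theorem Uk_dom (k : ℕ) : D.Uk k ∈ Q.Dom :=
  (Q.inv (D.g k) X.U X.U 1 (D.Uk k) (D.Uk k) 1 X.conf.1 X.conf.1 (fun _ => rfl) (fun _ => rfl)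
    (fun _ => rfl)).1

theorem Vk_dom (k : ℕ) : D.Vk k ∈ Q.Dom :=
  (Q.inv (D.g k) X.V X.V 1 (D.Vk k) (D.Vk k) 1 X.conf.2.1 X.conf.2.1 (fun _ => rfl) (fun _ => rfl)
    (fun _ => rfl)).1

theorem energy_k [CompactSpace Z] (k : ℕ) {b : ℝ × ℝ} {r : ℝ} (hr : 0 < r)
    (hb : closedBall b (2 * r) ⊆ ball X.p X.ρ) {φ : C(Z, ℝ)} (hφ1 : ∀ x, φ x ≤ 1)
    (hφ : ∀ x, φ x ≠ 0 → D.g k • x ∈ X.W ∧ dist (D.f k x) b ≤ r) :
    Q.Γ (D.Uk k) (D.Uk k) φ ≤ X.c * m0 * r ^ 2 ∧ Q.Γ (D.Vk k) (D.Vk k) φ ≤ X.c * m0 * r ^ 2 := by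
  set φ' : C(Z, ℝ) := ⟨fun x => φ ((D.g k)⁻¹ • x), φ.continuous.comp (S.cont (D.g k)⁻¹)⟩ with hφ'
  have h := energy_chart X hr hb (φ := φ') (fun x => hφ1 _) (fun x hx => by
    have := hφ ((D.g k)⁻¹ • x) hx
    unfold f at this
    rw [smul_inv_smul] at this
    exact ⟨this.1, mem_closedBall.2 this.2⟩)
  have e1 := (Q.inv (D.g k) X.U X.U φ' (D.Uk k) (D.Uk k) φ X.conf.1 X.conf.1 (fun _ => rfl)
    (fun _ => rfl) (fun x => by simp [hφ'])).2
  have e2 := (Q.inv (D.g k) X.V X.V φ' (D.Vk k) (D.Vk k) φ X.conf.2.1 X.conf.2.1 (fun _ => rfl)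
    (fun _ => rfl) (fun x => by simp [hφ'])).2
  rw [e1, e2]
  exact h

theorem mono_U (hmax : InMax Q) (k : ℕ) {O : Set Z} (hO : ∀ x ∈ O, D.g k • x ∈ X.W) :
    MonoOn (D.Uk k) O ∧ MonoOn (D.Vk k) O := by
  have hW : X.W ≠ univ := by
    obtain ⟨y, hy⟩ := X.W_ne
    exact fun h => hy (h ▸ mem_univ y)
  have hsubW : X.W ⊆ X.O := subset_closure.trans X.W_sub
  have hU : Harm Q X.W X.U := ⟨X.conf.harm_left.1, fun w hw hs =>
    X.conf.harm_left.2 w hw (hs.trans hsubW)⟩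
  have hV : Harm Q X.W X.V := ⟨X.conf.harm_right.1, fun w hw hs =>
    X.conf.harm_right.2 w hw (hs.trans hsubW)⟩
  have h1 := OSC.MonoOn.comp_homeo (hmax X.W X.U X.W_open hW hU) (OSC.hom S (D.g k))
  have h2 := OSC.MonoOn.comp_homeo (hmax X.W X.V X.W_open hW hV) (OSC.hom S (D.g k))
  have hsub : O ⊆ (OSC.hom S (D.g k)) ⁻¹' X.W := fun x hx => hO x hx
  exact ⟨OSC.MonoOn.mono h1 hsub, OSC.MonoOn.mono h2 hsub⟩

/-! the normalised zoom family -/

/-- normalised zoomed chart map -/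
def Fk (k : ℕ) (x : Z) : ℝ × ℝ := (D.s k)⁻¹ • (D.f k x - D.f k D.x0)

/-- normalised zoomed inverse chart map -/
def Hk (k : ℕ) (q : ℝ × ℝ) : Z := (D.g k)⁻¹ • H X (D.f k D.x0 + D.s k • q)

/-- the domain where the zoomed chart map is a homeomorphism -/
def Dk (k : ℕ) : Set Z := {x | D.g k • x ∈ X.W}

end ZD

end Crest.Agent.R193.D_Chart
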