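import Mathlib
import Crest.Agent.R193.D_Chart5

/-!
# R193, block D (C7-C8): equicontinuity and properness of the zoomed charts
-/

set_option autoImplicit false

noncomputable section

open Set Filter Topology MeasureTheory Metric

namespace Crest.Agent.R193.D_Chart

open Crest.Agent.R193 Crest.Agent.R193.D3b1 Crest.Agent.R193.D3b2

variable {G Z : Type} [Group G] [MetricSpace Z] [MulAction G Z] {S : Setup G Z} {Q : DForm S}

namespace ZD

open CC

variable {X : ConfChart Q} (D : ZD X)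

theorem dist_f_le {k : ℕ} {x y : Z} {e : ℝ} (h1 : |D.Uk k y - D.Uk k x| ≤ e)
    (h2 : |D.Vk k y - D.Vk k x| ≤ e) : dist (D.f k y) (D.f k x) ≤ e := by
  rw [Prod.dist_eq]
  apply max_le
  · rw [Real.dist_eq]; exact h1
  · rw [Real.dist_eq]; exact h2

/-- **Equicontinuity** off the point `a` -/
theorem equi [CompactSpace Z] [PreconnectedSpace Z] [LocallyConnectedSpace Z] (hC1 : InC1 Q)
    (hL : InLoewUnit Q) (hmax : InMax Q) {x : Z} (hx : x ≠ D.a) {ε : ℝ} (hε : 0 < ε) :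
    ∃ r : ℝ, 0 < r ∧ ∀ᶠ k in om, ∀ y ∈ closedBall x r,
      dist (D.f k y) (D.f k x) ≤ ε * D.s k := by
  set δ := dist x D.a / 4 with hδd
  have hda : 0 < dist x D.a := dist_pos.2 hx
  have hδ : 0 < δ := by positivity
  set K := closedBall x (2 * δ) with hKd
  have hK : IsCompact K := isClosed_closedBall.isCompact
  have haK : D.a ∉ K := by
    intro h
    rw [hKd, mem_closedBall, dist_comm] at h
    linarith
  obtain ⟨M, hM, hup⟩ := D.upper hC1 hL hK haK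
  have hc := X.c_pos
  have hm := m0_nonneg
  have hA : 0 ≤ X.c * m0 * M ^ 2 := by positivity
  obtain ⟨r', hr', hr'δ, hosc⟩ := OSC.osc_small Q hδ
    (ε := ε ^ 2 / (X.c * m0 * M ^ 2 + 1)) (by positivity)
  refine ⟨r', hr', ?_⟩
  set φ : C(Z, ℝ) := ⟨fun y => min 1 (max 0 (2 - dist y x / δ)), by fun_prop⟩ with hφ
  have hφ0 : ∀ y, 0 ≤ φ y := fun y => le_min zero_le_one (le_max_left _ _)
  have hφ1 : ∀ y, φ y ≤ 1 := fun y => min_le_left _ _
  have hφ2 : ∀ y, dist y x ≤ δ → 1 ≤ φ y := by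
    intro y hy
    refine le_min le_rfl (le_max_of_le_right ?_)
    have : dist y x / δ ≤ 1 := (div_le_one hδ).2 hy
    linarith
  have hφ3 : ∀ y, φ y ≠ 0 → y ∈ K := by
    intro y hy
    by_contra hcon
    apply hy
    rw [hKd, mem_closedBall, not_le] at hcon
    have h1 : 2 - dist y x / δ ≤ 0 := by
      have : 2 < dist y x / δ := (lt_div_iff₀ hδ).2 hcon
      linarith
    show min 1 (max 0 (2 - dist y x / δ)) = 0
    rw [max_eq_left h1]
    exact min_eq_right zero_le_one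
  filter_upwards [hup, D.ev_W hK haK, D.s_pos, D.ev_ball0 (2 * M)] with k h1 h2 h3 h4 y hy
  have hb : closedBall (D.f k D.x0) (2 * (M * D.s k)) ⊆ ball X.p X.ρ := by
    rw [← mul_assoc]; exact h4
  have hE := D.energy_k k (by positivity) hb hφ1 (fun z hz => ⟨h2 z (hφ3 z hz), h1 z (hφ3 z hz)⟩)
  have hsub : closedBall x δ ⊆ K := closedBall_subset_closedBall (by linarith)
  have hmo := D.mono_U hmax k (O := K) h2
  have hy' : dist y x ≤ r' := hy
  have hxx : dist x x ≤ r' := by rw [dist_self]; exact hr'.le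
  have key : ∀ e : ℝ, 0 ≤ ε * D.s k → e ≤ X.c * m0 * (M * D.s k) ^ 2 →
      ∀ t : ℝ, |t| ^ 2 ≤ ε ^ 2 / (X.c * m0 * M ^ 2 + 1) * e → |t| ≤ ε * D.s k := by
    intro e h0 he t ht
    rw [← pow_le_pow_iff_left₀ (abs_nonneg t) h0 two_ne_zero]
    refine ht.trans ?_
    calc ε ^ 2 / (X.c * m0 * M ^ 2 + 1) * e
        ≤ ε ^ 2 / (X.c * m0 * M ^ 2 + 1) * (X.c * m0 * (M * D.s k) ^ 2) := by gcongr
      _ = (ε * D.s k) ^ 2 * ((X.c * m0 * M ^ 2) / (X.c * m0 * M ^ 2 + 1)) := by ring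
      _ ≤ (ε * D.s k) ^ 2 * 1 := by
          gcongr
          rw [div_le_one (by positivity)]
          linarith
      _ = _ := mul_one _
  have hs0 : 0 ≤ ε * D.s k := by positivity
  apply D.dist_f_le
  · exact key _ hs0 hE.1 _ (hosc x (D.Uk k) (D.Uk_dom k) K hsub hmo.1 φ hφ0 hφ2 y x hy' hxx)
  · exact key _ hs0 hE.2 _ (hosc x (D.Vk k) (D.Vk_dom k) K hsub hmo.2 φ hφ0 hφ2 y x hy' hxx)

/-- some point stays far from the pole and is mapped far -/
theorem far [CompactSpace Z] [PreconnectedSpace Z] [LocallyConnectedSpace Z]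
    (hmax : InMax Q) {R : ℝ} (hR : 0 < R) :
    ∃ d1 : ℝ, 0 < d1 ∧ ∀ᶠ k in om, ∃ t : Z,
      D.g k • t ∉ H X '' ball (D.f k D.x0) (R * D.s k) ∧ d1 ≤ dist t D.a := by
  have hd0 : 0 < min (dist D.x0 D.a) (dist D.x1 D.a) := lt_min (dist_pos.2 D.h0) (dist_pos.2 D.h1)
  have hc := X.c_pos
  have hm := m0_nonneg
  have hC0 := Q.C0_pos
  obtain ⟨n, hn⟩ := exists_nat_gt (Q.C0 ^ 2 * (X.c * m0 * R ^ 2))
  have hn0 : (0 : ℝ) < n := lt_of_le_of_lt (by positivity) hn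
  have hn0' : 0 < n := by exact_mod_cast hn0
  obtain ⟨ρ, ψ, d', hd', hρ, hψ0, hψ1, hψs, hψd, hρd⟩ := rings Q D.a hd0 n
  refine ⟨d', hd', ?_⟩
  have hK : IsCompact {x : Z | d' ≤ dist x D.a} :=
    (isClosed_le continuous_const (by fun_prop)).isCompact
  have haK : D.a ∉ {x : Z | d' ≤ dist x D.a} := by
    simp only [Set.mem_ofPred_eq, dist_self, not_le]; exact hd'
  filter_upwards [D.s_pos, D.ev_ball0 (2 * R), D.ev_W hK haK] with k h1 h2 h3
  by_contra hcon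
  push Not at hcon
  have hin : ∀ t, d' ≤ dist t D.a → dist (D.f k t) (D.f k D.x0) ≤ R * D.s k := by
    intro t ht
    by_contra hlt
    push Not at hlt
    have hb : ball (D.f k D.x0) (R * D.s k) ⊆ ball X.p X.ρ := by
      refine ball_subset_closedBall.trans ((closedBall_subset_closedBall ?_).trans h2)
      nlinarith
    exact absurd ht (not_le.2 (hcon t (notMem_out hb hlt.le)))
  have hb2 : closedBall (D.f k D.x0) (2 * (R * D.s k)) ⊆ ball X.p X.ρ := by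
    rw [← mul_assoc]; exact h2
  have hE := D.energy_k k (by positivity) hb2 (φ := ∑ i ∈ Finset.range n, ψ i) hψs (fun x hx => by
    have : d' ≤ dist x D.a := by
      by_contra hlt
      apply hx
      rw [ContinuousMap.sum_apply]
      apply Finset.sum_eq_zero
      intro i hi
      by_contra h0
      exact hlt (hψd i hi x h0)
    exact ⟨h3 x this, hin x this⟩)
  have hmo := D.mono_U hmax k (O := {x : Z | d' ≤ dist x D.a}) h3
  have hO : ∀ i ∈ Finset.range n, {x : Z | ρ i ≤ dist x D.a} ⊆ {x : Z | d' ≤ dist x D.a} :=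
    fun i hi x hx => (hρd i hi).trans hx
  have hw0 : ∀ i ∈ Finset.range n, Q.lam * ρ i ≤ dist D.x0 D.a :=
    fun i _ => (hρ i).2.2.trans (min_le_left _ _)
  have hw1 : ∀ i ∈ Finset.range n, Q.lam * ρ i ≤ dist D.x1 D.a :=
    fun i _ => (hρ i).2.2.trans (min_le_right _ _)
  have hρ' : ∀ i, 0 < ρ i ∧ ρ i ≤ Q.ρ0 := fun i => ⟨(hρ i).1, (hρ i).2.1⟩
  have hU := osc_outer Q hn0' hρ' hψ0 hψ1 (D.Uk_dom k) hO hmo.1 hE.1 hw1 hw0
  have hV := osc_outer Q hn0' hρ' hψ0 hψ1 (D.Vk_dom k) hO hmo.2 hE.2 hw1 hw0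
  have hd := D.dist_f_le hU hV
  have hlt : Q.C0 * Real.sqrt (X.c * m0 * (R * D.s k) ^ 2 / n) < D.s k := by
    have e1 : Q.C0 * Real.sqrt (X.c * m0 * (R * D.s k) ^ 2 / n)
        = Real.sqrt (Q.C0 ^ 2 * (X.c * m0 * (R * D.s k) ^ 2 / n)) := by
      rw [Real.sqrt_mul (by positivity), Real.sqrt_sq hC0.le]
    rw [e1, Real.sqrt_lt' h1]
    have e2 : Q.C0 ^ 2 * (X.c * m0 * (R * D.s k) ^ 2 / n)
        = (Q.C0 ^ 2 * (X.c * m0 * R ^ 2)) / n * D.s k ^ 2 := by ring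
    rw [e2]
    have e3 : (Q.C0 ^ 2 * (X.c * m0 * R ^ 2)) / n < 1 := (div_lt_one hn0).2 hn
    have e4 : 0 < D.s k ^ 2 := by positivity
    nlinarith
  exact absurd hd (not_le.2 hlt)

/-- **Properness** -/
theorem proper [CompactSpace Z] [PreconnectedSpace Z] [LocallyConnectedSpace Z]
    (hC1 : InC1 Q) (hmax : InMax Q) (R0 : ℝ) :
    ∃ ρ' : ℝ, 0 < ρ' ∧ ∀ᶠ k in om, ∀ x : Z, D.g k • x ∈ X.W →
      dist (D.f k x) (D.f k D.x0) ≤ R0 * D.s k → ρ' ≤ dist x D.a := by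
  set R := max R0 1 with hRd
  have hR1 : 1 ≤ R := le_max_right _ _
  have hR : 0 < R := by linarith
  obtain ⟨d1, hd1, hfar⟩ := D.far hmax (R := 2 * R) (by positivity)
  have hd0 : 0 < min (dist D.x0 D.a) d1 := lt_min (dist_pos.2 D.h0) hd1
  obtain ⟨n, hn⟩ := exists_nat_gt (Q.C0 ^ 2 * (X.c * e0))
  obtain ⟨ρ, ψ, d', hd', hρ, hψ0, hψ1, hψs, hψd, hρd⟩ := rings Q D.a hd0 n
  refine ⟨d', hd', ?_⟩
  obtain ⟨y1, hy1⟩ := X.W_ne
  filter_upwards [D.s_pos, D.ev_ball0 (2 * R), D.ev_pair, D.ev_pole hy1 hd', hfar] with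
    k h1 h2 h3 h4 h5 x hx hxR
  by_contra hcon
  push Not at hcon
  obtain ⟨t, ht1, ht2⟩ := h5
  have hRs : 0 < R * D.s k := by positivity
  have hb1 : closedBall (D.f k D.x0) (R * D.s k) ⊆ ball X.p X.ρ :=
    (closedBall_subset_closedBall (by nlinarith)).trans h2
  have hb2 : closedBall (D.f k D.x0) (2 ^ 1 * (R * D.s k)) ⊆ ball X.p X.ρ := by
    rw [pow_one, ← mul_assoc]; exact h2
  have hbo : ball (D.f k D.x0) (2 * R * D.s k) ⊆ ball X.p X.ρ := ball_subset_closedBall.trans h2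
  obtain ⟨w, hwD, hw1, hw2, hw3⟩ := exists_cut X hC1 hRs le_rfl hb2
  set w' : C(Z, ℝ) := ⟨fun x => w (D.g k • x), w.continuous.comp (S.cont (D.g k))⟩ with hw'
  obtain ⟨hw'D, hinv⟩ := Q.inv (D.g k) w w 1 w' w' 1 hwD hwD (fun _ => rfl) (fun _ => rfl)
    (fun _ => rfl)
  have hA : IsPreconnected {x : Z | D.g k • x ∈ H X '' closedBall (D.f k D.x0) (R * D.s k)} :=
    preconn_in _ hb1
  have hB : IsPreconnected {x : Z | D.g k • x ∉ H X '' ball (D.f k D.x0) (2 * R * D.s k)} :=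
    preconn_out _ (by positivity) h2
  have hρ' : ∀ i, 0 < ρ i ∧ ρ i ≤ Q.ρ0 := fun i => ⟨(hρ i).1, (hρ i).2.1⟩
  have hfin := cross_rings Q hρ' hψ0 hψ1 hψs hw'D hA hB
    (fun z hz => by
      obtain ⟨q, hq, hqz⟩ := hz
      show w (D.g k • z) = 1
      rw [← hqz, hw1 q hq])
    (fun z hz => by
      show w (D.g k • z) = 0
      apply hw2
      rw [pow_one, ← mul_assoc]
      exact hz)
    (y := x) (y' := D.x0) (z := (D.g k)⁻¹ • y1) (z' := t)
    (mem_in hx (hxR.trans (mul_le_mul_of_nonneg_right (le_max_left _ _) h1.le)))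
    (mem_in h3.1 (by
      show dist (D.f k D.x0) (D.f k D.x0) ≤ R * D.s k
      rw [dist_self]; exact hRs.le))
    (notMem_out' hbo hy1) ht1
    (fun i hi => hcon.le.trans (hρd i hi))
    (fun i _ => (hρ i).2.2.trans (min_le_left _ _))
    (fun i hi => h4.le.trans (hρd i hi))
    (fun i _ => (hρ i).2.2.trans ((min_le_right _ _).trans ht2))
  rw [hinv, hw3, Nat.cast_one, div_one] at hfin
  linarith

end ZD

end Crest.Agent.R193.D_Chart
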