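import Mathlib
import Crest.Agent.R193.D_Chart6

/-!
# R193, block D (C7-C8): the zoomed charts form an abstract zoom family
-/

set_option autoImplicit false

noncomputable section

open Set Filter Topology MeasureTheory Metric

namespace Crest.Agent.R193.D_Chart

open Crest.Agent.R193 Crest.Agent.R193.D3b1 Crest.Agent.R193.D3b2

variable {G Z : Type} [Group G] [MetricSpace Z] [MulAction G Z] {S : Setup G Z} {Q : DForm S}

namespace ZD

open CC

variable {X : ConfChart Q} (D : ZD X)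

/-- the domain, restricted to good indices -/
def Dk' (k : ℕ) : Set Z := {x | 0 < D.s k ∧ x ∈ D.Dk k}

theorem norm_Fk {k : ℕ} (hs : 0 < D.s k) (x : Z) :
    ‖D.Fk k x‖ = dist (D.f k x) (D.f k D.x0) / D.s k := by
  unfold Fk
  rw [norm_smul, norm_inv, Real.norm_of_nonneg hs.le, dist_eq_norm, div_eq_inv_mul]

theorem dist_Fk {k : ℕ} (hs : 0 < D.s k) (x y : Z) :
    dist (D.Fk k x) (D.Fk k y) = dist (D.f k x) (D.f k y) / D.s k := by
  unfold Fk
  rw [dist_smul₀, dist_sub_right, norm_inv, Real.norm_of_nonneg hs.le, div_eq_inv_mul]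

theorem zf [CompactSpace Z] [PreconnectedSpace Z] [LocallyConnectedSpace Z] (hC1 : InC1 Q)
    (hL : InLoewUnit Q) (hmax : InMax Q) : ZF D.a D.Fk D.Hk D.Dk' where
  cont k := by
    have := D.f_cont k
    unfold Fk
    fun_prop
  dom K hK ha := by
    filter_upwards [D.ev_W hK ha, D.s_pos] with k h1 h2 x hx
    exact ⟨h2, h1 x hx⟩
  upper K hK ha := by
    obtain ⟨M, -, h⟩ := D.upper hC1 hL hK ha
    refine ⟨M, ?_⟩
    filter_upwards [h, D.s_pos] with k h1 h2 y hy
    rw [D.norm_Fk h2, div_le_iff₀ h2]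
    exact h1 y hy
  equi x hx ε hε := by
    obtain ⟨r, hr, h⟩ := D.equi hC1 hL hmax hx hε
    refine ⟨r, hr, ?_⟩
    filter_upwards [h, D.s_pos] with k h1 h2 y hy
    rw [D.dist_Fk h2, div_le_iff₀ h2]
    exact h1 y hy
  lower d R hd := by
    obtain ⟨δ, hδ, h⟩ := D.lower hC1 hL hd (R := max R 1) (by positivity)
    refine ⟨δ, hδ, ?_⟩
    filter_upwards [h, D.s_pos] with k h1 h2 y hy y' hy' hyR hyy
    rw [D.dist_Fk h2, le_div_iff₀ h2]
    rw [D.norm_Fk h2, div_le_iff₀ h2] at hyR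
    exact h1 y y' hy.2 hy'.2
      (hyR.trans (mul_le_mul_of_nonneg_right (le_max_left _ _) h2.le)) hyy
  proper R := by
    obtain ⟨ρ, hρ, h⟩ := D.proper hC1 hmax R
    refine ⟨ρ, hρ, ?_⟩
    filter_upwards [h, D.s_pos] with k h1 h2 x hx hxR
    rw [D.norm_Fk h2, div_le_iff₀ h2] at hxR
    exact h1 x hx.2 hxR
  right R := by
    filter_upwards [D.ev_ball0 R, D.s_pos] with k h1 h2 q hq
    have hmem : D.f k D.x0 + D.s k • q ∈ ball X.p X.ρ := by
      apply h1
      rw [mem_closedBall, dist_eq_norm, add_sub_cancel_left, norm_smul,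
        Real.norm_of_nonneg h2.le, mul_comm]
      exact mul_le_mul_of_nonneg_right hq h2.le
    have e1 : D.g k • D.Hk k q = H X (D.f k D.x0 + D.s k • q) := by
      unfold Hk
      rw [smul_inv_smul]
    refine ⟨⟨h2, ?_⟩, ?_⟩
    · show D.g k • D.Hk k q ∈ X.W
      rw [e1]
      exact H_mem X hmem
    · unfold Fk f
      rw [e1, F_H X hmem]
      show (D.s k)⁻¹ • (D.f k D.x0 + D.s k • q - D.f k D.x0) = q
      rw [add_sub_cancel_left, smul_smul, inv_mul_cancel₀ h2.ne', one_smul]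
  left k x hx := by
    obtain ⟨h2, hx⟩ := hx
    unfold Hk Fk
    rw [smul_smul, mul_inv_cancel₀ h2.ne', one_smul, add_sub_cancel]
    unfold f
    rw [H_F X hx, inv_smul_smul]

end ZD

end Crest.Agent.R193.D_Chart
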