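import Mathlib
import Crest.Agent.R193.CPb3
import Crest.Agent.R193.CPa_Conf
import Crest.Agent.R193.CPa_C2
import Crest.Agent.R193.L_Main
import Crest.Agent.R193.D_Spec

/-!
# R193, block D (helper990): all the inputs of the assembly, proved over `(S) (Q : DForm S) (Φ)`

`irr`, `inMax`, `inSMax`, `inC1`, `inC2`, `inC3`, `inLoewUnit`, `inLoew`, `inOsc`, `outC6`,
`D_main_of`.
-/

set_option autoImplicit false

noncomputable section

open Set Filter Topology MeasureTheory Metric

namespace Crest.Agent.R193.D_Inputs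

open Crest.Agent.R193

variable {G Z : Type} [Group G] [MetricSpace Z] [MulAction G Z]

theorem preconnected (Φ : Z ≃ₜ S2) : PreconnectedSpace Z := by
  have hS2 : ConnectedSpace Planar.S2 := Planar.S2_connected
  refine ⟨?_⟩
  have := (isPreconnected_univ (α := Planar.S2)).image Φ.symm Φ.symm.continuous.continuousOn
  rwa [image_univ, Φ.symm.surjective.range_eq] at this

/-- zero energy implies constant -/
theorem irr (S : Setup G Z) (Q : DForm S) (Φ : Z ≃ₜ S2) : CPa_Harm.Irr Q := by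
  have hpc := preconnected Φ
  have hlc : LocallyConnectedSpace Z := OSC.locConn Φ
  intro f hf h0
  -- no isolated points
  have hno : ∀ (x y : Z), x ≠ y → ∀ O : Set Z, IsOpen O → x ∈ O →
      ∃ A ⊆ O, IsPreconnected A ∧ x ∈ A ∧ ∃ a ∈ A, a ≠ x := by
    intro x y hxy O hO hx
    refine ⟨connectedComponentIn O x, connectedComponentIn_subset _ _,
      isPreconnected_connectedComponentIn, mem_connectedComponentIn hx, ?_⟩
    by_contra hcon
    push Not at hcon
    have h1 : connectedComponentIn O x = {x} :=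
      subset_antisymm (fun a ha => hcon a ha)
        (singleton_subset_iff.2 (mem_connectedComponentIn hx))
    have h2 : IsOpen ({x} : Set Z) := h1 ▸ hO.connectedComponentIn
    have h3 : IsClopen ({x} : Set Z) := ⟨isClosed_singleton, h2⟩
    rcases isClopen_iff.1 h3 with h | h
    · exact (singleton_ne_empty x) h
    · have : y ∈ ({x} : Set Z) := by rw [h]; trivial
      exact hxy this.symm
  -- it suffices to exclude `f y < f x`
  have key : ∀ x y, ¬ f y < f x := by
    intro x y hlt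
    have hne : x ≠ y := by
      rintro rfl
      exact lt_irrefl _ hlt
    set k : ℝ := 3 / (f x - f y) with hk
    have hd : 0 < f x - f y := by linarith
    have hk0 : 0 < k := div_pos (by norm_num) hd
    set w : C(Z, ℝ) := k • f + ContinuousMap.const Z (-(k * ((2 * f y + f x) / 3))) with hw
    have hwD : w ∈ Q.Dom := Q.add_mem _ (Q.smul_mem _ _ hf) _ (Q.const_mem _)
    have hwa : ∀ z, w z = k * (f z - (2 * f y + f x) / 3) := by
      intro z
      rw [hw, ContinuousMap.add_apply, ContinuousMap.smul_apply, ContinuousMap.const_apply,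
        smul_eq_mul]
      ring
    have hkd : k * (f x - f y) = 3 := by
      rw [hk]
      field_simp
    have hwx : w x = 2 := by
      rw [hwa]
      have : k * (f x - (2 * f y + f x) / 3) = (k * (f x - f y)) * (2 / 3) := by ring
      rw [this, hkd]
      norm_num
    have hwy : w y = -1 := by
      rw [hwa]
      have : k * (f y - (2 * f y + f x) / 3) = (k * (f x - f y)) * (-1 / 3) := by ring
      rw [this, hkd]
      norm_num
    obtain ⟨A, hAO, hA, hxA, a, haA, hax⟩ := hno x y hne (w ⁻¹' Ioi 1)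
      (isOpen_Ioi.preimage w.continuous) (by
        show (1 : ℝ) < w x
        rw [hwx]
        norm_num)
    obtain ⟨B, hBO, hB, hyB, b, hbB, hby⟩ := hno y x hne.symm (w ⁻¹' Iio 0)
      (isOpen_Iio.preimage w.continuous) (by
        show w y < (0 : ℝ)
        rw [hwy]
        norm_num)
    have hd0 : 0 < min (dist x a) (dist y b) :=
      lt_min (dist_pos.2 hax.symm) (dist_pos.2 hby.symm)
    obtain ⟨c, hc, hL⟩ := L_Main.loewUnit S Q Φ _ hd0
    have h1 := hL A B hA hB x hxA a haA y hyB b hbB (min_le_left _ _) (min_le_right _ _) w hwD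
      (fun z hz => (show (1 : ℝ) < w z from hAO hz).le)
      (fun z hz => (show w z < (0 : ℝ) from hBO hz).le)
    -- the energy of `w` vanishes
    have hff : Q.Γ f f 1 = 0 := h0
    have hcs : ∀ v ∈ Q.Dom, Q.Γ f v 1 = 0 := by
      intro v hv
      have h2 := CPa_Basic.cs Q hf hv (φ := 1) (fun x => by
        rw [ContinuousMap.one_apply]; exact zero_le_one)
      rw [hff, zero_mul] at h2
      exact pow_eq_zero_iff (two_ne_zero) |>.1 (le_antisymm h2 (sq_nonneg _))
    have hconst : ∀ c : ℝ, ∀ v ∈ Q.Dom, Q.Γ (ContinuousMap.const Z c) v 1 = 0 := by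
      intro c v hv
      exact CPa_Basic.const_left Q c hv 1
    have h3 : Q.Γ w w 1 = 0 := by
      rw [hw, Q.add_left _ (Q.smul_mem _ _ hf) _ (Q.const_mem _) _ hwD, Q.smul_left _ _ hf _ hwD,
        hcs _ hwD, hconst _ _ hwD, mul_zero, add_zero]
    rw [h3] at h1
    linarith
  intro x y
  exact le_antisymm (not_lt.1 (key x y)) (not_lt.1 (key y x))

theorem inMax (S : Setup G Z) (Q : DForm S) (Φ : Z ≃ₜ S2) : InMax Q := by
  have hpc := preconnected Φ
  have hlc : LocallyConnectedSpace Z := OSC.locConn Φ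
  have hcpt : CompactSpace Z := Φ.symm.compactSpace
  intro O U _ hOu hU
  exact CPa_Loop.monoOn_of_harm Q (irr S Q Φ) hOu hU

theorem inSMax (S : Setup G Z) (Q : DForm S) (Φ : Z ≃ₜ S2) : InSMax Q := by
  have hpc := preconnected Φ
  have hlc : LocallyConnectedSpace Z := OSC.locConn Φ
  have hcpt : CompactSpace Z := Φ.symm.compactSpace
  exact CPa_Loop.inSMax Q (irr S Q Φ)

theorem inC2 (S : Setup G Z) (Q : DForm S) (Φ : Z ≃ₜ S2) : InC2 Q := by
  have hcpt : CompactSpace Z := Φ.symm.compactSpace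
  exact CPa_C2.inC2 Q

theorem inC3 (S : Setup G Z) (Q : DForm S) (Φ : Z ≃ₜ S2) : InC3 Q := by
  have hpc := preconnected Φ
  have hlc : LocallyConnectedSpace Z := OSC.locConn Φ
  have hcpt : CompactSpace Z := Φ.symm.compactSpace
  exact CPa_Conf.inC3 Q (irr S Q Φ)

theorem inLoewUnit (S : Setup G Z) (Q : DForm S) (Φ : Z ≃ₜ S2) : InLoewUnit Q :=
  L_Main.loewUnit S Q Φ

theorem inLoew (S : Setup G Z) (Q : DForm S) (Φ : Z ≃ₜ S2) : InLoew Q :=
  L_Main.loew S Q Φ

theorem inOsc (S : Setup G Z) (Q : DForm S) (Φ : Z ≃ₜ S2) : InOsc Q := by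
  have hlc : LocallyConnectedSpace Z := OSC.locConn Φ
  intro x O hO η hη
  obtain ⟨r, hr, hrO⟩ := Metric.nhds_basis_closedBall.mem_iff.1 hO
  obtain ⟨r', hr', -, h⟩ := OSC.osc_small Q hr hη
  refine ⟨r', hr', fun u hu hm φ hφ hφ1 y hy z hz => ?_⟩
  have := h x u hu O hrO hm φ hφ (fun p hp => hφ1 p (hrO (mem_closedBall.2 hp))) y z hy hz
  rwa [sq_abs] at this

theorem outC6 (S : Setup G Z) (Q : DForm S) (Φ : Z ≃ₜ S2) : OutC6 Q :=
  CPb3.out_C6 Q Φ (inMax S Q Φ) (inC2 S Q Φ) (inC3 S Q Φ)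

/-- (C1) in the form of `D_Defs` -/
theorem inC1 (S : Setup G Z) (Q : DForm S) (Φ : Z ≃ₜ S2) : InC1 Q := by
  have hcpt : CompactSpace Z := Φ.symm.compactSpace
  intro O U V hO h ψ hψ P L hP hL
  -- partial derivatives
  have htwo : ∀ f : ℝ × ℝ → ℝ, ContDiff ℝ (⊤ : ℕ∞) f → ContDiff ℝ 2 f := fun f hf => by
    have := contDiff_infty.1 hf 2
    exact_mod_cast this
  have hψ2 : ContDiff ℝ 2 ψ := htwo ψ hψ
  have hdir : ∀ (f : ℝ × ℝ → ℝ), ContDiff ℝ (⊤ : ℕ∞) f → ∀ e : ℝ × ℝ,
      ContDiff ℝ (⊤ : ℕ∞) (fun p => fderiv ℝ f p e) := by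
    intro f hf e
    exact (hf.fderiv_right (m := (⊤ : ℕ∞)) (by simp)).clm_apply contDiff_const
  set ψ₁ : ℝ × ℝ → ℝ := fun p => fderiv ℝ ψ p (1, 0) with hψ₁
  set ψ₂ : ℝ × ℝ → ℝ := fun p => fderiv ℝ ψ p (0, 1) with hψ₂
  have s1 := hdir ψ hψ (1, 0)
  have s2 := hdir ψ hψ (0, 1)
  have s11 := hdir ψ₁ s1 (1, 0)
  have s12 := hdir ψ₁ s1 (0, 1)
  have s21 := hdir ψ₂ s2 (1, 0)
  have s22 := hdir ψ₂ s2 (0, 1)
  have hPe : P = CPa_Conf.cmp ψ hψ2.continuous U V := by
    ext x
    exact hP x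
  have hsec : ∀ (e : ℝ × ℝ) (p : ℝ × ℝ), fderiv ℝ (fun q => fderiv ℝ ψ q e) p e =
      iteratedFDeriv ℝ 2 ψ p ![e, e] := by
    intro e p
    rw [iteratedFDeriv_two_apply]
    have hdiff : DifferentiableAt ℝ (fderiv ℝ ψ) p :=
      ((hψ.fderiv_right (m := (⊤ : ℕ∞)) (by simp)).differentiable (by simp)) p
    rw [fderiv_clm_apply hdiff (differentiableAt_const e)]
    simp
  refine ⟨?_, ?_⟩
  · rw [hPe]
    exact (CPa_Conf.chain2 Q hψ2 s1.continuous s2.continuous (fun _ => rfl) (fun _ => rfl)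
      h.1 h.2.1).1
  · intro w hw hws
    have hc := CPa_Conf.c1 Q h hψ2 (htwo _ s1)
      (htwo _ s2) s11.continuous s12.continuous s21.continuous
      s22.continuous (fun _ => rfl) (fun _ => rfl) (fun _ => rfl) (fun _ => rfl) (fun _ => rfl)
      (fun _ => rfl) hw hws
    rw [hPe, hc]
    congr 2
    congr 1
    ext x
    rw [hL x, lap2, ContinuousMap.add_apply, CPa_Conf.cmp_apply, CPa_Conf.cmp_apply,
      ← hsec (1, 0), ← hsec (0, 1)]

/-- block D from its two remaining atoms -/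
theorem D_main_of (S : Setup G Z) (Q : DForm S) (Φ : Z ≃ₜ S2) (h1 : OutPair Q)
    (h2 : D_Spec.ChartMain Q) : D_Spec.DMain G Z := by
  have hcpt : CompactSpace Z := Φ.symm.compactSpace
  exact h2 (inC1 S Q Φ) (inMax S Q Φ) (inLoewUnit S Q Φ) (inOsc S Q Φ) (D_Spec.zoom S)
    (D_Spec.exists_chart Q Φ h1 (outC6 S Q Φ))

end Crest.Agent.R193.D_Inputs
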