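import Mathlib
import Crest.Agent.R193.D_Chart7
import Crest.Agent.R193.D_Inputs

/-!
# R193, block D (C7-C8, D8W): wiring
-/

set_option autoImplicit false

noncomputable section

open Set Filter Topology MeasureTheory Metric

namespace Crest.Agent.R193.D_Chart

open Crest.Agent.R193 Crest.Agent.R193.D3b1 Crest.Agent.R193.D3b2

variable {G Z : Type} [Group G] [MetricSpace Z] [MulAction G Z] {S : Setup G Z} {Q : DForm S}

theorem exists_ZD (S : Setup G Z) {Q : DForm S} [CompactSpace Z] (Φ : Z ≃ₜ S2)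
    (X : ConfChart Q) : Nonempty (ZD X) := by
  classical
  have : PreconnectedSpace Z := D_Inputs.preconnected Φ
  have : Nontrivial Z := D_Spec.nontrivial Φ
  have hinf : Infinite Z := PreconnectedSpace.infinite
  obtain ⟨a, g, hg⟩ := D_Spec.zoom S (CC.H X X.p)
  obtain ⟨x0, hx0⟩ := Infinite.exists_notMem_finset ({a} : Finset Z)
  obtain ⟨x1, hx1⟩ := Infinite.exists_notMem_finset ({a, x0} : Finset Z)
  simp only [Finset.mem_singleton, Finset.mem_insert, not_or] at hx0 hx1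
  exact ⟨⟨a, g, x0, x1, hx0, hx1.1, fun h => hx1.2 h.symm, hg⟩⟩

/-- the topological limit statement (990) -/
def LimitStmt : Prop := ∀ {Z : Type} [MetricSpace Z] [CompactSpace Z] {a : Z} {F : ℕ → Z → ℝ × ℝ}
    {H : ℕ → ℝ × ℝ → Z} {Dk : ℕ → Set Z}, ZF a F H Dk → ∃ Φ : Z ≃ₜ OnePoint ℂ, ZFLim a F H Φ

/-- the passage to the limit (996) -/
def WCStmt : Prop := ∀ {G Z : Type} [Group G] [MetricSpace Z] [CompactSpace Z] [MulAction G Z]
    {a : Z} {F : ℕ → Z → ℝ × ℝ} {H : ℕ → ℝ × ℝ → Z} {Dk : ℕ → Set Z}, ZF a F H Dk →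
    ∀ {Φ : Z ≃ₜ OnePoint ℂ}, ZFLim a F H Φ → ∀ g : G, (Continuous fun x : Z => g • x) →
    ZFHarm F H Dk g → WeakConf (fun w => Φ (g • Φ.symm w))

/-- the harmonicity of the zoomed charts (508) -/
def HKStmt (Q : DForm S) : Prop := ∀ (X : ConfChart Q) (D : ZD X) (g : G),
  ZFHarm D.Fk D.Hk D.Dk g

theorem chart_main_of (S : Setup G Z) {Q : DForm S} [CompactSpace Z] (Φ : Z ≃ₜ S2)
    (h1 : LimitStmt) (h2 : WCStmt) (h3 : HKStmt Q) : D_Spec.ChartMain Q := by
  intro hC1 hmax hL _ _ hX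
  have : PreconnectedSpace Z := D_Inputs.preconnected Φ
  have : LocallyConnectedSpace Z := D_Spec.locallyConnected Φ
  obtain ⟨X⟩ := hX
  obtain ⟨D⟩ := exists_ZD S Φ X
  have hz := D.zf hC1 hL hmax
  obtain ⟨Ψ, hΨ⟩ := h1 hz
  refine ⟨Ψ, fun g => h2 hz hΨ g (S.cont g) ?_⟩
  intro P hP hPh ψ hψ hs
  filter_upwards [h3 X D g P hP hPh ψ hψ hs] with k hk hq
  exact hk fun q hq' => (hq q hq').2

end Crest.Agent.R193.D_Chart
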