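import Mathlib
import Crest.Agent.R193.D_Chart5

/-!
# R193, block D (D8W): the zoomed chart maps satisfy the harmonicity identity
-/

set_option autoImplicit false

noncomputable section

open Set Filter Topology MeasureTheory Metric

namespace Crest.Agent.R193.D_HK

open Crest.Agent.R193 Crest.Agent.R193.D_Chart

variable {G Z : Type} [Group G] [MetricSpace Z] [MulAction G Z] {S : Setup G Z} {Q : DForm S}

theorem tsupport_sc {ψ : ℝ × ℝ → ℝ} {a : ℝ} (b : ℝ × ℝ) {q : ℝ × ℝ}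
    (hq : q ∈ tsupport (sc a b ψ)) : a • (q - b) ∈ tsupport ψ := by
  have hc : Continuous fun q : ℝ × ℝ => a • (q - b) := by fun_prop
  have : tsupport (sc a b ψ) ⊆ (fun q : ℝ × ℝ => a • (q - b)) ⁻¹' tsupport ψ := by
    apply closure_minimal _ ((isClosed_tsupport ψ).preimage hc)
    intro y hy
    exact subset_tsupport ψ hy
  exact this hq

theorem harm_k {X : ConfChart Q} (D : ZD X) [CompactSpace Z] (hC1 : InC1 Q) (g : G) :
    ZFHarm D.Fk D.Hk D.Dk g := by
  intro P hP hPh ψ hψ hs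
  obtain ⟨R, hR⟩ := hs.isCompact.isBounded.subset_closedBall (0 : ℝ × ℝ)
  filter_upwards [D.s_pos, D.ev_ball0 R] with k h1 h2 hq
  set b := D.f k D.x0 with hb
  set s := D.s k with hsd
  have hmem : ∀ q ∈ tsupport (sc s⁻¹ b ψ), q ∈ ball X.p X.ρ := by
    intro q hq
    apply h2
    have h3 := hR (tsupport_sc b hq)
    rw [mem_closedBall, dist_zero_right, norm_smul, norm_inv, Real.norm_of_nonneg h1.le,
      inv_mul_le_iff₀ h1, mul_comm] at h3
    rw [mem_closedBall, dist_eq_norm]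
    exact h3
  have hHk : ∀ q : ℝ × ℝ, D.g k • D.Hk k (s⁻¹ • (q - b)) = CC.H X q := by
    intro q
    unfold ZD.Hk
    rw [smul_inv_smul, smul_smul, mul_inv_cancel₀ h1.ne', one_smul, add_sub_cancel]
  have hact : ∀ q : ℝ × ℝ, (D.g k * g * (D.g k)⁻¹) • CC.H X q
      = D.g k • g • D.Hk k (s⁻¹ • (q - b)) := by
    intro q
    rw [← hHk q, mul_smul, mul_smul, inv_smul_smul]
  have hPsc : ∀ q, lap2 (sc s⁻¹ b P) q = 0 := by
    intro q
    rw [lap2_sc hP, hPh, mul_zero]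
  have key := CC.lift_harm X hC1 (sc_contDiff hψ s⁻¹ b) hmem (D.g k * g * (D.g k)⁻¹)
    (fun q hq' => by
      rw [hact]
      exact hq _ (tsupport_sc b hq')) (sc_contDiff hP s⁻¹ b) hPsc
  have e1 : ∀ q : ℝ × ℝ, sc s⁻¹ b P (CC.F X ((D.g k * g * (D.g k)⁻¹) • CC.H X q))
      * lap2 (sc s⁻¹ b ψ) q
      = (s⁻¹) ^ 2 * ((fun y => P (D.Fk k (g • D.Hk k y)) * lap2 ψ y) (s⁻¹ • (q - b))) := by
    intro q
    rw [hact, lap2_sc hψ]
    simp only [sc]
    have : s⁻¹ • (CC.F X (D.g k • g • D.Hk k (s⁻¹ • (q - b))) - b)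
        = D.Fk k (g • D.Hk k (s⁻¹ • (q - b))) := rfl
    rw [this]
    ring
  simp_rw [e1] at key
  rw [integral_const_mul, integral_sc (fun y => P (D.Fk k (g • D.Hk k y)) * lap2 ψ y)
    (inv_pos.2 h1) b] at key
  have h3 : (0 : ℝ) < (s⁻¹) ^ 2 := by positivity
  rw [← mul_assoc, mul_inv_cancel₀ h3.ne', one_mul] at key
  exact key

end Crest.Agent.R193.D_HK
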