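import Mathlib
import Crest.Agent.R193.D_ZF

/-!
# R193, block D (C8, helper990): the limit of an abstract zoom family is a homeomorphism onto the
Riemann sphere
-/

set_option autoImplicit false

noncomputable section

open Set Filter Topology MeasureTheory Metric

namespace Crest.Agent.R193.D_Lim

open Crest.Agent.R193

variable {Z : Type} [MetricSpace Z] [CompactSpace Z] {a : Z} {F : ℕ → Z → ℝ × ℝ}
  {H : ℕ → ℝ × ℝ → Z} {Dk : ℕ → Set Z}

/-- the ultrafilter -/
abbrev om : Ultrafilter ℕ := hyperfilter ℕ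

lemma exists_lim {X : Type*} [TopologicalSpace X] {K : Set X} (hK : IsCompact K) {f : ℕ → X}
    (hf : ∀ᶠ k in (om : Filter ℕ), f k ∈ K) : ∃ p ∈ K, Tendsto f om (𝓝 p) := by
  obtain ⟨p, hp, h⟩ := hK.ultrafilter_le_nhds (om.map f) (by
    rw [Ultrafilter.coe_map, le_principal_iff]
    exact hf)
  exact ⟨p, hp, h⟩

lemma exists_Finf (h : ZF a F H Dk) : ∀ x : Z, ∃ p : ℝ × ℝ, x ≠ a →
    Tendsto (fun k => F k x) om (𝓝 p) := by
  intro x
  by_cases hx : x = a
  · exact ⟨0, fun h' => (h' hx).elim⟩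
  · obtain ⟨M, hM⟩ := h.upper {x} isCompact_singleton (fun h' => hx (mem_singleton_iff.1 h').symm)
    obtain ⟨p, -, hp⟩ := exists_lim (isCompact_closedBall (0 : ℝ × ℝ) M) (f := fun k => F k x)
      (hM.mono fun k hk => by
        rw [mem_closedBall_zero_iff]
        exact hk x rfl)
    exact ⟨p, fun _ => hp⟩

/-- the limit map -/
def Finf (h : ZF a F H Dk) (x : Z) : ℝ × ℝ := (exists_Finf h x).choose

lemma tendsto_Finf (h : ZF a F H Dk) {x : Z} (hx : x ≠ a) :
    Tendsto (fun k => F k x) om (𝓝 (Finf h x)) := (exists_Finf h x).choose_spec hx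

lemma not_mem_singleton {x : Z} (hx : x ≠ a) : a ∉ ({x} : Set Z) :=
  fun h' => hx (mem_singleton_iff.1 h').symm

lemma ev_dom (h : ZF a F H Dk) {x : Z} (hx : x ≠ a) : ∀ᶠ k in (om : Filter ℕ), x ∈ Dk k :=
  (h.dom {x} isCompact_singleton (not_mem_singleton hx)).mono fun _ hk => hk rfl

/-- local equicontinuity passes to the limit -/
lemma equi_Finf (h : ZF a F H Dk) {x : Z} (hx : x ≠ a) {ε : ℝ} (hε : 0 < ε) :
    ∃ r : ℝ, 0 < r ∧ (∀ᶠ k in (om : Filter ℕ), ∀ y ∈ closedBall x r,
      dist (F k y) (F k x) ≤ ε) ∧ ∀ y ∈ closedBall x r, y ≠ a →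
      dist (Finf h y) (Finf h x) ≤ ε := by
  obtain ⟨r, hr, hev⟩ := h.equi x hx ε hε
  refine ⟨r, hr, hev, fun y hy hya => ?_⟩
  exact le_of_tendsto ((tendsto_Finf h hya).dist (tendsto_Finf h hx)) (hev.mono fun k hk => hk y hy)

lemma continuousAt_Finf (h : ZF a F H Dk) {x : Z} (hx : x ≠ a) : ContinuousAt (Finf h) x := by
  rw [Metric.continuousAt_iff']
  intro ε hε
  obtain ⟨r, hr, -, hev⟩ := equi_Finf h hx (half_pos hε)
  filter_upwards [closedBall_mem_nhds x hr, isOpen_compl_singleton.mem_nhds hx] with y hy hya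
  exact (hev y hy hya).trans_lt (half_lt_self hε)

lemma Finf_injective (h : ZF a F H Dk) {x y : Z} (hx : x ≠ a) (hy : y ≠ a)
    (hxy : Finf h x = Finf h y) : x = y := by
  by_contra hne
  obtain ⟨M, hM⟩ := h.upper {x} isCompact_singleton (not_mem_singleton hx)
  obtain ⟨δ, hδ, hev⟩ := h.lower (dist x y) M (dist_pos.2 hne)
  have h1 : δ ≤ dist (Finf h y) (Finf h x) := by
    refine ge_of_tendsto ((tendsto_Finf h hy).dist (tendsto_Finf h hx)) ?_
    filter_upwards [hev, hM, ev_dom h hx, ev_dom h hy] with k h1 h2 h3 h4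
    exact h1 x h3 y h4 (h2 x rfl) le_rfl
  rw [hxy, dist_self] at h1
  linarith

/-- convergence along moving points -/
lemma tendsto_moving (h : ZF a F H Dk) {y : Z} (hy : y ≠ a) {p : ℕ → Z}
    (hp : Tendsto p om (𝓝 y)) : Tendsto (fun k => F k (p k)) om (𝓝 (Finf h y)) := by
  rw [Metric.tendsto_nhds]
  intro ε hε
  obtain ⟨r, hr, hev, -⟩ := equi_Finf h hy (half_pos hε)
  filter_upwards [hev, hp (closedBall_mem_nhds y hr),
    Metric.tendsto_nhds.1 (tendsto_Finf h hy) _ (half_pos hε)] with k h1 h2 h3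
  calc dist (F k (p k)) (Finf h y) ≤ dist (F k (p k)) (F k y) + dist (F k y) (Finf h y) :=
        dist_triangle _ _ _
    _ < ε := by
        have := h1 (p k) h2
        linarith

lemma Finf_surjective (h : ZF a F H Dk) (q : ℝ × ℝ) : ∃ y, y ≠ a ∧ Finf h y = q := by
  obtain ⟨ρ, hρ, hpr⟩ := h.proper ‖q‖
  have hr := h.right ‖q‖
  obtain ⟨y, -, hy⟩ := exists_lim (isCompact_univ (X := Z)) (f := fun k => H k q)
    (Eventually.of_forall fun _ => mem_univ _)
  have hya : y ≠ a := by
    rintro rfl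
    obtain ⟨k, h1, h2, h3⟩ := (hpr.and (hr.and (Metric.tendsto_nhds.1 hy ρ hρ))).exists
    have h4 := h2 q le_rfl
    have := h1 (H k q) h4.1 (by rw [h4.2])
    linarith
  refine ⟨y, hya, ?_⟩
  have h1 := tendsto_moving h hya hy
  have h2 : Tendsto (fun k => F k (H k q)) om (𝓝 q) := by
    refine tendsto_const_nhds.congr' ?_
    filter_upwards [hr] with k hk
    exact (hk q le_rfl).2.symm
  exact tendsto_nhds_unique h1 h2

/-- points with bounded image are away from `a` -/
lemma proper_Finf (h : ZF a F H Dk) (R : ℝ) : ∃ ρ : ℝ, 0 < ρ ∧ (∀ᶠ k in (om : Filter ℕ),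
      ∀ x ∈ Dk k, ‖F k x‖ ≤ R → ρ ≤ dist x a) ∧
    ∀ x, x ≠ a → ‖Finf h x‖ < R → ρ ≤ dist x a := by
  obtain ⟨ρ, hρ, hpr⟩ := h.proper R
  refine ⟨ρ, hρ, hpr, fun x hx hxR => ?_⟩
  have h1 : ∀ᶠ k in (om : Filter ℕ), ‖F k x‖ < R :=
    (tendsto_Finf h hx).norm.eventually_lt_const hxR
  obtain ⟨k, h2, h3, h4⟩ := (hpr.and (h1.and (ev_dom h hx))).exists
  exact h2 x h4 h3.le

lemma continuous_ofR : Continuous ofR :=
  OnePoint.continuous_coe.comp (Complex.equivRealProdCLM.symm.continuous)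

lemma toR_ofR (q : ℝ × ℝ) : toR (ofR q) = q := by
  show Complex.equivRealProd (toC ((Complex.equivRealProd.symm q : ℂ) : OnePoint ℂ)) = q
  have : toC ((Complex.equivRealProd.symm q : ℂ) : OnePoint ℂ) = Complex.equivRealProd.symm q := rfl
  rw [this, Equiv.apply_symm_apply]

open Classical in
/-- the limit map into the sphere -/
def PhiFun (h : ZF a F H Dk) (x : Z) : OnePoint ℂ :=
  if x = a then OnePoint.infty else ofR (Finf h x)

lemma PhiFun_a (h : ZF a F H Dk) : PhiFun h a = OnePoint.infty := if_pos rfl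

lemma PhiFun_ne (h : ZF a F H Dk) {x : Z} (hx : x ≠ a) : PhiFun h x = ofR (Finf h x) := if_neg hx

lemma ofR_ne_infty (q : ℝ × ℝ) : ofR q ≠ OnePoint.infty := OnePoint.coe_ne_infty _

lemma continuous_PhiFun (h : ZF a F H Dk) : Continuous (PhiFun h) := by
  rw [continuous_iff_continuousAt]
  intro x
  by_cases hx : x = a
  · subst hx
    rw [ContinuousAt, PhiFun_a, OnePoint.hasBasis_nhds_infty.tendsto_right_iff]
    rintro K ⟨-, hK⟩
    obtain ⟨R, hR⟩ := hK.isBounded.exists_norm_le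
    obtain ⟨ρ, hρ, -, hfar⟩ := proper_Finf h (R + 1)
    filter_upwards [ball_mem_nhds x hρ] with y hy
    by_cases hyx : y = x
    · right
      rw [hyx, PhiFun_a]
      rfl
    · left
      rw [PhiFun_ne h hyx]
      refine ⟨Complex.equivRealProd.symm (Finf h y), fun hyK => ?_, rfl⟩
      have h1 := hR _ hyK
      have h2 : ‖Finf h y‖ ≤ ‖Complex.equivRealProd.symm (Finf h y)‖ := by
        have h3 := Complex.equivRealProd_apply_le (Complex.equivRealProd.symm (Finf h y))
        rwa [Equiv.apply_symm_apply] at h3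
      have h3 := hfar y hyx (by linarith)
      rw [mem_ball] at hy
      linarith
  · have h1 : ContinuousAt (fun y => ofR (Finf h y)) x :=
      continuous_ofR.continuousAt.comp (continuousAt_Finf h hx)
    refine h1.congr ?_
    filter_upwards [isOpen_compl_singleton.mem_nhds hx] with y hy
    exact (PhiFun_ne h hy).symm

lemma ofR_injective : Function.Injective ofR := fun p q hpq => by
  rw [← toR_ofR p, ← toR_ofR q, hpq]

lemma bijective_PhiFun (h : ZF a F H Dk) : Function.Bijective (PhiFun h) := by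
  constructor
  · intro x y hxy
    by_cases hx : x = a
    · by_cases hy : y = a
      · rw [hx, hy]
      · rw [hx, PhiFun_a, PhiFun_ne h hy] at hxy
        exact (ofR_ne_infty _ hxy.symm).elim
    · by_cases hy : y = a
      · rw [hy, PhiFun_a, PhiFun_ne h hx] at hxy
        exact (ofR_ne_infty _ hxy).elim
      · rw [PhiFun_ne h hx, PhiFun_ne h hy] at hxy
        exact Finf_injective h hx hy (ofR_injective hxy)
  · intro w
    induction w using OnePoint.rec with
    | infty => exact ⟨a, PhiFun_a h⟩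
    | coe z =>
      obtain ⟨y, hya, hy⟩ := Finf_surjective h (Complex.equivRealProd z)
      refine ⟨y, ?_⟩
      rw [PhiFun_ne h hya, hy]
      show ((Complex.equivRealProd.symm (Complex.equivRealProd z) : ℂ) : OnePoint ℂ) = z
      rw [Equiv.symm_apply_apply]

/-- the limit homeomorphism -/
def Phi (h : ZF a F H Dk) : Z ≃ₜ OnePoint ℂ :=
  Continuous.homeoOfEquivCompactToT2 (f := Equiv.ofBijective (PhiFun h) (bijective_PhiFun h))
    (continuous_PhiFun h)

lemma Phi_apply (h : ZF a F H Dk) (x : Z) : Phi h x = PhiFun h x := rfl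

lemma toR_Phi (h : ZF a F H Dk) {x : Z} (hx : x ≠ a) : toR (Phi h x) = Finf h x := by
  rw [Phi_apply, PhiFun_ne h hx, toR_ofR]

/-- uniform convergence on compact sets missing `a` -/
lemma unif (h : ZF a F H Dk) {K : Set Z} (hK : IsCompact K) (haK : a ∉ K) {ε : ℝ} (hε : 0 < ε) :
    ∀ᶠ k in (om : Filter ℕ), ∀ x ∈ K, dist (F k x) (Finf h x) < ε := by
  have hne : ∀ x ∈ K, x ≠ a := fun x hx h' => haK (h' ▸ hx)
  have hε4 : 0 < ε / 4 := by linarith
  choose! r hr hev hlim using fun x (hx : x ∈ K) => equi_Finf h (hne x hx) hε4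
  obtain ⟨t, htK, ht⟩ := hK.elim_nhds_subcover (fun x => closedBall x (r x))
    fun x hx => closedBall_mem_nhds x (hr x hx)
  have h1 : ∀ᶠ k in (om : Filter ℕ), ∀ c ∈ t, (∀ y ∈ closedBall c (r c),
      dist (F k y) (F k c) ≤ ε / 4) ∧ dist (F k c) (Finf h c) < ε / 4 :=
    (Filter.eventually_all_finset t).2 fun c hc => (hev c (htK c hc)).and
      (Metric.tendsto_nhds.1 (tendsto_Finf h (hne c (htK c hc))) _ hε4)
  filter_upwards [h1] with k hk x hx
  obtain ⟨c, hc, hxc⟩ := mem_iUnion₂.1 (ht hx)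
  obtain ⟨h2, h3⟩ := hk c hc
  have h4 := hlim c (htK c hc) x hxc (hne x hx)
  have h5 := h2 x hxc
  rw [dist_comm] at h4
  calc dist (F k x) (Finf h x) ≤ dist (F k x) (F k c) + dist (F k c) (Finf h c) +
        dist (Finf h c) (Finf h x) := dist_triangle4 _ _ _ _
    _ < ε := by linarith

/-- **TASK `limit`** -/
theorem limit (h : ZF a F H Dk) : ∃ Φ : Z ≃ₜ OnePoint ℂ, ZFLim a F H Φ := by
  refine ⟨Phi h, PhiFun_a h, ?_, ?_⟩
  · intro K hK haK ε hε
    filter_upwards [unif h hK haK hε] with k hk x hx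
    rw [toR_Phi h (fun h' => haK (h' ▸ hx))]
    exact hk x hx
  · intro R ε hε
    obtain ⟨ρ, hρ, -, hfar⟩ := proper_Finf h (R + 1)
    set K : Set Z := {z | ρ ≤ dist z a} with hKdef
    have hKc : IsCompact K :=
      (isClosed_le continuous_const (continuous_id.dist continuous_const)).isCompact
    have haK : a ∉ K := by
      intro h'
      have : ρ ≤ dist a a := h'
      rw [dist_self] at this
      linarith
    obtain ⟨δ, hδ, hlow⟩ := h.lower ε R hε
    filter_upwards [hlow, unif h hKc haK hδ, h.dom K hKc haK, h.right R] with k h1 h2 h3 h4 q hq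
    set x := (Phi h).symm (ofR q) with hx
    have hΦx : Phi h x = ofR q := (Phi h).apply_symm_apply _
    have hxa : x ≠ a := by
      intro h'
      rw [h', Phi_apply, PhiFun_a] at hΦx
      exact ofR_ne_infty _ hΦx.symm
    have hFx : Finf h x = q := by
      rw [← toR_Phi h hxa, hΦx, toR_ofR]
    have hxK : x ∈ K := hfar x hxa (by rw [hFx]; linarith)
    obtain ⟨h5, h6⟩ := h4 q hq
    by_contra hcon
    rw [not_lt] at hcon
    have h7 := h1 (H k q) h5 x (h3 hxK) (by rw [h6]; exact hq) hcon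
    have h8 := h2 x hxK
    rw [h6] at h7
    rw [hFx] at h8
    linarith

end Crest.Agent.R193.D_Lim
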