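import Mathlib
import Crest.Agent.R193.D_ZF

/-!
# R193, block D: the limit chart is weakly conformal (D8W)
-/

set_option autoImplicit false

noncomputable section

open Set Filter Topology MeasureTheory Metric

namespace Crest.Agent.R193.D_WC

open Crest.Agent.R193

/-! ### the finite part of a point of the sphere -/

theorem toC_coe (z : ℂ) : toC (z : OnePoint ℂ) = z := rfl

theorem continuousAt_toC {w : OnePoint ℂ} (hw : w ≠ OnePoint.infty) : ContinuousAt toC w := by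
  induction w using OnePoint.rec with
  | infty => exact absurd rfl hw
  | coe z =>
    rw [OnePoint.continuousAt_coe]
    exact continuousAt_id

theorem continuousAt_toR {w : OnePoint ℂ} (hw : w ≠ OnePoint.infty) : ContinuousAt toR w :=
  (Complex.equivRealProdCLM.continuous.continuousAt).comp (continuousAt_toC hw)

theorem continuous_ofR : Continuous ofR :=
  OnePoint.continuous_coe.comp Complex.equivRealProdCLM.symm.continuous

theorem toR_ofR (q : ℝ × ℝ) : toR (ofR q) = q := by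
  simp [toR, ofR, toC_coe]

/-! ### Laplacians -/

theorem lap2_comp {ψ : ℂ → ℝ} (hψ : ContDiff ℝ (⊤ : ℕ∞) ψ) (q : ℝ × ℝ) :
    lap2 (fun q => ψ (Complex.equivRealProdCLM.symm q)) q = lap ψ (Complex.equivRealProdCLM.symm q) := by
  have h := ContinuousLinearMap.iteratedFDeriv_comp_right
    (Complex.equivRealProdCLM.symm : ℝ × ℝ →L[ℝ] ℂ) hψ q (i := 2)
    (show ((2 : ℕ∞) : WithTop ℕ∞) ≤ ((⊤ : ℕ∞) : WithTop ℕ∞) from WithTop.coe_le_coe.2 le_top)
  have h' : iteratedFDeriv ℝ 2 (fun q => ψ (Complex.equivRealProdCLM.symm q)) q =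
    (iteratedFDeriv ℝ 2 ψ (Complex.equivRealProdCLM.symm q)).compContinuousLinearMap
      (fun _ => (Complex.equivRealProdCLM.symm : ℝ × ℝ →L[ℝ] ℂ)) := h
  unfold lap2 lap
  rw [h']
  simp only [ContinuousMultilinearMap.compContinuousLinearMap_apply]
  congr 2
  · funext i
    fin_cases i <;> simp [Complex.ext_iff]
  · funext i
    fin_cases i <;> simp [Complex.ext_iff]

theorem lap2_eq (ψ : ℝ × ℝ → ℝ) (q : ℝ × ℝ) : lap2 ψ q =
    fderiv ℝ (fderiv ℝ ψ) q (1, 0) (1, 0) + fderiv ℝ (fderiv ℝ ψ) q (0, 1) (0, 1) := by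
  simp [lap2, iteratedFDeriv_two_apply]

theorem continuous_lap2 {ψ : ℝ × ℝ → ℝ} (hψ : ContDiff ℝ (⊤ : ℕ∞) ψ) : Continuous (lap2 ψ) := by
  have hf : ContDiff ℝ (⊤ : ℕ∞) (fderiv ℝ ψ) := hψ.fderiv_right (by exact_mod_cast le_top)
  have h2 : Continuous (fderiv ℝ (fderiv ℝ ψ)) := hf.continuous_fderiv (by simp)
  have : lap2 ψ = fun q => fderiv ℝ (fderiv ℝ ψ) q (1, 0) (1, 0) +
      fderiv ℝ (fderiv ℝ ψ) q (0, 1) (0, 1) := funext (lap2_eq ψ)
  rw [this]
  fun_prop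

theorem support_lap2 (ψ : ℝ × ℝ → ℝ) : Function.support (lap2 ψ) ⊆ tsupport ψ := by
  intro q hq
  by_contra hcon
  apply hq
  have h0 : ψ =ᶠ[𝓝 q] 0 := notMem_tsupport_iff_eventuallyEq.1 hcon
  have h1 : fderiv ℝ ψ =ᶠ[𝓝 q] fderiv ℝ (0 : ℝ × ℝ → ℝ) := h0.fderiv
  rw [lap2_eq, h1.fderiv_eq]
  simp

/-! ### the limit of the harmonicity identities -/

variable {G Z : Type} [Group G] [MetricSpace Z] [CompactSpace Z] [MulAction G Z]
  {a : Z} {F : ℕ → Z → ℝ × ℝ} {H : ℕ → ℝ × ℝ → Z} {Dk : ℕ → Set Z}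

theorem core (h : ZF a F H Dk)
    (hHc : ∀ R : ℝ, ∀ᶠ k in (hyperfilter ℕ : Filter ℕ), ContinuousOn (H k) (closedBall 0 R))
    {Φ : Z ≃ₜ OnePoint ℂ} (hΦ : ZFLim a F H Φ) (g : G) (hg : Continuous fun x : Z => g • x)
    (hH : ZFHarm F H Dk g) {P : ℝ × ℝ → ℝ} (hP : ContDiff ℝ (⊤ : ℕ∞) P)
    (hPl : ∀ q, lap2 P q = 0) {ψ : ℝ × ℝ → ℝ} (hψ : ContDiff ℝ (⊤ : ℕ∞) ψ)
    (hψc : HasCompactSupport ψ)
    (hne : ∀ q ∈ tsupport ψ, Φ (g • Φ.symm (ofR q)) ≠ OnePoint.infty) :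
    ∫ q, P (toR (Φ (g • Φ.symm (ofR q)))) * lap2 ψ q = 0 := by
  obtain ⟨hΦa, hF, hHl⟩ := hΦ
  have hTc : IsCompact (tsupport ψ) := hψc
  obtain ⟨R, hR⟩ := hTc.isBounded.subset_closedBall (0 : ℝ × ℝ)
  have hX : Continuous (fun q : ℝ × ℝ => g • Φ.symm (ofR q)) :=
    hg.comp (Φ.symm.continuous.comp continuous_ofR)
  set X : ℝ × ℝ → Z := fun q => g • Φ.symm (ofR q) with hXdef
  have hK0 : IsCompact (X '' tsupport ψ) := hTc.image hX
  have haK0 : a ∉ X '' tsupport ψ := by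
    rintro ⟨q, hq, hqa⟩
    apply hne q hq
    rw [← hΦa, ← hqa]
  obtain ⟨η, hη, hηK⟩ := hK0.exists_cthickening_subset_open
    (isOpen_compl_singleton (x := a)) (fun x hx hxa => haK0 (by rwa [← (show x = a from hxa)]))
  set K : Set Z := cthickening η (X '' tsupport ψ) with hKdef
  have hKc : IsCompact K := isClosed_cthickening.isCompact
  have haK : a ∉ K := fun ha => hηK ha rfl
  have hK0K : X '' tsupport ψ ⊆ K := self_subset_cthickening _
  have hΦK : ∀ x ∈ K, Φ x ≠ OnePoint.infty := by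
    intro x hx hcon
    rw [← hΦa] at hcon
    exact haK (Φ.injective hcon ▸ hx)
  have hTR : ∀ x ∈ K, ContinuousAt (fun x => toR (Φ x)) x := fun x hx =>
    (continuousAt_toR (hΦK x hx)).comp Φ.continuous.continuousAt
  -- the integrand of the limit
  have hcontL : ContinuousOn (fun q => P (toR (Φ (X q)))) (tsupport ψ) := by
    intro q hq
    have h1 : ContinuousAt (fun x => toR (Φ x)) (X q) := hTR _ (hK0K ⟨q, hq, rfl⟩)
    exact (hP.continuous.continuousAt.comp (h1.comp hX.continuousAt)).continuousWithinAt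
  have hlc : Continuous (lap2 ψ) := continuous_lap2 hψ
  have integ : ∀ w : ℝ × ℝ → ℝ, ContinuousOn w (tsupport ψ) →
      Integrable (fun q => w q * lap2 ψ q) := by
    intro w hw
    have h1 : IntegrableOn (fun q => w q * lap2 ψ q) (tsupport ψ) :=
      (hw.mul hlc.continuousOn).integrableOn_compact hTc
    refine (integrableOn_iff_integrable_of_support_subset ?_).1 h1
    intro q hq
    apply support_lap2 ψ
    intro h0
    apply hq
    simp [h0]
  have hintL := integ _ hcontL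
  have hintA : Integrable (fun q => |lap2 ψ q|) := by
    have := (integ (fun _ => 1) continuousOn_const).abs
    simpa using this
  set A : ℝ := ∫ q, |lap2 ψ q| with hA
  have hA0 : 0 ≤ A := integral_nonneg fun _ => abs_nonneg _
  -- it suffices to show that the integral is small
  suffices hsmall : ∀ ε > 0, |∫ q, P (toR (Φ (X q))) * lap2 ψ q| ≤ ε * A by
    have h1 : Tendsto (fun ε : ℝ => ε * A) (𝓝[>] 0) (𝓝 0) := by
      have : Tendsto (fun ε : ℝ => ε * A) (𝓝 0) (𝓝 (0 * A)) :=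
        (continuous_id.mul continuous_const).tendsto 0
      rw [zero_mul] at this
      exact this.mono_left nhdsWithin_le_nhds
    have h2 := ge_of_tendsto h1 (by
      filter_upwards [self_mem_nhdsWithin] with ε hε using hsmall ε hε)
    exact abs_eq_zero.1 (le_antisymm h2 (abs_nonneg _))
  intro ε hε
  -- uniform continuity of `P` near the compact image
  have hcomp : IsCompact ((fun x => toR (Φ x)) '' (X '' tsupport ψ)) :=
    hK0.image_of_continuousOn fun x hx => (hTR x (hK0K hx)).continuousWithinAt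
  obtain ⟨δ, hδ, hPδ⟩ : ∃ δ > 0, ∀ y' ∈ (fun x => toR (Φ x)) '' (X '' tsupport ψ), ∀ y,
      dist y' y < δ → |P y' - P y| < ε := by
    have h1 := hcomp.uniformContinuousAt_of_continuousAt P
      (fun y _ => hP.continuous.continuousAt) (dist_mem_uniformity hε)
    obtain ⟨δ, hδ, h2⟩ := Metric.mem_uniformity_dist.1 h1
    exact ⟨δ, hδ, fun y' hy' y hd => h2 hd hy'⟩
  -- uniform continuity of `toR ∘ Φ` on the compact
  obtain ⟨δ2, hδ2, hTδ⟩ : ∃ δ2 > 0, ∀ x' ∈ X '' tsupport ψ, ∀ x, dist x' x < δ2 →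
      dist (toR (Φ x')) (toR (Φ x)) < δ / 2 := by
    have h1 := hK0.uniformContinuousAt_of_continuousAt (fun x => toR (Φ x))
      (fun y hy => hTR y (hK0K hy)) (dist_mem_uniformity (half_pos hδ))
    obtain ⟨δ2, hδ2, h2⟩ := Metric.mem_uniformity_dist.1 h1
    exact ⟨δ2, hδ2, fun y' hy' y hd => h2 hd hy'⟩
  -- uniform continuity of the action
  obtain ⟨δ3, hδ3, hgδ⟩ := Metric.uniformContinuous_iff.1
    (CompactSpace.uniformContinuous_of_continuous hg) (min η δ2) (lt_min hη hδ2)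
  obtain ⟨k, hk1, hk2, hk3, hk4, hk5⟩ := (((hF K hKc haK (δ / 2) (half_pos hδ)).and
    ((hHl R δ3 hδ3).and ((h.dom K hKc haK).and ((hHc R).and
      (hH P hP hPl ψ hψ hψc))))).exists)
  have hgH : ∀ q ∈ tsupport ψ, dist (X q) (g • H k q) < min η δ2 := by
    intro q hq
    rw [dist_comm]
    apply hgδ
    exact hk2 q (by simpa using hR hq)
  have hgHK : ∀ q ∈ tsupport ψ, g • H k q ∈ K := by
    intro q hq
    apply thickening_subset_cthickening
    rw [mem_thickening_iff]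
    refine ⟨X q, ⟨q, hq, rfl⟩, ?_⟩
    rw [dist_comm]
    exact (hgH q hq).trans_le (min_le_left _ _)
  have hclose : ∀ q ∈ tsupport ψ, |P (toR (Φ (X q))) - P (F k (g • H k q))| < ε := by
    intro q hq
    apply hPδ _ ⟨X q, ⟨q, hq, rfl⟩, rfl⟩
    have h1 := hTδ (X q) ⟨q, hq, rfl⟩ (g • H k q) ((hgH q hq).trans_le (min_le_right _ _))
    have h2 := hk1 (g • H k q) (hgHK q hq)
    rw [dist_comm] at h2
    have h3 := dist_triangle (toR (Φ (X q))) (toR (Φ (g • H k q))) (F k (g • H k q))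
    simp only
    linarith
  have hzero : ∫ q, P (F k (g • H k q)) * lap2 ψ q = 0 :=
    hk5 fun q hq => hk3 (hgHK q hq)
  have hcontk : ContinuousOn (fun q => P (F k (g • H k q))) (tsupport ψ) :=
    (hP.continuous.comp (h.cont k)).comp_continuousOn (hg.comp_continuousOn (hk4.mono hR))
  have hintk := integ _ hcontk
  calc |∫ q, P (toR (Φ (X q))) * lap2 ψ q|
      = |∫ q, (P (toR (Φ (X q))) * lap2 ψ q - P (F k (g • H k q)) * lap2 ψ q)| := by
        rw [integral_sub hintL hintk, hzero, sub_zero]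
    _ ≤ ∫ q, |P (toR (Φ (X q))) * lap2 ψ q - P (F k (g • H k q)) * lap2 ψ q| :=
        abs_integral_le_integral_abs
    _ ≤ ∫ q, ε * |lap2 ψ q| := by
        apply integral_mono (hintL.sub hintk).abs (hintA.const_mul ε)
        intro q
        change |P (toR (Φ (X q))) * lap2 ψ q - P (F k (g • H k q)) * lap2 ψ q| ≤ ε * |lap2 ψ q|
        by_cases hq : q ∈ tsupport ψ
        · rw [← sub_mul, abs_mul]
          exact mul_le_mul_of_nonneg_right (hclose q hq).le (abs_nonneg _)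
        · have h0 : lap2 ψ q = 0 := by
            by_contra hcon
            exact hq (support_lap2 ψ hcon)
          simp [h0]
    _ = ε * A := by rw [integral_const_mul]

/-! ### the four harmonic polynomials -/

theorem lap2_of_hasFDerivAt {P : ℝ × ℝ → ℝ} {P1 P2 : ℝ × ℝ → ℝ}
    {P11 P12 P21 P22 : ℝ × ℝ → ℝ}
    (h1 : ∀ q, HasFDerivAt P (P1 q • ContinuousLinearMap.fst ℝ ℝ ℝ +
      P2 q • ContinuousLinearMap.snd ℝ ℝ ℝ) q)
    (h2 : ∀ q, HasFDerivAt P1 (P11 q • ContinuousLinearMap.fst ℝ ℝ ℝ +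
      P12 q • ContinuousLinearMap.snd ℝ ℝ ℝ) q)
    (h3 : ∀ q, HasFDerivAt P2 (P21 q • ContinuousLinearMap.fst ℝ ℝ ℝ +
      P22 q • ContinuousLinearMap.snd ℝ ℝ ℝ) q) (q : ℝ × ℝ) :
    lap2 P q = P11 q + P22 q := by
  have e : fderiv ℝ P = fun q => P1 q • ContinuousLinearMap.fst ℝ ℝ ℝ +
      P2 q • ContinuousLinearMap.snd ℝ ℝ ℝ := funext fun q => (h1 q).fderiv
  have e2 : HasFDerivAt (fun q => P1 q • ContinuousLinearMap.fst ℝ ℝ ℝ +
      P2 q • ContinuousLinearMap.snd ℝ ℝ ℝ) _ q :=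
    ((h2 q).smul_const (ContinuousLinearMap.fst ℝ ℝ ℝ)).add
      ((h3 q).smul_const (ContinuousLinearMap.snd ℝ ℝ ℝ))
  rw [lap2_eq, e, e2.fderiv]
  simp

theorem hasFDerivAt_fst' (q : ℝ × ℝ) : HasFDerivAt (fun q : ℝ × ℝ => q.1)
    ((1 : ℝ) • ContinuousLinearMap.fst ℝ ℝ ℝ + (0 : ℝ) • ContinuousLinearMap.snd ℝ ℝ ℝ) q := by
  simpa using hasFDerivAt_fst (𝕜 := ℝ) (p := q)

theorem hasFDerivAt_snd' (q : ℝ × ℝ) : HasFDerivAt (fun q : ℝ × ℝ => q.2)
    ((0 : ℝ) • ContinuousLinearMap.fst ℝ ℝ ℝ + (1 : ℝ) • ContinuousLinearMap.snd ℝ ℝ ℝ) q := by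
  simpa using hasFDerivAt_snd (𝕜 := ℝ) (p := q)

theorem hasFDerivAt_cst (c : ℝ) (q : ℝ × ℝ) : HasFDerivAt (fun _ : ℝ × ℝ => c)
    ((0 : ℝ) • ContinuousLinearMap.fst ℝ ℝ ℝ + (0 : ℝ) • ContinuousLinearMap.snd ℝ ℝ ℝ) q := by
  simpa using hasFDerivAt_const (𝕜 := ℝ) c q

theorem hasFDerivAt_lin (c d : ℝ) (q : ℝ × ℝ) : HasFDerivAt (fun q : ℝ × ℝ => c * q.1 + d * q.2)
    (c • ContinuousLinearMap.fst ℝ ℝ ℝ + d • ContinuousLinearMap.snd ℝ ℝ ℝ) q := by
  have := (hasFDerivAt_fst (𝕜 := ℝ) (p := q)).const_mul c |>.add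
    ((hasFDerivAt_snd (𝕜 := ℝ) (p := q)).const_mul d)
  exact this

theorem lap2_fst (q : ℝ × ℝ) : lap2 (fun q : ℝ × ℝ => q.1) q = 0 := by
  rw [lap2_of_hasFDerivAt hasFDerivAt_fst' (hasFDerivAt_cst 1) (hasFDerivAt_cst 0)]
  simp

theorem lap2_snd (q : ℝ × ℝ) : lap2 (fun q : ℝ × ℝ => q.2) q = 0 := by
  rw [lap2_of_hasFDerivAt hasFDerivAt_snd' (hasFDerivAt_cst 0) (hasFDerivAt_cst 1)]
  simp

theorem hasFDerivAt_sq (q : ℝ × ℝ) : HasFDerivAt (fun q : ℝ × ℝ => q.1 ^ 2 - q.2 ^ 2)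
    ((2 * q.1 + 0 * q.2) • ContinuousLinearMap.fst ℝ ℝ ℝ +
      (0 * q.1 + (-2) * q.2) • ContinuousLinearMap.snd ℝ ℝ ℝ) q := by
  have := ((hasFDerivAt_fst (𝕜 := ℝ) (p := q)).pow 2).sub
    ((hasFDerivAt_snd (𝕜 := ℝ) (p := q)).pow 2)
  refine this.congr_fderiv ?_
  ext <;> simp <;> ring

theorem hasFDerivAt_mul (q : ℝ × ℝ) : HasFDerivAt (fun q : ℝ × ℝ => 2 * (q.1 * q.2))
    ((0 * q.1 + 2 * q.2) • ContinuousLinearMap.fst ℝ ℝ ℝ +
      (2 * q.1 + 0 * q.2) • ContinuousLinearMap.snd ℝ ℝ ℝ) q := by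
  have := ((hasFDerivAt_fst (𝕜 := ℝ) (p := q)).mul
    ((hasFDerivAt_snd (𝕜 := ℝ) (p := q)))).const_mul 2
  refine this.congr_fderiv ?_
  ext <;> simp

theorem lap2_sq (q : ℝ × ℝ) : lap2 (fun q : ℝ × ℝ => q.1 ^ 2 - q.2 ^ 2) q = 0 := by
  rw [lap2_of_hasFDerivAt hasFDerivAt_sq (hasFDerivAt_lin 2 0) (hasFDerivAt_lin 0 (-2))]
  norm_num

theorem lap2_mul (q : ℝ × ℝ) : lap2 (fun q : ℝ × ℝ => 2 * (q.1 * q.2)) q = 0 := by
  rw [lap2_of_hasFDerivAt hasFDerivAt_mul (hasFDerivAt_lin 0 2) (hasFDerivAt_lin 2 0)]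
  norm_num

/-! ### weak conformality -/

theorem complex_integral_zero {f : ℂ → ℂ} (h1 : ∫ z, (f z).re = 0) (h2 : ∫ z, (f z).im = 0) :
    ∫ z, f z = 0 := by
  by_cases hf : Integrable f
  · have e1 := integral_re (𝕜 := ℂ) hf
    have e2 := integral_im (𝕜 := ℂ) hf
    apply Complex.ext
    · rw [Complex.zero_re, ← h1]
      exact e1.symm
    · rw [Complex.zero_im, ← h2]
      exact e2.symm
  · exact integral_undef hf

/-- **D8W**: the limit of a zoom family conjugates `g` to a weakly conformal map. -/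
theorem weakConf (h : ZF a F H Dk)
    (hHc : ∀ R : ℝ, ∀ᶠ k in (hyperfilter ℕ : Filter ℕ), ContinuousOn (H k) (closedBall 0 R))
    {Φ : Z ≃ₜ OnePoint ℂ} (hΦ : ZFLim a F H Φ) (g : G) (hg : Continuous fun x : Z => g • x)
    (hH : ZFHarm F H Dk g) : WeakConf (fun w => Φ (g • Φ.symm w)) := by
  intro ψ hψ hψc hne
  set ψ' : ℝ × ℝ → ℝ := fun q => ψ (Complex.equivRealProdCLM.symm q) with hψ'def
  have hψ' : ContDiff ℝ (⊤ : ℕ∞) ψ' := hψ.comp Complex.equivRealProdCLM.symm.contDiff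
  have hψc' : HasCompactSupport ψ' :=
    hψc.comp_homeomorph Complex.equivRealProdCLM.symm.toHomeomorph
  have hts : ∀ q ∈ tsupport ψ', Complex.equivRealProdCLM.symm q ∈ tsupport ψ := by
    intro q hq
    exact tsupport_comp_subset_preimage ψ Complex.equivRealProdCLM.symm.continuous hq
  have hne' : ∀ q ∈ tsupport ψ', Φ (g • Φ.symm (ofR q)) ≠ OnePoint.infty :=
    fun q hq => hne _ (hts q hq)
  have key : ∀ P : ℝ × ℝ → ℝ, ContDiff ℝ (⊤ : ℕ∞) P → (∀ q, lap2 P q = 0) →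
      ∫ z : ℂ, P (toR (Φ (g • Φ.symm (z : OnePoint ℂ)))) * lap ψ z = 0 := by
    intro P hP hPl
    have h1 := core h hHc hΦ g hg hH hP hPl hψ' hψc' hne'
    rw [← (Complex.volume_preserving_equiv_real_prod.symm).integral_comp
      Complex.measurableEquivRealProd.symm.measurableEmbedding, ← h1]
    refine integral_congr_ae (Eventually.of_forall fun q => ?_)
    simp only
    rw [hψ'def, lap2_comp hψ]
    rfl
  have hre : ∀ w : OnePoint ℂ, (toR w).1 = (toC w).re := fun w => rfl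
  have him : ∀ w : OnePoint ℂ, (toR w).2 = (toC w).im := fun w => rfl
  have k1 := key (fun q => q.1) contDiff_fst lap2_fst
  have k2 := key (fun q => q.2) contDiff_snd lap2_snd
  have k3 := key (fun q => q.1 ^ 2 - q.2 ^ 2) (by fun_prop) lap2_sq
  have k4 := key (fun q => 2 * (q.1 * q.2)) (by fun_prop) lap2_mul
  simp only [hre, him] at k1 k2 k3 k4
  constructor
  · apply complex_integral_zero
    · simpa using k1
    · simpa using k2
  · apply complex_integral_zero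
    · rw [← k3]
      congr 1
      funext z
      rw [Complex.re_mul_ofReal]
      simp [pow_two]
    · rw [← k4]
      congr 1
      funext z
      rw [Complex.im_mul_ofReal, pow_two, Complex.mul_im]
      congr 1
      ring

end Crest.Agent.R193.D_WC
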