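import Mathlib
import Crest.Agent.R193.D_WC
import Crest.Agent.R193.D_Chart5

/-!
# R193, block D: continuity of the inverse charts of the zoom data
-/

set_option autoImplicit false

noncomputable section

open Set Filter Topology MeasureTheory Metric

namespace Crest.Agent.R193.D_WC

open Crest.Agent.R193 Crest.Agent.R193.D_Chart

variable {G Z : Type} [Group G] [MetricSpace Z] [MulAction G Z] {S : Setup G Z} {Q : DForm S}

theorem Hk_cont {X : ConfChart Q} (D : ZD X) [CompactSpace Z] (R : ℝ) :
    ∀ᶠ k in (hyperfilter ℕ : Filter ℕ), ContinuousOn (D.Hk k) (closedBall 0 R) := by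
  filter_upwards [D.ev_ball0 R, D.s_pos] with k hk hs
  have h1 : ContinuousOn (fun q : ℝ × ℝ => CC.H X (D.f k D.x0 + D.s k • q)) (closedBall 0 R) := by
    apply (CC.H_contOn X).comp (by fun_prop)
    intro q hq
    apply hk
    rw [mem_closedBall, dist_eq_norm, add_sub_cancel_left, norm_smul, Real.norm_eq_abs,
      abs_of_pos hs, mul_comm]
    exact mul_le_mul_of_nonneg_right (by simpa using hq) hs.le
  exact (S.cont (D.g k)⁻¹).comp_continuousOn h1

end Crest.Agent.R193.D_WC
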