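import Mathlib
import Crest.Agent.R193.D_Chart8
import Crest.Agent.R193.D_Lim
import Crest.Agent.R193.D_WC
import Crest.Agent.R193.D_WC2
import Crest.Agent.R193.D_HK
import Crest.Agent.R193.D56_Main

/-!
# R193, block D: uniformisation of the form (main theorem of the block)
-/

set_option autoImplicit false

noncomputable section

open Set Filter Topology MeasureTheory Metric

namespace Crest.Agent.R193.D_Main

open Crest.Agent.R193 Crest.Agent.R193.D_Chart

variable {G Z : Type} [Group G] [MetricSpace Z] [MulAction G Z]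

theorem chart_main (S : Setup G Z) (Q : DForm S) (Φ : Z ≃ₜ S2) : D_Spec.ChartMain Q := by
  intro hC1 hmax hL _ _ hX
  have : CompactSpace Z := Φ.symm.compactSpace
  have : PreconnectedSpace Z := D_Inputs.preconnected Φ
  have : LocallyConnectedSpace Z := D_Spec.locallyConnected Φ
  obtain ⟨X⟩ := hX
  obtain ⟨D⟩ := exists_ZD S Φ X
  have hz := D.zf hC1 hL hmax
  obtain ⟨Ψ, hΨ⟩ := D_Lim.limit hz
  refine ⟨Ψ, fun g => D_WC.weakConf hz (D_WC.Hk_cont D) hΨ g (S.cont g) ?_⟩
  intro P hP hPh ψ hψ hs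
  filter_upwards [D_HK.harm_k D hC1 g P hP hPh ψ hψ hs] with k hk hq
  exact hk fun q hq' => (hq q hq').2

/-- BLOCK D: uniformisation of the form. -/
theorem D_main {G Z : Type} [Group G] [MetricSpace Z] [MulAction G Z] (S : Setup G Z)
    (Q : DForm S) (Φ : Z ≃ₜ S2) :
    ∃ F : Z ≃ₜ OnePoint ℂ, ∀ g : G, WeakConf (fun w => F (g • F.symm w)) :=
  D_Inputs.D_main_of S Q Φ (D56_Main.outPair S Q Φ) (chart_main S Q Φ)

end Crest.Agent.R193.D_Main
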