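import Crest.Agent.R193.Defs
import Crest.Agent.R193.D8_Mob
import Crest.Agent.R193.D8_Conf

/-!
# R193, block E: weakly conformal homeomorphisms of the Riemann sphere are (anti-)Moebius

Author: helper997.
-/

set_option autoImplicit false

open Complex Filter Topology Set Metric Bornology InnerProductSpace MeasureTheory OnePoint
open scoped Laplacian ComplexConjugate

namespace Crest.Agent.R193.E_Main

open Crest.Agent.R193 Crest.Agent.R193.D8

lemma mob_of_form {h : OnePoint ℂ → OnePoint ℂ} (hh : MobForm h) :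
    ∃ a b c d : ℂ, a * d - b * c ≠ 0 ∧ h = mob a b c d := by
  cases hh with
  | aff a b ha h1 h2 =>
    refine ⟨a, b, 0, 1, by simpa using ha, ?_⟩
    funext w
    induction w using OnePoint.rec with
    | infty =>
      rw [h1]
      show ∞ = (if (0 : ℂ) = 0 then ∞ else _)
      rw [if_pos rfl]
    | coe z =>
      rw [h2]
      show _ = (if (0 : ℂ) * z + 1 = 0 then ∞ else (((a * z + b) / (0 * z + 1) : ℂ) : OnePoint ℂ))
      rw [if_neg (by simp)]
      congr 1
      ring
  | inv a b q ha h1 h2 h3 =>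
    refine ⟨q * a, q * b + 1, a, b, ?_, ?_⟩
    · have : q * a * b - (q * b + 1) * a = -a := by ring
      rw [this]
      exact neg_ne_zero.mpr ha
    funext w
    induction w using OnePoint.rec with
    | infty =>
      rw [h1]
      show _ = (if a = 0 then ∞ else ((q * a / a : ℂ) : OnePoint ℂ))
      rw [if_neg ha, mul_div_cancel_right₀ _ ha]
    | coe z =>
      show _ = (if a * z + b = 0 then ∞ else
        (((q * a * z + (q * b + 1)) / (a * z + b) : ℂ) : OnePoint ℂ))
      by_cases hz : a * z + b = 0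
      · rw [if_pos hz, h3 z hz]
      · rw [if_neg hz, h2 z hz]
        congr 1
        field_simp
        ring

/-- complex conjugation as a homeomorphism of the sphere -/
noncomputable def conjH : OnePoint ℂ ≃ₜ OnePoint ℂ := (Complex.conjLIE.toHomeomorph).onePointCongr

lemma conjH_apply (w : OnePoint ℂ) : conjH w = conjO w := by
  induction w using OnePoint.rec with
  | infty => rfl
  | coe z => rfl

lemma conjO_conjO (w : OnePoint ℂ) : conjO (conjO w) = w := by
  induction w using OnePoint.rec with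
  | infty => rfl
  | coe z =>
    show ((conj (conj z) : ℂ) : OnePoint ℂ) = z
    rw [Complex.conj_conj]

lemma conjO_mob (a b c d : ℂ) (w : OnePoint ℂ) :
    conjO (mob a b c d w) = mob (conj a) (conj b) (conj c) (conj d) (conjO w) := by
  induction w using OnePoint.rec with
  | infty =>
    show conjO (if c = 0 then ∞ else ((a / c : ℂ) : OnePoint ℂ)) =
      (if conj c = 0 then ∞ else ((conj a / conj c : ℂ) : OnePoint ℂ))
    by_cases hc : c = 0
    · rw [if_pos hc, if_pos (by rw [hc, map_zero])]
      rfl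
    · rw [if_neg hc, if_neg (by simpa using hc)]
      show ((conj (a / c) : ℂ) : OnePoint ℂ) = _
      rw [map_div₀]
  | coe z =>
    show conjO (if c * z + d = 0 then ∞ else (((a * z + b) / (c * z + d) : ℂ) : OnePoint ℂ)) =
      (if conj c * conj z + conj d = 0 then ∞ else
        (((conj a * conj z + conj b) / (conj c * conj z + conj d) : ℂ) : OnePoint ℂ))
    have h1 : conj c * conj z + conj d = conj (c * z + d) := by simp
    have h2 : conj a * conj z + conj b = conj (a * z + b) := by simp
    rw [h1, h2]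
    by_cases hc : c * z + d = 0
    · rw [if_pos hc, if_pos (by rw [hc, map_zero])]
      rfl
    · rw [if_neg hc, if_neg ((map_ne_zero (starRingEnd ℂ)).mpr hc)]
      show ((conj ((a * z + b) / (c * z + d)) : ℂ) : OnePoint ℂ) = _
      rw [map_div₀]

lemma lap_eq (ψ : ℂ → ℝ) (z : ℂ) : lap ψ z = (Δ ψ) z := by
  rw [laplacian_eq_iteratedFDeriv_complexPlane]
  rfl

/-- Laplacian of a product -/
lemma laplacian_mul {u v : ℂ → ℝ} {z : ℂ} (hu : ContDiffAt ℝ 2 u z) (hv : ContDiffAt ℝ 2 v z) :
    (Δ (fun w => u w * v w)) z = u z * (Δ v) z + v z * (Δ u) z +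
      2 * (fderiv ℝ u z 1 * fderiv ℝ v z 1 + fderiv ℝ u z I * fderiv ℝ v z I) := by
  have hdu : ∀ᶠ w in 𝓝 z, DifferentiableAt ℝ u w := by
    filter_upwards [hu.eventually (by simp)] with w hw using hw.differentiableAt (by norm_num)
  have hdv : ∀ᶠ w in 𝓝 z, DifferentiableAt ℝ v w := by
    filter_upwards [hv.eventually (by simp)] with w hw using hw.differentiableAt (by norm_num)
  have hev : fderiv ℝ (fun w => u w * v w) =ᶠ[𝓝 z]
      fun w => u w • fderiv ℝ v w + v w • fderiv ℝ u w := by
    filter_upwards [hdu, hdv] with w h1 h2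
    exact fderiv_fun_mul h1 h2
  have hu1 : DifferentiableAt ℝ u z := hu.differentiableAt (by norm_num)
  have hv1 : DifferentiableAt ℝ v z := hv.differentiableAt (by norm_num)
  have hu2 : DifferentiableAt ℝ (fderiv ℝ u) z :=
    (hu.fderiv_right (m := 1) (by norm_num)).differentiableAt (by norm_num)
  have hv2 : DifferentiableAt ℝ (fderiv ℝ v) z :=
    (hv.fderiv_right (m := 1) (by norm_num)).differentiableAt (by norm_num)
  have key : ∀ e : ℂ, fderiv ℝ (fderiv ℝ (fun w => u w * v w)) z e e =
      u z * fderiv ℝ (fderiv ℝ v) z e e + v z * fderiv ℝ (fderiv ℝ u) z e e +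
        2 * (fderiv ℝ u z e * fderiv ℝ v z e) := by
    intro e
    have s1 : DifferentiableAt ℝ (fun w => u w • fderiv ℝ v w) z := hu1.smul hv2
    have s2 : DifferentiableAt ℝ (fun w => v w • fderiv ℝ u w) z := hv1.smul hu2
    rw [hev.fderiv_eq, fderiv_fun_add s1 s2, fderiv_fun_smul hu1 hv2,
      fderiv_fun_smul hv1 hu2]
    simp only [add_apply, smul_apply,
      ContinuousLinearMap.smulRight_apply, smul_eq_mul]
    ring
  rw [laplacian_eq_iteratedFDeriv_complexPlane, laplacian_eq_iteratedFDeriv_complexPlane,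
    laplacian_eq_iteratedFDeriv_complexPlane]
  simp only [iteratedFDeriv_two_apply, Matrix.cons_val_zero, Matrix.cons_val_one,
    Matrix.cons_val_fin_one]
  rw [key 1, key I]
  ring

lemma integrable_test {U : Set ℂ} {F : ℂ → ℂ} (hF : ContinuousOn F U) {ψ : ℂ → ℝ}
    (hψ : ContDiff ℝ (⊤ : ℕ∞) ψ) (hc : HasCompactSupport ψ) (hs : tsupport ψ ⊆ U) :
    Integrable (fun z => F z * ((lap ψ z : ℝ) : ℂ)) := by
  have hcont : Continuous (fun z => lap ψ z) := by
    have h1 : Continuous (iteratedFDeriv ℝ 2 ψ) :=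
      (contDiff_infty.mp hψ 2).continuous_iteratedFDeriv le_rfl
    unfold lap
    have h2 : ∀ m : Fin 2 → ℂ, Continuous (fun z => iteratedFDeriv ℝ 2 ψ z m) := fun m =>
      (ContinuousMultilinearMap.apply ℝ (fun _ : Fin 2 => ℂ) ℝ m).continuous.comp h1
    exact (h2 _).add (h2 _)
  have h1 : IntegrableOn (fun z => F z * ((lap ψ z : ℝ) : ℂ)) (tsupport ψ) := by
    apply ContinuousOn.integrableOn_compact hc.isCompact
    exact (hF.mono hs).mul (continuous_ofReal.comp hcont).continuousOn
  rw [← integrableOn_univ]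
  refine h1.of_forall_sdiff_eq_zero MeasurableSet.univ ?_
  intro x hx
  have h2 : lap ψ x = 0 := by
    have h3 : x ∉ tsupport (iteratedFDeriv ℝ 2 ψ) := fun h4 =>
      hx.2 (tsupport_iteratedFDeriv_subset (𝕜 := ℝ) 2 h4)
    have h5 := image_eq_zero_of_notMem_tsupport h3
    unfold lap
    rw [h5]
    simp
  rw [h2]
  simp

/-- harmonicity of the real part of a weakly harmonic function -/
lemma harm_re {U : Set ℂ} (hU : IsOpen U) {F : ℂ → ℂ} (hF : ContinuousOn F U)
    (hw : ∀ ψ : ℂ → ℝ, ContDiff ℝ (⊤ : ℕ∞) ψ → HasCompactSupport ψ → tsupport ψ ⊆ U →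
      ∫ z : ℂ, F z * ((lap ψ z : ℝ) : ℂ) = 0) :
    HarmonicOnNhd (fun z => (F z).re) U ∧ HarmonicOnNhd (fun z => (F z).im) U := by
  constructor
  · refine weylC hU (Complex.continuous_re.comp_continuousOn hF) ?_
    intro ψ hψ hc hs
    have h1 := integral_re (integrable_test hF hψ hc hs)
    rw [hw ψ hψ hc hs] at h1
    simp only [RCLike.re_to_complex, Complex.zero_re] at h1
    rw [← h1]
    congr 1
    funext z
    rw [← lap_eq]
    simp
  · refine weylC hU (Complex.continuous_im.comp_continuousOn hF) ?_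
    intro ψ hψ hc hs
    have h1 := integral_im (integrable_test hF hψ hc hs)
    rw [hw ψ hψ hc hs] at h1
    simp only [RCLike.im_to_complex, Complex.zero_im] at h1
    rw [← h1]
    congr 1
    funext z
    rw [← lap_eq]
    simp

/-- BLOCK E: weakly conformal homeomorphisms of the sphere are (anti-)Moebius. -/
theorem E_main (f : OnePoint ℂ ≃ₜ OnePoint ℂ) (hf : WeakConf f) : IsMob f := by
  set U : Set ℂ := {z : ℂ | f z ≠ ∞} with hUdef
  set F : ℂ → ℂ := fun z => toC (f z) with hFdef
  have hfF : ∀ z : ℂ, f z ≠ ∞ → f z = (F z : OnePoint ℂ) := by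
    intro z hz
    obtain ⟨w, hw⟩ := ne_infty_iff_exists.mp hz
    rw [hFdef]
    simp only
    rw [← hw]
    rfl
  have hUo : IsOpen U := by
    have : U = (fun z : ℂ => f z) ⁻¹' {∞}ᶜ := rfl
    rw [this]
    exact (isClosed_infty.isOpen_compl).preimage (f.continuous.comp continuous_coe)
  have hFc : ContinuousOn F U := by
    intro z hz
    have h1 : ContinuousAt toC (f z) := by
      rw [hfF z hz, continuousAt_coe]
      exact continuousAt_id
    have h2 : ContinuousAt (fun w : ℂ => f w) z := (f.continuous.comp continuous_coe).continuousAt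
    exact (ContinuousAt.comp (f := fun w : ℂ => f w) h1 h2).continuousWithinAt
  have hUc : IsPreconnected U := by
    by_cases h0 : f.symm ∞ = ∞
    · have : U = univ := by
        ext z
        simp only [hUdef, mem_ofPred_eq, mem_univ, iff_true]
        intro hz
        have : (z : OnePoint ℂ) = f.symm ∞ := by rw [← hz, f.symm_apply_apply]
        rw [h0] at this
        exact coe_ne_infty z this
      rw [this]
      exact isPreconnected_univ
    · obtain ⟨p, hp⟩ := ne_infty_iff_exists.mp h0
      have : U = {p}ᶜ := by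
        ext z
        simp only [hUdef, mem_ofPred_eq, mem_compl_iff, mem_singleton_iff]
        constructor
        · intro h1 h2
          apply h1
          rw [h2, hp, f.apply_symm_apply]
        · intro h1 h2
          apply h1
          apply coe_injective
          rw [hp, ← h2, f.symm_apply_apply]
      rw [this]
      exact (isConnected_compl_singleton_of_one_lt_rank (by simp) p).isPreconnected
  have hw1 : ∀ ψ : ℂ → ℝ, ContDiff ℝ (⊤ : ℕ∞) ψ → HasCompactSupport ψ → tsupport ψ ⊆ U →
      ∫ z : ℂ, F z * ((lap ψ z : ℝ) : ℂ) = 0 := fun ψ h1 h2 h3 =>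
    (hf ψ h1 h2 (fun z hz => h3 hz)).1
  have hw2 : ∀ ψ : ℂ → ℝ, ContDiff ℝ (⊤ : ℕ∞) ψ → HasCompactSupport ψ → tsupport ψ ⊆ U →
      ∫ z : ℂ, (F z ^ 2) * ((lap ψ z : ℝ) : ℂ) = 0 := fun ψ h1 h2 h3 =>
    (hf ψ h1 h2 (fun z hz => h3 hz)).2
  obtain ⟨hu, hv⟩ := harm_re hUo hFc hw1
  obtain ⟨hu2, hv2⟩ := harm_re hUo (hFc.pow 2) hw2
  set u : ℂ → ℝ := fun z => (F z).re with hudef
  set v : ℂ → ℝ := fun z => (F z).im with hvdef
  have hlu : ∀ z ∈ U, (Δ u) z = 0 := fun z hz => (hu z hz).2.self_of_nhds
  have hlv : ∀ z ∈ U, (Δ v) z = 0 := fun z hz => (hv z hz).2.self_of_nhds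
  have huv : ∀ z ∈ U, (Δ (fun w => u w * v w)) z = 0 := by
    intro z hz
    have h1 : (fun z => ((F ^ 2) z).im) = (2 : ℝ) • (fun w => u w * v w) := by
      funext w
      simp only [hudef, hvdef, Pi.pow_apply, sq, Complex.mul_im, Pi.smul_apply, smul_eq_mul]
      ring
    have h2 := (hv2 z hz).2.self_of_nhds
    rw [h1, laplacian_smul] at h2
    · have h3 : (2 : ℝ) * (Δ (fun w => u w * v w)) z = 0 := h2
      linarith
    · exact (hu z hz).1.mul (hv z hz).1
  have huu : ∀ z ∈ U, (Δ (fun w => u w * u w)) z = (Δ (fun w => v w * v w)) z := by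
    intro z hz
    have h1 : (fun z => ((F ^ 2) z).re) = (fun w => u w * u w) - (fun w => v w * v w) := by
      funext w
      simp only [hudef, hvdef, Pi.pow_apply, sq, Complex.mul_re, Pi.sub_apply]
    have h2 := (hu2 z hz).2.self_of_nhds
    rw [h1, ContDiffAt.laplacian_sub] at h2
    · have h3 : (Δ (fun w => u w * u w)) z - (Δ (fun w => v w * v w)) z = 0 := h2
      linarith
    · exact (hu z hz).1.mul (hu z hz).1
    · exact (hv z hz).1.mul (hv z hz).1
  have h1 : ∀ z ∈ U, fderiv ℝ u z 1 * fderiv ℝ v z 1 + fderiv ℝ u z I * fderiv ℝ v z I = 0 := by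
    intro z hz
    have h2 := laplacian_mul (hu z hz).1 (hv z hz).1
    rw [huv z hz, hlu z hz, hlv z hz] at h2
    linarith
  have h2 : ∀ z ∈ U, fderiv ℝ u z 1 ^ 2 + fderiv ℝ u z I ^ 2 =
      fderiv ℝ v z 1 ^ 2 + fderiv ℝ v z I ^ 2 := by
    intro z hz
    have h3 := laplacian_mul (hu z hz).1 (hu z hz).1
    have h4 := laplacian_mul (hv z hz).1 (hv z hz).1
    rw [hlu z hz] at h3
    rw [hlv z hz] at h4
    have h5 := huu z hz
    nlinarith
  rcases holo_or_antiholo hUc hu hv h1 h2 with hd | hd
  · have hd' : DifferentiableOn ℂ F U := by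
      refine hd.congr (fun z hz => ?_)
      simp only [hudef, hvdef]
      rw [Complex.re_add_im]
    obtain ⟨a, b, c, d, hdet, he⟩ := mob_of_form (mob_of_holo f F hfF hd')
    exact ⟨a, b, c, d, hdet, Or.inl he⟩
  · have hd' : DifferentiableOn ℂ (fun z => conj (F z)) U := by
      refine hd.congr (fun z hz => ?_)
      simp only [hudef, hvdef]
      apply Complex.ext <;> simp
    set f' : OnePoint ℂ ≃ₜ OnePoint ℂ := f.trans conjH with hf'
    have hf'a : ∀ w, f' w = conjO (f w) := fun w => conjH_apply (f w)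
    have hne : ∀ w, f' w ≠ ∞ ↔ f w ≠ ∞ := by
      intro w
      rw [hf'a]
      constructor
      · intro h3 h4
        apply h3
        rw [h4]
        rfl
      · intro h3 h4
        apply h3
        rw [← conjO_conjO (f w), h4]
        rfl
    have hform : MobForm f' := by
      refine mob_of_holo f' (fun z => conj (F z)) ?_ ?_
      · intro z hz
        rw [hf'a, hfF z ((hne z).mp hz)]
        rfl
      · refine hd'.mono ?_
        intro z hz
        exact (hne z).mp hz
    obtain ⟨a, b, c, d, hdet, he⟩ := mob_of_form hform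
    refine ⟨conj a, conj b, conj c, conj d, ?_, Or.inr ?_⟩
    · intro h3
      apply hdet
      have h4 : conj (a * d - b * c) = 0 := by
        rw [map_sub, map_mul, map_mul]
        exact h3
      exact (map_eq_zero (starRingEnd ℂ)).mp h4
    · funext w
      rw [← conjO_mob, ← he, hf'a, conjO_conjO]

end Crest.Agent.R193.E_Main
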