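import Mathlib

/-!
R193, block FG1: discrete potential theory on a finite graph.

`V` finite, `G : SimpleGraph V`, `L R : Set V` ("left" and "right" vertices).
`en G u = (1/2) ∑_{(v,w), v ~ w} (u v - u w)^2`.
-/

set_option autoImplicit false

namespace Crest.Agent.R193.FG

open Finset

variable {V : Type*} [Fintype V]

/-- Dirichlet energy of `u` on the finite graph `G` (unit conductances). -/
noncomputable def en (G : SimpleGraph V) (u : V → ℝ) : ℝ := by
  classical
  exact (∑ v, ∑ w, if G.Adj v w then (u v - u w) ^ 2 else 0) / 2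

open Classical in
theorem en_def (G : SimpleGraph V) (u : V → ℝ) :
    en G u = (∑ v, ∑ w, if G.Adj v w then (u v - u w) ^ 2 else 0) / 2 := by
  unfold en
  congr 1

/-- Boundary conditions: `u = 0` on `L`, `u = 1` on `R`. -/
def BC (L R : Set V) (u : V → ℝ) : Prop :=
  (∀ v ∈ L, u v = 0) ∧ (∀ v ∈ R, u v = 1)

/-- Discrete Laplacian. -/
noncomputable def lap (G : SimpleGraph V) (u : V → ℝ) (v : V) : ℝ := by
  classical
  exact ∑ w, if G.Adj v w then (u w - u v) else 0

open Classical in
theorem lap_def (G : SimpleGraph V) (u : V → ℝ) (v : V) :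
    lap G u v = ∑ w, if G.Adj v w then (u w - u v) else 0 := by
  unfold lap
  refine Finset.sum_congr rfl fun w _ => ?_
  split_ifs <;> rfl

/-- Bilinear energy. -/
noncomputable def enB (G : SimpleGraph V) (u f : V → ℝ) : ℝ := by
  classical
  exact (∑ v, ∑ w, if G.Adj v w then (u v - u w) * (f v - f w) else 0) / 2

open Classical in
theorem enB_def (G : SimpleGraph V) (u f : V → ℝ) :
    enB G u f = (∑ v, ∑ w, if G.Adj v w then (u v - u w) * (f v - f w) else 0) / 2 := by
  unfold enB
  congr 1

theorem en_nonneg (G : SimpleGraph V) (u : V → ℝ) : 0 ≤ en G u := by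
  classical
  rw [en_def]
  refine div_nonneg (Finset.sum_nonneg fun v _ => Finset.sum_nonneg fun w _ => ?_) (by norm_num)
  split_ifs
  · positivity
  · exact le_rfl

theorem enB_self (G : SimpleGraph V) (u : V → ℝ) : enB G u u = en G u := by
  classical
  rw [en_def, enB_def]
  congr 1
  refine Finset.sum_congr rfl fun v _ => Finset.sum_congr rfl fun w _ => ?_
  split_ifs
  · ring
  · rfl

theorem enB_comm (G : SimpleGraph V) (u f : V → ℝ) : enB G u f = enB G f u := by
  classical
  rw [enB_def, enB_def]
  congr 1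
  refine Finset.sum_congr rfl fun v _ => Finset.sum_congr rfl fun w _ => ?_
  split_ifs
  · ring
  · rfl

/-- Green's identity. -/
theorem enB_eq_lap (G : SimpleGraph V) (u f : V → ℝ) :
    enB G u f = - ∑ v, lap G u v * f v := by
  classical
  rw [enB_def]
  have h1 : (∑ v, ∑ w, if G.Adj v w then (u v - u w) * (f v - f w) else 0)
      = (∑ v, ∑ w, if G.Adj v w then (u v - u w) * f v else 0)
        - ∑ v, ∑ w, if G.Adj v w then (u v - u w) * f w else 0 := by
    rw [← Finset.sum_sub_distrib]
    refine Finset.sum_congr rfl fun v _ => ?_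
    rw [← Finset.sum_sub_distrib]
    refine Finset.sum_congr rfl fun w _ => ?_
    split_ifs
    · ring
    · ring
  have h2 : (∑ v, ∑ w, if G.Adj v w then (u v - u w) * f w else 0)
      = - ∑ v, ∑ w, if G.Adj v w then (u v - u w) * f v else 0 := by
    rw [Finset.sum_comm, ← Finset.sum_neg_distrib]
    refine Finset.sum_congr rfl fun v _ => ?_
    rw [← Finset.sum_neg_distrib]
    refine Finset.sum_congr rfl fun w _ => ?_
    rw [G.adj_comm]
    split_ifs
    · ring
    · ring
  have h3 : (∑ v, ∑ w, if G.Adj v w then (u v - u w) * f v else 0)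
      = - ∑ v, lap G u v * f v := by
    rw [← Finset.sum_neg_distrib]
    refine Finset.sum_congr rfl fun v _ => ?_
    rw [lap_def, Finset.sum_mul, ← Finset.sum_neg_distrib]
    refine Finset.sum_congr rfl fun w _ => ?_
    split_ifs
    · ring
    · ring
  rw [h1, h2, h3]
  ring

theorem en_add (G : SimpleGraph V) (u f : V → ℝ) (t : ℝ) :
    en G (fun v => u v + t * f v) = en G u + 2 * t * enB G u f + t ^ 2 * en G f := by
  classical
  rw [en_def, en_def, en_def, enB_def]
  have : (∑ v, ∑ w, if G.Adj v w then ((u v + t * f v) - (u w + t * f w)) ^ 2 else 0)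
      = (∑ v, ∑ w, if G.Adj v w then (u v - u w) ^ 2 else 0)
        + 2 * t * (∑ v, ∑ w, if G.Adj v w then (u v - u w) * (f v - f w) else 0)
        + t ^ 2 * (∑ v, ∑ w, if G.Adj v w then (f v - f w) ^ 2 else 0) := by
    rw [Finset.mul_sum, Finset.mul_sum, ← Finset.sum_add_distrib, ← Finset.sum_add_distrib]
    refine Finset.sum_congr rfl fun v _ => ?_
    rw [Finset.mul_sum, Finset.mul_sum, ← Finset.sum_add_distrib, ← Finset.sum_add_distrib]
    refine Finset.sum_congr rfl fun w _ => ?_
    split_ifs
    · ring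
    · ring
  rw [this]
  ring

/-- Truncation to `[0,1]` does not increase the energy; more generally 1-Lipschitz maps. -/
theorem en_comp_le (G : SimpleGraph V) (u : V → ℝ) (φ : ℝ → ℝ)
    (hφ : ∀ x y, |φ x - φ y| ≤ |x - y|) : en G (fun v => φ (u v)) ≤ en G u := by
  classical
  rw [en_def, en_def]
  refine div_le_div_of_nonneg_right (Finset.sum_le_sum fun v _ => Finset.sum_le_sum fun w _ => ?_)
    (by norm_num)
  split_ifs
  · exact sq_le_sq.2 (hφ _ _)
  · exact le_rfl

theorem clamp_lip (x y : ℝ) : |max 0 (min 1 x) - max 0 (min 1 y)| ≤ |x - y| := by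
  rcases le_total x y with h | h
  · have h1 : max 0 (min 1 x) ≤ max 0 (min 1 y) := max_le_max le_rfl (min_le_min le_rfl h)
    rw [abs_of_nonpos (by linarith), abs_of_nonpos (by linarith)]
    rcases le_total 1 y with h3 | h3 <;> rcases le_total 1 x with h4 | h4 <;>
    rcases le_total 0 x with h5 | h5 <;> rcases le_total 0 y with h6 | h6 <;>
    simp [h3, h4, h5, h6] <;> linarith
  · have h1 : max 0 (min 1 y) ≤ max 0 (min 1 x) := max_le_max le_rfl (min_le_min le_rfl h)
    rw [abs_of_nonneg (by linarith), abs_of_nonneg (by linarith)]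
    rcases le_total 1 y with h3 | h3 <;> rcases le_total 1 x with h4 | h4 <;>
    rcases le_total 0 x with h5 | h5 <;> rcases le_total 0 y with h6 | h6 <;>
    simp [h3, h4, h5, h6] <;> linarith

theorem continuous_en (G : SimpleGraph V) : Continuous (fun u : V → ℝ => en G u) := by
  classical
  simp_rw [en_def]
  refine Continuous.div_const (continuous_finsetSum _ fun v _ =>
    continuous_finsetSum _ fun w _ => ?_) _
  split_ifs
  · fun_prop
  · fun_prop

/-- Existence of the energy minimiser with boundary values `0` on `L`, `1` on `R`. -/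
theorem exists_min (G : SimpleGraph V) (L R : Set V) (hLR : Disjoint L R) :
    ∃ u : V → ℝ, BC L R u ∧ (∀ v, 0 ≤ u v ∧ u v ≤ 1) ∧
      ∀ f : V → ℝ, BC L R f → en G u ≤ en G f := by
  classical
  let K : Set (V → ℝ) := {u | BC L R u} ∩ Set.pi Set.univ (fun _ => Set.Icc (0 : ℝ) 1)
  have hK : IsCompact K := by
    refine IsCompact.inter_left (isCompact_univ_pi fun _ => isCompact_Icc) ?_
    have h1 : IsClosed {u : V → ℝ | ∀ v ∈ L, u v = 0} := by
      simp only [Set.ofPred_forall]
      exact isClosed_iInter fun v => isClosed_iInter fun _ =>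
        isClosed_eq (continuous_apply v) continuous_const
    have h2 : IsClosed {u : V → ℝ | ∀ v ∈ R, u v = 1} := by
      simp only [Set.ofPred_forall]
      exact isClosed_iInter fun v => isClosed_iInter fun _ =>
        isClosed_eq (continuous_apply v) continuous_const
    exact h1.inter h2
  have hne : K.Nonempty := by
    refine ⟨fun v => if v ∈ R then 1 else 0, ⟨⟨fun v hv => ?_, fun v hv => ?_⟩, fun v _ => ?_⟩⟩
    · simp [Set.disjoint_left.1 hLR hv]
    · simp [hv]
    · simp only [Set.mem_Icc]
      split_ifs <;> simp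
  obtain ⟨u, huK, hu⟩ := hK.exists_isMinOn hne (continuous_en G).continuousOn
  refine ⟨u, huK.1, fun v => ?_, fun f hf => ?_⟩
  · exact huK.2 v (Set.mem_univ v)
  · have h1 : (fun v => max 0 (min 1 (f v))) ∈ K := by
      refine ⟨⟨fun v hv => ?_, fun v hv => ?_⟩, fun v _ => ⟨le_max_left _ _, ?_⟩⟩
      · simp [hf.1 v hv]
      · simp [hf.2 v hv]
      · exact max_le zero_le_one (min_le_left _ _)
    exact (hu h1).trans (en_comp_le G f _ clamp_lip)

/-- A minimiser is harmonic off `L ∪ R`. -/
theorem min_harmonic (G : SimpleGraph V) (L R : Set V) (u : V → ℝ) (hu : BC L R u)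
    (hmin : ∀ f : V → ℝ, BC L R f → en G u ≤ en G f) (v : V) (hL : v ∉ L) (hR : v ∉ R) :
    lap G u v = 0 := by
  classical
  let f : V → ℝ := fun w => if w = v then 1 else 0
  have hB : enB G u f = - lap G u v := by
    rw [enB_eq_lap]
    congr 1
    simp [f]
  have key : ∀ t : ℝ, 0 ≤ 2 * t * enB G u f + t ^ 2 * en G f := by
    intro t
    have := hmin (fun w => u w + t * f w) ⟨fun w hw => ?_, fun w hw => ?_⟩
    · rw [en_add] at this
      linarith
    · have : w ≠ v := fun h => hL (h ▸ hw)
      simp [f, this, hu.1 w hw]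
    · have : w ≠ v := fun h => hR (h ▸ hw)
      simp [f, this, hu.2 w hw]
  have hE : 0 ≤ en G f := en_nonneg G f
  -- choose t = - b / (e+1)
  set b := enB G u f with hb
  set e := en G f with he
  have h1 := key (- b / (e + 1))
  have he1 : (0 : ℝ) < e + 1 := by linarith
  have h2 : 2 * (- b / (e + 1)) * b + (- b / (e + 1)) ^ 2 * e
      = - (b ^ 2 * (e + 2)) / (e + 1) ^ 2 := by
    field_simp
    ring
  rw [h2] at h1
  have h3 : b ^ 2 * (e + 2) ≤ 0 := by
    have h4 : (0 : ℝ) < (e + 1) ^ 2 := by positivity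
    have := mul_nonneg h1 h4.le
    rw [div_mul_cancel₀ _ h4.ne'] at this
    linarith
  have h5 : b ^ 2 = 0 := by
    nlinarith [sq_nonneg b]
  have h6 : b = 0 := by simpa using h5
  rw [h6] at hB
  linarith

end Crest.Agent.R193.FG
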