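import Crest.Agent.R193.FG1

/-!
R193, block FG1 (second part): maximum principle, connectedness of level sets, flux identity,
energy versus vertex modulus.
-/

set_option autoImplicit false

namespace Crest.Agent.R193.FG

open Finset MeasureTheory

variable {V : Type*} [Fintype V]

/-- Maximum principle.  `A` is a set on which `u` is subharmonic or at most `M`, all outer
neighbours have value at most `M`, and from every vertex of `A` one can leave `A`. -/
theorem max_principle (G : SimpleGraph V) (u : V → ℝ) (A : Set V) (M : ℝ)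
    (hA : ∀ v ∈ A, u v ≤ M ∨ 0 ≤ lap G u v)
    (hb : ∀ v ∈ A, ∀ w, w ∉ A → G.Adj v w → u w ≤ M)
    (hexit : ∀ v ∈ A, ∃ w, w ∉ A ∧ G.Reachable v w) :
    ∀ v ∈ A, u v ≤ M := by
  classical
  by_contra hcon
  push Not at hcon
  obtain ⟨v1, hv1, hv1M⟩ := hcon
  obtain ⟨v0, hv0, hmax⟩ := Set.exists_max_image A u A.toFinite ⟨v1, hv1⟩
  have hm : M < u v0 := lt_of_lt_of_le hv1M (hmax v1 hv1)
  -- closed under adjacency
  have hcl : ∀ v w, v ∈ A → u v = u v0 → G.Adj v w → w ∈ A ∧ u w = u v0 := by
    intro v w hv huv hadj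
    have hle : ∀ x, G.Adj v x → u x ≤ u v := by
      intro x hx
      by_cases hxA : x ∈ A
      · rw [huv]; exact hmax x hxA
      · rw [huv]; exact (hb v hv x hxA hx).trans hm.le
    have hlap : 0 ≤ lap G u v := by
      rcases hA v hv with h | h
      · rw [huv] at h; exact absurd h (not_le.2 hm)
      · exact h
    rw [lap_def] at hlap
    have hz : ∀ x ∈ (Finset.univ : Finset V), (if G.Adj v x then (u x - u v) else 0) = 0 := by
      have hnp : ∀ x ∈ (Finset.univ : Finset V), (if G.Adj v x then (u x - u v) else 0) ≤ 0 := by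
        intro x _
        split_ifs with hx
        · linarith [hle x hx]
        · exact le_rfl
      have hs : (∑ x, if G.Adj v x then (u x - u v) else 0) = 0 :=
        le_antisymm (Finset.sum_nonpos hnp) hlap
      exact (Finset.sum_eq_zero_iff_of_nonpos hnp).1 hs
    have hw := hz w (Finset.mem_univ _)
    rw [if_pos hadj] at hw
    have huw : u w = u v0 := by linarith
    refine ⟨?_, huw⟩
    by_contra hwA
    have := hb v hv w hwA hadj
    linarith
  obtain ⟨w, hwA, ⟨p⟩⟩ := hexit v0 hv0
  have : ∀ {a b : V} (q : G.Walk a b), a ∈ A → u a = u v0 → b ∈ A ∧ u b = u v0 := by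
    intro a b q
    induction q with
    | nil => exact fun h1 h2 => ⟨h1, h2⟩
    | cons hadj q ih =>
      intro h1 h2
      obtain ⟨h3, h4⟩ := hcl _ _ h1 h2 hadj
      exact ih h3 h4
  exact hwA (this p hv0 rfl).1

theorem lap_neg (G : SimpleGraph V) (u : V → ℝ) (v : V) :
    lap G (fun x => - u x) v = - lap G u v := by
  classical
  rw [lap_def, lap_def, ← Finset.sum_neg_distrib]
  refine Finset.sum_congr rfl fun w _ => ?_
  split_ifs
  · ring
  · ring

/-- Minimum principle. -/
theorem min_principle (G : SimpleGraph V) (u : V → ℝ) (A : Set V) (M : ℝ)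
    (hA : ∀ v ∈ A, M ≤ u v ∨ lap G u v ≤ 0)
    (hb : ∀ v ∈ A, ∀ w, w ∉ A → G.Adj v w → M ≤ u w)
    (hexit : ∀ v ∈ A, ∃ w, w ∉ A ∧ G.Reachable v w) :
    ∀ v ∈ A, M ≤ u v := by
  intro v hv
  have := max_principle G (fun x => - u x) A (-M)
    (fun v hv => (hA v hv).imp (fun h => neg_le_neg h)
      (fun h => by rw [lap_neg]; linarith))
    (fun v hv w hw hadj => neg_le_neg (hb v hv w hw hadj)) hexit v hv
  simpa using this

/-- `v` and `w` are joined by a chain of adjacent vertices in `S`. -/
def ConnIn (G : SimpleGraph V) (S : Set V) (v w : V) : Prop :=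
  Relation.ReflTransGen (fun a b => G.Adj a b ∧ a ∈ S ∧ b ∈ S) v w

omit [Fintype V] in
theorem ConnIn.symm {G : SimpleGraph V} {S : Set V} {v w : V} (h : ConnIn G S v w) :
    ConnIn G S w v := by
  induction h with
  | refl => exact Relation.ReflTransGen.refl
  | tail _ h ih => exact Relation.ReflTransGen.head ⟨h.1.symm, h.2.2, h.2.1⟩ ih

omit [Fintype V] in
theorem ConnIn.trans {G : SimpleGraph V} {S : Set V} {v w x : V} (h : ConnIn G S v w)
    (h' : ConnIn G S w x) : ConnIn G S v x := Relation.ReflTransGen.trans h h'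

omit [Fintype V] in
theorem ConnIn.mono {G : SimpleGraph V} {S T : Set V} (hST : S ⊆ T) {v w : V}
    (h : ConnIn G S v w) : ConnIn G T v w := by
  induction h with
  | refl => exact Relation.ReflTransGen.refl
  | tail _ h ih => exact Relation.ReflTransGen.tail ih ⟨h.1, hST h.2.1, hST h.2.2⟩

omit [Fintype V] in
theorem ConnIn.mem {G : SimpleGraph V} {S : Set V} {v w : V} (h : ConnIn G S v w)
    (hv : v ∈ S) : w ∈ S := by
  induction h with
  | refl => exact hv
  | tail _ h _ => exact h.2.2

omit [Fintype V] in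
theorem ConnIn.reachable {G : SimpleGraph V} {S : Set V} {v w : V} (h : ConnIn G S v w) :
    G.Reachable v w := by
  induction h with
  | refl => exact SimpleGraph.Reachable.refl _
  | tail _ h ih => exact ih.trans h.1.reachable

/-- Boundary value problem data: `u = 0` on `L`, `u = 1` on `R`, harmonic elsewhere, and every
vertex is connected to `L ∪ R`. -/
structure Sol (G : SimpleGraph V) (L R : Set V) (u : V → ℝ) : Prop where
  bc : BC L R u
  harm : ∀ v, v ∉ L → v ∉ R → lap G u v = 0
  conn : ∀ v, ∃ w, w ∈ L ∪ R ∧ G.Reachable v w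

/-- Every vertex of `{t < u}` is joined to `R` inside `{t < u}`. -/
theorem Sol.conn_above {G : SimpleGraph V} {L R : Set V} {u : V → ℝ} (h : Sol G L R u)
    {t : ℝ} (ht : 0 ≤ t) {v : V} (hv : t < u v) :
    ∃ r ∈ R, ConnIn G {x | t < u x} v r := by
  classical
  by_contra hcon
  push Not at hcon
  let A : Set V := {x | ConnIn G {x | t < u x} v x}
  have hmem : ∀ x ∈ A, t < u x := fun x hx => ConnIn.mem (S := {x | t < u x}) hx hv
  have := max_principle G u A t ?_ ?_ ?_ v Relation.ReflTransGen.refl
  · linarith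
  · intro x hx
    right
    rw [h.harm x]
    · intro hL
      have := hmem x hx
      rw [h.bc.1 x hL] at this
      linarith
    · intro hR
      exact hcon x hR hx
  · intro x hx w hw hadj
    by_contra hwt
    push Not at hwt
    exact hw (Relation.ReflTransGen.tail hx ⟨hadj, hmem x hx, hwt⟩)
  · intro x hx
    obtain ⟨w, hw, hr⟩ := h.conn x
    refine ⟨w, fun hwA => ?_, hr⟩
    rcases hw with hw | hw
    · have := hmem w hwA
      rw [h.bc.1 w hw] at this
      linarith
    · exact hcon w hw hwA

/-- Every vertex of `{u < t}` is joined to `L` inside `{u < t}`. -/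
theorem Sol.conn_below {G : SimpleGraph V} {L R : Set V} {u : V → ℝ} (h : Sol G L R u)
    {t : ℝ} (ht : t ≤ 1) {v : V} (hv : u v < t) :
    ∃ r ∈ L, ConnIn G {x | u x < t} v r := by
  classical
  by_contra hcon
  push Not at hcon
  let A : Set V := {x | ConnIn G {x | u x < t} v x}
  have hmem : ∀ x ∈ A, u x < t := fun x hx => ConnIn.mem (S := {x | u x < t}) hx hv
  have := min_principle G u A t ?_ ?_ ?_ v Relation.ReflTransGen.refl
  · linarith
  · intro x hx
    right
    rw [h.harm x]
    · intro hL
      exact hcon x hL hx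
    · intro hR
      have := hmem x hx
      rw [h.bc.2 x hR] at this
      linarith
  · intro x hx w hw hadj
    by_contra hwt
    push Not at hwt
    exact hw (Relation.ReflTransGen.tail hx ⟨hadj, hmem x hx, hwt⟩)
  · intro x hx
    obtain ⟨w, hw, hr⟩ := h.conn x
    refine ⟨w, fun hwA => ?_, hr⟩
    rcases hw with hw | hw
    · exact hcon w hw hwA
    · have := hmem w hwA
      rw [h.bc.2 w hw] at this
      linarith

theorem Sol.nonneg_le_one {G : SimpleGraph V} {L R : Set V} {u : V → ℝ} (h : Sol G L R u)
    (v : V) : 0 ≤ u v ∧ u v ≤ 1 := by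
  constructor
  · by_contra hv
    push Not at hv
    obtain ⟨r, hr, hc⟩ := h.conn_below (t := 0) zero_le_one hv
    have := ConnIn.mem hc hv
    simp only [Set.mem_ofPred_eq, h.bc.1 r hr, lt_irrefl] at this
  · by_contra hv
    push Not at hv
    obtain ⟨r, hr, hc⟩ := h.conn_above (t := 1) zero_le_one hv
    have := ConnIn.mem hc hv
    simp only [Set.mem_ofPred_eq, h.bc.2 r hr, lt_irrefl] at this

/-- Flux through the level `t` equals the energy, `0 ≤ t < 1`. -/
theorem Sol.flux {G : SimpleGraph V} {L R : Set V} {u : V → ℝ} (h : Sol G L R u)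
    {t : ℝ} (h0 : 0 ≤ t) (h1 : t < 1) : by
    classical
    exact (∑ v, ∑ w, if G.Adj v w ∧ u w ≤ t ∧ t < u v then (u v - u w) else 0) = en G u := by
  classical
  -- both sides equal `- ∑_{v ∈ R} lap u v`
  have hE : en G u = - ∑ v, if v ∈ R then lap G u v else 0 := by
    rw [← enB_self, enB_eq_lap]
    congr 1
    refine Finset.sum_congr rfl fun v _ => ?_
    by_cases hR : v ∈ R
    · rw [if_pos hR, h.bc.2 v hR, mul_one]
    · rw [if_neg hR]
      by_cases hL : v ∈ L
      · rw [h.bc.1 v hL, mul_zero]
      · rw [h.harm v hL hR, zero_mul]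
  have hS : (∑ v, if t < u v then lap G u v else 0) = ∑ v, if v ∈ R then lap G u v else 0 := by
    refine Finset.sum_congr rfl fun v _ => ?_
    by_cases hR : v ∈ R
    · rw [if_pos hR, if_pos (by rw [h.bc.2 v hR]; exact h1)]
    · rw [if_neg hR]
      by_cases hL : v ∈ L
      · rw [if_neg (by rw [h.bc.1 v hL]; exact not_lt.2 h0)]
      · rw [h.harm v hL hR, ite_self]
  have hT : (∑ v, if t < u v then lap G u v else 0)
      = - ∑ v, ∑ w, if G.Adj v w ∧ u w ≤ t ∧ t < u v then (u v - u w) else 0 := by
    have e1 : (∑ v, if t < u v then lap G u v else 0)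
        = (∑ v, ∑ w, if G.Adj v w ∧ t < u v ∧ t < u w then (u w - u v) else 0)
          - ∑ v, ∑ w, if G.Adj v w ∧ u w ≤ t ∧ t < u v then (u v - u w) else 0 := by
      rw [← Finset.sum_sub_distrib]
      refine Finset.sum_congr rfl fun v _ => ?_
      rw [← Finset.sum_sub_distrib]
      by_cases hv : t < u v
      · rw [if_pos hv, lap_def]
        refine Finset.sum_congr rfl fun w _ => ?_
        by_cases hw : t < u w
        · by_cases ha : G.Adj v w
          · rw [if_pos ha, if_pos ⟨ha, hv, hw⟩, if_neg (fun h => absurd h.2.1 (not_le.2 hw))]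
            ring
          · rw [if_neg ha, if_neg (fun h => ha h.1), if_neg (fun h => ha h.1)]
            ring
        · by_cases ha : G.Adj v w
          · rw [if_pos ha, if_neg (fun h => hw h.2.2), if_pos ⟨ha, not_lt.1 hw, hv⟩]
            ring
          · rw [if_neg ha, if_neg (fun h => ha h.1), if_neg (fun h => ha h.1)]
            ring
      · rw [if_neg hv]
        symm
        refine Finset.sum_eq_zero fun w _ => ?_
        rw [if_neg (fun h => hv h.2.1), if_neg (fun h => hv h.2.2)]
        ring
    have e2 : (∑ v, ∑ w, if G.Adj v w ∧ t < u v ∧ t < u w then (u w - u v) else 0) = 0 := by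
      have e3 : (∑ v, ∑ w, if G.Adj v w ∧ t < u v ∧ t < u w then (u w - u v) else 0)
          = - ∑ v, ∑ w, if G.Adj v w ∧ t < u v ∧ t < u w then (u w - u v) else 0 := by
        conv_lhs => rw [Finset.sum_comm]
        rw [← Finset.sum_neg_distrib]
        refine Finset.sum_congr rfl fun v _ => ?_
        rw [← Finset.sum_neg_distrib]
        refine Finset.sum_congr rfl fun w _ => ?_
        have : (G.Adj w v ∧ t < u w ∧ t < u v) ↔ (G.Adj v w ∧ t < u v ∧ t < u w) := by
          rw [G.adj_comm]; tauto
        simp only [this]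
        split_ifs
        · ring
        · ring
      linarith
    rw [e1, e2]
    ring
  rw [hE, ← hS, hT]
  ring

end Crest.Agent.R193.FG
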