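import Crest.Agent.R193.FG1b

/-!
R193, block FG1 (third part): measure form of the flux identity, the level-set estimate and the
comparison "energy of the discrete harmonic function ≤ const · vertex modulus".
-/

set_option autoImplicit false

namespace Crest.Agent.R193.FG

open Finset MeasureTheory

variable {V : Type*} [Fintype V]

open Classical in
/-- Measure form of the flux identity: for measurable `Θ`,
`∑_{v ~ w} (u v - u w)⁺ |Θ ∩ [u w, u v)| = en u * |Θ ∩ [0,1)|`. -/
theorem Sol.flux_measure {G : SimpleGraph V} {L R : Set V} {u : V → ℝ} (h : Sol G L R u)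
    {Θ : Set ℝ} (hΘ : MeasurableSet Θ) (hΘ1 : Θ ⊆ Set.Ico 0 1) :
    (∑ v, ∑ w, if G.Adj v w then (u v - u w) * (volume.real (Θ ∩ Set.Ico (u w) (u v))) else 0)
      = en G u * volume.real Θ := by
  have hfin : volume Θ ≠ ⊤ := ne_top_of_le_ne_top (by simp) (measure_mono hΘ1)
  have key : ∀ v w : V, (if G.Adj v w then
      (u v - u w) * (volume.real (Θ ∩ Set.Ico (u w) (u v))) else 0)
      = ∫ t in Θ, (if G.Adj v w ∧ u w ≤ t ∧ t < u v then (u v - u w) else 0) := by
    intro v w
    by_cases ha : G.Adj v w
    · rw [if_pos ha]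
      have e1 : (fun t => if G.Adj v w ∧ u w ≤ t ∧ t < u v then (u v - u w) else 0)
          = Set.indicator (Set.Ico (u w) (u v)) (fun _ => u v - u w) := by
        funext t
        by_cases ht : t ∈ Set.Ico (u w) (u v)
        · rw [Set.indicator_of_mem ht, if_pos ⟨ha, ht.1, ht.2⟩]
        · rw [Set.indicator_of_notMem ht, if_neg (fun h => ht ⟨h.2.1, h.2.2⟩)]
      rw [e1, setIntegral_indicator measurableSet_Ico, setIntegral_const, smul_eq_mul, mul_comm]
    · rw [if_neg ha]
      have : (fun t => if G.Adj v w ∧ u w ≤ t ∧ t < u v then (u v - u w) else 0)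
          = fun _ => (0 : ℝ) := by
        funext t
        rw [if_neg (fun h => ha h.1)]
      rw [this]
      simp
  have hint : ∀ v w : V, Integrable
      (fun t => if G.Adj v w ∧ u w ≤ t ∧ t < u v then (u v - u w) else (0 : ℝ))
      (volume.restrict Θ) := by
    intro v w
    have : IsFiniteMeasure (volume.restrict Θ) := ⟨by
      rw [Measure.restrict_apply_univ]; exact lt_top_iff_ne_top.2 hfin⟩
    refine Integrable.of_bound (C := |u v - u w|) ?_ ?_
    · refine Measurable.aestronglyMeasurable ?_
      refine Measurable.ite ?_ measurable_const measurable_const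
      by_cases ha : G.Adj v w
      · have : {a : ℝ | G.Adj v w ∧ u w ≤ a ∧ a < u v} = Set.Ico (u w) (u v) := by
          ext a
          simp [ha]
        rw [this]
        exact measurableSet_Ico
      · have : {a : ℝ | G.Adj v w ∧ u w ≤ a ∧ a < u v} = ∅ := by
          ext a
          simp [ha]
        rw [this]
        exact MeasurableSet.empty
    · refine Filter.Eventually.of_forall fun t => ?_
      split_ifs
      · exact le_rfl
      · simp
  simp_rw [key]
  have : ∀ v : V, (∑ w, ∫ t in Θ, (if G.Adj v w ∧ u w ≤ t ∧ t < u v then (u v - u w) else 0))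
      = ∫ t in Θ, ∑ w, (if G.Adj v w ∧ u w ≤ t ∧ t < u v then (u v - u w) else 0) := by
    intro v
    rw [integral_finsetSum]
    intro w _
    exact hint v w
  simp_rw [this]
  rw [← integral_finsetSum]
  · have e2 : ∀ t ∈ Θ, (∑ v, ∑ w, if G.Adj v w ∧ u w ≤ t ∧ t < u v then (u v - u w) else 0)
        = en G u := by
      intro t ht
      have h01 := hΘ1 ht
      exact h.flux h01.1 h01.2
    rw [setIntegral_congr_fun hΘ e2, setIntegral_const, smul_eq_mul, mul_comm]
  · intro v _
    exact integrable_finsetSum _ fun w _ => hint v w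

/-- The level set (both sides) of `u` at `t`: vertices with an incident edge crossing `t`. -/
def lev (G : SimpleGraph V) (u : V → ℝ) (t : ℝ) : Set V :=
  {v | ∃ w, G.Adj v w ∧ ((u v ≤ t ∧ t < u w) ∨ (u w ≤ t ∧ t < u v))}

/-- `∑_h |{t ∈ Θ : h ∈ λ_t}|² ≤ 2 Δ · en u · |Θ|`, when all degrees are at most `Δ`. -/
theorem Sol.sum_lev_sq_le {G : SimpleGraph V} {L R : Set V} {u : V → ℝ} (h : Sol G L R u)
    {Θ : Set ℝ} (hΘ : MeasurableSet Θ) (hΘ1 : Θ ⊆ Set.Ico 0 1) (Δ : ℕ)
    (hΔ : ∀ v, {w | G.Adj v w}.ncard ≤ Δ) :
    (∑ v, (volume.real {t ∈ Θ | v ∈ lev G u t}) ^ 2) ≤ 2 * Δ * en G u * volume.real Θ := by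
  classical
  have hfin : volume Θ ≠ ⊤ := ne_top_of_le_ne_top (by simp) (measure_mono hΘ1)
  -- symmetric interval
  let I : V → V → Set ℝ := fun v w => Θ ∩ (Set.Ico (u w) (u v) ∪ Set.Ico (u v) (u w))
  have hIfin : ∀ v w, volume (I v w) ≠ ⊤ := fun v w =>
    ne_top_of_le_ne_top hfin (measure_mono Set.inter_subset_left)
  have hdeg : ∀ v, ((Finset.univ.filter (fun w => G.Adj v w)).card : ℝ) ≤ Δ := by
    intro v
    have := hΔ v
    rw [Set.ncard_eq_toFinset_card'] at this
    have e : (Set.toFinset {w | G.Adj v w}) = Finset.univ.filter (fun w => G.Adj v w) := by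
      ext w; simp
    rw [e] at this
    exact_mod_cast this
  have h1 : ∀ v, volume.real {t ∈ Θ | v ∈ lev G u t}
      ≤ ∑ w ∈ Finset.univ.filter (fun w => G.Adj v w), volume.real (I v w) := by
    intro v
    refine (measureReal_mono ?_ ?_).trans (measureReal_biUnion_finset_le _ _)
    · intro t ht
      obtain ⟨ht1, w, hw, ht2⟩ := ht
      simp only [Set.mem_iUnion]
      refine ⟨w, by simp [hw], ht1, ?_⟩
      rcases ht2 with ht2 | ht2
      · right; exact ht2
      · left; exact ht2
    · refine ne_top_of_le_ne_top hfin (measure_mono ?_)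
      intro t ht
      simp only [Set.mem_iUnion] at ht
      obtain ⟨w, _, ht⟩ := ht
      exact ht.1
  have hvol : ∀ v w, volume.real (I v w) ≤ |u v - u w| := by
    intro v w
    rcases le_total (u v) (u w) with hvw | hvw
    · have e : Set.Ico (u w) (u v) = ∅ := Set.Ico_eq_empty (not_lt.2 hvw)
      have : volume.real (I v w) ≤ volume.real (Set.Ico (u v) (u w)) := by
        refine measureReal_mono ?_ (by simp)
        intro t ht
        rcases ht.2 with h | h
        · rw [e] at h; exact absurd h (Set.notMem_empty _)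
        · exact h
      refine this.trans ?_
      rw [Real.volume_real_Ico_of_le hvw, abs_sub_comm]
      exact le_abs_self _
    · have e : Set.Ico (u v) (u w) = ∅ := Set.Ico_eq_empty (not_lt.2 hvw)
      have : volume.real (I v w) ≤ volume.real (Set.Ico (u w) (u v)) := by
        refine measureReal_mono ?_ (by simp)
        intro t ht
        rcases ht.2 with h | h
        · exact h
        · rw [e] at h; exact absurd h (Set.notMem_empty _)
      refine this.trans ?_
      rw [Real.volume_real_Ico_of_le hvw]
      exact le_abs_self _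
  have h2 : ∀ v, (volume.real {t ∈ Θ | v ∈ lev G u t}) ^ 2
      ≤ Δ * ∑ w, if G.Adj v w then |u v - u w| * volume.real (I v w) else 0 := by
    intro v
    have ha : (volume.real {t ∈ Θ | v ∈ lev G u t}) ^ 2
        ≤ (∑ w ∈ Finset.univ.filter (fun w => G.Adj v w), volume.real (I v w)) ^ 2 :=
      pow_le_pow_left₀ measureReal_nonneg (h1 v) 2
    have hb := sq_sum_le_card_mul_sum_sq
      (s := Finset.univ.filter (fun w => G.Adj v w)) (f := fun w => volume.real (I v w))
    have hc : (∑ w ∈ Finset.univ.filter (fun w => G.Adj v w), volume.real (I v w) ^ 2)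
        ≤ ∑ w, if G.Adj v w then |u v - u w| * volume.real (I v w) else 0 := by
      rw [Finset.sum_filter]
      refine Finset.sum_le_sum fun w _ => ?_
      split_ifs
      · rw [sq]
        exact mul_le_mul_of_nonneg_right (hvol v w) measureReal_nonneg
      · exact le_rfl
    have hd : (0 : ℝ) ≤ ∑ w, if G.Adj v w then |u v - u w| * volume.real (I v w) else 0 := by
      refine Finset.sum_nonneg fun w _ => ?_
      split_ifs
      · exact mul_nonneg (abs_nonneg _) measureReal_nonneg
      · exact le_rfl
    calc (volume.real {t ∈ Θ | v ∈ lev G u t}) ^ 2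
        ≤ _ := ha
      _ ≤ _ := hb
      _ ≤ (Finset.univ.filter (fun w => G.Adj v w)).card *
            ∑ w, (if G.Adj v w then |u v - u w| * volume.real (I v w) else 0) :=
          mul_le_mul_of_nonneg_left hc (Nat.cast_nonneg _)
      _ ≤ _ := mul_le_mul_of_nonneg_right (hdeg v) hd
  have h3 : (∑ v, ∑ w, if G.Adj v w then |u v - u w| * volume.real (I v w) else 0)
      = 2 * (en G u * volume.real Θ) := by
    have e1 : ∀ v w : V, (if G.Adj v w then |u v - u w| * volume.real (I v w) else 0)
        = (if G.Adj v w then (u v - u w) * (volume.real (Θ ∩ Set.Ico (u w) (u v))) else 0)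
          + (if G.Adj v w then (u w - u v) * (volume.real (Θ ∩ Set.Ico (u v) (u w))) else 0) := by
      intro v w
      by_cases ha : G.Adj v w
      · simp only [if_pos ha]
        rcases le_total (u v) (u w) with hvw | hvw
        · have e : Set.Ico (u w) (u v) = ∅ := Set.Ico_eq_empty (not_lt.2 hvw)
          simp only [I, e, Set.empty_union, Set.inter_empty, measureReal_empty, mul_zero, zero_add]
          rw [abs_of_nonpos (by linarith)]
          ring
        · have e : Set.Ico (u v) (u w) = ∅ := Set.Ico_eq_empty (not_lt.2 hvw)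
          simp only [I, e, Set.union_empty, Set.inter_empty, measureReal_empty, mul_zero, add_zero]
          rw [abs_of_nonneg (by linarith)]
      · simp [ha]
    simp_rw [e1, Finset.sum_add_distrib]
    have e2 : (∑ v, ∑ w, if G.Adj v w then
          (u w - u v) * (volume.real (Θ ∩ Set.Ico (u v) (u w))) else 0)
        = ∑ v, ∑ w, if G.Adj v w then
          (u v - u w) * (volume.real (Θ ∩ Set.Ico (u w) (u v))) else 0 := by
      rw [Finset.sum_comm]
      refine Finset.sum_congr rfl fun v _ => Finset.sum_congr rfl fun w _ => ?_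
      rw [G.adj_comm]
    rw [e2, h.flux_measure hΘ hΘ1]
    ring
  calc (∑ v, (volume.real {t ∈ Θ | v ∈ lev G u t}) ^ 2)
      ≤ ∑ v, Δ * ∑ w, (if G.Adj v w then |u v - u w| * volume.real (I v w) else 0) :=
        Finset.sum_le_sum fun v _ => h2 v
    _ = Δ * (2 * (en G u * volume.real Θ)) := by rw [← Finset.mul_sum, h3]
    _ = 2 * Δ * en G u * volume.real Θ := by ring

end Crest.Agent.R193.FG
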