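import Crest.Agent.R193.F_Loop

/-!
R193 block F (helper283): the Courant-Lebesgue field of `DForm` from the shell lemma.
-/

set_option autoImplicit false

open Set Filter Topology Metric

namespace Crest.Agent.R193.F_CL

open Crest.Agent.R193 Crest.Agent.R193.F_Sep1 Crest.Agent.R193.F_Sep2 Crest.Agent.R193.F_Sep3
  Crest.Agent.R193.F_Ring Crest.Agent.R193.F_Loop

variable {G Z : Type} [Group G] [MetricSpace Z] [MulAction G Z] {S : Setup G Z}

/-- The shell property of a function `u` with energy functional `e` (`e φ = Γ u u φ`): at arbitrarily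
large levels there is a function on `G` close to `u ∘ p` whose weighted shell energy is at most
`e φ + η`. -/
def Shell (S : Setup G Z) (p : G → Z) (S' : Finset G) (u : Z → ℝ) (e : C(Z, ℝ) → ℝ) : Prop :=
  ∀ φ : C(Z, ℝ), (∀ y, 0 ≤ φ y) → ∀ η > 0, ∀ K : ℕ, ∃ n ≥ K, ∃ f : G → ℝ,
    (∀ h ∈ S.sph n, |f h - u (p h)| ≤ η) ∧
    ∑ h ∈ S.sph n, φ (p h) * ∑ s ∈ S', (f h - f (h * s)) ^ 2 ≤ e φ + η

theorem CL_of_shell (T : Tiles S) (Φ : Z ≃ₜ S2)
    (hM : ∀ ψ : Chart Z, ∃ L : ℝ, ∀ n : ℕ, SepBound T n (ψ.D 1) (ψ.E 2) L)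
    (p : G → Z) (hp : ∀ g, (S.len g : ℝ) - S.δ ≤ S.s (p g) g) (S' : Finset G)
    (hS' : ∀ s, (S.len s : ℝ) ≤ 2 * T.R + 2 * S.δ → s ∈ S') :
    ∃ lam0 ρ0 C0 : ℝ, 1 < lam0 ∧ 0 < ρ0 ∧ 0 < C0 ∧ ∀ (u : C(Z, ℝ)) (e : C(Z, ℝ) → ℝ),
      Shell S p S' u e → ∀ lam, lam0 ≤ lam → ∀ (x : Z) (ρ : ℝ), 0 < ρ → ρ ≤ ρ0 →
      ∀ φ : C(Z, ℝ), (∀ y, 0 ≤ φ y) → (∀ y, ρ ≤ dist y x → dist y x ≤ lam * ρ → 1 ≤ φ y) →
      ∀ η > 0, ∃ σ : Set Z, IsCompact σ ∧ IsConnected σ ∧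
        (∀ y ∈ σ, ρ < dist y x ∧ dist y x < lam * ρ) ∧
        Separates σ (closedBall x ρ) (ball x (lam * ρ))ᶜ ∧
        ∀ y ∈ σ, ∀ z ∈ σ, |u y - u z| ≤ C0 * Real.sqrt (e φ) + η := by
  have hcpt : CompactSpace Z := Φ.symm.compactSpace
  obtain ⟨lam0, L, ρ0, hlam0, hL, hρ0, hring⟩ :=
    ring_all T Φ hM (r1 := 1/2) (r2 := 3) (by norm_num) (by norm_num)
  set N : ℝ := (S'.card : ℝ) with hN
  have hN0 : 0 ≤ N := Nat.cast_nonneg _
  refine ⟨lam0, ρ0, Real.sqrt (L * N) + 1, hlam0, hρ0, by positivity, ?_⟩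
  intro u e hshell lam hlam x ρ hρ hρρ0 φ hφ0 hφ1 η hη
  obtain ⟨ψ, hψ1, hψ2, n1, hn1⟩ := hring x ρ hρ hρρ0
  have hψ2' : (ψ.E 3)ᶜ ⊆ ball x (lam * ρ) :=
    hψ2.trans (ball_subset_ball (by gcongr))
  -- constants
  set η1 : ℝ := min (η / 8) ((η / 2) ^ 2 / (L * N + 1)) with hη1
  have hLN : 0 ≤ L * N := by positivity
  have hη1p : 0 < η1 := by
    apply lt_min
    · linarith
    · positivity
  have hη1a : η1 ≤ η / 8 := min_le_left _ _
  have hη1b : L * N * η1 ≤ (η / 2) ^ 2 := by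
    have h1 : η1 ≤ (η / 2) ^ 2 / (L * N + 1) := min_le_right _ _
    rw [le_div_iff₀ (by positivity)] at h1
    nlinarith
  -- uniform continuity
  have huc : UniformContinuous u := CompactSpace.uniformContinuous_of_continuous u.continuous
  obtain ⟨τ, hτ, huτ⟩ := Metric.uniformContinuous_iff.1 huc η1 hη1p
  set R' : ℝ := max T.R S.δ with hR'
  obtain ⟨n2, hn2⟩ := exists_level_small S R' hτ
  obtain ⟨n3, hn3⟩ := exists_level_Ann S ψ R'
  obtain ⟨n4, hn4⟩ := exists_loop T Φ ψ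
  obtain ⟨n, hn, f, hf1, hf2⟩ := hshell φ hφ0 η1 hη1p (max (max n1 n2) (max n3 n4))
  have hn1' : n1 ≤ n := ((le_max_left _ _).trans (le_max_left _ _)).trans hn
  have hn2' : n2 ≤ n := ((le_max_right _ _).trans (le_max_left _ _)).trans hn
  have hn3' : n3 ≤ n := ((le_max_left _ _).trans (le_max_right _ _)).trans hn
  have hn4' : n4 ≤ n := ((le_max_right _ _).trans (le_max_right _ _)).trans hn
  have hSh : ∀ {a b : ℝ} {h : G}, a ≤ b → S.Sh a h ⊆ S.Sh b h := fun {a b h} hab x hx => by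
    have : (S.len h : ℝ) - a ≤ S.s x h := hx
    show (S.len h : ℝ) - b ≤ S.s x h
    linarith
  have hU : ∀ h, T.U h ⊆ S.Sh R' h := fun h => (T.sub h).trans (hSh (le_max_left _ _))
  have hpS : ∀ h, p h ∈ S.Sh R' h := fun h => hSh (le_max_right _ _) (hp h)
  set w : G → ℝ := fun h => ∑ s ∈ S', |f h - f (h * s)| with hw
  have hw0 : ∀ h, 0 ≤ w h := fun h => Finset.sum_nonneg fun _ _ => abs_nonneg _
  obtain ⟨A, hA1, hA2, hA3, hA4, hA5, hA6, hA7⟩ := hn4 n hn4' L hL.le (hn1 n hn1') w hw0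
  have hsum := hA7 (fun h => N * (φ (p h) * ∑ s ∈ S', (f h - f (h * s)) ^ 2))
    (fun h _ => mul_nonneg hN0 (mul_nonneg (hφ0 _) (Finset.sum_nonneg fun _ _ => sq_nonneg _))) (by
      intro h hh hne
      have hlen : S.len h = n := mem_sph.1 hh
      have hpA : p h ∈ Ann' ψ := hn3 h (by omega) (hne.mono (inter_subset_inter_left _ (hU h))) (hpS h)
      have h1 : ρ < dist (p h) x := by
        by_contra hcon
        push Not at hcon
        exact not_mem_D_of_Ann' hpA (hψ1 hcon)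
      have h2 : dist (p h) x < lam * ρ := hψ2' (not_mem_E_of_Ann' hpA)
      have h3 : 1 ≤ φ (p h) := hφ1 _ h1.le h2.le
      have h4 : w h ^ 2 ≤ N * ∑ s ∈ S', (f h - f (h * s)) ^ 2 := by
        have := sq_sum_le_card_mul_sum_sq (s := S') (f := fun s => |f h - f (h * s)|)
        simpa [hw, hN, sq_abs] using this
      refine h4.trans ?_
      have h5 : 0 ≤ ∑ s ∈ S', (f h - f (h * s)) ^ 2 := Finset.sum_nonneg fun _ _ => sq_nonneg _
      gcongr
      nlinarith)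
  rw [← Finset.mul_sum] at hsum
  have hsum2 : (∑ h ∈ A, w h) ^ 2 ≤ L * N * (e φ + η1) := by
    calc (∑ h ∈ A, w h) ^ 2
        ≤ L * (N * ∑ h ∈ S.sph n, φ (p h) * ∑ s ∈ S', (f h - f (h * s)) ^ 2) := hsum
      _ ≤ L * (N * (e φ + η1)) := by gcongr
      _ = L * N * (e φ + η1) := by ring
  have hsqrt : ∑ h ∈ A, w h ≤ (Real.sqrt (L * N) + 1) * Real.sqrt (e φ) + η / 2 := by
    have h0 : 0 ≤ ∑ h ∈ A, w h := Finset.sum_nonneg fun h _ => hw0 h
    have h1 : ∑ h ∈ A, w h ≤ Real.sqrt (L * N * (e φ + η1)) := Real.le_sqrt_of_sq_le hsum2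
    have h2 : L * N * (e φ + η1) ≤ (Real.sqrt (L * N) * Real.sqrt (e φ) + η / 2) ^ 2 := by
      have ha : 0 ≤ Real.sqrt (L * N) := Real.sqrt_nonneg _
      have hb : 0 ≤ Real.sqrt (e φ) := Real.sqrt_nonneg _
      have hc : Real.sqrt (L * N) ^ 2 = L * N := Real.sq_sqrt hLN
      have hd : e φ ≤ Real.sqrt (e φ) ^ 2 := by
        by_cases h : 0 ≤ e φ
        · rw [Real.sq_sqrt h]
        · push Not at h; nlinarith [sq_nonneg (Real.sqrt (e φ))]
      have he : L * N * e φ ≤ (Real.sqrt (L * N)) ^ 2 * Real.sqrt (e φ) ^ 2 := by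
        rw [hc]; gcongr
      have hf : 0 ≤ Real.sqrt (L * N) * Real.sqrt (e φ) * η := by positivity
      nlinarith
    have h3 : Real.sqrt (L * N * (e φ + η1)) ≤ Real.sqrt (L * N) * Real.sqrt (e φ) + η / 2 :=
      Real.sqrt_le_iff.2 ⟨by positivity, h2⟩
    have h4 : 0 ≤ Real.sqrt (e φ) := Real.sqrt_nonneg _
    linarith
  have hosc := osc_le_of_famConn hA2 f w (fun h _ => hw0 h) (by
    intro h hh h' hh' hadj
    have hlen := len_le_of_adj T (mem_sph.1 (hA1 hh)) (mem_sph.1 (hA1 hh')) hadj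
    have hmem := hS' _ hlen
    have h1 : |f h - f (h * (h⁻¹ * h'))| ≤ w h :=
      Finset.single_le_sum (f := fun s => |f h - f (h * s)|) (fun _ _ => abs_nonneg _) hmem
    simpa using h1)
  have hdata : ∀ y ∈ T.un A, ∃ a ∈ A, |u y - f a| ≤ 2 * η1 := by
    intro y hy
    simp only [Tiles.un, mem_iUnion, exists_prop] at hy
    obtain ⟨a, ha, hya⟩ := hy
    refine ⟨a, ha, ?_⟩
    have hlen : S.len a = n := mem_sph.1 (hA1 ha)
    have h1 : |u y - u (p a)| < η1 := by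
      have := huτ (hn2 a (by omega) y (hU a hya) (p a) (hpS a))
      rwa [Real.dist_eq] at this
    have h2 := hf1 a (hA1 ha)
    rw [abs_sub_comm] at h2
    calc |u y - f a| = |(u y - u (p a)) + (u (p a) - f a)| := by ring_nf
      _ ≤ |u y - u (p a)| + |u (p a) - f a| := abs_add_le _ _
      _ ≤ 2 * η1 := by linarith
  refine ⟨T.un A, (isClosed_un T A).isCompact, hA3, ?_, ?_, ?_⟩
  · intro y hy
    constructor
    · by_contra hcon
      push Not at hcon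
      exact not_mem_D_of_Ann' (hA5 hy) (hψ1 hcon)
    · exact hψ2' (not_mem_E_of_Ann' (hA5 hy))
  · intro c hc h1 h2
    refine hA6 c hc (h1.mono (inter_subset_inter_right _ hψ1)) (h2.mono (inter_subset_inter_right _ ?_))
    exact compl_subset_comm.1 hψ2'
  · intro y hy z hz
    obtain ⟨a, ha, hya⟩ := hdata y hy
    obtain ⟨b, hb, hzb⟩ := hdata z hz
    have h1 := hosc a ha b hb
    have h2 := hosc b hb a ha
    rw [abs_le] at hya hzb ⊢
    constructor <;> linarith [hya.1, hya.2, hzb.1, hzb.2]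

end Crest.Agent.R193.F_CL
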