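import Crest.Agent.R193.F_Defs

/-!
# R193, block F: `FormCore`, `CLProp`, `CutProp` (definitions only, sorry-free)

* `FormCore T`      : everything in `DForm` except the geometric fields, plus
    MEMBERSHIP (`mem`) and the SHELL LEMMA (`shell`)
* `CLProp`, `CutProp`    : the geometric fields of `DForm`
(`Pot`, `IsPot`, `DLim`, `OscBound` are in `F_Defs`.)
-/

set_option autoImplicit false

noncomputable section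

open Set Filter Topology
open scoped Classical

namespace Crest.Agent.R193

section
variable {G Z : Type} [Group G] [MetricSpace Z] [MulAction G Z]

/-- The algebraic part of `DForm` (fields copied literally), plus the link with the tiles:
membership and shell lemma. -/
structure FormCore {S : Setup G Z} (T : Tiles S) where
  Dom : Set C(Z, ℝ)
  Γ : C(Z, ℝ) → C(Z, ℝ) → C(Z, ℝ) → ℝ
  const_mem : ∀ c : ℝ, ContinuousMap.const Z c ∈ Dom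
  add_mem : ∀ u ∈ Dom, ∀ v ∈ Dom, u + v ∈ Dom
  smul_mem : ∀ c : ℝ, ∀ u ∈ Dom, c • u ∈ Dom
  mul_mem : ∀ u ∈ Dom, ∀ v ∈ Dom, u * v ∈ Dom
  symm : ∀ u ∈ Dom, ∀ v ∈ Dom, ∀ φ, Γ u v φ = Γ v u φ
  add_left : ∀ u ∈ Dom, ∀ u' ∈ Dom, ∀ v ∈ Dom, ∀ φ, Γ (u + u') v φ = Γ u v φ + Γ u' v φ
  smul_left : ∀ c : ℝ, ∀ u ∈ Dom, ∀ v ∈ Dom, ∀ φ, Γ (c • u) v φ = c * Γ u v φ
  add_test : ∀ u ∈ Dom, ∀ v ∈ Dom, ∀ φ φ' : C(Z, ℝ), Γ u v (φ + φ') = Γ u v φ + Γ u v φ'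
  smul_test : ∀ c : ℝ, ∀ u ∈ Dom, ∀ v ∈ Dom, ∀ φ : C(Z, ℝ), Γ u v (c • φ) = c * Γ u v φ
  nonneg : ∀ u ∈ Dom, ∀ φ : C(Z, ℝ), (∀ x, 0 ≤ φ x) → 0 ≤ Γ u u φ
  chain : ∀ (ψ : ℝ × ℝ → ℝ) (_ : ContDiff ℝ 2 ψ), ∀ u ∈ Dom, ∀ v ∈ Dom, ∀ (w' d1 d2 : C(Z, ℝ)),
    (∀ x, w' x = ψ (u x, v x)) → (∀ x, d1 x = fderiv ℝ ψ (u x, v x) (1, 0)) →
    (∀ x, d2 x = fderiv ℝ ψ (u x, v x) (0, 1)) →
    w' ∈ Dom ∧ ∀ w ∈ Dom, ∀ φ : C(Z, ℝ), Γ w' w φ = Γ u w (φ * d1) + Γ v w (φ * d2)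
  inv : ∀ (g : G) (u v φ u' v' φ' : C(Z, ℝ)), u ∈ Dom → v ∈ Dom →
    (∀ x, u' x = u (g • x)) → (∀ x, v' x = v (g • x)) → (∀ x, φ' x = φ (g • x)) →
    u' ∈ Dom ∧ Γ u' v' φ' = Γ u v φ
  closed : ∀ (u : ℕ → C(Z, ℝ)) (w : C(Z, ℝ)) (C : ℝ), (∀ n, u n ∈ Dom) →
    Tendsto u atTop (𝓝 w) → (∀ n, Γ (u n) (u n) 1 ≤ C) →
    w ∈ Dom ∧ ∀ v ∈ Dom, ∀ φ, Tendsto (fun n => Γ (u n) v φ) atTop (𝓝 (Γ w v φ))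
  /-- MEMBERSHIP -/
  mem : ∀ u : C(Z, ℝ), OscBound S u → u ∈ Dom
  /-- base points of the tiles -/
  p : G → Z
  hp : ∀ g, (S.len g : ℝ) - S.δ ≤ S.s (p g) g
  /-- symmetric or not: a finite set containing all `s` with `len s ≤ 2 T.R + 2 δ` -/
  S' : Finset G
  hS' : ∀ s, (S.len s : ℝ) ≤ 2 * T.R + 2 * S.δ → s ∈ S'
  /-- SHELL LEMMA (literally `F_CL.Shell S p S' u (fun φ => Γ u u φ)`): on infinitely many levels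
  `n` there is a function `f` on `G`, close to `u ∘ p` on level `n`, with shell energy weighted by
  `φ` at most `Γ(u,u)(φ) + η`. -/
  shell : ∀ u ∈ Dom, ∀ φ : C(Z, ℝ), (∀ y, 0 ≤ φ y) → ∀ η > 0, ∀ K : ℕ, ∃ n ≥ K, ∃ f : G → ℝ,
    (∀ h ∈ S.sph n, |f h - u (p h)| ≤ η) ∧
    ∑ h ∈ S.sph n, φ (p h) * ∑ s ∈ S', (f h - f (h * s)) ^ 2 ≤ Γ u u φ + η

/-- the field `CL` of `DForm` as a property of the core and the constants -/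
def CLProp (Dom : Set C(Z, ℝ)) (Γ : C(Z, ℝ) → C(Z, ℝ) → C(Z, ℝ) → ℝ) (lam C0 ρ0 : ℝ) : Prop :=
  ∀ (x : Z) (ρ : ℝ), 0 < ρ → ρ ≤ ρ0 → ∀ u ∈ Dom, ∀ φ : C(Z, ℝ), (∀ y, 0 ≤ φ y) →
    (∀ y, ρ ≤ dist y x → dist y x ≤ lam * ρ → 1 ≤ φ y) → ∀ η > 0,
      ∃ σ : Set Z, IsCompact σ ∧ IsConnected σ ∧
      (∀ y ∈ σ, ρ < dist y x ∧ dist y x < lam * ρ) ∧
      Separates σ (Metric.closedBall x ρ) (Metric.ball x (lam * ρ))ᶜ ∧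
      ∀ y ∈ σ, ∀ z ∈ σ, |u y - u z| ≤ C0 * Real.sqrt (Γ u u φ) + η

/-- the field `cutoff` of `DForm` as a property of the core and the constants -/
def CutProp (Dom : Set C(Z, ℝ)) (Γ : C(Z, ℝ) → C(Z, ℝ) → C(Z, ℝ) → ℝ) (lam C0 ρ0 : ℝ) : Prop :=
  ∀ (x : Z) (ρ : ℝ), 0 < ρ → ρ ≤ ρ0 → ∃ χ ∈ Dom, (∀ y, 0 ≤ χ y ∧ χ y ≤ 1) ∧
    (∀ y, dist y x ≤ ρ → χ y = 1) ∧ (∀ y, lam * ρ ≤ dist y x → χ y = 0) ∧ Γ χ χ 1 ≤ C0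

end

end Crest.Agent.R193
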