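import Mathlib
import Crest.Agent.R193.Defs
import Crest.Agent.R193.F_Core

/-!
# R193 / block F, piece F4: charts adapted to a pair of points, finite families of charts, and
cut-off functions at all scales.
-/

set_option autoImplicit false

noncomputable section

open Set Filter Topology Metric

namespace Crest.Agent.R193.F_Cut

open Crest.Agent.R193

/-! ### Charts -/

/-- For `y ≠ p` there is a chart centred at `y` with range `{p}ᶜ`. -/
theorem exists_chart {Z : Type} [TopologicalSpace Z] (Φ : Z ≃ₜ S2) {y p : Z} (h : y ≠ p) :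
    ∃ ψ : Chart Z, range ψ.f = {p}ᶜ ∧ ψ.f 0 = y := by
  have : Fact (Module.finrank ℝ (EuclideanSpace ℝ (Fin 3)) = 2 + 1) := ⟨by simp⟩
  set v : S2 := Φ p with hv
  set e := (stereographic' 2 v).symm with he
  have hsrc : e.source = univ := by
    rw [he, OpenPartialHomeomorph.symm_source]; exact stereographic'_target v
  have htgt : e.target = {v}ᶜ := by
    rw [he, OpenPartialHomeomorph.symm_target]; exact stereographic'_source v
  have hopen : IsOpenEmbedding e := e.isOpenEmbedding hsrc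
  have hrange : range e = {v}ᶜ := by
    rw [← htgt, ← e.image_source_eq_target, hsrc, image_univ]
  have hyv : Φ y ∈ ({v}ᶜ : Set S2) := by
    simp only [mem_compl_iff, mem_singleton_iff, hv]
    exact fun h' => h (Φ.injective h')
  obtain ⟨c, hc⟩ : Φ y ∈ range e := by rw [hrange]; exact hyv
  -- `ℝ × ℝ ≃ₜ EuclideanSpace ℝ (Fin 2)`
  let L : ℝ × ℝ ≃ₜ EuclideanSpace ℝ (Fin 2) :=
    (Homeomorph.finTwoArrow (X := ℝ)).symm.trans
      (EuclideanSpace.equiv (Fin 2) ℝ).toHomeomorph.symm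
  let A : ℝ × ℝ ≃ₜ EuclideanSpace ℝ (Fin 2) := L.trans (Homeomorph.addRight (c - L 0))
  have hA0 : A 0 = c := by
    change L 0 + (c - L 0) = c
    abel
  refine ⟨⟨fun q => Φ.symm (e (A q)),
    Φ.symm.isOpenEmbedding.comp (hopen.comp A.isOpenEmbedding)⟩, ?_, ?_⟩
  · ext z
    constructor
    · rintro ⟨q, rfl⟩ hz
      have h1 : e (A q) = v := by
        have := congrArg Φ (mem_singleton_iff.1 hz)
        simpa using this
      have h2 : e (A q) ∈ range e := mem_range_self _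
      rw [hrange, h1] at h2
      exact h2 rfl
    · intro hz
      have h1 : Φ z ∈ range e := by
        rw [hrange]
        simp only [mem_compl_iff, mem_singleton_iff, hv]
        exact fun h' => hz (Φ.injective h')
      obtain ⟨w, hw⟩ := h1
      refine ⟨A.symm w, ?_⟩
      simp [hw]
  · simp [hA0, hc]

/-- For `y ≠ p` there is a chart with `y` inside `D 1` and `p` inside `E 2`. -/
theorem exists_chart_pair {Z : Type} [TopologicalSpace Z] (Φ : Z ≃ₜ S2) {y p : Z} (h : y ≠ p) :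
    ∃ ψ : Chart Z, ψ.D 1 ∈ 𝓝 y ∧ ψ.E 2 ∈ 𝓝 p := by
  have : T2Space Z := Φ.symm.t2Space
  obtain ⟨ψ, h1, h2⟩ := exists_chart Φ h
  refine ⟨ψ, ?_, ?_⟩
  · refine mem_of_superset ((ψ.emb.isOpenMap _ (isOpen_ball : IsOpen (ball (0:ℝ×ℝ) 1))).mem_nhds
      ⟨0, mem_ball_self one_pos, h2⟩) ?_
    exact image_mono ball_subset_closedBall
  · have hc : IsClosed (ψ.f '' closedBall (0:ℝ×ℝ) 2) :=
      ((isCompact_closedBall (0:ℝ×ℝ) 2).image ψ.emb.continuous).isClosed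
    refine mem_of_superset (hc.isOpen_compl.mem_nhds ?_) ?_
    · rintro ⟨q, -, hq⟩
      have : p ∈ range ψ.f := ⟨q, hq⟩
      rw [h1] at this
      exact this rfl
    · exact compl_subset_compl.2 (image_mono ball_subset_closedBall)

/-- Finite family of charts adapted to all pairs of points at distance `≥ c`. -/
theorem exists_finite_charts {Z : Type} [MetricSpace Z] (Φ : Z ≃ₜ S2) {c : ℝ} (hc : 0 < c) :
    ∃ (F : Set (Chart Z)) (η : ℝ), F.Finite ∧ 0 < η ∧ ∀ y p : Z, c ≤ dist y p →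
      ∃ ψ ∈ F, closedBall y η ⊆ ψ.D 1 ∧ closedBall p η ⊆ ψ.E 2 := by
  have : CompactSpace Z := Φ.symm.compactSpace
  set K : Set (Z × Z) := {q | c ≤ dist q.1 q.2} with hK
  have hKc : IsCompact K :=
    (isClosed_le continuous_const (continuous_fst.dist continuous_snd)).isCompact
  have hne : ∀ q ∈ K, q.1 ≠ q.2 := by
    intro q hq h
    have : c ≤ dist q.1 q.2 := hq
    rw [h, dist_self] at this
    linarith
  -- open sets
  let W : Chart Z → Set (Z × Z) := fun ψ => interior (ψ.D 1) ×ˢ interior (ψ.E 2)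
  have hWo : ∀ ψ, IsOpen (W ψ) := fun ψ => isOpen_interior.prod isOpen_interior
  have hcov : K ⊆ ⋃ ψ, W ψ := by
    intro q hq
    obtain ⟨ψ, h1, h2⟩ := exists_chart_pair Φ (hne q hq)
    exact mem_iUnion.2 ⟨ψ, mem_interior_iff_mem_nhds.2 h1, mem_interior_iff_mem_nhds.2 h2⟩
  obtain ⟨t, ht⟩ := hKc.elim_finite_subcover W hWo hcov
  have hcov' : K ⊆ ⋃ ψ : {ψ // ψ ∈ t}, W ψ.1 := by
    intro q hq
    obtain ⟨ψ, hψ, hq'⟩ := mem_iUnion₂.1 (ht hq)
    exact mem_iUnion.2 ⟨⟨ψ, hψ⟩, hq'⟩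
  obtain ⟨δ, hδ, hL⟩ := lebesgue_number_lemma_of_metric hKc (fun ψ : {ψ // ψ ∈ t} => hWo ψ.1) hcov'
  refine ⟨(t : Set (Chart Z)), δ / 2, t.finite_toSet, by positivity, fun y p hyp => ?_⟩
  obtain ⟨ψ, hψ⟩ := hL (y, p) hyp
  refine ⟨ψ.1, ψ.2, ?_, ?_⟩
  · intro z hz
    have hz' : ((z, p) : Z × Z) ∈ ball (y, p) δ := by
      rw [mem_ball, Prod.dist_eq, max_lt_iff]
      exact ⟨lt_of_le_of_lt (mem_closedBall.1 hz) (by linarith), by simpa using hδ⟩
    exact interior_subset (hψ hz').1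
  · intro z hz
    have hz' : ((y, z) : Z × Z) ∈ ball (y, p) δ := by
      rw [mem_ball, Prod.dist_eq, max_lt_iff]
      exact ⟨by simpa using hδ, lt_of_le_of_lt (mem_closedBall.1 hz) (by linarith)⟩
    exact interior_subset (hψ hz').2

/-! ### Zooming -/

section
variable {G Z : Type} [Group G] [MetricSpace Z] [MulAction G Z]

theorem s_one (S : Setup G Z) (x : Z) : S.s x 1 = 0 := by
  have h1 := S.s_le x 1
  have h2 := S.s_nonneg x 1
  rw [S.len_one] at h1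
  push_cast at h1
  linarith

theorem gp_one (S : Setup G Z) (g : G) : gpOf S.len 1 g = 0 := by
  simp [gpOf, S.len_one]

theorem gp_le_right (S : Setup G Z) (g h : G) : gpOf S.len g h ≤ S.len h := by
  have h1 : S.len g ≤ S.len h + S.len (g⁻¹ * h) := by
    have := S.len_mul h ((g⁻¹ * h)⁻¹)
    rw [S.len_inv, show h * (g⁻¹ * h)⁻¹ = g by group] at this
    exact this
  have h2 : (S.len g : ℝ) ≤ S.len h + S.len (g⁻¹ * h) := by exact_mod_cast h1
  unfold gpOf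
  linarith

/-- `s (g⁻¹ z) g⁻¹ = n - s z g` up to `δ`. -/
theorem zoom_pole (S : Setup G Z) (z : Z) (g : G) :
    |S.s (g⁻¹ • z) g⁻¹ - ((S.len g : ℝ) - S.s z g)| ≤ S.δ := by
  have h := S.cocycle z 1 g⁻¹
  rw [mul_one, inv_inv, gp_one, s_one, S.len_inv] at h
  have e : S.s (g⁻¹ • z) g⁻¹ - ((S.len g : ℝ) - S.s z g)
      = S.s (g⁻¹ • z) g⁻¹ - (0 - S.s z g - 0 + (S.len g : ℝ)) := by ring
  rw [e]; exact h

/-- lower bound for the products after zooming -/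
theorem zoom_le (S : Setup G Z) (z : Z) (g k : G) :
    S.s z k - S.len g - S.δ ≤ S.s (g⁻¹ • z) (g⁻¹ * k) := by
  have h := (abs_le.1 (S.cocycle z k g⁻¹)).1
  rw [inv_inv, S.len_inv] at h
  have h1 := S.s_le z g
  have h2 := gp_le_right S k g
  linarith

/-- Zooming: for every small `ρ` and every `x` there is `g` such that `g⁻¹` maps `closedBall x ρ` into
a small ball around `g⁻¹ x`, the complement of `ball x (lam ρ)` into a small ball around a point `a`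
(the pole), which is at distance `≥ c₀` from `g⁻¹ x`. -/
theorem zoom (S : Setup G Z) (η : ℝ) (hη : 0 < η) :
    ∃ lam ρ0 : ℝ, 1 < lam ∧ 0 < ρ0 ∧ ∀ (x : Z) (ρ : ℝ), 0 < ρ → ρ ≤ ρ0 → ∃ (g : G) (a : Z),
      Real.exp (-(3 * S.δ * S.ε)) ≤ dist (g⁻¹ • x) a ∧
      (∀ z, dist z x ≤ ρ → dist (g⁻¹ • z) (g⁻¹ • x) ≤ η) ∧
      (∀ z, lam * ρ ≤ dist z x → dist (g⁻¹ • z) a ≤ η) := by
  have hε := S.ε_pos
  have hδ := S.one_le_δ
  -- `N` with `exp (-ε (N - δ)) ≤ η`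
  obtain ⟨N, hN⟩ : ∃ N : ℕ, Real.exp (-S.ε * ((N : ℝ) - S.δ)) ≤ η := by
    obtain ⟨N, hN⟩ := exists_nat_ge (S.δ - Real.log η / S.ε)
    refine ⟨N, ?_⟩
    rw [← Real.le_log_iff_exp_le hη]
    have : -Real.log η / S.ε ≤ N - S.δ := by
      have e : -Real.log η / S.ε = - (Real.log η / S.ε) := by ring
      rw [e]; linarith
    rw [div_le_iff₀ hε] at this
    nlinarith
  obtain ⟨d, hd⟩ := exists_nat_ge S.δ
  -- constants
  set K : ℕ := N + 2 * d with hK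
  set M : ℕ := N + 3 * d with hM
  set P : ℕ := N + 5 * d + 1 with hP
  -- lam and ρ0
  set lam : ℝ := Real.exp (S.ε * (K + N + 4 * d + 2)) with hlam
  set ρ0 : ℝ := Real.exp (-S.ε * (P + K + 1)) with hρ0
  refine ⟨lam, ρ0, ?_, Real.exp_pos _, ?_⟩
  · rw [hlam, Real.one_lt_exp_iff]
    positivity
  intro x ρ hρ hρρ
  -- the level
  have hlog : (P : ℝ) + K + 1 ≤ -Real.log ρ / S.ε := by
    rw [le_div_iff₀ hε]
    have : Real.log ρ ≤ -S.ε * (P + K + 1) := by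
      rw [← Real.log_exp (-S.ε * (P + K + 1))]
      exact Real.log_le_log hρ hρρ
    nlinarith
  set L : ℝ := -Real.log ρ / S.ε with hL
  have hfl := Nat.floor_le (a := L) (by have : (0:ℝ) ≤ (P:ℝ) + K + 1 := by positivity
                                        linarith)
  have hfu := Nat.lt_floor_add_one L
  set m := ⌊L⌋₊ with hm
  have hmP : P + K ≤ m := by
    have : (P : ℝ) + K < m + 1 := by linarith
    have h2 : P + K < m + 1 := by exact_mod_cast this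
    omega
  obtain ⟨n, hn⟩ : ∃ n, m = n + K := ⟨m - K, by omega⟩
  have hnP : P ≤ n := by omega
  have hnL : (n : ℝ) + K ≤ L := by
    have : (m : ℝ) = n + K := by exact_mod_cast hn
    linarith
  have hnU : L < (n : ℝ) + K + 1 := by
    have : (m : ℝ) = n + K := by exact_mod_cast hn
    linarith
  have hKr : (K : ℝ) = N + 2 * d := by rw [hK]; push_cast; ring
  have hMr : (M : ℝ) = N + 3 * d := by rw [hM]; push_cast; ring
  have hPr : (P : ℝ) = N + 5 * d + 1 := by rw [hP]; push_cast; ring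
  have hnPr : (P : ℝ) ≤ n := by exact_mod_cast hnP
  have hN0 : (0 : ℝ) ≤ N := Nat.cast_nonneg N
  obtain ⟨g, hg, hxg⟩ := S.ray x n
  obtain ⟨a, ha⟩ := S.star g⁻¹
  rw [S.len_inv, hg] at ha
  have hpx := zoom_pole S x g
  rw [hg] at hpx
  have hsx : S.s (g⁻¹ • x) g⁻¹ ≤ 2 * S.δ := by
    have := (abs_le.1 hpx).2
    linarith
  have hdistle : ∀ (y w : Z) (h : G), (N : ℝ) ≤ S.s y h → (N : ℝ) ≤ S.s w h → dist y w ≤ η := by
    intro y w h h1 h2
    refine (S.dist_le y w h).trans (le_trans (Real.exp_le_exp.2 ?_) hN)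
    have : (N : ℝ) ≤ min (S.s y h) (S.s w h) := le_min h1 h2
    nlinarith
  refine ⟨g, a, ?_, ?_, ?_⟩
  · have hne : a ≠ g⁻¹ • x := by
      intro e
      rw [e] at ha
      linarith
    have h1 := S.le_s a (g⁻¹ • x) g⁻¹ hne
    have h2 : min (S.s a g⁻¹) (-Real.log (dist a (g⁻¹ • x)) / S.ε) ≤ 3 * S.δ := by linarith
    have h3 : -Real.log (dist a (g⁻¹ • x)) / S.ε ≤ 3 * S.δ := by
      rcases min_le_iff.1 h2 with h | h
      · exfalso; linarith
      · exact h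
    rw [div_le_iff₀ hε] at h3
    have h4 : -(3 * S.δ * S.ε) ≤ Real.log (dist a (g⁻¹ • x)) := by linarith
    rw [dist_comm]
    rw [Real.le_log_iff_exp_le (dist_pos.2 hne)] at h4
    exact h4
  · intro z hz
    obtain ⟨k, hk, hxk⟩ := S.ray x (n + M)
    have hxk' : (n : ℝ) + M - S.δ ≤ S.s x k := by
      have : ((n + M : ℕ) : ℝ) = n + M := by push_cast; ring
      rw [this] at hxk
      exact hxk
    have hzk : (n : ℝ) + N + S.δ ≤ S.s z k := by
      by_cases hzx : x = z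
      · subst hzx; linarith
      · have h1 := S.le_s x z k hzx
        have h2 : L ≤ -Real.log (dist x z) / S.ε := by
          rw [hL]
          refine div_le_div_of_nonneg_right ?_ hε.le
          have : Real.log (dist x z) ≤ Real.log ρ :=
            Real.log_le_log (dist_pos.2 hzx) (by rw [dist_comm]; exact hz)
          linarith
        have h3 : (n : ℝ) + N + 2 * S.δ ≤ min (S.s x k) (-Real.log (dist x z) / S.ε) :=
          le_min (by linarith) (by linarith)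
        linarith
    have e1 := zoom_le S z g k
    have e2 := zoom_le S x g k
    rw [hg] at e1 e2
    exact hdistle _ _ (g⁻¹ * k) (by linarith) (by linarith)
  · intro z hz
    have h1 := S.dist_le z x g
    have hlr : 0 < lam * ρ := mul_pos (Real.exp_pos _) hρ
    have h2 : Real.log (lam * ρ) ≤ -S.ε * (min (S.s z g) (S.s x g) - S.δ) := by
      rw [Real.log_le_iff_le_exp hlr]
      exact hz.trans h1
    rw [Real.log_mul (Real.exp_pos _).ne' hρ.ne', Real.log_exp] at h2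
    have h3 : Real.log ρ = - (S.ε * L) := by
      rw [hL]; field_simp
    rw [h3] at h2
    have h4 : min (S.s z g) (S.s x g) ≤ S.δ - (K + N + 4 * d + 2) + L := by
      by_contra hcon
      push Not at hcon
      nlinarith
    have h5 : S.s z g ≤ S.δ - (K + N + 4 * d + 2) + L := by
      rcases min_le_iff.1 h4 with h | h
      · exact h
      · exfalso; linarith
    have h6 := (abs_le.1 (zoom_pole S z g)).1
    rw [hg] at h6
    exact hdistle _ _ g⁻¹ (by linarith) (by linarith)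

/-- **Cut-off functions at all scales.** -/
theorem cutoff_all_scales (S : Setup G Z) (Φ : Z ≃ₜ S2) (Dom : Set C(Z, ℝ))
    (Γ : C(Z, ℝ) → C(Z, ℝ) → C(Z, ℝ) → ℝ)
    (hinv : ∀ (g : G) (u v φ u' v' φ' : C(Z, ℝ)), u ∈ Dom → v ∈ Dom →
      (∀ x, u' x = u (g • x)) → (∀ x, v' x = v (g • x)) → (∀ x, φ' x = φ (g • x)) →
      u' ∈ Dom ∧ Γ u' v' φ' = Γ u v φ)
    (hloc : ∀ ψ : Chart Z, ∃ u ∈ Dom, (∀ x ∈ ψ.D 1, u x = 1) ∧ (∀ x ∈ ψ.E 2, u x = 0) ∧
      ∀ x, 0 ≤ u x ∧ u x ≤ 1) :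
    ∃ lam0 ρ0 C0 : ℝ, 1 < lam0 ∧ 0 < ρ0 ∧ 0 < C0 ∧ ∀ lam, lam0 ≤ lam → ∀ (x : Z) (ρ : ℝ),
      0 < ρ → ρ ≤ ρ0 → ∃ χ ∈ Dom, (∀ y, 0 ≤ χ y ∧ χ y ≤ 1) ∧
        (∀ y, dist y x ≤ ρ → χ y = 1) ∧ (∀ y, lam * ρ ≤ dist y x → χ y = 0) ∧ Γ χ χ 1 ≤ C0 := by
  obtain ⟨F, η, hF, hη, hch⟩ :=
    exists_finite_charts Φ (Real.exp_pos (-(3 * S.δ * S.ε)))
  choose u hu h1 h0 h01 using hloc
  obtain ⟨lam0, ρ0, hlam, hρ0, hz⟩ := zoom S η hη
  -- a bound for the energies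
  obtain ⟨C, hC⟩ : ∃ C : ℝ, ∀ ψ ∈ F, Γ (u ψ) (u ψ) 1 ≤ C := by
    obtain ⟨C, hC⟩ := (hF.image (fun ψ => Γ (u ψ) (u ψ) 1)).bddAbove
    exact ⟨C, fun ψ hψ => hC ⟨ψ, hψ, rfl⟩⟩
  refine ⟨lam0, ρ0, max C 1, hlam, hρ0, lt_max_of_lt_right one_pos, ?_⟩
  intro lam hlam' x ρ hρ hρρ
  obtain ⟨g, a, hdist, hin, hout⟩ := hz x ρ hρ hρρ
  obtain ⟨ψ, hψ, hD, hE⟩ := hch (g⁻¹ • x) a hdist
  let χ : C(Z, ℝ) := ⟨fun y => u ψ (g⁻¹ • y), (u ψ).continuous.comp (S.cont g⁻¹)⟩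
  obtain ⟨hχ, hE1⟩ := hinv g⁻¹ (u ψ) (u ψ) 1 χ χ 1 (hu ψ) (hu ψ) (fun _ => rfl) (fun _ => rfl)
    (fun _ => rfl)
  refine ⟨χ, hχ, fun y => h01 ψ _, fun y hy => h1 ψ _ (hD (mem_closedBall.2 (hin y hy))),
    fun y hy => h0 ψ _ (hE (mem_closedBall.2 (hout y ?_))), ?_⟩
  · exact (mul_le_mul_of_nonneg_right hlam' hρ.le).trans hy
  · rw [hE1]
    exact (hC ψ hψ).trans (le_max_left _ _)

/-- `F4` of `F_Spec`. -/
theorem F4_main (S : Setup G Z) (T : Tiles S) (Φ : Z ≃ₜ S2) (Q : FormCore T)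
    (hloc : ∀ ψ : Chart Z, ∃ u ∈ Q.Dom, (∀ x ∈ ψ.D 1, u x = 1) ∧ (∀ x ∈ ψ.E 2, u x = 0) ∧
      ∀ x, 0 ≤ u x ∧ u x ≤ 1) :
    ∃ lam C0 ρ0 : ℝ, 1 < lam ∧ 0 < C0 ∧ 0 < ρ0 ∧ CutProp Q.Dom Q.Γ lam C0 ρ0 := by
  obtain ⟨lam, ρ0, C0, h1, h2, h3, h4⟩ := cutoff_all_scales S Φ Q.Dom Q.Γ Q.inv hloc
  exact ⟨lam, C0, ρ0, h1, h3, h2, fun x ρ hρ hρρ => h4 lam le_rfl x ρ hρ hρρ⟩

/-- `F6` of `F_Spec`. -/
theorem F6_main (Φ : Z ≃ₜ S2) (x y : Z) (h : x ≠ y) : ∃ ψ : Chart Z, x ∈ ψ.D 1 ∧ y ∈ ψ.E 2 := by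
  obtain ⟨ψ, h1, h2⟩ := exists_chart_pair Φ h
  exact ⟨ψ, mem_of_mem_nhds h1, mem_of_mem_nhds h2⟩

end

end Crest.Agent.R193.F_Cut
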