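import Mathlib
import Crest.Agent.R193.Defs

/-!
# R193 block T: existence of tiles (`T_main`)
-/

set_option autoImplicit false

noncomputable section

open Set Filter Topology

namespace Crest.Agent.R193.T_Main

open Crest.Agent.R193

/-- In the two-sphere every point has arbitrarily small open neighbourhoods with connected
complement. -/
theorem exists_disc_S2 (a : S2) (W : Set S2) (hW : IsOpen W) (ha : a ∈ W) :
    ∃ K : Set S2, IsClosed K ∧ IsConnected K ∧ a ∉ K ∧ Wᶜ ⊆ K := by
  classical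
  have hv : ‖(a : EuclideanSpace ℝ (Fin 3))‖ = 1 := norm_eq_of_mem_sphere a
  set F := stereographic (E := EuclideanSpace ℝ (Fin 3)) hv with hF
  have hsrc : F.source = {a}ᶜ := by
    rw [hF, stereographic_source]
  have htgt : F.target = Set.univ := stereographic_target hv
  -- image of the compact set `Wᶜ`
  have hWc : IsCompact (Wᶜ) := hW.isClosed_compl.isCompact
  have hWsub : Wᶜ ⊆ F.source := by
    rw [hsrc]
    intro x hx hxa
    rw [mem_singleton_iff] at hxa
    exact hx (hxa ▸ ha)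
  have him : IsCompact (F '' Wᶜ) := hWc.image_of_continuousOn (F.continuousOn.mono hWsub)
  obtain ⟨r, hr⟩ := him.isBounded.subset_closedBall 0
  set r' := max r 0 with hr'
  have hcont : Continuous F.symm := by
    have := F.continuousOn_symm
    rw [htgt] at this
    exact continuousOn_univ.mp this
  refine ⟨F.symm '' Metric.closedBall 0 r', ?_, ?_, ?_, ?_⟩
  · exact ((isCompact_closedBall _ _).image hcont).isClosed
  · refine IsConnected.image ?_ _ hcont.continuousOn
    exact ⟨⟨0, Metric.mem_closedBall_self (le_max_right _ _)⟩,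
      (convex_closedBall _ _).isPreconnected⟩
  · rintro ⟨w, -, hw⟩
    have h1 : F.symm w ∈ F.source := F.map_target (by rw [htgt]; exact mem_univ _)
    rw [hw, hsrc] at h1
    exact h1 rfl
  · intro x hx
    refine ⟨F x, ?_, F.left_inv (hWsub hx)⟩
    exact Metric.closedBall_subset_closedBall (le_max_left _ _) (hr ⟨x, hx, rfl⟩)

/-- Transport to a space homeomorphic to the sphere. -/
theorem exists_disc {Z : Type} [TopologicalSpace Z] (Φ : Z ≃ₜ S2) (a : Z) (W : Set Z)
    (hW : IsOpen W) (ha : a ∈ W) :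
    ∃ K : Set Z, IsClosed K ∧ IsConnected K ∧ a ∉ K ∧ Wᶜ ⊆ K := by
  obtain ⟨K, h1, h2, h3, h4⟩ := exists_disc_S2 (Φ a) (Φ '' W) (Φ.isOpenMap W hW)
    (mem_image_of_mem _ ha)
  refine ⟨Φ ⁻¹' K, h1.preimage Φ.continuous, ?_, h3, ?_⟩
  · rw [← Φ.image_symm]
    exact h2.image _ Φ.symm.continuous.continuousOn
  · intro x hx
    apply h4
    rintro ⟨y, hy, hyx⟩
    exact hx (Φ.injective hyx ▸ hy)

theorem connectedSpace_of_homeo {Z : Type} [TopologicalSpace Z] (Φ : Z ≃ₜ S2) :
    IsConnected (univ : Set Z) := by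
  have h : IsConnected (Metric.sphere (0 : EuclideanSpace ℝ (Fin 3)) 1) := by
    apply isConnected_sphere
    · rw [← Module.finrank_eq_rank]
      simp
    · norm_num
  have h2 : IsConnected (univ : Set S2) := by
    haveI : ConnectedSpace S2 := isConnected_iff_connectedSpace.mp h
    exact isConnected_univ
  have h3 := h2.image Φ.symm Φ.symm.continuous.continuousOn
  rwa [image_univ, Φ.symm.surjective.range_eq] at h3

variable {G Z : Type} [Group G] [MetricSpace Z] [MulAction G Z]

theorem s_one (S : Setup G Z) (x : Z) : S.s x 1 = 0 := by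
  have h1 := S.s_nonneg x 1
  have h2 := S.s_le x 1
  rw [S.len_one] at h2
  simp at h2
  linarith

theorem gpOf_one_left (S : Setup G Z) (g : G) : gpOf S.len 1 g = 0 := by
  simp [gpOf, S.len_one]

theorem gpOf_one_right (S : Setup G Z) (g : G) : gpOf S.len g 1 = 0 := by
  simp [gpOf, S.len_one, S.len_inv]

/-- `(g⁻¹ y | g⁻¹) = |g| - (y|g)` up to `δ`. -/
theorem abs_s_inv (S : Setup G Z) (y : Z) (g : G) :
    |S.s (g⁻¹ • y) g⁻¹ - ((S.len g : ℝ) - S.s y g)| ≤ S.δ := by
  have h := S.cocycle y 1 g⁻¹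
  rw [mul_one, inv_inv, s_one, gpOf_one_left, S.len_inv] at h
  have e : (0 : ℝ) - S.s y g - 0 + (S.len g : ℝ) = (S.len g : ℝ) - S.s y g := by ring
  rwa [e] at h

/-- `(g x | g) = |g| - (x|g⁻¹)` up to `δ`. -/
theorem abs_s_smul (S : Setup G Z) (x : Z) (g : G) :
    |S.s (g • x) g - ((S.len g : ℝ) - S.s x g⁻¹)| ≤ S.δ := by
  have h := abs_s_inv S x g⁻¹
  rwa [inv_inv, S.len_inv] at h

theorem smul_mem_Sh (S : Setup G Z) {R : ℝ} {g : G} {x : Z} (hx : x ∈ S.Gd R g) :
    g • x ∈ S.Sh (R + S.δ) g := by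
  have h := abs_le.mp (abs_s_smul S x g)
  simp only [Setup.Gd, Setup.Sh, mem_setOf_eq] at hx ⊢
  linarith [h.1]

theorem inv_smul_mem_Gd (S : Setup G Z) {R : ℝ} {g : G} {y : Z} (hy : y ∈ S.Sh R g) :
    g⁻¹ • y ∈ S.Gd (R + S.δ) g := by
  have h := abs_le.mp (abs_s_inv S y g)
  simp only [Setup.Gd, Setup.Sh, mem_setOf_eq] at hy ⊢
  linarith [h.2]

/-- Good discs: for all long `g` a closed connected set squeezed between `Gd C g` and `Gd R g`. -/
theorem exists_good (S : Setup G Z) (Φ : Z ≃ₜ S2) (C : ℝ) :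
    ∃ (R : ℝ) (N : ℕ), 0 < R ∧ ∀ g : G, N ≤ S.len g →
      ∃ K : Set Z, IsClosed K ∧ IsConnected K ∧ S.Gd C g ⊆ K ∧ K ⊆ S.Gd R g := by
  classical
  haveI : CompactSpace Z := Φ.symm.compactSpace
  have hε := S.ε_pos
  have hδ := S.one_le_δ
  -- radius
  set r0 : ℝ := Real.exp (-S.ε * (C + S.δ)) / 2 with hr0
  have hr0pos : 0 < r0 := by positivity
  -- discs around every point
  have hdisc : ∀ a : Z, ∃ K : Set Z, IsClosed K ∧ IsConnected K ∧ a ∉ K ∧
      (Metric.ball a r0)ᶜ ⊆ K :=
    fun a => exists_disc Φ a _ Metric.isOpen_ball (Metric.mem_ball_self hr0pos)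
  choose K hKc hKconn haK hKsub using hdisc
  have hrad : ∀ a : Z, ∃ r : ℝ, 0 < r ∧ r ≤ r0 ∧ Disjoint (Metric.ball a (2 * r)) (K a) := by
    intro a
    have hopen : IsOpen (K a)ᶜ := (hKc a).isOpen_compl
    obtain ⟨e, he, hsub⟩ := Metric.isOpen_iff.mp hopen a (haK a)
    refine ⟨min (e / 2) r0, by positivity, min_le_right _ _, ?_⟩
    rw [Set.disjoint_left]
    intro x hx hxK
    refine hsub ?_ hxK
    have h2 : 2 * min (e / 2) r0 ≤ e := by
      have := min_le_left (e / 2) r0
      linarith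
    exact Metric.ball_subset_ball h2 hx
  choose rad hradpos hradle hraddisj using hrad
  obtain ⟨t, -, ht⟩ := isCompact_univ.elim_nhds_subcover (fun a => Metric.ball a (rad a))
    (fun a _ => Metric.ball_mem_nhds a (hradpos a))
  -- minimal radius
  obtain ⟨r, hrpos, hr⟩ : ∃ r : ℝ, 0 < r ∧ ∀ a ∈ t, r ≤ rad a := by
    rcases t.eq_empty_or_nonempty with h | h
    · exact ⟨1, one_pos, by simp [h]⟩
    · obtain ⟨a, ha, hmin⟩ := t.exists_min_image rad h
      exact ⟨rad a, hradpos a, hmin⟩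
  set R' : ℝ := S.δ - Real.log r / S.ε with hR'
  set N : ℕ := ⌈C + 2 * S.δ⌉₊ + 1 with hN
  refine ⟨max (R' + S.δ) 1, N, lt_of_lt_of_le one_pos (le_max_right _ _), ?_⟩
  intro g hg
  obtain ⟨p, hp⟩ := S.star g⁻¹
  rw [S.len_inv] at hp
  have hlenR : C + 2 * S.δ < (S.len g : ℝ) := by
    have h1 : C + 2 * S.δ ≤ (⌈C + 2 * S.δ⌉₊ : ℝ) := Nat.le_ceil _
    have h2 : ((⌈C + 2 * S.δ⌉₊ + 1 : ℕ) : ℝ) ≤ (S.len g : ℝ) := by exact_mod_cast hg
    push_cast at h2
    linarith
  -- points of `Gd C g` are far from `p`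
  have hfar : ∀ x ∈ S.Gd C g, 2 * r0 ≤ dist p x := by
    intro x hx
    simp only [Setup.Gd, mem_setOf_eq] at hx
    by_cases hpx : p = x
    · exfalso
      rw [hpx] at hp
      linarith
    · have h := S.le_s p x g⁻¹ hpx
      have hd : 0 < dist p x := dist_pos.mpr hpx
      have h3 : -Real.log (dist p x) / S.ε ≤ C + S.δ := by
        by_contra hcon
        push Not at hcon
        have h4 : C + S.δ < min (S.s p g⁻¹) (-Real.log (dist p x) / S.ε) :=
          lt_min (by linarith) hcon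
        linarith
      have h5 : -S.ε * (C + S.δ) ≤ Real.log (dist p x) := by
        rw [div_le_iff₀ hε] at h3
        linarith
      have h6 : Real.exp (-S.ε * (C + S.δ)) ≤ dist p x := by
        rw [← Real.exp_log hd]
        exact Real.exp_le_exp.mpr h5
      rw [hr0]
      linarith
  have hpt : p ∈ ⋃ a ∈ t, Metric.ball a (rad a) := ht (mem_univ p)
  simp only [mem_iUnion] at hpt
  obtain ⟨a, hat, hpa⟩ := hpt
  refine ⟨K a, hKc a, hKconn a, ?_, ?_⟩
  · intro x hx
    apply hKsub a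
    intro hxa
    have h1 := hfar x hx
    have h2 : dist p x ≤ dist p a + dist a x := dist_triangle _ _ _
    rw [Metric.mem_ball] at hpa hxa
    have h3 := hradle a
    rw [dist_comm a x] at h2
    linarith
  · intro x hx
    simp only [Setup.Gd, mem_setOf_eq]
    have h1 : 2 * rad a ≤ dist x a := by
      by_contra hcon
      push Not at hcon
      exact Set.disjoint_left.mp (hraddisj a) (Metric.mem_ball.mpr hcon) hx
    have h2 : dist x a ≤ dist x p + dist p a := dist_triangle _ _ _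
    rw [Metric.mem_ball] at hpa
    have h3 : r ≤ dist x p := by
      have := hr a hat
      linarith
    have h4 := S.dist_le x p g⁻¹
    have h5 : r ≤ Real.exp (-S.ε * (min (S.s x g⁻¹) (S.s p g⁻¹) - S.δ)) := h3.trans h4
    have h6 : Real.log r ≤ -S.ε * (min (S.s x g⁻¹) (S.s p g⁻¹) - S.δ) := by
      rw [← Real.log_exp (-S.ε * (min (S.s x g⁻¹) (S.s p g⁻¹) - S.δ))]
      exact Real.log_le_log hrpos h5
    have h7 : min (S.s x g⁻¹) (S.s p g⁻¹) ≤ R' := by
      have h8 : Real.log r / S.ε ≤ -(min (S.s x g⁻¹) (S.s p g⁻¹) - S.δ) := by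
        rw [div_le_iff₀ hε]
        linarith
      rw [hR']
      linarith
    rcases min_le_iff.mp h7 with h | h
    · exact (h.trans (by linarith)).trans (le_max_left _ _)
    · have h9 := S.s_le x g⁻¹
      rw [S.len_inv] at h9
      refine le_trans ?_ (le_max_left _ _)
      linarith

/-- BLOCK T: tiles exist. -/
theorem T_main (S : Setup G Z) (Φ : Z ≃ₜ S2) : Nonempty (Tiles S) := by
  classical
  have hδ := S.one_le_δ
  obtain ⟨R, N, hR, hK⟩ := exists_good S Φ (2 * S.δ)
  have hchoice : ∀ g : G, ∃ U : Set Z, IsClosed U ∧ IsConnected U ∧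
      U ⊆ S.Sh (R + S.δ + N) g ∧ S.Sh S.δ g ⊆ U := by
    intro g
    by_cases hg : N ≤ S.len g
    · obtain ⟨K, h1, h2, h3, h4⟩ := hK g hg
      let e : Z ≃ₜ Z := ⟨⟨fun x => g • x, fun x => g⁻¹ • x, fun x => by simp, fun x => by simp⟩,
        S.cont g, S.cont g⁻¹⟩
      refine ⟨e '' K, e.isClosedMap K h1, h2.image _ e.continuous.continuousOn, ?_, ?_⟩
      · rintro y ⟨x, hx, rfl⟩
        have h5 := smul_mem_Sh S (h4 hx)
        simp only [Setup.Sh, mem_setOf_eq] at h5 ⊢
        have h6 : (0 : ℝ) ≤ N := Nat.cast_nonneg N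
        change (S.len g : ℝ) - (R + S.δ + N) ≤ S.s (g • x) g
        linarith
      · intro y hy
        have h5 := inv_smul_mem_Gd S hy
        have h6 : g⁻¹ • y ∈ K := h3 (by
          have : S.δ + S.δ = 2 * S.δ := by ring
          rwa [this] at h5)
        exact ⟨g⁻¹ • y, h6, by change g • g⁻¹ • y = y; simp⟩
    · refine ⟨univ, isClosed_univ, connectedSpace_of_homeo Φ, ?_, subset_univ _⟩
      intro y _
      simp only [Setup.Sh, mem_setOf_eq]
      have h1 := S.s_nonneg y g
      have h2 : (S.len g : ℝ) ≤ N := by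
        have : S.len g ≤ N := by omega
        exact_mod_cast this
      linarith
  choose U h1 h2 h3 h4 using hchoice
  exact ⟨{ U := U, isClosed := h1, isConnected := h2, R := R + S.δ + N,
           R_pos := by positivity, sub := h3, cover := h4 }⟩

end Crest.Agent.R193.T_Main
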