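import Mathlib
import Crest.Agent.R193.Defs
import Crest.Agent.R193.T_Main

/-!
# R193 block T: adjacency, valence, comparability of tiles
-/

set_option autoImplicit false
set_option linter.style.haveILetI false
set_option linter.deprecated false

noncomputable section

open Set Filter Topology MeasureTheory

namespace Crest.Agent.R193.T_Comp

open Crest.Agent.R193 Crest.Agent.R193.T_Main

variable {G Z : Type} [Group G] [MetricSpace Z] [MulAction G Z] (S : Setup G Z)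

/-! ### word length facts -/

theorem mem_sph {n : ℕ} {g : G} : g ∈ S.sph n ↔ S.len g = n := by
  simp [Setup.sph]

theorem mem_bal {n : ℕ} {g : G} : g ∈ S.bal n ↔ S.len g ≤ n := by
  simp [Setup.bal]

theorem len_inv_mul (g h : G) : S.len (g⁻¹ * h) = S.len (h⁻¹ * g) := by
  rw [← S.len_inv (g⁻¹ * h)]
  simp

theorem len_le_add (g h : G) : S.len h ≤ S.len g + S.len (g⁻¹ * h) := by
  have := S.len_mul g (g⁻¹ * h)
  simpa using this

theorem len_tri (g h k : G) : S.len (g⁻¹ * k) ≤ S.len (g⁻¹ * h) + S.len (h⁻¹ * k) := by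
  have := S.len_mul (g⁻¹ * h) (h⁻¹ * k)
  have e : g⁻¹ * h * (h⁻¹ * k) = g⁻¹ * k := by group
  rwa [e] at this

theorem abs_len_sub_le (g h : G) : |(S.len g : ℝ) - S.len h| ≤ S.len (g⁻¹ * h) := by
  have h1 := len_le_add S g h
  have h2 := len_le_add S h g
  rw [len_inv_mul S h g] at h2
  rw [abs_le]
  have h1' : (S.len h : ℝ) ≤ S.len g + S.len (g⁻¹ * h) := by exact_mod_cast h1
  have h2' : (S.len g : ℝ) ≤ S.len h + S.len (g⁻¹ * h) := by exact_mod_cast h2
  constructor <;> linarith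

theorem gpOf_nonneg (g h : G) : 0 ≤ gpOf S.len g h := by
  have h1 : S.len (g⁻¹ * h) ≤ S.len g + S.len h := by
    have := S.len_mul g⁻¹ h
    rwa [S.len_inv] at this
  have h2 : (S.len (g⁻¹ * h) : ℝ) ≤ S.len g + S.len h := by exact_mod_cast h1
  rw [gpOf]
  linarith

theorem gpOf_le_left (g h : G) : gpOf S.len g h ≤ S.len g := by
  have h1 : (S.len h : ℝ) ≤ S.len g + S.len (g⁻¹ * h) := by exact_mod_cast len_le_add S g h
  rw [gpOf]
  linarith

theorem gpOf_comm (g h : G) : gpOf S.len g h = gpOf S.len h g := by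
  rw [gpOf, gpOf, len_inv_mul S g h]
  ring

theorem gpOf_le_right (g h : G) : gpOf S.len g h ≤ S.len h := by
  rw [gpOf_comm]
  exact gpOf_le_left S h g

/-! ### shadows -/

theorem Sh_mono {R R' : ℝ} (h : R ≤ R') (g : G) : S.Sh R g ⊆ S.Sh R' g := by
  intro y hy
  simp only [Setup.Sh, mem_setOf_eq] at hy ⊢
  linarith

theorem Gd_mono {R R' : ℝ} (h : R ≤ R') (g : G) : S.Gd R g ⊆ S.Gd R' g := by
  intro y hy
  simp only [Setup.Gd, mem_setOf_eq] at hy ⊢
  linarith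

/-- two shadows with a common point have close centres -/
theorem len_le_of_Sh {R R' : ℝ} {g h : G} {y : Z} (hg : y ∈ S.Sh R g) (hh : y ∈ S.Sh R' h) :
    (S.len (g⁻¹ * h) : ℝ) ≤ |(S.len g : ℝ) - S.len h| + 2 * max R R' + 2 * S.δ := by
  simp only [Setup.Sh, mem_setOf_eq] at hg hh
  have h1 := S.hyp_s2 y g h
  have h2 : min (S.s y g) (S.s y h) ≥ min (S.len g : ℝ) (S.len h) - max R R' := by
    have ha := le_max_left R R'
    have hb := le_max_right R R'
    rcases le_total (S.s y g) (S.s y h) with hc | hc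
    · rw [min_eq_left hc]
      have := min_le_left (S.len g : ℝ) (S.len h)
      linarith
    · rw [min_eq_right hc]
      have := min_le_right (S.len g : ℝ) (S.len h)
      linarith
  have h3 : (S.len (g⁻¹ * h) : ℝ) = S.len g + S.len h - 2 * gpOf S.len g h := by
    rw [gpOf]
    ring
  have h4 : (S.len g : ℝ) + S.len h - 2 * min (S.len g : ℝ) (S.len h) =
      |(S.len g : ℝ) - S.len h| := by
    rcases le_total (S.len g : ℝ) (S.len h) with hc | hc
    · rw [min_eq_left hc, abs_of_nonpos (by linarith)]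
      ring
    · rw [min_eq_right hc, abs_of_nonneg (by linarith)]
      ring
  rw [h3, ← h4]
  linarith

/-- number of elements of a ball of real radius `c` -/
def Nb (c : ℝ) : ℕ := (S.bal ⌈c⌉₊).card

theorem one_le_Nb (c : ℝ) : 1 ≤ Nb S c := by
  rw [Nb, Nat.one_le_iff_ne_zero, ← Nat.pos_iff_ne_zero, Finset.card_pos]
  exact ⟨1, (mem_bal S).mpr (by rw [S.len_one]; exact Nat.zero_le _)⟩

theorem Nb_mono {c c' : ℝ} (h : c ≤ c') : Nb S c ≤ Nb S c' := by
  apply Finset.card_le_card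
  intro g hg
  rw [mem_bal] at hg ⊢
  exact hg.trans (Nat.ceil_mono h)

/-- a finite set all of whose elements are `c`-close to `g` has at most `Nb c` elements -/
theorem card_le_of_near {A : Finset G} (g : G) {c : ℝ}
    (hA : ∀ h ∈ A, (S.len (g⁻¹ * h) : ℝ) ≤ c) : A.card ≤ Nb S c := by
  classical
  apply Finset.card_le_card_of_injOn (fun h => g⁻¹ * h)
  · intro h hh
    have h1 := hA h hh
    rw [Finset.mem_coe, mem_bal]
    have h2 : (S.len (g⁻¹ * h) : ℝ) ≤ (⌈c⌉₊ : ℝ) := h1.trans (Nat.le_ceil c)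
    exact_mod_cast h2
  · intro a _ b _ hab
    exact mul_left_cancel hab

/-- bounded overlap of shadows of one level -/
theorem card_Sh_le {A : Finset G} {n : ℕ} {R : ℝ} {x : Z}
    (hA : ∀ h ∈ A, S.len h = n ∧ x ∈ S.Sh R h) : A.card ≤ Nb S (2 * R + 2 * S.δ) := by
  rcases A.eq_empty_or_nonempty with h0 | ⟨g, hg⟩
  · rw [h0]; simp
  · apply card_le_of_near S g
    intro h hh
    have h1 := len_le_of_Sh S (hA g hg).2 (hA h hh).2
    rw [(hA g hg).1, (hA h hh).1, max_self, sub_self, abs_zero] at h1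
    linarith

/-- distance of two points of a shadow -/
theorem dist_le_of_Sh {R : ℝ} {h : G} {x y : Z} (hx : x ∈ S.Sh R h) (hy : y ∈ S.Sh R h) :
    dist x y ≤ Real.exp (-S.ε * ((S.len h : ℝ) - R - S.δ)) := by
  refine (S.dist_le x y h).trans (Real.exp_le_exp.mpr ?_)
  simp only [Setup.Sh, mem_setOf_eq] at hx hy
  have h1 : (S.len h : ℝ) - R ≤ min (S.s x h) (S.s y h) := le_min hx hy
  have h2 := S.ε_pos
  nlinarith

variable {S}
variable (T : Tiles S)

/-! ### adjacency -/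

theorem len_le_of_adj {g h : G} (hgh : T.adj g h) :
    (S.len (g⁻¹ * h) : ℝ) ≤ |(S.len g : ℝ) - S.len h| + 2 * T.R + 2 * S.δ := by
  obtain ⟨y, hy1, hy2⟩ := hgh
  have := len_le_of_Sh S (T.sub g hy1) (T.sub h hy2)
  rwa [max_self] at this

theorem adj_comm {g h : G} (hgh : T.adj g h) : T.adj h g := by
  obtain ⟨y, hy1, hy2⟩ := hgh
  exact ⟨y, hy2, hy1⟩

theorem adj_self (g : G) : T.adj g g := by
  obtain ⟨y, hy⟩ := (T.isConnected g).nonempty
  exact ⟨y, hy, hy⟩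

/-- valence bound: tiles of the same level adjacent to a given one -/
theorem card_adj_le {A : Finset G} (g : G) (hA : ∀ h ∈ A, S.len h = S.len g ∧ T.adj g h) :
    A.card ≤ Nb S (2 * T.R + 2 * S.δ) := by
  apply card_le_of_near S g
  intro h hh
  have h1 := len_le_of_adj T (hA h hh).2
  rw [(hA h hh).1, sub_self, abs_zero] at h1
  linarith

theorem card_mem_le {A : Finset G} {n : ℕ} {x : Z} (hA : ∀ h ∈ A, S.len h = n ∧ x ∈ T.U h) :
    A.card ≤ Nb S (2 * T.R + 2 * S.δ) :=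
  card_Sh_le S (fun h hh => ⟨(hA h hh).1, T.sub h (hA h hh).2⟩)

/-! ### covering -/

theorem exists_mem (x : Z) (n : ℕ) : ∃ h ∈ S.sph n, x ∈ T.U h := by
  obtain ⟨g, hg, hs⟩ := S.ray x n
  refine ⟨g, (mem_sph S).mpr hg, T.cover g ?_⟩
  simp only [Setup.Sh, mem_setOf_eq]
  rw [hg]
  exact hs

theorem un_sph (n : ℕ) : T.un (S.sph n) = univ := by
  rw [eq_univ_iff_forall]
  intro x
  obtain ⟨h, hh, hx⟩ := exists_mem T x n
  exact mem_biUnion hh hx

theorem mem_un {A : Finset G} {x : Z} : x ∈ T.un A ↔ ∃ h ∈ A, x ∈ T.U h := by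
  simp [Tiles.un]

theorem un_mono {A B : Finset G} (h : A ⊆ B) : T.un A ⊆ T.un B := by
  intro x hx
  rw [mem_un] at hx ⊢
  obtain ⟨g, hg, hx⟩ := hx
  exact ⟨g, h hg, hx⟩

theorem isClosed_un (A : Finset G) : IsClosed (T.un A) := by
  rw [Tiles.un]
  exact A.finite_toSet.isClosed_biUnion (fun h _ => T.isClosed h)

/-- the nerve of a finite cover of a preconnected set by tiles is connected -/
theorem chain_of_preconnected {F : Finset G} {c : Set Z} (hc : IsPreconnected c)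
    (hcF : c ⊆ T.un F) {g h : G} (hg : g ∈ F) (hh : h ∈ F) (hgc : (T.U g ∩ c).Nonempty)
    (hhc : (T.U h ∩ c).Nonempty) :
    Relation.ReflTransGen (fun a b => a ∈ F ∧ b ∈ F ∧ (T.U a ∩ T.U b ∩ c).Nonempty) g h := by
  classical
  set r := fun a b => a ∈ F ∧ b ∈ F ∧ (T.U a ∩ T.U b ∩ c).Nonempty with hr
  set A := F.filter (fun a => Relation.ReflTransGen r g a) with hA
  set B := F.filter (fun a => ¬ Relation.ReflTransGen r g a) with hB
  by_contra hcon
  have hgA : g ∈ A := Finset.mem_filter.mpr ⟨hg, Relation.ReflTransGen.refl⟩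
  have hhB : h ∈ B := Finset.mem_filter.mpr ⟨hh, hcon⟩
  have hcover : c ⊆ T.un A ∪ T.un B := by
    intro x hx
    obtain ⟨a, ha, hxa⟩ := (mem_un T).mp (hcF hx)
    by_cases hra : Relation.ReflTransGen r g a
    · exact Or.inl ((mem_un T).mpr ⟨a, Finset.mem_filter.mpr ⟨ha, hra⟩, hxa⟩)
    · exact Or.inr ((mem_un T).mpr ⟨a, Finset.mem_filter.mpr ⟨ha, hra⟩, hxa⟩)
  have h1 : (c ∩ T.un A).Nonempty := by
    obtain ⟨x, hx1, hx2⟩ := hgc
    exact ⟨x, hx2, (mem_un T).mpr ⟨g, hgA, hx1⟩⟩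
  have h2 : (c ∩ T.un B).Nonempty := by
    obtain ⟨x, hx1, hx2⟩ := hhc
    exact ⟨x, hx2, (mem_un T).mpr ⟨h, hhB, hx1⟩⟩
  obtain ⟨x, hxc, hxA, hxB⟩ := (isPreconnected_closed_iff.mp hc) _ _ (isClosed_un T A)
    (isClosed_un T B) hcover h1 h2
  obtain ⟨a, ha, hxa⟩ := (mem_un T).mp hxA
  obtain ⟨b, hb, hxb⟩ := (mem_un T).mp hxB
  rw [Finset.mem_filter] at ha hb
  exact hb.2 (ha.2.tail ⟨ha.1, hb.1, x, ⟨hxa, hxb⟩, hxc⟩)

/-! ### comparability -/

variable (S) in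
/-- `x` in the shadow of `g⁻¹ h` as soon as `g x` is in the shadow of `h`, `x` away from the pole
of `g` -/
theorem comp_aux {R R' : ℝ} {g h : G} {x : Z} (hx : x ∈ S.Gd R g) (hgx : g • x ∈ S.Sh R' h)
    (hn : S.len g ≤ S.len h) :
    (S.len (g⁻¹ * h) : ℝ) ≤ (S.len h : ℝ) - S.len g + 2 * (max (R + S.δ) R') + 2 * S.δ ∧
    (S.len h : ℝ) - S.len g ≤ S.len (g⁻¹ * h) ∧
    x ∈ S.Sh (max (R + S.δ) R' + R' + 2 * S.δ) (g⁻¹ * h) := by
  have hn' : (S.len g : ℝ) ≤ S.len h := by exact_mod_cast hn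
  have h1 := smul_mem_Sh S hx
  have h2 := len_le_of_Sh S h1 hgx
  rw [abs_of_nonpos (by linarith)] at h2
  have h3 : (S.len h : ℝ) ≤ S.len g + S.len (g⁻¹ * h) := by exact_mod_cast len_le_add S g h
  refine ⟨by linarith, by linarith, ?_⟩
  have h4 := abs_le.mp (S.cocycle x (g⁻¹ * h) g)
  have e1 : g * (g⁻¹ * h) = h := by group
  have e2 : gpOf S.len (g⁻¹ * h) g⁻¹ =
      ((S.len (g⁻¹ * h) : ℝ) + S.len g - S.len h) / 2 := by
    rw [gpOf, S.len_inv]
    have : (g⁻¹ * h)⁻¹ * g⁻¹ = h⁻¹ := by group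
    rw [this, S.len_inv]
  rw [e1, e2] at h4
  have h5 := S.s_nonneg x g⁻¹
  simp only [Setup.Sh, mem_setOf_eq] at hgx ⊢
  linarith [h4.1, h4.2]

/-- COMPARABILITY, near the good region of `g` -/
theorem comp_len {R : ℝ} {g h : G} {x : Z} (hx : x ∈ S.Gd R g) (hgx : g • x ∈ T.U h)
    (hn : S.len g ≤ S.len h) :
    (S.len h : ℝ) - S.len g ≤ S.len (g⁻¹ * h) ∧
    (S.len (g⁻¹ * h) : ℝ) ≤ (S.len h : ℝ) - S.len g + 2 * (|R| + T.R + 2 * S.δ) := by
  have h1 := comp_aux S hx (T.sub h hgx) hn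
  refine ⟨h1.2.1, h1.1.trans ?_⟩
  have h2 : max (R + S.δ) T.R ≤ |R| + T.R + S.δ := by
    have := le_abs_self R
    have := T.R_pos
    have := S.one_le_δ
    have := abs_nonneg R
    exact max_le (by linarith) (by linarith)
  linarith

/-- the constant of comparability -/
def Kc (T : Tiles S) (R : ℝ) : ℝ := 4 * |R| + 8 * T.R + 12 * S.δ

theorem Kc_pos (R : ℝ) : 0 < Kc T R := by
  have := T.R_pos
  have := S.one_le_δ
  have := abs_nonneg R
  rw [Kc]
  linarith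

/-- COMPARABILITY: if `x` is in the good region of `g`, `g x` in the tile `h` of level `n`, `x` in
the tile `h'` of level `n - |g|`, then `g⁻¹ h` and `h'` are close. -/
theorem comp_near {R : ℝ} {g h h' : G} {x : Z} (hx : x ∈ S.Gd R g) (hgx : g • x ∈ T.U h)
    (hxh' : x ∈ T.U h') (hn : S.len h = S.len g + S.len h') :
    (S.len ((g⁻¹ * h)⁻¹ * h') : ℝ) ≤ Kc T R := by
  have hn1 : S.len g ≤ S.len h := by omega
  have hn' : (S.len h : ℝ) = S.len g + S.len h' := by exact_mod_cast hn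
  have h1 := comp_aux S hx (T.sub h hgx) hn1
  have h2 := len_le_of_Sh S h1.2.2 (T.sub h' hxh')
  have hR := T.R_pos
  have hδ := S.one_le_δ
  have hab := abs_nonneg R
  have hle := le_abs_self R
  have h3 : max (R + S.δ) T.R ≤ |R| + T.R + S.δ := max_le (by linarith) (by linarith)
  have h4 : max (max (R + S.δ) T.R + T.R + 2 * S.δ) T.R ≤ |R| + 2 * T.R + 3 * S.δ :=
    max_le (by linarith) (by linarith)
  have h5 : |(S.len (g⁻¹ * h) : ℝ) - S.len h'| ≤ 2 * (|R| + T.R + S.δ) + 2 * S.δ := by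
    rw [abs_of_nonneg (by linarith [h1.2.1])]
    linarith [h1.1]
  rw [Kc]
  linarith

/-- COMPARABILITY for a fixed group element, everywhere on `Z` -/
theorem comp_fixed {g h h' : G} {x : Z} (hgx : g • x ∈ T.U h)
    (hxh' : x ∈ T.U h') (hn : S.len h = S.len h') :
    (S.len ((g⁻¹ * h)⁻¹ * h') : ℝ) ≤ 5 * S.len g + 2 * T.R + 4 * S.δ := by
  have h4 := abs_le.mp (S.cocycle x (g⁻¹ * h) g)
  have e1 : g * (g⁻¹ * h) = h := by group
  rw [e1] at h4
  have h5 := S.s_nonneg x g⁻¹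
  have h6 := gpOf_nonneg S (g⁻¹ * h) g⁻¹
  have h7 := T.sub h hgx
  simp only [Setup.Sh, mem_setOf_eq] at h7
  have h8 : (S.len (g⁻¹ * h) : ℝ) ≤ S.len g + S.len h := by
    have := S.len_mul g⁻¹ h
    rw [S.len_inv] at this
    exact_mod_cast this
  have h8' : (S.len h : ℝ) ≤ S.len g + S.len (g⁻¹ * h) := by exact_mod_cast len_le_add S g h
  have h9 : x ∈ S.Sh (T.R + 2 * S.len g + S.δ) (g⁻¹ * h) := by
    simp only [Setup.Sh, mem_setOf_eq]
    linarith [h4.1, h4.2]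
  have h10 := len_le_of_Sh S h9 (T.sub h' hxh')
  have hlen : (0 : ℝ) ≤ S.len g := Nat.cast_nonneg _
  have hδ := S.one_le_δ
  have h11 : max (T.R + 2 * (S.len g : ℝ) + S.δ) T.R = T.R + 2 * S.len g + S.δ :=
    max_eq_left (by linarith)
  have h12 : |(S.len (g⁻¹ * h) : ℝ) - S.len h'| ≤ S.len g := by
    have : (S.len h : ℝ) = S.len h' := by exact_mod_cast hn
    rw [abs_le]
    constructor <;> linarith
  rw [h11] at h10
  linarith

/-- for two elements `g, g₂`: `x ∈ g⁻¹ U_h ∩ g₂⁻¹ U_{h₂}` -/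
theorem comp_two {g g₂ h h₂ : G} {x : Z} (hgx : g • x ∈ T.U h)
    (hgx₂ : g₂ • x ∈ T.U h₂) (hn : S.len h = S.len h₂) :
    (S.len (((g * g₂⁻¹)⁻¹ * h)⁻¹ * h₂) : ℝ) ≤ 5 * S.len (g * g₂⁻¹) + 2 * T.R + 4 * S.δ := by
  apply comp_fixed T (x := g₂ • x) _ hgx₂ hn
  rw [smul_smul]
  simpa using hgx

/-- counting form of `comp_near`: tiles `h` of level `n` over one tile `h'` -/
theorem card_comp_le {R : ℝ} {g h' : G} {A : Finset G}
    (hA : ∀ h ∈ A, S.len h = S.len g + S.len h' ∧ ∃ x ∈ S.Gd R g, g • x ∈ T.U h ∧ x ∈ T.U h') :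
    A.card ≤ Nb S (Kc T R) := by
  apply card_le_of_near S (g * h')
  intro h hh
  obtain ⟨h1, x, h2, h3, h4⟩ := hA h hh
  have h5 := comp_near T h2 h3 h4 h1
  have e : (g⁻¹ * h)⁻¹ * h' = ((g * h')⁻¹ * h)⁻¹ := by group
  rw [e, S.len_inv] at h5
  exact h5

/-- counting form of `comp_near`: tiles `h'` of level `n - |g|` over one tile `h` -/
theorem card_comp_le' {R : ℝ} {g h : G} {A : Finset G}
    (hA : ∀ h' ∈ A, S.len h = S.len g + S.len h' ∧ ∃ x ∈ S.Gd R g, g • x ∈ T.U h ∧ x ∈ T.U h') :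
    A.card ≤ Nb S (Kc T R) := by
  apply card_le_of_near S (g⁻¹ * h)
  intro h' hh
  obtain ⟨h1, x, h2, h3, h4⟩ := hA h' hh
  exact comp_near T h2 h3 h4 h1

/-- counting form of `comp_fixed` -/
theorem card_fixed_le {g h' : G} {A : Finset G}
    (hA : ∀ h ∈ A, S.len h = S.len h' ∧ ∃ x : Z, g • x ∈ T.U h ∧ x ∈ T.U h') :
    A.card ≤ Nb S (5 * S.len g + 2 * T.R + 4 * S.δ) := by
  apply card_le_of_near S (g * h')
  intro h hh
  obtain ⟨h1, x, h3, h4⟩ := hA h hh
  have h5 := comp_fixed T h3 h4 h1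
  have e : (g⁻¹ * h)⁻¹ * h' = ((g * h')⁻¹ * h)⁻¹ := by group
  rw [e, S.len_inv] at h5
  exact h5

theorem card_fixed_le' {g h : G} {A : Finset G}
    (hA : ∀ h' ∈ A, S.len h = S.len h' ∧ ∃ x : Z, g • x ∈ T.U h ∧ x ∈ T.U h') :
    A.card ≤ Nb S (5 * S.len g + 2 * T.R + 4 * S.δ) := by
  apply card_le_of_near S (g⁻¹ * h)
  intro h' hh
  obtain ⟨h1, x, h3, h4⟩ := hA h' hh
  exact comp_fixed T h3 h4 h1

/-- bounded overlap of the sets `g • B`, `B ⊆ Gd R g`, `|g| = j` -/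
theorem card_overlap_le {R : ℝ} {j : ℕ} {A : Finset G} {y : Z}
    (hA : ∀ g ∈ A, S.len g = j ∧ ∃ x ∈ S.Gd R g, g • x = y) :
    A.card ≤ Nb S (2 * (R + S.δ) + 2 * S.δ) := by
  apply card_Sh_le S (n := j) (x := y)
  intro g hg
  obtain ⟨h1, x, hx, rfl⟩ := hA g hg
  exact ⟨h1, smul_mem_Sh S hx⟩

/-- bounded overlap, tile form: number of `g` of level `j` such that the tile `h` (of level
`n ≥ j`) meets `g • (Gd R g)` -/
theorem card_overlap_tile_le {R : ℝ} {j : ℕ} {h : G} (hj : j ≤ S.len h) {A : Finset G}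
    (hA : ∀ g ∈ A, S.len g = j ∧ ∃ x ∈ S.Gd R g, g • x ∈ T.U h) :
    A.card ≤ Nb S (2 * (|R| + T.R + 2 * S.δ) + 2 * S.δ) := by
  -- all these `g` have `gp g h ≥ j - C`
  have hkey : ∀ g ∈ A, (j : ℝ) - (|R| + T.R + 2 * S.δ) ≤ gpOf S.len g h := by
    intro g hg
    obtain ⟨h1, x, hx, hgx⟩ := hA g hg
    have h2 := comp_len T hx hgx (by omega)
    have h3 : gpOf S.len g h = ((S.len g : ℝ) + S.len h - S.len (g⁻¹ * h)) / 2 := rfl
    have h4 : (S.len g : ℝ) = j := by exact_mod_cast h1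
    rw [h3, h4]
    rw [h4] at h2
    linarith [h2.2]
  rcases A.eq_empty_or_nonempty with h0 | ⟨g₀, hg₀⟩
  · rw [h0]; simp
  · apply card_le_of_near S g₀
    intro g hg
    have h1 := hkey g₀ hg₀
    have h2 := hkey g hg
    have h3 := S.hyp g₀ h g
    rw [gpOf_comm S h g] at h3
    have h4 : (j : ℝ) - (|R| + T.R + 2 * S.δ) ≤ min (gpOf S.len g₀ h) (gpOf S.len g h) :=
      le_min h1 h2
    have h5 : (S.len (g₀⁻¹ * g) : ℝ) = S.len g₀ + S.len g - 2 * gpOf S.len g₀ g := by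
      rw [gpOf]
      ring
    have h6 : (S.len g₀ : ℝ) = j := by exact_mod_cast (hA g₀ hg₀).1
    have h7 : (S.len g : ℝ) = j := by exact_mod_cast (hA g hg).1
    rw [h5, h6, h7]
    linarith

/-! ### diameters and counting -/

theorem dist_le_of_mem {h : G} {x y : Z} (hx : x ∈ T.U h) (hy : y ∈ T.U h) :
    dist x y ≤ Real.exp (-S.ε * ((S.len h : ℝ) - T.R - S.δ)) :=
  dist_le_of_Sh S (T.sub h hx) (T.sub h hy)

/-- a preconnected set containing `x, y` and covered by tiles of level `n` needs many tiles -/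
theorem dist_le_card {F : Finset G} {n : ℕ} (hF : ∀ h ∈ F, S.len h = n) {c : Set Z}
    (hc : IsPreconnected c) (hcF : c ⊆ T.un F) {x y : Z} (hx : x ∈ c) (hy : y ∈ c) :
    dist x y ≤ F.card * Real.exp (-S.ε * ((n : ℝ) - T.R - S.δ)) := by
  classical
  set d0 : ℝ := Real.exp (-S.ε * ((n : ℝ) - T.R - S.δ)) with hd0
  have hd0pos : 0 < d0 := Real.exp_pos _
  set f : Z → ℝ := fun z => dist x z with hf
  have hfc : Continuous f := continuous_const.dist continuous_id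
  have himg : IsPreconnected (f '' c) := hc.image f hfc.continuousOn
  have h0 : (0 : ℝ) ∈ f '' c := ⟨x, hx, by simp [hf]⟩
  have hD : dist x y ∈ f '' c := ⟨y, hy, rfl⟩
  have hIcc : Icc 0 (dist x y) ⊆ f '' c := himg.Icc_subset h0 hD
  -- each tile has an image contained in an interval of length `d0`
  have htile : ∀ h ∈ F, ∃ a : ℝ, f '' (T.U h) ⊆ Icc a (a + d0) := by
    intro h hh
    refine ⟨sInf (f '' (T.U h)), ?_⟩
    obtain ⟨z0, hz0⟩ := (T.isConnected h).nonempty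
    have hbdd : BddBelow (f '' (T.U h)) := ⟨0, by rintro _ ⟨z, -, rfl⟩; exact dist_nonneg⟩
    rintro _ ⟨z, hz, rfl⟩
    refine ⟨csInf_le hbdd ⟨z, hz, rfl⟩, ?_⟩
    rw [← sub_le_iff_le_add]
    apply le_csInf (⟨f z0, ⟨z0, hz0, rfl⟩⟩ : (f '' (T.U h)).Nonempty)
    rintro _ ⟨w, hw, rfl⟩
    have h1 : dist w z ≤ d0 := by
      have := dist_le_of_mem T hw hz
      rwa [hF h hh] at this
    have h2 : f z ≤ f w + dist w z := dist_triangle _ _ _
    linarith
  choose! a ha using htile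
  have hsub : Icc 0 (dist x y) ⊆ ⋃ h ∈ F, Icc (a h) (a h + d0) := by
    intro r hr
    obtain ⟨z, hz, rfl⟩ := hIcc hr
    obtain ⟨h, hh, hzh⟩ := (mem_un T).mp (hcF hz)
    exact mem_biUnion hh (ha h hh ⟨z, hzh, rfl⟩)
  have h1 : volume (Icc 0 (dist x y)) ≤ ∑ h ∈ F, volume (Icc (a h) (a h + d0)) :=
    (measure_mono hsub).trans (measure_biUnion_finset_le _ _)
  simp only [Real.volume_Icc, sub_zero, add_sub_cancel_left, Finset.sum_const,
    nsmul_eq_mul] at h1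
  rw [← ENNReal.ofReal_natCast, ← ENNReal.ofReal_mul (Nat.cast_nonneg _)] at h1
  exact (ENNReal.ofReal_le_ofReal_iff (by positivity)).mp h1

theorem card_ge {F : Finset G} {n : ℕ} (hF : ∀ h ∈ F, S.len h = n) {c : Set Z}
    (hc : IsPreconnected c) (hcF : c ⊆ T.un F) {x y : Z} (hx : x ∈ c) (hy : y ∈ c) :
    dist x y * Real.exp (-S.ε * (T.R + S.δ)) * Real.exp (S.ε * n) ≤ F.card := by
  have h1 := dist_le_card T hF hc hcF hx hy
  have h2 : Real.exp (-S.ε * ((n : ℝ) - T.R - S.δ)) *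
      (Real.exp (-S.ε * (T.R + S.δ)) * Real.exp (S.ε * n)) = 1 := by
    rw [← Real.exp_add, ← Real.exp_add, ← Real.exp_zero]
    congr 1
    ring
  have h3 : 0 < Real.exp (-S.ε * (T.R + S.δ)) * Real.exp (S.ε * n) := by positivity
  calc dist x y * Real.exp (-S.ε * (T.R + S.δ)) * Real.exp (S.ε * n)
      = dist x y * (Real.exp (-S.ε * (T.R + S.δ)) * Real.exp (S.ε * n)) := by ring
    _ ≤ (F.card * Real.exp (-S.ε * ((n : ℝ) - T.R - S.δ))) *
        (Real.exp (-S.ε * (T.R + S.δ)) * Real.exp (S.ε * n)) :=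
        mul_le_mul_of_nonneg_right h1 h3.le
    _ = F.card := by rw [mul_assoc, h2, mul_one]

end Crest.Agent.R193.T_Comp
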