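import Crest.Agent.R193.F_Defs
import Crest.Agent.R193.T_Comp
import Crest.Agent.R193.Dual
import Crest.Agent.R193.FG1d

/-!
# R193, block D1/F3 (helper321): existence of the discrete potentials with bounded energy
-/

set_option autoImplicit false

noncomputable section

open Set Filter Topology Metric
open scoped Classical

namespace Crest.Agent.R193.F_PotEx

open Crest.Agent.R193 Crest.Agent.R193.T_Comp

variable {G Z : Type} [Group G] [MetricSpace Z] [MulAction G Z] {S : Setup G Z} (T : Tiles S)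

/-- the graph of tiles of level `n` -/
def gr (n : ℕ) : SimpleGraph (S.sph n) where
  Adj a b := a ≠ b ∧ T.adj a b
  symm := ⟨fun _ _ h => ⟨h.1.symm, adj_comm T h.2⟩⟩
  loopless := ⟨fun _ h => h.1 rfl⟩

theorem gr_adj {n : ℕ} {a b : S.sph n} : (gr T n).Adj a b ↔ a ≠ b ∧ T.adj a b := Iff.rfl

/-- valence constant -/
def Dl (T : Tiles S) : ℕ := Nb S (2 * T.R + 2 * S.δ)

theorem card_filter_adj_le {n : ℕ} {g : G} (hg : g ∈ S.sph n) :
    ((S.sph n).filter (fun h => T.adj g h)).card ≤ Dl T := by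
  apply card_adj_le T g
  intro h hh
  rw [Finset.mem_filter] at hh
  exact ⟨((mem_sph S).1 hh.1).trans ((mem_sph S).1 hg).symm, hh.2⟩

theorem ncard_adj_le {n : ℕ} (v : S.sph n) : {w | (gr T n).Adj v w}.ncard ≤ Dl T := by
  refine le_trans ?_ (card_filter_adj_le T v.2)
  rw [← Set.ncard_coe_finset]
  refine Set.ncard_le_ncard_of_injOn (fun w : S.sph n => (w : G)) ?_ ?_ (Finset.finite_toSet _)
  · intro w hw
    exact Finset.mem_coe.2 (Finset.mem_filter.2 ⟨w.2, hw.2⟩)
  · intro a _ b _ hab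
    exact Subtype.ext hab

theorem reach_of_chain {n : ℕ} {g h : G} (hg : g ∈ S.sph n)
    (H : Relation.ReflTransGen (fun a b => a ∈ S.sph n ∧ b ∈ S.sph n ∧
      (T.U a ∩ T.U b ∩ (univ : Set Z)).Nonempty) g h) :
    ∀ hh : h ∈ S.sph n, (gr T n).Reachable ⟨g, hg⟩ ⟨h, hh⟩ := by
  induction H with
  | refl => exact fun _ => SimpleGraph.Reachable.refl _
  | tail _ hbc ih =>
    intro hh
    refine (ih hbc.1).trans ?_
    rename_i b c _
    by_cases hbceq : b = c
    · subst hbceq
      exact SimpleGraph.Reachable.refl _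
    · refine SimpleGraph.Adj.reachable ?_
      refine ⟨fun h => hbceq (congrArg Subtype.val h), ?_⟩
      obtain ⟨x, hx⟩ := hbc.2.2
      exact ⟨x, hx.1⟩

theorem reachable [PreconnectedSpace Z] {n : ℕ} (a b : S.sph n) : (gr T n).Reachable a b := by
  obtain ⟨x, hx⟩ := (T.isConnected a).nonempty
  obtain ⟨y, hy⟩ := (T.isConnected b).nonempty
  exact reach_of_chain T a.2 (chain_of_preconnected T isPreconnected_univ
    (by rw [un_sph]) a.2 b.2 ⟨x, hx, mem_univ _⟩ ⟨y, hy, mem_univ _⟩) b.2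

/-- the union of the tiles of a walk is preconnected -/
theorem walk_preconnected {n : ℕ} {a b : S.sph n} (p : (gr T n).Walk a b) :
    IsPreconnected (⋃ x ∈ p.support, T.U (x : G)) := by
  induction p with
  | nil =>
    simp only [SimpleGraph.Walk.support_nil, List.mem_singleton, iUnion_iUnion_eq_left]
    exact (T.isConnected _).isPreconnected
  | cons h p ih =>
    rename_i u v w
    have e : (⋃ x ∈ (SimpleGraph.Walk.cons h p).support, T.U (x : G)) =
        T.U (u : G) ∪ ⋃ x ∈ p.support, T.U (x : G) := by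
      rw [SimpleGraph.Walk.support_cons]
      ext z
      simp
    rw [e]
    obtain ⟨z, hz1, hz2⟩ := h.2
    exact IsPreconnected.union z hz1 (mem_biUnion p.start_mem_support hz2)
      (T.isConnected _).isPreconnected ih

/-- admissible weight for joining walks from separating sets -/
theorem exists_weight {n : ℕ} {D E : Set Z} {L : ℝ} (hL0 : 0 < L) (hL : SepBound T n D E L) :
    ∃ ρ : S.sph n → ℝ, (∀ v, 0 ≤ ρ v) ∧
      (∀ l r : S.sph n, (T.U l ∩ E).Nonempty → (T.U r ∩ D).Nonempty →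
        ∀ p : (gr T n).Walk l r, 1 ≤ ∑ x ∈ p.support.toFinset, ρ x) ∧
      ∑ v, ρ v ^ 2 ≤ (Dl T : ℝ) ^ 2 * L := by
  set X : Finset G := S.sph n with hX
  set F : Finset (Finset G) := X.powerset.filter (fun A => Separates (T.un A) D E) with hF
  have hFX : ∀ s ∈ F, s ⊆ X := fun s hs => Finset.mem_powerset.1 (Finset.mem_filter.1 hs).1
  have hFne : F.Nonempty := by
    obtain ⟨A, hA, hs, -⟩ := hL (fun _ => 0) (fun _ => le_rfl)
    exact ⟨A, Finset.mem_filter.2 ⟨Finset.mem_powerset.2 hA, hs⟩⟩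
  obtain ⟨w, hw0, -, hw1, hw2⟩ := Dual.exists_prob X F hFne hFX (1 / L) (by positivity)
    (fun ρ hρ hadm => by
      obtain ⟨A, hA, hs, hle⟩ := hL ρ hρ
      have h1 := hadm A (Finset.mem_filter.2 ⟨Finset.mem_powerset.2 hA, hs⟩)
      have h2 : 1 ≤ (∑ h ∈ A, ρ h) ^ 2 := by nlinarith
      rw [div_le_iff₀ hL0]
      linarith)
  rw [one_div_one_div] at hw2
  set m : G → ℝ := Dual.pm F w with hm
  have hm0 : ∀ a, 0 ≤ m a := fun a => Dual.pm_nonneg hw0 a
  refine ⟨fun v => ∑ a ∈ X.filter (fun a => T.adj (v : G) a), m a,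
    fun v => Finset.sum_nonneg fun a _ => hm0 a, ?_, ?_⟩
  · intro l r hl hr p
    set c : Finset G := X.filter (fun a => ∃ x ∈ p.support, T.adj (x : G) a) with hc
    have h1 : 1 ≤ ∑ a ∈ c, m a := by
      refine Dual.one_le_of_meets F w hw0 hw1 c ?_
      intro A hA
      have hsep := (Finset.mem_filter.1 hA).2
      obtain ⟨z, hz, hzA⟩ := hsep _ (walk_preconnected T p)
        (by
          obtain ⟨z, hz1, hz2⟩ := hr
          exact ⟨z, mem_biUnion p.end_mem_support hz1, hz2⟩)
        (by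
          obtain ⟨z, hz1, hz2⟩ := hl
          exact ⟨z, mem_biUnion p.start_mem_support hz1, hz2⟩)
      rw [mem_iUnion₂] at hz
      obtain ⟨x, hx, hzx⟩ := hz
      rw [mem_un] at hzA
      obtain ⟨a, ha, hza⟩ := hzA
      exact ⟨a, ha, Finset.mem_filter.2 ⟨hFX A hA ha, x, hx, z, hzx, hza⟩⟩
    refine h1.trans ?_
    calc ∑ a ∈ c, m a ≤ ∑ a ∈ X, (∑ x ∈ p.support.toFinset, if T.adj (x : G) a then m a else 0) := by
          rw [hc, Finset.sum_filter]
          refine Finset.sum_le_sum fun a _ => ?_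
          split_ifs with hx
          · obtain ⟨x, hx, hxa⟩ := hx
            refine le_trans ?_ (Finset.single_le_sum (f := fun x : S.sph n =>
              if T.adj (x : G) a then m a else 0) (fun y _ => ?_) (List.mem_toFinset.2 hx))
            · simp only [hxa, if_true, le_refl]
            · show 0 ≤ (if T.adj (y : G) a then m a else 0)
              split_ifs
              · exact hm0 a
              · exact le_rfl
          · refine Finset.sum_nonneg fun y _ => ?_
            split_ifs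
            · exact hm0 a
            · exact le_rfl
      _ = ∑ x ∈ p.support.toFinset, ∑ a ∈ X.filter (fun a => T.adj (x : G) a), m a := by
          rw [Finset.sum_comm]
          refine Finset.sum_congr rfl fun x _ => ?_
          rw [Finset.sum_filter]
  · have e1 : ∀ v : S.sph n, (∑ a ∈ X.filter (fun a => T.adj (v : G) a), m a) ^ 2 ≤
        (Dl T : ℝ) * ∑ a ∈ X.filter (fun a => T.adj (v : G) a), m a ^ 2 := by
      intro v
      refine (sq_sum_le_card_mul_sum_sq).trans ?_
      refine mul_le_mul_of_nonneg_right ?_ (Finset.sum_nonneg fun a _ => sq_nonneg _)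
      exact_mod_cast card_filter_adj_le T v.2
    calc ∑ v : S.sph n, (∑ a ∈ X.filter (fun a => T.adj (v : G) a), m a) ^ 2
        ≤ ∑ v : S.sph n, (Dl T : ℝ) * ∑ a ∈ X.filter (fun a => T.adj (v : G) a), m a ^ 2 :=
          Finset.sum_le_sum fun v _ => e1 v
      _ = (Dl T : ℝ) * ∑ v ∈ X, ∑ a ∈ X.filter (fun a => T.adj v a), m a ^ 2 := by
          rw [← Finset.mul_sum]
          congr 1
          exact Finset.sum_coe_sort X (fun v => ∑ a ∈ X.filter (fun a => T.adj v a), m a ^ 2)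
      _ = (Dl T : ℝ) * ∑ a ∈ X, ∑ v ∈ X, (if T.adj v a then m a ^ 2 else 0) := by
          congr 1
          rw [Finset.sum_comm]
          refine Finset.sum_congr rfl fun v _ => ?_
          rw [Finset.sum_filter]
      _ ≤ (Dl T : ℝ) * ∑ a ∈ X, (Dl T : ℝ) * m a ^ 2 := by
          refine mul_le_mul_of_nonneg_left (Finset.sum_le_sum fun a ha => ?_) (Nat.cast_nonneg _)
          rw [← Finset.sum_filter, Finset.sum_const, nsmul_eq_mul]
          refine mul_le_mul_of_nonneg_right ?_ (sq_nonneg _)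
          have : X.filter (fun v => T.adj v a) ⊆ X.filter (fun v => T.adj a v) := by
            intro v hv
            rw [Finset.mem_filter] at hv ⊢
            exact ⟨hv.1, adj_comm T hv.2⟩
          exact_mod_cast (Finset.card_le_card this).trans (card_filter_adj_le T ha)
      _ = (Dl T : ℝ) ^ 2 * ∑ a ∈ X, m a ^ 2 := by
          rw [← Finset.mul_sum]
          ring
      _ ≤ (Dl T : ℝ) ^ 2 * L := mul_le_mul_of_nonneg_left hw2 (by positivity)

/-- existence of the potential at one level -/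
theorem exists_pot_level [PreconnectedSpace Z] {n : ℕ} {D E : Set Z} {L : ℝ} (hL0 : 0 < L)
    (hL : SepBound T n D E L) (hD : D.Nonempty)
    (hDE : ∀ h ∈ S.sph n, ¬ ((T.U h ∩ D).Nonempty ∧ (T.U h ∩ E).Nonempty)) :
    ∃ u : G → ℝ, Pot T n D E u ∧
      ∑ h ∈ S.sph n, ∑ h' ∈ (S.sph n).filter (fun h' => T.adj h h'), (u h - u h') ^ 2 ≤
        4 * (Dl T : ℝ) ^ 3 * L := by
  set A : Set (S.sph n) := {v | (T.U (v : G) ∩ E).Nonempty} with hA
  set B : Set (S.sph n) := {v | (T.U (v : G) ∩ D).Nonempty} with hB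
  have hAB : Disjoint A B := by
    rw [Set.disjoint_left]
    intro v hvA hvB
    exact hDE v v.2 ⟨hvB, hvA⟩
  obtain ⟨x0, hx0⟩ := hD
  obtain ⟨h0, hh0, hxh0⟩ := exists_mem T x0 n
  obtain ⟨u, hsol, h01, -⟩ := FG.exists_sol (gr T n) A B hAB
    (fun v => ⟨⟨h0, hh0⟩, Or.inr ⟨x0, hxh0, hx0⟩, reachable T v _⟩)
  obtain ⟨ρ, hρ0, hρ1, hρ2⟩ := exists_weight T hL0 hL
  have hen : FG.en (gr T n) u ≤ 2 * (Dl T : ℝ) * ((Dl T : ℝ) ^ 2 * L) := by
    refine (hsol.en_le_modulus hAB ρ hρ0 (Dl T) (fun v => ncard_adj_le T v) ?_).trans ?_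
    · intro l hl r hr p
      convert hρ1 l r hl hr p
    · exact mul_le_mul_of_nonneg_left hρ2 (by positivity)
  set U : G → ℝ := fun h => if hh : h ∈ S.sph n then u ⟨h, hh⟩ else 0 with hU
  have hUc : ∀ v : S.sph n, U (v : G) = u v := by
    intro v
    rw [hU]
    simp only [v.2, dif_pos, Subtype.coe_eta]
  have hUm : ∀ h (hh : h ∈ S.sph n), U h = u ⟨h, hh⟩ := fun h hh => hUc ⟨h, hh⟩
  refine ⟨U, ⟨?_, ?_, ?_, ?_⟩, ?_⟩
  · intro h
    by_cases hh : h ∈ S.sph n
    · rw [hUm h hh]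
      exact h01 _
    · rw [hU]
      simp only [hh, dif_neg, not_false_iff]
      norm_num
  · intro h hh hD
    rw [hUm h hh]
    exact hsol.bc.2 ⟨h, hh⟩ hD
  · intro h hh hE
    rw [hUm h hh]
    exact hsol.bc.1 ⟨h, hh⟩ hE
  · intro h hh hD hE
    have hl := hsol.harm ⟨h, hh⟩
      (fun hc => by
        have : (T.U h ∩ E).Nonempty := hc
        rw [hE] at this
        exact Set.not_nonempty_empty this)
      (fun hc => by
        have : (T.U h ∩ D).Nonempty := hc
        rw [hD] at this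
        exact Set.not_nonempty_empty this)
    rw [FG.lap_def] at hl
    show ∑ h' ∈ (S.sph n).filter (fun h' => T.adj h h'), (U h' - U h) = 0
    rw [Finset.sum_filter, ← Finset.sum_coe_sort (S.sph n)]
    refine Eq.trans ?_ hl
    refine Finset.sum_congr rfl fun w _ => ?_
    rw [hUc w, hUm h hh]
    by_cases hw : (⟨h, hh⟩ : S.sph n) = w
    · subst hw
      simp
    · by_cases hadj : T.adj h (w : G)
      · rw [if_pos hadj, if_pos ((gr_adj T).2 ⟨hw, hadj⟩)]
      · rw [if_neg hadj, if_neg (fun hc => hadj ((gr_adj T).1 hc).2)]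
  · have e : ∑ h ∈ S.sph n, ∑ h' ∈ (S.sph n).filter (fun h' => T.adj h h'), (U h - U h') ^ 2 =
        2 * FG.en (gr T n) u := by
      rw [FG.en_def, mul_div_cancel₀ _ (two_ne_zero), ← Finset.sum_coe_sort (S.sph n)]
      refine Finset.sum_congr rfl fun v _ => ?_
      rw [Finset.sum_filter, ← Finset.sum_coe_sort (S.sph n)]
      refine Finset.sum_congr rfl fun w _ => ?_
      rw [hUc v, hUc w]
      by_cases hw : v = w
      · subst hw
        simp
      · by_cases hadj : T.adj (v : G) (w : G)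
        · rw [if_pos hadj, if_pos ((gr_adj T).2 ⟨hw, hadj⟩)]
        · rw [if_neg hadj, if_neg (fun hc => hadj ((gr_adj T).1 hc).2)]
    rw [e]
    calc 2 * FG.en (gr T n) u ≤ 2 * (2 * (Dl T : ℝ) * ((Dl T : ℝ) ^ 2 * L)) := by linarith
      _ = 4 * (Dl T : ℝ) ^ 3 * L := by ring

/-- disjoint compact / closed sets are not met by one tile at large levels -/
theorem eventually_not_both {D E : Set Z} (hD : IsCompact D) (hE : IsClosed E)
    (hDE : Disjoint D E) :
    ∃ N : ℕ, ∀ n ≥ N, ∀ h ∈ S.sph n, ¬ ((T.U h ∩ D).Nonempty ∧ (T.U h ∩ E).Nonempty) := by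
  obtain ⟨r, hr, hdist⟩ := hD.exists_thickening_subset_open hE.isOpen_compl
    (Set.disjoint_left.1 hDE)
  have hlim : Tendsto (fun n : ℕ => Real.exp (-S.ε * ((n : ℝ) - T.R - S.δ))) atTop (𝓝 0) := by
    refine Real.tendsto_exp_atBot.comp ?_
    have h1 : Tendsto (fun n : ℕ => (n : ℝ) - T.R - S.δ) atTop atTop :=
      tendsto_atTop_add_const_right _ _ (tendsto_atTop_add_const_right _ _
        tendsto_natCast_atTop_atTop)
    exact h1.const_mul_atTop_of_neg (by linarith [S.ε_pos])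
  obtain ⟨N, hN⟩ := (hlim.eventually (gt_mem_nhds hr)).exists_forall_of_atTop
  refine ⟨N, fun n hn h hh hboth => ?_⟩
  obtain ⟨⟨x, hx, hxD⟩, ⟨y, hy, hyE⟩⟩ := hboth
  have h1 := dist_le_of_mem T hx hy
  rw [(mem_sph S).1 hh] at h1
  have h2 := h1.trans_lt (hN n hn)
  have h3 : y ∈ Metric.thickening r D :=
    Metric.mem_thickening_iff.2 ⟨x, hxD, by rwa [dist_comm]⟩
  exact hdist h3 hyE

/-- P1: existence of the potentials with bounded energy at all large levels -/
theorem exists_pot [PreconnectedSpace Z] {D E : Set Z} {L : ℝ} (hD : IsCompact D)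
    (hDn : D.Nonempty) (hE : IsClosed E) (hDE : Disjoint D E)
    (hL : ∀ n : ℕ, SepBound T n D E L) :
    ∃ C : ℝ, ∃ N : ℕ, ∀ n ≥ N, ∃ u : G → ℝ, Pot T n D E u ∧
      ∑ h ∈ S.sph n, ∑ h' ∈ (S.sph n).filter (fun h' => T.adj h h'), (u h - u h') ^ 2 ≤ C := by
  obtain ⟨N, hN⟩ := eventually_not_both T hD hE hDE
  refine ⟨4 * (Dl T : ℝ) ^ 3 * max L 1, N, fun n hn => ?_⟩
  refine exists_pot_level T (lt_of_lt_of_le one_pos (le_max_right _ _)) ?_ hDn (hN n hn)
  intro ρ hρ
  obtain ⟨A, hA, hs, hle⟩ := hL n ρ hρ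
  refine ⟨A, hA, hs, hle.trans ?_⟩
  exact mul_le_mul_of_nonneg_right (le_max_left _ _) (Finset.sum_nonneg fun h _ => sq_nonneg _)

end Crest.Agent.R193.F_PotEx
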