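import Crest.Agent.R193.F_Sep3
import Crest.Agent.R193.Planar4

/-!
R193 block F (helper283): at every point and every small scale there is a "ring": a chart `ψ` with
`closedBall x ρ ⊆ ψ.D r1`, `(ψ.E r2)ᶜ ⊆ ball x (lam ρ)` and a uniform `SepBound` for `(ψ.D 1, ψ.E 2)`;
discrete Courant-Lebesgue loops in rings.
-/

set_option autoImplicit false

open Set Filter Topology Metric

namespace Crest.Agent.R193.F_Ring

open Crest.Agent.R193 Crest.Agent.R193.F_Sep1 Crest.Agent.R193.F_Sep2 Crest.Agent.R193.F_Sep3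

variable {G Z : Type} [Group G] [MetricSpace Z] [MulAction G Z] {S : Setup G Z}

theorem smul_D (k : G) (ψ : Chart Z) (r : ℝ) :
    (Chart.smul S k ψ).D r = (fun x => k • x) '' ψ.D r := by
  unfold Chart.D Chart.smul
  rw [image_image]

theorem smul_E (k : G) (ψ : Chart Z) (r : ℝ) :
    (Chart.smul S k ψ).E r = (fun x => k • x) '' ψ.E r := by
  unfold Chart.E Chart.smul
  rw [image_compl_eq (MulAction.bijective k), image_image]

/-- **Rings.** -/
theorem ring_all (T : Tiles S) (Φ : Z ≃ₜ S2)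
    (hM : ∀ ψ : Chart Z, ∃ L : ℝ, ∀ n : ℕ, SepBound T n (ψ.D 1) (ψ.E 2) L)
    {r1 r2 : ℝ} (hr1 : 0 < r1) (hr2 : 2 ≤ r2) :
    ∃ lam0 L ρ0 : ℝ, 1 < lam0 ∧ 0 < L ∧ 0 < ρ0 ∧ ∀ (x : Z) (ρ : ℝ), 0 < ρ → ρ ≤ ρ0 →
      ∃ ψ : Chart Z, closedBall x ρ ⊆ ψ.D r1 ∧ (ψ.E r2)ᶜ ⊆ ball x (lam0 * ρ) ∧
        ∃ n0 : ℕ, ∀ n, n0 ≤ n → SepBound T n (ψ.D 1) (ψ.E 2) L := by
  have := locallyPathConnectedSpace_of_homeo Φ
  have hr2p : 0 < r2 := by linarith
  obtain ⟨m, ψ, η, R, hη, hfam⟩ := CHx.exists_family S Φ (2 * S.δ) hr1 hr2p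
  choose Li hLi using fun i => hM (ψ i)
  set L1 : ℝ := ∑ i, |Li i| + 1 with hL1
  have hL1i : ∀ i, Li i ≤ L1 := fun i => by
    have h1 : |Li i| ≤ ∑ i, |Li i| := Finset.single_le_sum (fun j _ => abs_nonneg (Li j))
      (Finset.mem_univ i)
    linarith [le_abs_self (Li i)]
  have hL1p : 0 < L1 := by
    have : 0 ≤ ∑ i, |Li i| := Finset.sum_nonneg fun i _ => abs_nonneg _
    linarith
  set R' : ℝ := max R (2 * S.δ) with hR'
  have hδ := δ_pos S
  have hε := S.ε_pos
  have hR'0 : 0 ≤ R' := le_trans (by linarith) (le_max_right _ _)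
  have hGd : ∀ {a b : ℝ} {k : G}, a ≤ b → S.Gd a k ⊆ S.Gd b k := fun {a b k} hab x hx =>
    le_trans (show S.s x k⁻¹ ≤ a from hx) hab
  refine ⟨Real.exp (S.ε * (2 * R' + 13 * S.δ + 1)) / η + 1, L1 * (mult T R' : ℝ) ^ 2 + 1,
    η * Real.exp (-(5 * S.ε * S.δ)), ?_, by positivity, by positivity, ?_⟩
  · have : 0 < Real.exp (S.ε * (2 * R' + 13 * S.δ + 1)) / η := by positivity
    linarith
  intro x ρ hρ hρ0
  set t : ℝ := (Real.log η - Real.log ρ) / S.ε - 5 * S.δ with ht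
  have ht0 : 0 ≤ t := by
    have h1 : Real.log ρ ≤ Real.log η - 5 * S.ε * S.δ := by
      have := Real.log_le_log hρ hρ0
      rw [Real.log_mul hη.ne' (Real.exp_ne_zero _), Real.log_exp] at this
      linarith
    have h2 : 5 * S.δ ≤ (Real.log η - Real.log ρ) / S.ε := by
      rw [le_div_iff₀ hε]; linarith
    linarith
  obtain ⟨k, hk, hxk⟩ := S.ray x ⌊t⌋₊
  have hn1 : ((⌊t⌋₊ : ℕ) : ℝ) ≤ t := Nat.floor_le ht0
  have hn2 : t - 1 < ((⌊t⌋₊ : ℕ) : ℝ) := by
    have := Nat.lt_floor_add_one t; linarith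
  have hkr : (S.len k : ℝ) = ((⌊t⌋₊ : ℕ) : ℝ) := by rw [hk]
  set y : Z := k⁻¹ • x with hy
  have hky : k • y = x := by rw [hy, smul_inv_smul]
  have hyG : y ∈ S.Gd (2 * S.δ) k := by
    show S.s y k⁻¹ ≤ 2 * S.δ
    have := smul_self_le S y k
    rw [hky] at this
    linarith
  obtain ⟨i, hi1, hi2⟩ := hfam k y hyG
  have hR'k : (ψ i).f '' closedBall 0 r2 ⊆ S.Gd R' k := hi2.trans (hGd (le_max_left _ _))
  have hR'k2 : (ψ i).f '' closedBall 0 2 ⊆ S.Gd R' k :=
    (image_mono (closedBall_subset_closedBall hr2)).trans hR'k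
  -- the transported bound
  have htr : ∀ m' : ℕ, SepBound T (m' + S.len k) ((fun x => k • x) '' (ψ i).D 1)
      ((fun x => k • x) '' (ψ i).E 2) (L1 * (mult T R' : ℝ) ^ 2) := fun m' =>
    sepBound_smul T hR'0 (isClosed_E _ _) (disjoint_D_E _ one_lt_two)
      ((closure_compl_E _ _).trans hR'k2) hL1p.le
      (SepBound.mono (hLi i m') Subset.rfl Subset.rfl (hL1i i))
  refine ⟨Chart.smul S k (ψ i), ?_, ?_, S.len k, fun n hn => ?_⟩
  · -- `closedBall x ρ ⊆ k D`
    intro z hz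
    rw [smul_D]
    refine ⟨k⁻¹ • z, ?_, smul_inv_smul _ _⟩
    have h1 : dist (k⁻¹ • z) y ≤ η := by
      have h2 := dist_inv_smul_le S k z x
      have h3 : dist z x ≤ ρ := hz
      calc dist (k⁻¹ • z) y ≤ Real.exp (S.ε * (S.len k + 5 * S.δ)) * dist z x := h2
        _ ≤ Real.exp (S.ε * (S.len k + 5 * S.δ)) * ρ := by gcongr
        _ = Real.exp (S.ε * (S.len k + 5 * S.δ) + Real.log ρ) := by
            rw [Real.exp_add, Real.exp_log hρ]
        _ ≤ Real.exp (Real.log η) := by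
            apply Real.exp_le_exp.2
            rw [hkr]
            have h4 : S.ε * ((⌊t⌋₊ : ℕ) : ℝ) ≤ S.ε * t := by gcongr
            have h5 : S.ε * t = Real.log η - Real.log ρ - 5 * S.δ * S.ε := by
              rw [ht]; field_simp
            nlinarith
        _ = η := Real.exp_log hη
    obtain ⟨p, hp, hpz⟩ := hi1 (show k⁻¹ • z ∈ closedBall y η from h1)
    exact ⟨p, ball_subset_closedBall hp, hpz⟩
  · -- `(k E)ᶜ ⊆ ball x (lam ρ)`
    intro z hz
    rw [smul_E] at hz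
    have h1 : k⁻¹ • z ∉ (ψ i).E r2 := fun h => hz ⟨k⁻¹ • z, h, smul_inv_smul _ _⟩
    have h2 : k⁻¹ • z ∈ (ψ i).f '' ball 0 r2 := by
      by_contra h3; exact h1 h3
    have h3 : k⁻¹ • z ∈ S.Gd R' k := hR'k (image_mono ball_subset_closedBall h2)
    have h4 : y ∈ S.Gd R' k := hGd (le_max_right _ _) hyG
    have h5 := dist_smul_le S h3 h4
    rw [smul_inv_smul, hky] at h5
    have h6 : dist (k⁻¹ • z) y ≤ Real.exp (S.ε * S.δ) := dist_le_exp_delta S _ _
    have h7 : dist z x ≤ Real.exp (S.ε * (2 * R' + 13 * S.δ + 1)) / η * ρ := by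
      calc dist z x ≤ Real.exp (S.ε * (2 * R' + 7 * S.δ - S.len k)) * dist (k⁻¹ • z) y := h5
        _ ≤ Real.exp (S.ε * (2 * R' + 7 * S.δ - S.len k)) * Real.exp (S.ε * S.δ) := by gcongr
        _ ≤ Real.exp (S.ε * (2 * R' + 13 * S.δ + 1) - Real.log η + Real.log ρ) := by
            rw [← Real.exp_add]
            apply Real.exp_le_exp.2
            rw [hkr]
            have h4 : S.ε * (t - 1) ≤ S.ε * ((⌊t⌋₊ : ℕ) : ℝ) := by gcongr
            have h5 : S.ε * t = Real.log η - Real.log ρ - 5 * S.δ * S.ε := by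
              rw [ht]; field_simp
            nlinarith
        _ = Real.exp (S.ε * (2 * R' + 13 * S.δ + 1)) / η * ρ := by
            rw [Real.exp_add, Real.exp_sub, Real.exp_log hη, Real.exp_log hρ]
    rw [mem_ball]
    calc dist z x ≤ Real.exp (S.ε * (2 * R' + 13 * S.δ + 1)) / η * ρ := h7
      _ < (Real.exp (S.ε * (2 * R' + 13 * S.δ + 1)) / η + 1) * ρ := by nlinarith
  · have hn' : n = (n - S.len k) + S.len k := by omega
    rw [hn', smul_D, smul_E]
    exact SepBound.mono (htr (n - S.len k)) Subset.rfl Subset.rfl (by linarith)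

/-! ### topology of the squares of a chart -/

theorem isPreconnected_D (ψ : Chart Z) (r : ℝ) : IsPreconnected (ψ.D r) :=
  (convex_closedBall _ _).isPreconnected.image _ ψ.emb.continuous.continuousOn

theorem rank_plane : 1 < Module.rank ℝ (ℝ × ℝ) := by
  rw [← Module.finrank_eq_rank]
  simp only [Module.finrank_prod, Module.finrank_self]
  norm_num

/-- the complement of an open square is connected. -/
theorem isPreconnected_E [T2Space Z] [PreconnectedSpace Z] (ψ : Chart Z) {r : ℝ} :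
    IsPreconnected (ψ.E r) := by
  set C : Set Z := ψ.f '' sphere 0 r with hC
  have hCc : IsPreconnected C :=
    (isPreconnected_sphere rank_plane _ _).image _ ψ.emb.continuous.continuousOn
  have hCE : C ⊆ ψ.E r := by
    rintro _ ⟨p, hp, rfl⟩ ⟨q, hq, hqp⟩
    have := ψ.emb.injective hqp
    subst this
    rw [mem_sphere] at hp
    rw [mem_ball] at hq
    linarith
  have hcb : IsClosed (ψ.f '' closedBall 0 r) :=
    ((isCompact_closedBall _ _).image ψ.emb.continuous).isClosed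
  have hsplit : ψ.f '' closedBall 0 r = ψ.f '' ball 0 r ∪ C := by
    rw [hC, ← image_union, ball_union_sphere]
  -- relatively clopen subsets
  rw [isPreconnected_closed_iff]
  intro P Q hP hQ hPQ hPn hQn
  by_contra hcon
  rw [not_nonempty_iff_eq_empty] at hcon
  have hE := isClosed_E ψ r
  -- wlog `C ⊆ P`
  wlog hCP : C ⊆ P generalizing P Q with H
  · apply H Q P hQ hP (by rwa [union_comm]) hQn hPn (by rwa [inter_comm Q P])
    -- `C` is contained in one of them
    have h1 : IsPreconnected C := hCc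
    rw [isPreconnected_closed_iff] at h1
    by_contra hCQ
    obtain ⟨a, haC, haP⟩ := not_subset.1 hCP
    obtain ⟨b, hbC, hbQ⟩ := not_subset.1 hCQ
    have haQ : a ∈ Q := (hPQ (hCE haC)).resolve_left haP
    have hbP : b ∈ P := (hPQ (hCE hbC)).resolve_right hbQ
    obtain ⟨c, hcC, hcP, hcQ⟩ := h1 P Q hP hQ (hCE.trans hPQ) ⟨b, hbC, hbP⟩ ⟨a, haC, haQ⟩
    have : c ∈ ψ.E r ∩ (P ∩ Q) := ⟨hCE hcC, hcP, hcQ⟩
    rw [hcon] at this; exact this
  -- two closed sets covering `Z`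
  have huniv : IsPreconnected (univ : Set Z) := isPreconnected_univ
  rw [isPreconnected_closed_iff] at huniv
  obtain ⟨c, -, hc1, hc2⟩ := huniv ((ψ.E r ∩ P) ∪ ψ.f '' closedBall 0 r) (ψ.E r ∩ Q)
    ((hE.inter hP).union hcb) (hE.inter hQ) (by
      intro z _
      by_cases hz : z ∈ ψ.E r
      · rcases hPQ hz with h | h
        · exact Or.inl (Or.inl ⟨hz, h⟩)
        · exact Or.inr ⟨hz, h⟩
      · left; right
        rw [hsplit]
        left
        by_contra h; exact hz h)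
    (by
      obtain ⟨a, ha⟩ := hPn
      exact ⟨a, mem_univ _, Or.inl ha⟩)
    (by
      obtain ⟨a, ha⟩ := hQn
      exact ⟨a, mem_univ _, ha⟩)
  rcases hc1 with h | h
  · have : c ∈ ψ.E r ∩ (P ∩ Q) := ⟨h.1, h.2, hc2.2⟩
    rw [hcon] at this; exact this
  · rw [hsplit] at h
    rcases h with h | h
    · exact hc2.1 h
    · have : c ∈ ψ.E r ∩ (P ∩ Q) := ⟨hc2.1, hCP h, hc2.2⟩
      rw [hcon] at this; exact this

end Crest.Agent.R193.F_Ring
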