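import Crest.Agent.R193.F_Defs
import Crest.Agent.R193.F_PotEx
import Crest.Agent.R193.D1_Ann
import Crest.Agent.R193.F_Ring

/-!
# R193, block D1/F3 (helper321): equicontinuity of the discrete potentials of bounded energy
-/

set_option autoImplicit false

noncomputable section

open Set Filter Topology Metric
open scoped Classical

namespace Crest.Agent.R193.F_Equi

open Crest.Agent.R193 Crest.Agent.R193.T_Comp Crest.Agent.R193.F_PotEx Crest.Agent.R193.D1_Ann
  Crest.Agent.R193.D1_Top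

variable {G Z : Type} [Group G] [MetricSpace Z] [MulAction G Z] {S : Setup G Z} (T : Tiles S)

/-- discrete energy of level `n` (ordered pairs) -/
def En (n : ℕ) (f : G → ℝ) : ℝ :=
  ∑ h ∈ S.sph n, ∑ h' ∈ (S.sph n).filter (fun h' => T.adj h h'), (f h - f h') ^ 2

theorem sum_grad_sq_le (n : ℕ) (f : G → ℝ) :
    ∑ l ∈ S.sph n, D1_Pot.grad T n f l ^ 2 ≤ (Dl T : ℝ) * En T n f := by
  unfold En
  rw [Finset.mul_sum]
  refine Finset.sum_le_sum fun l hl => ?_
  unfold D1_Pot.grad
  have h1 := sq_sum_le_card_mul_sum_sq (s := (S.sph n).filter (fun h' => T.adj l h'))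
    (f := fun k => |f k - f l|)
  have h2 : ∑ k ∈ (S.sph n).filter (fun h' => T.adj l h'), |f k - f l| ^ 2 =
      ∑ k ∈ (S.sph n).filter (fun h' => T.adj l h'), (f l - f k) ^ 2 := by
    refine Finset.sum_congr rfl fun k _ => ?_
    rw [sq_abs]
    ring
  have h3 : (((S.sph n).filter (fun h' => T.adj l h')).card : ℝ) ≤ (Dl T : ℝ) := by
    exact_mod_cast card_filter_adj_le T hl
  calc _ ≤ (((S.sph n).filter (fun h' => T.adj l h')).card : ℝ) *
        ∑ k ∈ (S.sph n).filter (fun h' => T.adj l h'), |f k - f l| ^ 2 := by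
        convert h1
    _ ≤ (Dl T : ℝ) * ∑ k ∈ (S.sph n).filter (fun h' => T.adj l h'), |f k - f l| ^ 2 :=
        mul_le_mul_of_nonneg_right h3 (Finset.sum_nonneg fun _ _ => sq_nonneg _)
    _ = _ := by rw [h2]

/-- charts are eventually `Small` -/
theorem exists_small (χ : Chart Z) : ∃ n0 : ℕ, ∀ n ≥ n0, Small T n χ := by
  obtain ⟨n1, hn1⟩ := eventually_not_both T (isCompact_Ann χ 1 2) (isClosed_D χ (1 / 2))
    (disjoint_D_Ann χ (by norm_num)).symm
  obtain ⟨n2, hn2⟩ := eventually_not_both T (isCompact_Ann χ 1 2) (isClosed_E χ 3)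
    (disjoint_E_Ann χ (by norm_num)).symm
  refine ⟨max n1 n2, fun n hn h hh hne => ⟨?_, ?_⟩⟩
  · rw [Set.disjoint_iff_inter_eq_empty, ← not_nonempty_iff_eq_empty]
    exact fun hc => hn1 n ((le_max_left _ _).trans hn) h hh ⟨hne, hc⟩
  · rw [Set.disjoint_iff_inter_eq_empty, ← not_nonempty_iff_eq_empty]
    exact fun hc => hn2 n ((le_max_right _ _).trans hn) h hh ⟨hne, hc⟩

/-- tiles are eventually small -/
theorem exists_diam {r : ℝ} (hr : 0 < r) :
    ∃ n0 : ℕ, ∀ n ≥ n0, ∀ h ∈ S.sph n, ∀ x ∈ T.U h, ∀ y ∈ T.U h, dist x y < r := by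
  have hlim : Tendsto (fun n : ℕ => Real.exp (-S.ε * ((n : ℝ) - T.R - S.δ))) atTop (𝓝 0) := by
    refine Real.tendsto_exp_atBot.comp ?_
    have h1 : Tendsto (fun n : ℕ => (n : ℝ) - T.R - S.δ) atTop atTop :=
      tendsto_atTop_add_const_right _ _ (tendsto_atTop_add_const_right _ _
        tendsto_natCast_atTop_atTop)
    exact h1.const_mul_atTop_of_neg (by linarith [S.ε_pos])
  obtain ⟨N, hN⟩ := (hlim.eventually (gt_mem_nhds hr)).exists_forall_of_atTop
  refine ⟨N, fun n hn h hh x hx y hy => ?_⟩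
  have h1 := dist_le_of_mem T hx hy
  rw [(mem_sph S).1 hh] at h1
  exact h1.trans_lt (hN n hn)

/-- equicontinuity -/
theorem equi (Φ : Z ≃ₜ S2)
    (hM : ∀ ψ : Chart Z, ∃ L : ℝ, ∀ n : ℕ, SepBound T n (ψ.D 1) (ψ.E 2) L)
    {D E : Set Z} (hD : IsPreconnected D) (hE : IsPreconnected E)
    (hD2 : ∃ a ∈ D, ∃ b ∈ D, a ≠ b) (hE2 : ∃ a ∈ E, ∃ b ∈ E, a ≠ b)
    (C : ℝ) {η : ℝ} (hη : 0 < η) :
    ∃ r > 0, ∃ n0 : ℕ, ∀ n ≥ n0, ∀ f : G → ℝ, Pot T n D E f → En T n f ≤ C →
      ∀ h ∈ S.sph n, ∀ h' ∈ S.sph n, ∀ x ∈ T.U h, ∀ y ∈ T.U h', dist x y < r →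
        |f h - f h'| ≤ η := by
  have := locallyPathConnected Φ
  have := preconnected Φ
  have := compact Φ
  have hX := splits Φ
  obtain ⟨lam, L, ρ0, hlam, hL, hρ0, hring⟩ :=
    F_Ring.ring_all T Φ hM (r1 := 1 / 2) (r2 := 3) (by norm_num) (by norm_num)
  obtain ⟨a, ha, b, hb, hab⟩ := hD2
  obtain ⟨a', ha', b', hb', hab'⟩ := hE2
  have hlam0 : 0 < lam := by linarith
  -- top scale
  set ρt : ℝ := min ρ0 (min (dist a b / (2 * lam)) (dist a' b' / (2 * lam))) with hρt
  have hρt0 : 0 < ρt := by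
    refine lt_min hρ0 (lt_min ?_ ?_)
    · exact div_pos (dist_pos.2 hab) (by positivity)
    · exact div_pos (dist_pos.2 hab') (by positivity)
  have hout : ∀ (D : Set Z) (a b : Z), a ∈ D → b ∈ D → ρt ≤ dist a b / (2 * lam) →
      ∀ x : Z, ∀ ρ ≤ ρt, (D ∩ (ball x (lam * ρ))ᶜ).Nonempty := by
    intro D a b ha hb hle x ρ hρ
    by_contra hcon
    rw [not_nonempty_iff_eq_empty, ← disjoint_iff_inter_eq_empty,
      disjoint_compl_right_iff_subset] at hcon
    have h1 := mem_ball.1 (hcon ha)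
    have h2 := mem_ball.1 (hcon hb)
    have h3 := dist_triangle_right a b x
    rw [le_div_iff₀ (by positivity)] at hle
    nlinarith
  have houtD := hout D a b ha hb ((min_le_right _ _).trans (min_le_left _ _))
  have houtE := hout E a' b' ha' hb' ((min_le_right _ _).trans (min_le_right _ _))
  -- number of annuli
  set M : ℝ := L * ((Dl T : ℝ) * |C|) with hM'
  have hM0 : 0 ≤ M := by positivity
  obtain ⟨K0, hK0⟩ := exists_nat_ge (16 * M / η ^ 2)
  set K : ℕ := K0 + 1 with hK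
  have hKpos : (0 : ℝ) < K := by rw [hK]; positivity
  have hKη : 16 * (M / K) ≤ η ^ 2 := by
    have h1 : 16 * M / η ^ 2 ≤ K := hK0.trans (by rw [hK]; push_cast; linarith)
    rw [div_le_iff₀ (by positivity)] at h1
    rw [← mul_div_assoc, div_le_iff₀ hKpos]
    linarith
  set ρ : ℕ → ℝ := fun i => ρt / (2 * lam) ^ i with hρ
  have hρpos : ∀ i, 0 < ρ i := fun i => by rw [hρ]; positivity
  have hone : 1 ≤ 2 * lam := by linarith
  have hρanti : ∀ i j, i ≤ j → ρ j ≤ ρ i := by
    intro i j hij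
    exact div_le_div_of_nonneg_left hρt0.le (by positivity) (pow_le_pow_right₀ hone hij)
  have hρt' : ∀ i, ρ i ≤ ρt := by
    intro i
    have := hρanti 0 i (Nat.zero_le _)
    simpa [hρ] using this
  have hρle : ∀ i, ρ i ≤ ρ0 := fun i => (hρt' i).trans (min_le_left _ _)
  have hρlam : ∀ i j, i < j → lam * ρ j ≤ ρ i / 2 := by
    intro i j hij
    have h1 : ρ j ≤ ρ (i + 1) := hρanti (i + 1) j hij
    have h2 : ρ (i + 1) * (2 * lam) = ρ i := by
      rw [hρ]
      simp only
      rw [pow_succ]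
      field_simp
    nlinarith
  set r0 : ℝ := ρ K with hr0
  -- the key local statement
  have key : ∀ x : Z, ∃ n0 : ℕ, ∀ n ≥ n0, ∀ f : G → ℝ, Pot T n D E f → En T n f ≤ C →
      ∀ h ∈ S.sph n, ∀ h' ∈ S.sph n, (T.U h ∩ closedBall x r0).Nonempty →
      (T.U h' ∩ closedBall x r0).Nonempty → |f h - f h'| ≤ η := by
    intro x
    choose χ hχ1 hχ2 n1 hn1 using fun i : ℕ => hring x (ρ i) (hρpos i) (hρle i)
    choose n2 hn2 using fun i : ℕ => exists_small T (χ i)
    obtain ⟨n3, hn3⟩ := exists_diam T (half_pos (hρpos K))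
    refine ⟨max ((Finset.range K).sup fun i => max (n1 i) (n2 i)) n3, ?_⟩
    intro n hn f hf hen
    have hn12 : ∀ i < K, n1 i ≤ n ∧ n2 i ≤ n := by
      intro i hi
      have h1 : max (n1 i) (n2 i) ≤ (Finset.range K).sup fun i => max (n1 i) (n2 i) :=
        Finset.le_sup (f := fun i => max (n1 i) (n2 i)) (Finset.mem_range.2 hi)
      have h2 := (h1.trans (le_max_left _ _)).trans hn
      exact ⟨(le_max_left _ _).trans h2, (le_max_right _ _).trans h2⟩
    have hn3' : n3 ≤ n := (le_max_right _ _).trans hn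
    set F : ℕ → Finset G := fun i => (S.sph n).filter (fun l => (T.U l ∩ Ann (χ i) 1 2).Nonempty)
      with hF
    have hAnn1 : ∀ i, ∀ z ∈ Ann (χ i) 1 2, ρ i < dist z x := by
      intro i z hz
      by_contra hc
      push Not at hc
      exact Set.disjoint_left.1 (disjoint_D_Ann (χ i) (by norm_num : (1 / 2 : ℝ) < 1))
        (hχ1 i hc) hz
    have hAnn2 : ∀ i, ∀ z ∈ Ann (χ i) 1 2, dist z x < lam * ρ i := by
      intro i z hz
      have : z ∈ ((χ i).E 3)ᶜ := fun hc =>
        Set.disjoint_left.1 (disjoint_E_Ann (χ i) (by norm_num : (2 : ℝ) < 3)) hc hz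
      exact mem_ball.1 (hχ2 i this)
    have hdisj : ∀ i < K, ∀ j < K, i < j → Disjoint (F i) (F j) := by
      intro i _ j hj hij
      rw [Finset.disjoint_left]
      intro l hl1 hl2
      obtain ⟨hls, y, hy, hyA⟩ := Finset.mem_filter.1 hl1
      obtain ⟨-, z, hz, hzA⟩ := Finset.mem_filter.1 hl2
      have h1 := hAnn1 i y hyA
      have h2 := hAnn2 j z hzA
      have h3 := hn3 n hn3' l hls y hy z hz
      have h4 := dist_triangle y z x
      have h5 := hρlam i j hij
      have h6 := hρanti i K (by omega)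
      linarith
    have hdisj' : ((Finset.range K : Finset ℕ) : Set ℕ).PairwiseDisjoint F := by
      intro i hi j hj hij
      have hi' := Finset.mem_range.1 (Finset.mem_coe.1 hi)
      have hj' := Finset.mem_range.1 (Finset.mem_coe.1 hj)
      rcases lt_or_gt_of_ne hij with h | h
      · exact hdisj i hi' j hj' h
      · exact (hdisj j hj' i hi' h).symm
    have hsum : ∑ i ∈ Finset.range K, gradSq T n f (Ann (χ i) 1 2) ≤ (Dl T : ℝ) * |C| := by
      calc ∑ i ∈ Finset.range K, gradSq T n f (Ann (χ i) 1 2)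
          = ∑ i ∈ Finset.range K, ∑ l ∈ F i, D1_Pot.grad T n f l ^ 2 := by
            refine Finset.sum_congr rfl fun i _ => ?_
            unfold gradSq
            rfl
        _ = ∑ l ∈ (Finset.range K).biUnion F, D1_Pot.grad T n f l ^ 2 :=
            (Finset.sum_biUnion hdisj').symm
        _ ≤ ∑ l ∈ S.sph n, D1_Pot.grad T n f l ^ 2 := by
            refine Finset.sum_le_sum_of_subset_of_nonneg ?_ fun _ _ _ => sq_nonneg _
            intro l hl
            obtain ⟨i, -, hi⟩ := Finset.mem_biUnion.1 hl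
            exact (Finset.mem_filter.1 hi).1
        _ ≤ (Dl T : ℝ) * En T n f := sum_grad_sq_le T n f
        _ ≤ (Dl T : ℝ) * |C| :=
            mul_le_mul_of_nonneg_left (hen.trans (le_abs_self C)) (Nat.cast_nonneg _)
    obtain ⟨i, hiK, hi⟩ : ∃ i ∈ Finset.range K, gradSq T n f (Ann (χ i) 1 2) ≤
        (Dl T : ℝ) * |C| / K := by
      refine Finset.exists_le_of_sum_le ⟨0, Finset.mem_range.2 (by omega)⟩ ?_
      rw [Finset.sum_const, Finset.card_range, nsmul_eq_mul, mul_div_cancel₀ _ hKpos.ne']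
      exact hsum
    have hiK' := Finset.mem_range.1 hiK
    intro h hh h' hh' hne hne'
    have hsub : closedBall x r0 ⊆ (χ i).D (1 / 2) :=
      (closedBall_subset_closedBall (hρanti i K (by omega))).trans (hχ1 i)
    have hE3 : (ball x (lam * ρ i))ᶜ ⊆ (χ i).E 3 := by
      rw [compl_subset_comm]
      exact hχ2 i
    have hosc := ann_osc hX T hD hE (χ i)
      ((houtD x (ρ i) (hρt' i)).mono (inter_subset_inter_right _ hE3))
      ((houtE x (ρ i) (hρt' i)).mono (inter_subset_inter_right _ hE3))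
      (hn1 i n (hn12 i hiK').1) (hn2 i n (hn12 i hiK').2) hf h hh h' hh'
      (hne.mono (inter_subset_inter_right _ hsub))
      (hne'.mono (inter_subset_inter_right _ hsub))
    refine hosc.trans ?_
    have h1 : L * gradSq T n f (Ann (χ i) 1 2) ≤ M / K := by
      rw [hM', mul_div_assoc]
      exact mul_le_mul_of_nonneg_left hi hL.le
    have h2 : 4 * Real.sqrt (L * gradSq T n f (Ann (χ i) 1 2)) =
        Real.sqrt (16 * (L * gradSq T n f (Ann (χ i) 1 2))) := by
      rw [Real.sqrt_mul (by norm_num : (0 : ℝ) ≤ 16)]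
      congr 1
      rw [show (16 : ℝ) = 4 ^ 2 by norm_num, Real.sqrt_sq (by norm_num)]
    rw [h2]
    exact Real.sqrt_le_iff.2 ⟨hη.le, by linarith⟩
  -- finite net
  choose n0 hn0 using key
  obtain ⟨t, -, htf, htc⟩ := finite_cover_balls_of_compact (isCompact_univ (X := Z))
    (half_pos (hρpos K))
  refine ⟨r0 / 2, half_pos (hρpos K), htf.toFinset.sup n0, ?_⟩
  intro n hn f hf hen h hh h' hh' x hx y hy hxy
  have hxt := htc (mem_univ x)
  rw [mem_iUnion₂] at hxt
  obtain ⟨z, hz, hxz⟩ := hxt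
  rw [mem_ball] at hxz
  have hnz : n0 z ≤ n := (Finset.le_sup (f := n0) (htf.mem_toFinset.2 hz)).trans hn
  refine hn0 z n hnz f hf hen h hh h' hh' ⟨x, hx, ?_⟩ ⟨y, hy, ?_⟩
  · rw [mem_closedBall]
    have := hρpos K
    linarith
  · rw [mem_closedBall]
    have h1 := dist_triangle y x z
    rw [dist_comm y x] at h1
    have h2 : dist x z < r0 / 2 := hxz
    linarith

end Crest.Agent.R193.F_Equi
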