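import Crest.Agent.R193.F_Pair
import Crest.Agent.R193.CH_Chart
import Crest.Agent.R193.Planar4

/-!
# R193, interface F5 (helper781): the pair
-/

set_option autoImplicit false

noncomputable section

open Set Filter Topology Metric

namespace Crest.Agent.R193.F_Five

open Crest.Agent.R193

variable {G Z : Type} [Group G] [MetricSpace Z] [MulAction G Z]

/-- **F5** (statement of `F_Spec.F5`) -/
theorem F5_main (S : Setup G Z) (T : Tiles S) (Φ : Z ≃ₜ S2)
    (h : ∀ ψ : Chart Z, ∃ (u : C(Z, ℝ)) (un : ℕ → G → ℝ), IsPot T (ψ.D 1) (ψ.E 2) u un) :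
    ∃ (O K : Set Z) (u₁ u₂ : C(Z, ℝ)), IsOpen O ∧ IsCompact K ∧ K ⊆ O ∧
      OscBound S u₁ ∧ OscBound S u₂ ∧
      (∀ a b : ℝ, MonoOn (fun x => a * u₁ x + b * u₂ x) O) ∧
      (interior ((fun x => (u₁ x, u₂ x)) '' K)).Nonempty := by
  have hc2 : CompactSpace S2 := isCompact_iff_compactSpace.1 (isCompact_sphere _ _)
  have hZ : CompactSpace Z := Φ.symm.compactSpace
  have hS2 : ConnectedSpace S2 := Planar.S2_connected
  have hZc : ConnectedSpace Z := by
    exact Φ.symm.surjective.connectedSpace Φ.symm.continuous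
  obtain ⟨x⟩ := hZc.toNonempty
  obtain ⟨χ, -⟩ := CHx.exists_chart_at Φ x
  obtain ⟨u₁, v₁, h1⟩ := h (F_Pair.ch1 χ)
  obtain ⟨u₂, v₂, h2⟩ := h (F_Pair.ch2 χ)
  obtain ⟨O, K, hO, hK, hKO, hm, hi⟩ := F_Pair.pair_of_potentials T χ h1 h2
  exact ⟨O, K, u₁, u₂, hO, hK, hKO, h1.osc, h2.osc, hm, hi⟩

end Crest.Agent.R193.F_Five
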