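import Crest.Agent.R193.F_Defs

/-!
# R193, block F: limits along the hyperfilter of equicontinuous functions on tiles
-/

set_option autoImplicit false

noncomputable section

open Set Filter Topology Metric
open scoped Classical

namespace Crest.Agent.R193.F_Lim

open Crest.Agent.R193

variable {G Z : Type} [Group G] [MetricSpace Z] [MulAction G Z]

theorem mem_sph {S : Setup G Z} {n : ℕ} {g : G} : g ∈ S.sph n ↔ S.len g = n := by
  unfold Setup.sph
  rw [Set.Finite.mem_toFinset]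
  rfl

/-- every point is in a tile of every level -/
theorem exists_tile {S : Setup G Z} (T : Tiles S) (n : ℕ) (x : Z) :
    ∃ h ∈ S.sph n, x ∈ T.U h := by
  obtain ⟨g, hg, hs⟩ := S.ray x n
  refine ⟨g, mem_sph.2 hg, T.cover g ?_⟩
  show (S.len g : ℝ) - S.δ ≤ S.s x g
  rw [hg]
  exact hs

/-- the index of a tile of level `n` containing `x` -/
def tile {S : Setup G Z} (T : Tiles S) (n : ℕ) (x : Z) : G := (exists_tile T n x).choose

theorem tile_mem {S : Setup G Z} (T : Tiles S) (n : ℕ) (x : Z) : tile T n x ∈ S.sph n :=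
  (exists_tile T n x).choose_spec.1

theorem mem_tile {S : Setup G Z} (T : Tiles S) (n : ℕ) (x : Z) : x ∈ T.U (tile T n x) :=
  (exists_tile T n x).choose_spec.2

/-- bounded real sequences converge along the hyperfilter -/
theorem exists_lim (a : ℕ → ℝ) (C : ℝ) (h : ∀ n, |a n| ≤ C) :
    ∃ l : ℝ, |l| ≤ C ∧ Tendsto a (hyperfilter ℕ : Filter ℕ) (𝓝 l) := by
  have hK : IsCompact (Icc (-C) C) := isCompact_Icc
  have hle : (((hyperfilter ℕ).map a : Ultrafilter ℝ) : Filter ℝ) ≤ 𝓟 (Icc (-C) C) := by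
    rw [le_principal_iff]
    show a ⁻¹' Icc (-C) C ∈ (hyperfilter ℕ : Filter ℕ)
    exact Filter.univ_mem' (fun n => ⟨(abs_le.1 (h n)).1, (abs_le.1 (h n)).2⟩)
  obtain ⟨l, hl, hlim⟩ := hK.ultrafilter_le_nhds _ hle
  exact ⟨l, abs_le.2 ⟨hl.1, hl.2⟩, hlim⟩

/-- (e) the limit exists and is continuous -/
theorem exists_limit [CompactSpace Z] {S : Setup G Z} (T : Tiles S) (un : ℕ → G → ℝ)
    (hbd : ∀ n h, |un n h| ≤ 1)
    (equi : ∀ η > (0 : ℝ), ∃ r > (0 : ℝ), ∀ᶠ n in (hyperfilter ℕ : Filter ℕ),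
      ∀ h ∈ S.sph n, ∀ h' ∈ S.sph n, ∀ x ∈ T.U h, ∀ y ∈ T.U h', dist x y < r →
        |un n h - un n h'| ≤ η) :
    ∃ u : C(Z, ℝ), DLim T (hyperfilter ℕ : Filter ℕ) un u := by
  choose u hu1 hu using fun x => exists_lim (fun n => un n (tile T n x)) 1 (fun n => hbd _ _)
  have hcont : ∀ η > (0 : ℝ), ∃ r > (0 : ℝ), ∀ x y : Z, dist x y < r → |u x - u y| ≤ η := by
    intro η hη
    obtain ⟨r, hr, hev⟩ := equi η hη
    refine ⟨r, hr, fun x y hxy => ?_⟩
    have hlim : Tendsto (fun n => |un n (tile T n x) - un n (tile T n y)|)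
        (hyperfilter ℕ : Filter ℕ) (𝓝 |u x - u y|) := ((hu x).sub (hu y)).abs
    refine le_of_tendsto hlim ?_
    filter_upwards [hev] with n hn
    exact hn _ (tile_mem T n x) _ (tile_mem T n y) x (mem_tile T n x) y (mem_tile T n y) hxy
  have hc : Continuous u := by
    rw [Metric.continuous_iff]
    intro y η hη
    obtain ⟨r, hr, h⟩ := hcont (η / 2) (by positivity)
    refine ⟨r, hr, fun x hx => ?_⟩
    rw [Real.dist_eq]
    exact (h x y hx).trans_lt (by linarith)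
  refine ⟨⟨u, hc⟩, ?_⟩
  intro η hη
  obtain ⟨r1, hr1, hev⟩ := equi (η / 3) (by positivity)
  obtain ⟨r2, hr2, hcu⟩ := hcont (η / 3) (by positivity)
  obtain ⟨t, -, htf, htc⟩ := finite_cover_balls_of_compact (isCompact_univ (X := Z))
    (lt_min hr1 hr2)
  have hfin : ∀ᶠ n in (hyperfilter ℕ : Filter ℕ), ∀ x ∈ t, |un n (tile T n x) - u x| ≤ η / 3 := by
    rw [htf.eventually_all]
    intro x _
    have := (Metric.tendsto_nhds.1 (hu x)) (η / 3) (by positivity)
    filter_upwards [this] with n hn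
    rw [Real.dist_eq] at hn
    exact hn.le
  filter_upwards [hev, hfin] with n h1 h2 h hh y hy
  have hyt := htc (mem_univ y)
  rw [mem_iUnion₂] at hyt
  obtain ⟨x, hx, hyx⟩ := hyt
  rw [mem_ball] at hyx
  have e1 := h1 h hh (tile T n x) (tile_mem T n x) y hy x (mem_tile T n x)
    (hyx.trans_le (min_le_left _ _))
  have e2 := h2 x hx
  have e3 := hcu x y (by rw [dist_comm]; exact hyx.trans_le (min_le_right _ _))
  show |un n h - u y| ≤ η
  have : un n h - u y = (un n h - un n (tile T n x)) + (un n (tile T n x) - u x) + (u x - u y) := by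
    ring
  rw [this]
  refine (abs_add_three _ _ _).trans ?_
  linarith

/-- (f) the class F bound passes to the limit -/
theorem oscBound_of_lim {S : Setup G Z} (T : Tiles S) (un : ℕ → G → ℝ) (u : C(Z, ℝ))
    (hlim : DLim T (hyperfilter ℕ : Filter ℕ) un u) (hu : ∀ x, |u x| ≤ 1)
    (hsum : ∀ R : ℝ, ∃ C : ℝ, ∀ m : ℕ, ∀ᶠ n in (hyperfilter ℕ : Filter ℕ), ∃ o : G → ℝ,
      (∀ h ∈ S.sph m, ∀ k ∈ S.sph n, ∀ k' ∈ S.sph n, (T.U k ∩ S.Sh R h).Nonempty →
        (T.U k' ∩ S.Sh R h).Nonempty → |un n k - un n k'| ≤ o h) ∧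
      ∑ h ∈ S.sph m, (o h) ^ 2 ≤ C) : OscBound S u := by
  intro R
  obtain ⟨C, hC⟩ := hsum R
  refine ⟨2 * C + 1, fun m => ?_⟩
  set O : G → ℝ := fun h => sSup ((fun p : Z × Z => |u p.1 - u p.2|) '' (S.Sh R h ×ˢ S.Sh R h))
    with hO
  have hbdd : ∀ h, BddAbove ((fun p : Z × Z => |u p.1 - u p.2|) '' (S.Sh R h ×ˢ S.Sh R h)) := by
    intro h
    refine ⟨2, ?_⟩
    rintro _ ⟨p, _, rfl⟩
    have h1 := hu p.1
    have h2 := hu p.2
    have h3 := abs_sub (u p.1) (u p.2)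
    show |u p.1 - u p.2| ≤ 2
    linarith
  refine ⟨O, fun h _ x hx y hy => le_csSup (hbdd h) ⟨(x, y), ⟨hx, hy⟩, rfl⟩, ?_⟩
  -- choose `η`
  set N : ℝ := ((S.sph m).card : ℝ) with hN
  have hN0 : 0 ≤ N := Nat.cast_nonneg _
  set η : ℝ := 1 / (4 * (N + 1)) with hη
  have hη0 : 0 < η := by positivity
  have hη1 : 8 * η ^ 2 * N ≤ 1 := by
    have e1 : η * (4 * (N + 1)) = 1 := by
      rw [hη]
      field_simp
    have e2 : η ≤ 1 / 4 := by
      rw [hη]
      apply one_div_le_one_div_of_le (by norm_num)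
      linarith
    nlinarith
  obtain ⟨n, ⟨o, ho1, ho2⟩, hn⟩ := ((hC m).and (hlim η hη0)).exists
  have key : ∀ h ∈ S.sph m, (O h) ^ 2 ≤ 2 * (o h) ^ 2 + 8 * η ^ 2 := by
    intro h hh
    rcases (S.Sh R h).eq_empty_or_nonempty with he | ⟨x0, hx0⟩
    · have : O h = 0 := by
        rw [hO]
        simp [he]
      rw [this]
      nlinarith [sq_nonneg (o h), sq_nonneg η]
    · have hle : O h ≤ |o h| + 2 * η := by
        refine csSup_le ⟨_, ⟨(x0, x0), ⟨hx0, hx0⟩, rfl⟩⟩ ?_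
        rintro _ ⟨p, ⟨hp1, hp2⟩, rfl⟩
        have a1 := hn (tile T n p.1) (tile_mem T n p.1) p.1 (mem_tile T n p.1)
        have a2 := hn (tile T n p.2) (tile_mem T n p.2) p.2 (mem_tile T n p.2)
        have a3 := ho1 h hh (tile T n p.1) (tile_mem T n p.1) (tile T n p.2) (tile_mem T n p.2)
          ⟨p.1, mem_tile T n p.1, hp1⟩ ⟨p.2, mem_tile T n p.2, hp2⟩
        have a4 := le_abs_self (o h)
        show |u p.1 - u p.2| ≤ |o h| + 2 * η
        have : u p.1 - u p.2 = -(un n (tile T n p.1) - u p.1) +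
            (un n (tile T n p.1) - un n (tile T n p.2)) + (un n (tile T n p.2) - u p.2) := by ring
        rw [this]
        refine (abs_add_three _ _ _).trans ?_
        rw [abs_neg]
        linarith
      have hO0 : 0 ≤ O h := by
        refine le_csSup_of_le (hbdd h) ⟨(x0, x0), ⟨hx0, hx0⟩, rfl⟩ ?_
        show (0 : ℝ) ≤ |u x0 - u x0|
        exact abs_nonneg _
      have h0 := abs_nonneg (o h)
      have hsq : |o h| ^ 2 = (o h) ^ 2 := sq_abs _
      nlinarith [sq_nonneg (|o h| - 2 * η)]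
  calc ∑ h ∈ S.sph m, (O h) ^ 2 ≤ ∑ h ∈ S.sph m, (2 * (o h) ^ 2 + 8 * η ^ 2) :=
        Finset.sum_le_sum key
    _ = 2 * ∑ h ∈ S.sph m, (o h) ^ 2 + 8 * η ^ 2 * N := by
        rw [Finset.sum_add_distrib, ← Finset.mul_sum, Finset.sum_const, nsmul_eq_mul]
        ring
    _ ≤ 2 * C + 1 := by linarith

end Crest.Agent.R193.F_Lim
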