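import Crest.Agent.R193.F_Ring

/-!
R193 block F (helper283): discrete Courant-Lebesgue loops.
-/

set_option autoImplicit false

open Set Filter Topology Metric

namespace Crest.Agent.R193.F_Loop

open Crest.Agent.R193 Crest.Agent.R193.F_Sep1 Crest.Agent.R193.F_Sep2 Crest.Agent.R193.F_Sep3
  Crest.Agent.R193.F_Ring Crest.Agent.R193.Planar

variable {G Z : Type} [Group G] [MetricSpace Z] [MulAction G Z] {S : Setup G Z}

/-- shadows are small -/
theorem dist_le_of_mem_Sh (S : Setup G Z) {R : ℝ} {h : G} {x y : Z} (hx : x ∈ S.Sh R h)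
    (hy : y ∈ S.Sh R h) : dist x y ≤ Real.exp (S.ε * (R + S.δ - S.len h)) := by
  have h1 : (S.len h : ℝ) - R ≤ S.s x h := hx
  have h2 : (S.len h : ℝ) - R ≤ S.s y h := hy
  refine (S.dist_le x y h).trans (Real.exp_le_exp.2 ?_)
  have := le_min h1 h2
  nlinarith [S.ε_pos]

/-- at large levels shadows have diameter `< η`. -/
theorem exists_level_small (S : Setup G Z) (R : ℝ) {η : ℝ} (hη : 0 < η) :
    ∃ n0 : ℕ, ∀ h : G, n0 ≤ S.len h → ∀ x ∈ S.Sh R h, ∀ y ∈ S.Sh R h, dist x y < η := by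
  obtain ⟨n0, hn0⟩ := exists_nat_gt (R + S.δ - Real.log η / S.ε)
  refine ⟨n0, fun h hh x hx y hy => (dist_le_of_mem_Sh S hx hy).trans_lt ?_⟩
  rw [← Real.lt_log_iff_exp_lt hη]
  have h1 : (n0 : ℝ) ≤ S.len h := by exact_mod_cast hh
  have h2 : R + S.δ - S.len h < Real.log η / S.ε := by linarith
  rw [lt_div_iff₀ S.ε_pos] at h2
  linarith

/-- intersecting tiles of the same level are close in the group -/
theorem len_le_of_adj (T : Tiles S) {n : ℕ} {h h' : G} (hh : S.len h = n) (hh' : S.len h' = n)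
    (hadj : (T.U h ∩ T.U h').Nonempty) : (S.len (h⁻¹ * h') : ℝ) ≤ 2 * T.R + 2 * S.δ := by
  obtain ⟨z, hz, hz'⟩ := hadj
  have h1 : (S.len h : ℝ) - T.R ≤ S.s z h := T.sub h hz
  have h2 : (S.len h' : ℝ) - T.R ≤ S.s z h' := T.sub h' hz'
  have h3 := S.hyp_s2 z h h'
  rw [hh] at h1; rw [hh'] at h2
  have h4 : (n : ℝ) - T.R - S.δ ≤ gpOf S.len h h' := by
    have := le_min h1 h2; linarith
  have h5 : gpOf S.len h h' = ((S.len h : ℝ) + S.len h' - S.len (h⁻¹ * h')) / 2 := rfl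
  rw [h5, hh, hh'] at h4
  linarith

/-- the closed square annulus `1 ≤ |p| ≤ 2` of a chart -/
def Ann (ψ : Chart Z) : Set Z := ψ.f '' (closedBall 0 2 \ ball 0 1)

/-- the open square annulus `1/2 < |p| < 3` of a chart -/
def Ann' (ψ : Chart Z) : Set Z := ψ.f '' (ball 0 3 \ closedBall 0 (1/2))

/-- closure of the complement of `D 1` and of `E 2`. -/
theorem closure_inter_sub_Ann (ψ : Chart Z) :
    closure (ψ.D 1)ᶜ ∩ closure (ψ.E 2)ᶜ ⊆ Ann ψ := by
  rintro z ⟨h1, h2⟩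
  obtain ⟨p, hp, rfl⟩ := closure_compl_E ψ 2 h2
  refine ⟨p, ⟨hp, fun hp1 => ?_⟩, rfl⟩
  have h3 : ψ.f '' ball 0 1 ∈ 𝓝 (ψ.f p) := (ψ.emb.isOpenMap _ isOpen_ball).mem_nhds ⟨p, hp1, rfl⟩
  obtain ⟨w, hw1, hw2⟩ := mem_closure_iff_nhds.1 h1 _ h3
  exact hw2 (image_mono ball_subset_closedBall hw1)

/-- tiles of large level meeting `Ann` are inside `Ann'`; the same for every point of the shadow. -/
theorem exists_level_Ann (S : Setup G Z) (ψ : Chart Z) (R : ℝ) :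
    ∃ n0 : ℕ, ∀ h : G, n0 ≤ S.len h → (S.Sh R h ∩ Ann ψ).Nonempty → S.Sh R h ⊆ Ann' ψ := by
  obtain ⟨η, hη, hcl⟩ := CHx.exists_close ψ (isCompact_closedBall (0 : ℝ × ℝ) 2)
    (ε0 := 1/2) (by norm_num)
  obtain ⟨n0, hn0⟩ := exists_level_small S R hη
  refine ⟨n0, fun h hh ⟨w, hw, ⟨p, hp, hpw⟩⟩ z hz => ?_⟩
  subst hpw
  obtain ⟨x', rfl, hx'⟩ := hcl p hp.1 z (hn0 h hh z hz _ hw)
  refine ⟨x', ⟨?_, ?_⟩, rfl⟩
  · have h1 := hp.1
    rw [mem_closedBall] at h1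
    rw [mem_ball]
    have := dist_triangle x' p 0
    linarith
  · have h1 := hp.2
    rw [mem_ball, not_lt] at h1
    rw [mem_closedBall, not_le]
    have := dist_triangle p x' 0
    rw [dist_comm p x'] at this
    linarith

theorem not_mem_D_of_Ann' {ψ : Chart Z} {z : Z} (hz : z ∈ Ann' ψ) : z ∉ ψ.D (1/2) := by
  obtain ⟨p, hp, rfl⟩ := hz
  rintro ⟨q, hq, hqp⟩
  rw [ψ.emb.injective hqp] at hq
  exact hp.2 hq

theorem not_mem_E_of_Ann' {ψ : Chart Z} {z : Z} (hz : z ∈ Ann' ψ) : z ∉ ψ.E 3 := by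
  obtain ⟨p, hp, rfl⟩ := hz
  intro h
  exact h ⟨p, hp.1, rfl⟩

omit [Group G] in
/-- `|f h - f h'| ≤ ∑ w` over a graph-connected family -/
theorem osc_le_of_famConn {X : Type} [TopologicalSpace X] {U : G → Set X} {c : Finset G}
    (hc : FamConn U c) (f w : G → ℝ) (hw : ∀ h ∈ c, 0 ≤ w h)
    (hfw : ∀ h ∈ c, ∀ h' ∈ c, (U h ∩ U h').Nonempty → |f h - f h'| ≤ w h) :
    ∀ a ∈ c, ∀ b ∈ c, f b - f a ≤ ∑ h ∈ c, w h := by
  classical
  intro a ha b hb
  by_contra hcon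
  push Not at hcon
  -- every level between `f a` and `f b` is hit
  have hcov : Ioo (f a) (f b) ⊆ ⋃ h ∈ c, Icc (f h) (f h + w h) := by
    intro t ht
    set d : Finset G := c.filter fun h => f h < t with hd
    obtain ⟨h, hh, h', hh', hnot, hadj⟩ := hc d (Finset.filter_subset _ _)
      ⟨a, by rw [hd, Finset.mem_filter]; exact ⟨ha, ht.1⟩⟩ (by
        intro h
        have : b ∈ d := by rw [h]; exact hb
        rw [hd, Finset.mem_filter] at this
        linarith [ht.2, this.2])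
    rw [hd, Finset.mem_filter] at hh hnot
    push Not at hnot
    have h1 := hfw h hh.1 h' hh' hadj
    have h2 := hnot hh'
    simp only [mem_iUnion, exists_prop]
    exact ⟨h, hh.1, hh.2.le, by linarith [(abs_le.1 h1).1]⟩
  have hvol := MeasureTheory.measure_mono (μ := MeasureTheory.volume) hcov
  rw [Real.volume_Ioo] at hvol
  have h2 := hvol.trans (MeasureTheory.measure_biUnion_finset_le c _)
  simp only [Real.volume_Icc, add_sub_cancel_left] at h2
  rw [← ENNReal.ofReal_sum_of_nonneg (fun h hh => hw h hh)] at h2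
  have h3 := (ENNReal.ofReal_le_ofReal_iff (Finset.sum_nonneg fun h hh => hw h hh)).1 h2
  linarith

/-- **Discrete Courant-Lebesgue loop.** -/
theorem exists_loop (T : Tiles S) (Φ : Z ≃ₜ S2) (ψ : Chart Z) :
    ∃ n0 : ℕ, ∀ n, n0 ≤ n → ∀ L : ℝ, 0 ≤ L → SepBound T n (ψ.D 1) (ψ.E 2) L → ∀ w : G → ℝ,
      (∀ h, 0 ≤ w h) → ∃ A : Finset G, A ⊆ S.sph n ∧ FamConn T.U A ∧ IsConnected (T.un A) ∧
        (∀ h ∈ A, (T.U h ∩ Ann ψ).Nonempty) ∧ T.un A ⊆ Ann' ψ ∧
        Separates (T.un A) (ψ.D (1/2)) (ψ.E 3) ∧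
        ∀ w' : G → ℝ, (∀ h ∈ S.sph n, 0 ≤ w' h) →
          (∀ h ∈ S.sph n, (T.U h ∩ Ann ψ).Nonempty → w h ^ 2 ≤ w' h) →
          (∑ h ∈ A, w h) ^ 2 ≤ L * ∑ h ∈ S.sph n, w' h := by
  classical
  have := locallyPathConnectedSpace_of_homeo Φ
  have hconn : ConnectedSpace Z := by
    have := S2_connected
    exact Φ.symm.surjective.connectedSpace Φ.symm.continuous
  have hX : Splits Z := splits_S2.of_homeo Φ
  obtain ⟨n0, hn0⟩ := exists_level_Ann S ψ T.R
  refine ⟨n0, fun n hn L hL0 hL w hw => ?_⟩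
  obtain ⟨A0, hA0, hsep, hsum⟩ := hL (fun h => if (T.U h ∩ Ann ψ).Nonempty then w h else 0)
    (fun h => by split_ifs; exact hw h; exact le_rfl)
  set A1 : Finset G := A0.filter fun h => (T.U h ∩ Ann ψ).Nonempty with hA1
  -- `un A1` separates
  have hD1 : IsClosed (ψ.D 1) := ((isCompact_closedBall _ _).image ψ.emb.continuous).isClosed
  have hsep1 : Separates (T.un A1) (ψ.D 1) (ψ.E 2) := by
    have h1 := separates_inter_closure (isClosed_un T A0) (isClosed_E ψ 2)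
      (disjoint_D_E ψ one_lt_two) hsep
    have h2 : Separates (T.un A0 ∩ closure (ψ.E 2)ᶜ) (ψ.E 2) (ψ.D 1) := fun c hc h h' => h1 c hc h' h
    have h3 := separates_inter_closure ((isClosed_un T A0).inter isClosed_closure) hD1
      (disjoint_D_E ψ one_lt_two).symm h2
    intro c hc h h'
    obtain ⟨z, hzc, ⟨⟨hz1, hz2⟩, hz3⟩⟩ := h3 c hc h' h
    refine ⟨z, hzc, ?_⟩
    simp only [Tiles.un, mem_iUnion, exists_prop] at hz1 ⊢
    obtain ⟨g, hg, hzg⟩ := hz1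
    exact ⟨g, by rw [hA1, Finset.mem_filter]; exact ⟨hg, z, hzg, closure_inter_sub_Ann ψ ⟨hz3, hz2⟩⟩,
      hzg⟩
  have hsub : ∀ h ∈ A1, T.U h ⊆ Ann' ψ := by
    intro h hh
    rw [hA1, Finset.mem_filter] at hh
    have hlen : S.len h = n := mem_sph.1 (hA0 hh.1)
    exact (T.sub h).trans (hn0 h (by omega) (hh.2.mono (inter_subset_inter_left _ (T.sub h))))
  have hun : (⋃ i ∈ A1, T.U i) ⊆ Ann' ψ := iUnion₂_subset hsub
  have hDne : (ψ.D (1/2)).Nonempty := ⟨ψ.f 0, 0, mem_closedBall_self (by norm_num), rfl⟩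
  have hEne : (ψ.E 3).Nonempty := by
    refine ⟨ψ.f (3, 0), ?_⟩
    rintro ⟨q, hq, hqp⟩
    rw [ψ.emb.injective hqp, mem_ball] at hq
    have : dist ((3 : ℝ), (0 : ℝ)) (0 : ℝ × ℝ) = 3 := by
      rw [Prod.dist_eq]; simp
    linarith
  have hsub1 : ψ.D (1/2) ⊆ ψ.D 1 := image_mono (closedBall_subset_closedBall (by norm_num))
  have hsub2 : ψ.E 3 ⊆ ψ.E 2 := compl_subset_compl.2 (image_mono (ball_subset_ball (by norm_num)))
  obtain ⟨c, hcA, hc1, hc2, hc3⟩ := hX.exists_connected_sep T.U T.isClosed A1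
    (fun i _ => (T.isConnected i).isPreconnected) (isPreconnected_D ψ (1/2))
    (isPreconnected_E ψ) hDne hEne
    (Set.disjoint_left.2 fun z hz hz2 => not_mem_D_of_Ann' (hun hz2) hz)
    (Set.disjoint_left.2 fun z hz hz2 => not_mem_E_of_Ann' (hun hz2) hz)
    (fun s hs h1 h2 => hsep1 s hs (h1.mono (inter_subset_inter_right _ hsub1))
      (h2.mono (inter_subset_inter_right _ hsub2)))
  refine ⟨c, hcA.trans ((Finset.filter_subset _ _).trans hA0), hc2, ⟨?_, hc3⟩, ?_, ?_, hc1, ?_⟩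
  · obtain ⟨z, -, hz⟩ := hc1 univ isPreconnected_univ (by simpa using hDne) (by simpa using hEne)
    exact ⟨z, hz⟩
  · intro h hh
    have := hcA hh
    rw [hA1, Finset.mem_filter] at this
    exact this.2
  · exact iUnion₂_subset fun h hh => hsub h (hcA hh)
  · intro w' hw' hww'
    have h1 : ∑ h ∈ c, w h ≤ ∑ h ∈ A0, (if (T.U h ∩ Ann ψ).Nonempty then w h else 0) := by
      rw [← Finset.sum_filter]
      exact Finset.sum_le_sum_of_subset_of_nonneg hcA fun h _ _ => hw h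
    have h0 : 0 ≤ ∑ h ∈ c, w h := Finset.sum_nonneg fun h _ => hw h
    calc (∑ h ∈ c, w h) ^ 2 ≤ (∑ h ∈ A0, (if (T.U h ∩ Ann ψ).Nonempty then w h else 0)) ^ 2 := by
          gcongr
      _ ≤ L * ∑ h ∈ S.sph n, (if (T.U h ∩ Ann ψ).Nonempty then w h else 0) ^ 2 := hsum
      _ ≤ L * ∑ h ∈ S.sph n, w' h := by
          gcongr with h hh
          split_ifs with h2
          · exact hww' h hh h2
          · simpa using hw' h hh

end Crest.Agent.R193.F_Loop
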