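import Crest.Agent.R193.F_Core

/-!
# R193, block F: exact statements of the interfaces F1-F5 (with sorry) and the assembly of
`F_main` from them (no sorry in the assembly `F_main_of`).
-/

set_option autoImplicit false

noncomputable section

open Set Filter Topology

namespace Crest.Agent.R193.F_Spec

open Crest.Agent.R193

variable {G Z : Type} [Group G] [MetricSpace Z] [MulAction G Z]

/-- F1 (route A or B): the invariant form. `hsep` = functions of class F separate points. -/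
def F1 (G Z : Type) [Group G] [MetricSpace Z] [MulAction G Z] : Prop :=
  ∀ [CompactSpace Z] (S : Setup G Z) (T : Tiles S),
    (∀ x y : Z, x ≠ y → ∃ u : C(Z, ℝ), OscBound S u ∧ u x ≠ u y) → Nonempty (FormCore T)

/-- F2 = F_CL (283): the field `CL` -/
def F2 (G Z : Type) [Group G] [MetricSpace Z] [MulAction G Z] : Prop :=
  ∀ (S : Setup G Z) (T : Tiles S) (_ : Z ≃ₜ S2)
    (_ : ∀ ψ : Chart Z, ∃ L : ℝ, ∀ n : ℕ, SepBound T n (ψ.D 1) (ψ.E 2) L) (Q : FormCore T),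
    ∃ lam C0 ρ0 : ℝ, 1 < lam ∧ 0 < C0 ∧ 0 < ρ0 ∧ CLProp Q.Dom Q.Γ lam C0 ρ0

/-- F3 = D1_main (584) -/
def F3 (G Z : Type) [Group G] [MetricSpace Z] [MulAction G Z] : Prop :=
  ∀ (S : Setup G Z) (T : Tiles S) (_ : Z ≃ₜ S2)
    (_ : ∀ ψ : Chart Z, ∃ L : ℝ, ∀ n : ℕ, SepBound T n (ψ.D 1) (ψ.E 2) L) (ψ : Chart Z),
    ∃ (u : C(Z, ℝ)) (un : ℕ → G → ℝ), IsPot T (ψ.D 1) (ψ.E 2) u un

/-- F4 = cutoff at all scales (291) -/
def F4 (G Z : Type) [Group G] [MetricSpace Z] [MulAction G Z] : Prop :=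
  ∀ (S : Setup G Z) (T : Tiles S) (_ : Z ≃ₜ S2) (Q : FormCore T)
    (_ : ∀ ψ : Chart Z, ∃ u ∈ Q.Dom, (∀ x ∈ ψ.D 1, u x = 1) ∧ (∀ x ∈ ψ.E 2, u x = 0) ∧
      ∀ x, 0 ≤ u x ∧ u x ≤ 1),
    ∃ lam C0 ρ0 : ℝ, 1 < lam ∧ 0 < C0 ∧ 0 < ρ0 ∧ CutProp Q.Dom Q.Γ lam C0 ρ0

/-- F5 = pair (781) -/
def F5 (G Z : Type) [Group G] [MetricSpace Z] [MulAction G Z] : Prop :=
  ∀ (S : Setup G Z) (T : Tiles S) (_ : Z ≃ₜ S2)
    (_ : ∀ ψ : Chart Z, ∃ (u : C(Z, ℝ)) (un : ℕ → G → ℝ), IsPot T (ψ.D 1) (ψ.E 2) u un),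
    ∃ (O K : Set Z) (u₁ u₂ : C(Z, ℝ)), IsOpen O ∧ IsCompact K ∧ K ⊆ O ∧
      OscBound S u₁ ∧ OscBound S u₂ ∧
      (∀ a b : ℝ, MonoOn (fun x => a * u₁ x + b * u₂ x) O) ∧
      (interior ((fun x => (u₁ x, u₂ x)) '' K)).Nonempty

/-- F6 = charts separate points (260: from `CHx.exists_family_small`) -/
def F6 (Z : Type) [MetricSpace Z] : Prop :=
  ∀ (_ : Z ≃ₜ S2) (x y : Z), x ≠ y → ∃ ψ : Chart Z, x ∈ ψ.D 1 ∧ y ∈ ψ.E 2

/-- ASSEMBLY of block F -/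
theorem F_main_of (h1 : F1 G Z) (h2 : F2 G Z) (h3 : F3 G Z) (h4 : F4 G Z)
    (h5 : F5 G Z) (h6 : F6 Z)
    (S : Setup G Z) (T : Tiles S) (Φ : Z ≃ₜ S2)
    (hM : ∀ ψ : Chart Z, ∃ L : ℝ, ∀ n : ℕ, SepBound T n (ψ.D 1) (ψ.E 2) L) :
    Nonempty (DForm S) := by
  have : CompactSpace S2 := isCompact_iff_compactSpace.1 (isCompact_sphere _ _)
  have : CompactSpace Z := Φ.symm.compactSpace
  have hpot := h3 S T Φ hM
  obtain ⟨Q⟩ := h1 S T (fun x y hxy => by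
    obtain ⟨ψ, hx, hy⟩ := h6 Φ x y hxy
    obtain ⟨u, un, hu⟩ := hpot ψ
    refine ⟨u, hu.osc, ?_⟩
    rw [hu.one x hx, hu.zero y hy]
    norm_num)
  obtain ⟨lam1, C1, ρ1, hlam1, hC1, hρ1, hCL⟩ := h2 S T Φ hM Q
  obtain ⟨lam2, C2, ρ2, hlam2, hC2, hρ2, hCut⟩ := h4 S T Φ Q (fun ψ => by
    obtain ⟨u, un, hu⟩ := hpot ψ
    exact ⟨u, Q.mem u hu.osc, hu.one, hu.zero, hu.bd⟩)
  obtain ⟨O, K, u₁, u₂, hO, hK, hKO, hu₁, hu₂, hmono, hint⟩ := h5 S T Φ hpot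
  refine ⟨{
    Dom := Q.Dom
    Γ := Q.Γ
    const_mem := Q.const_mem
    add_mem := Q.add_mem
    smul_mem := Q.smul_mem
    mul_mem := Q.mul_mem
    symm := Q.symm
    add_left := Q.add_left
    smul_left := Q.smul_left
    add_test := Q.add_test
    smul_test := Q.smul_test
    nonneg := Q.nonneg
    chain := Q.chain
    inv := Q.inv
    closed := Q.closed
    lam := max lam1 lam2
    one_lt_lam := lt_of_lt_of_le hlam1 (le_max_left _ _)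
    C0 := max C1 C2
    C0_pos := lt_of_lt_of_le hC1 (le_max_left _ _)
    ρ0 := min ρ1 ρ2
    ρ0_pos := lt_min hρ1 hρ2
    CL := ?_
    cutoff := ?_
    pair := ⟨O, K, u₁, u₂, hO, hK, hKO, Q.mem _ hu₁, Q.mem _ hu₂, hmono, hint⟩ }⟩
  · intro x ρ hρ hρle u hu φ hφ hφ1 η hη
    have hle : lam1 * ρ ≤ max lam1 lam2 * ρ := mul_le_mul_of_nonneg_right (le_max_left _ _) hρ.le
    obtain ⟨σ, hσc, hσ, hσ1, hσ2, hσ3⟩ := hCL x ρ hρ (hρle.trans (min_le_left _ _)) u hu φ hφ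
      (fun y hy1 hy2 => hφ1 y hy1 (hy2.trans hle)) η hη
    refine ⟨σ, hσc, hσ, fun y hy => ⟨(hσ1 y hy).1, (hσ1 y hy).2.trans_le hle⟩, ?_, ?_⟩
    · intro c hc hc1 hc2
      refine hσ2 c hc hc1 (hc2.mono (inter_subset_inter_right _ ?_))
      exact compl_subset_compl.2 (Metric.ball_subset_ball hle)
    · intro y hy z hz
      refine (hσ3 y hy z hz).trans ?_
      have := mul_le_mul_of_nonneg_right (le_max_left C1 C2) (Real.sqrt_nonneg (Q.Γ u u φ))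
      linarith
  · intro x ρ hρ hρle
    have hle : lam2 * ρ ≤ max lam1 lam2 * ρ := mul_le_mul_of_nonneg_right (le_max_right _ _) hρ.le
    obtain ⟨χ, hχ, hb, h1', h0, hE⟩ := hCut x ρ hρ (hρle.trans (min_le_right _ _))
    exact ⟨χ, hχ, hb, h1', fun y hy => h0 y (hle.trans hy), hE.trans (le_max_right _ _)⟩

end Crest.Agent.R193.F_Spec
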