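import Mathlib
import Crest.Agent.R193.AF8
import Crest.Agent.R193.S_Basic
import Crest.Agent.R193.F_Spec

/-!
R193, block F, statement F1: the invariant form, from the Gamma-limit construction (AF1-AF8).
(helper555)
-/

set_option autoImplicit false

namespace Crest.Agent.R193.F_One

open Filter Topology Crest.Agent.R193 Crest.Agent.R193.AF

section
variable {G Z : Type} [Group G] [TopologicalSpace Z] [MulAction G Z] {N : Net G Z}

/-- the domain as a subalgebra -/
def domAlg [CompactSpace Z] (N : Net G Z) : Subalgebra ℝ C(Z, ℝ) where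
  carrier := N.Dom
  mul_mem' := fun ha hb => Net.mul_mem ha hb
  add_mem' := fun ha hb => Net.add_mem ha hb
  algebraMap_mem' := fun r => Net.const_mem r

theorem dense_of_sep [CompactSpace Z] (hsep : ∀ x y : Z, x ≠ y → ∃ u ∈ N.Dom, u x ≠ u y)
    (φ : C(Z, ℝ)) {ε : ℝ} (hε : 0 < ε) : ∃ φ' ∈ N.Dom, ‖φ - φ'‖ ≤ ε := by
  have h1 : (domAlg N).SeparatesPoints := by
    intro x y hxy
    obtain ⟨u, hu, hne⟩ := hsep x y hxy
    exact ⟨u, ⟨u, hu, rfl⟩, hne⟩
  have h2 := ContinuousMap.subalgebra_topologicalClosure_eq_top_of_separatesPoints (domAlg N) h1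
  have h3 : φ ∈ (domAlg N).topologicalClosure := by rw [h2]; trivial
  have h4 : φ ∈ closure (N.Dom) := h3
  rw [Metric.mem_closure_iff] at h4
  obtain ⟨φ', hφ', hd⟩ := h4 ε hε
  exact ⟨φ', hφ', by rw [← dist_eq_norm]; exact hd.le⟩

/-- weak continuity with an arbitrary test function -/
theorem tendsto_Gam_zero [CompactSpace Z] (hsep : ∀ x y : Z, x ≠ y → ∃ u ∈ N.Dom, u x ≠ u y)
    {w : ℕ → C(Z, ℝ)} {C : ℝ} (hw : ∀ n, w n ∈ N.Dom) (hlim : Tendsto w atTop (𝓝 0))
    (hC : ∀ n, N.Gam (w n) (w n) 1 ≤ C) {v : C(Z, ℝ)} (hv : v ∈ N.Dom) (φ : C(Z, ℝ)) :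
    Tendsto (fun n => N.Gam (w n) v φ) atTop (𝓝 0) := by
  have hC0 : 0 ≤ C := (Net.Gam_nonneg (hw 0) fun x => by simp).trans (hC 0)
  have hnorm : Tendsto (fun n => ‖w n‖) atTop (𝓝 0) := by
    have := hlim.norm
    rwa [norm_zero] at this
  -- test functions in the domain
  have hdom : ∀ ψ ∈ N.Dom, Tendsto (fun n => N.Gam (w n) v ψ) atTop (𝓝 0) := by
    intro ψ hψ
    -- energies of ψ * w n are bounded
    have hB : ∃ B : ℝ, ∀ n, ‖w n‖ ≤ B := by
      obtain ⟨B, hB⟩ := hnorm.bddAbove_range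
      exact ⟨B, fun n => hB ⟨n, rfl⟩⟩
    obtain ⟨B, hB⟩ := hB
    have hB0 : 0 ≤ B := (norm_nonneg _).trans (hB 0)
    set E := N.Gam ψ ψ 1 with hE
    have hE0 : 0 ≤ E := Net.Gam_nonneg hψ fun x => by simp
    have hmul : ∀ n, w n * ψ ∈ N.Dom := fun n => Net.mul_mem (hw n) hψ
    have hexp : ∀ n, N.Gam (w n * ψ) (w n * ψ) 1 = N.Gam (w n) (w n) (ψ * ψ) +
        2 * N.Gam (w n) ψ (ψ * w n) + N.Gam ψ ψ (w n * w n) := by
      intro n
      rw [Net.Gam_mul (hw n) hψ (hmul n), Net.Gam_symm (w n), Net.Gam_symm ψ,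
        Net.Gam_mul (hw n) hψ (hw n), Net.Gam_mul (hw n) hψ hψ]
      simp only [one_mul]
      rw [Net.Gam_symm ψ (w n), mul_comm (w n) ψ]
      ring
    have hbd : ∀ n, N.Gam (w n * ψ) (w n * ψ) 1 ≤
        ‖ψ‖ ^ 2 * C + 2 * (‖ψ‖ * B * (Real.sqrt C * Real.sqrt E)) + B ^ 2 * E := by
      intro n
      rw [hexp n]
      have n1 : ‖ψ * ψ‖ ≤ ‖ψ‖ ^ 2 := by rw [sq]; exact norm_mul_le _ _
      have n2 : ‖ψ * w n‖ ≤ ‖ψ‖ * B :=
        (norm_mul_le _ _).trans (mul_le_mul_of_nonneg_left (hB n) (norm_nonneg _))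
      have n3 : ‖w n * w n‖ ≤ B ^ 2 := by
        rw [sq]
        exact (norm_mul_le _ _).trans (mul_le_mul (hB n) (hB n) (norm_nonneg _) hB0)
      have sC : Real.sqrt (N.Gam (w n) (w n) 1) ≤ Real.sqrt C := Real.sqrt_le_sqrt (hC n)
      have a1 : N.Gam (w n) (w n) (ψ * ψ) ≤ ‖ψ‖ ^ 2 * C := by
        refine (le_abs_self _).trans ((Net.abs_Gam_le (hw n) (hw n) _).trans ?_)
        have h0 : Real.sqrt (N.Gam (w n) (w n) 1) * Real.sqrt (N.Gam (w n) (w n) 1) ≤ C := by
          rw [Real.mul_self_sqrt (Net.Gam_nonneg (hw n) fun x => by simp)]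
          exact hC n
        exact mul_le_mul n1 h0 (by positivity) (by positivity)
      have a2 : N.Gam (w n) ψ (ψ * w n) ≤ ‖ψ‖ * B * (Real.sqrt C * Real.sqrt E) := by
        refine (le_abs_self _).trans ((Net.abs_Gam_le (hw n) hψ _).trans ?_)
        exact mul_le_mul n2 (mul_le_mul_of_nonneg_right sC (Real.sqrt_nonneg _))
          (by positivity) (by positivity)
      have a3 : N.Gam ψ ψ (w n * w n) ≤ B ^ 2 * E := by
        refine (le_abs_self _).trans ((Net.abs_Gam_le hψ hψ _).trans ?_)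
        rw [Real.mul_self_sqrt hE0]
        exact mul_le_mul_of_nonneg_right n3 hE0
      linarith
    set C' := ‖ψ‖ ^ 2 * C + 2 * (‖ψ‖ * B * (Real.sqrt C * Real.sqrt E)) + B ^ 2 * E with hC'
    have t1 : Tendsto (fun n => N.Gam (w n * ψ) v 1) atTop (𝓝 0) := by
      rw [Metric.tendsto_nhds]
      intro ε hε
      obtain ⟨δ, hδ, hδ'⟩ := Net.weak_one hv C' (show 0 < ε / 2 by linarith)
      have hsmall : Tendsto (fun n => ‖w n‖ * ‖ψ‖) atTop (𝓝 0) := by
        have := hnorm.mul_const ‖ψ‖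
        rwa [zero_mul] at this
      filter_upwards [hsmall.eventually (gt_mem_nhds hδ)] with n hn
      rw [Real.dist_eq, sub_zero]
      have := hδ' _ (hmul n) ((norm_mul_le _ _).trans hn.le) (hbd n)
      linarith
    have t2 : Tendsto (fun n => N.Gam ψ v (w n)) atTop (𝓝 0) := by
      have hs : Tendsto (fun n => ‖w n‖ * (Real.sqrt (N.Gam ψ ψ 1) * Real.sqrt (N.Gam v v 1)))
          atTop (𝓝 0) := by
        have := hnorm.mul_const (Real.sqrt (N.Gam ψ ψ 1) * Real.sqrt (N.Gam v v 1))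
        rwa [zero_mul] at this
      exact squeeze_zero_norm (fun n => by
        rw [Real.norm_eq_abs]; exact Net.abs_Gam_le hψ hv _) hs
    have t3 : ∀ n, N.Gam (w n) v ψ = N.Gam (w n * ψ) v 1 - N.Gam ψ v (w n) := by
      intro n
      rw [Net.Gam_mul (hw n) hψ hv]
      simp only [one_mul]
      ring
    have t4 := t1.sub t2
    rw [sub_zero] at t4
    exact t4.congr fun n => (t3 n).symm
  -- general test functions
  rw [Metric.tendsto_nhds]
  intro ε hε
  set M := Real.sqrt C * Real.sqrt (N.Gam v v 1) with hM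
  have hM0 : 0 ≤ M := by positivity
  obtain ⟨ψ, hψ, hψn⟩ := dense_of_sep hsep φ (show 0 < ε / (2 * (M + 1)) by positivity)
  have h1 := hdom ψ hψ
  rw [Metric.tendsto_nhds] at h1
  filter_upwards [h1 (ε / 2) (by linarith)] with n hn
  rw [Real.dist_eq, sub_zero] at hn ⊢
  have h2 : N.Gam (w n) v φ = N.Gam (w n) v ψ + N.Gam (w n) v (φ - ψ) := by
    rw [← Net.Gam_add_test (hw n) hv]
    congr 1
    ext x
    simp
  have h3 : |N.Gam (w n) v (φ - ψ)| ≤ ε / (2 * (M + 1)) * M := by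
    refine (Net.abs_Gam_le (hw n) hv _).trans ?_
    refine mul_le_mul hψn ?_ (by positivity) (by positivity)
    exact mul_le_mul_of_nonneg_right (Real.sqrt_le_sqrt (hC n)) (Real.sqrt_nonneg _)
  have h4 : ε / (2 * (M + 1)) * M ≤ ε / 2 := by
    rw [div_mul_eq_mul_div, div_le_div_iff₀ (by positivity) (by norm_num)]
    nlinarith
  rw [h2]
  exact (abs_add_le _ _).trans_lt (by linarith)

theorem closed_main [CompactSpace Z] (hsep : ∀ x y : Z, x ≠ y → ∃ u ∈ N.Dom, u x ≠ u y)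
    (u : ℕ → C(Z, ℝ)) (w : C(Z, ℝ)) (C : ℝ) (hu : ∀ n, u n ∈ N.Dom)
    (hlim : Tendsto u atTop (𝓝 w)) (hC : ∀ n, N.Gam (u n) (u n) 1 ≤ C) :
    w ∈ N.Dom ∧ ∀ v ∈ N.Dom, ∀ φ, Tendsto (fun n => N.Gam (u n) v φ) atTop (𝓝 (N.Gam w v φ)) := by
  have hw := Net.closed_mem (N := N) (w := w) (C := C) fun ε hε => by
    rw [Metric.tendsto_nhds] at hlim
    obtain ⟨n, hn⟩ := (hlim ε hε).exists
    exact ⟨u n, hu n, by rw [← dist_eq_norm]; exact hn.le, hC n⟩
  refine ⟨hw.1, fun v hv φ => ?_⟩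
  have h1 : ∀ n, u n - w ∈ N.Dom := fun n => Net.sub_mem (hu n) hw.1
  have h2 : Tendsto (fun n => u n - w) atTop (𝓝 0) := by
    have := hlim.sub_const w
    rwa [sub_self] at this
  have hC0 : 0 ≤ C := (Net.Gam_nonneg (hu 0) fun x => by simp).trans (hC 0)
  have h3 : ∀ n, N.Gam (u n - w) (u n - w) 1 ≤ 4 * C := by
    intro n
    rw [Net.Gam_sub_left (hu n) hw.1 (h1 n), Net.Gam_symm (u n), Net.Gam_symm w,
      Net.Gam_sub_left (hu n) hw.1 (hu n), Net.Gam_sub_left (hu n) hw.1 hw.1,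
      Net.Gam_symm w (u n)]
    have e1 := Net.abs_Gam_le (hu n) hw.1 (1 : C(Z, ℝ))
    have e2 : Real.sqrt (N.Gam (u n) (u n) 1) ≤ Real.sqrt C := Real.sqrt_le_sqrt (hC n)
    have e3 : Real.sqrt (N.Gam w w 1) ≤ Real.sqrt C := Real.sqrt_le_sqrt hw.2
    have e4 : Real.sqrt (N.Gam (u n) (u n) 1) * Real.sqrt (N.Gam w w 1) ≤ C := by
      refine (mul_le_mul e2 e3 (Real.sqrt_nonneg _) (Real.sqrt_nonneg _)).trans ?_
      rw [Real.mul_self_sqrt hC0]
    have e5 : ‖(1 : C(Z, ℝ))‖ ≤ 1 := by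
      refine (ContinuousMap.norm_le _ zero_le_one).mpr fun x => by simp
    have e6 : |N.Gam (u n) w 1| ≤ C :=
      e1.trans ((mul_le_mul e5 e4 (by positivity) zero_le_one).trans (by linarith))
    have e7 := (abs_le.mp e6).1
    linarith [hC n, hw.2]
  have h4 := tendsto_Gam_zero hsep h1 h2 h3 hv φ
  have h5 : ∀ n, N.Gam (u n) v φ = N.Gam (u n - w) v φ + N.Gam w v φ := fun n => by
    rw [Net.Gam_sub_left (hu n) hw.1 hv]; ring
  have h6 := h4.add_const (N.Gam w v φ)
  rw [zero_add] at h6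
  exact h6.congr fun n => (h5 n).symm

end

/-! ### from `Setup` to a `Net` -/

section
variable {G Z : Type} [Group G] [MetricSpace Z] [MulAction G Z]

/-- chosen boundary point in the shadow of `g` -/
noncomputable def pt (S : Setup G Z) (g : G) : Z := (S.star g).choose

theorem pt_spec (S : Setup G Z) (g : G) : (S.len g : ℝ) - S.δ ≤ S.s (pt S g) g :=
  (S.star g).choose_spec

theorem pt_mul_mem (S : Setup G Z) (h s : G) :
    (S.len h : ℝ) - (S.len s + 2 * S.δ) ≤ S.s (pt S (h * s)) h := by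
  have h1 := S.hyp_s1 (pt S (h * s)) (h * s) h
  have h2 := pt_spec S (h * s)
  have h3 : gpOf S.len (h * s) h = ((S.len (h * s) : ℝ) + S.len h - S.len s) / 2 := by
    unfold gpOf
    have : (h * s)⁻¹ * h = s⁻¹ := by group
    rw [this, S.len_inv]
  have h4 : (S.len h : ℝ) ≤ S.len (h * s) + S.len s := by
    have := S.len_mul (h * s) s⁻¹
    rw [mul_assoc, mul_inv_cancel, mul_one, S.len_inv] at this
    exact_mod_cast this
  have hδ := S.one_le_δ
  have hs : (0 : ℝ) ≤ S.len s := Nat.cast_nonneg _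
  have h5 : (S.len h : ℝ) - S.len s - S.δ ≤ min (S.s (pt S (h * s)) (h * s)) (gpOf S.len (h * s) h) := by
    refine le_min (by linarith) ?_
    rw [h3]
    linarith
  linarith

theorem exists_small (S : Setup G Z) (c : ℝ) {r : ℝ} (hr : 0 < r) :
    ∃ K : ℕ, ∀ n : ℕ, K ≤ n → Real.exp (-S.ε * (n - c)) < r := by
  have h1 : Tendsto (fun n : ℕ => Real.exp (-S.ε * ((n : ℝ) - c))) atTop (𝓝 0) := by
    refine Real.tendsto_exp_atBot.comp ?_
    have h2 : Tendsto (fun n : ℕ => ((n : ℝ) - c)) atTop atTop :=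
      tendsto_atTop_add_const_right _ (-c) tendsto_natCast_atTop_atTop
    exact h2.const_mul_atTop_of_neg (by linarith [S.ε_pos])
  obtain ⟨K, hK⟩ := eventually_atTop.mp (h1.eventually (gt_mem_nhds hr))
  exact ⟨K, fun n hn => hK n hn⟩

/-- the net of a `Setup` -/
noncomputable def net [CompactSpace Z] (S : Setup G Z) (st : Finset G) : Net G Z where
  len := S.len
  len_mul := S.len_mul
  len_inv := S.len_inv
  fin := S.finite_ball
  st := st
  p := pt S
  A1 := by
    intro s _ u ε hε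
    have hu : UniformContinuous u := CompactSpace.uniformContinuous_of_continuous u.continuous
    obtain ⟨r, hr, hr'⟩ := Metric.uniformContinuous_iff.mp hu ε hε
    obtain ⟨K, hK⟩ := exists_small S (S.len s + 3 * S.δ) hr
    refine ⟨K, fun h hh => ?_⟩
    have h1 := pt_spec S h
    have h2 := pt_mul_mem S h s
    have hδ := S.one_le_δ
    have hs : (0 : ℝ) ≤ S.len s := Nat.cast_nonneg _
    have h3 : dist (pt S h) (pt S (h * s)) < r := by
      refine (S.dist_le _ _ h).trans_lt (lt_of_le_of_lt ?_ (hK (S.len h) hh))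
      rw [Real.exp_le_exp]
      have h4 : (S.len h : ℝ) - (S.len s + 3 * S.δ) ≤
          min (S.s (pt S h) h) (S.s (pt S (h * s)) h) - S.δ := by
        have : (S.len h : ℝ) - (S.len s + 2 * S.δ) ≤ min (S.s (pt S h) h) (S.s (pt S (h * s)) h) :=
          le_min (by linarith) h2
        linarith
      have := mul_le_mul_of_nonneg_left h4 S.ε_pos.le
      linarith
    have h5 := hr' h3
    rw [Real.dist_eq] at h5
    exact h5.le
  A2 := by
    intro g u ε hε
    have hu : UniformContinuous u := CompactSpace.uniformContinuous_of_continuous u.continuous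
    obtain ⟨r, hr, hr'⟩ := Metric.uniformContinuous_iff.mp hu ε hε
    obtain ⟨K, hK⟩ := exists_small S (S.len g + 3 * S.δ) hr
    refine ⟨K, fun h hh => ?_⟩
    have h1 := pt_spec S h
    have h2 := pt_spec S (g * h)
    have hδ := S.one_le_δ
    have hg : (0 : ℝ) ≤ S.len g := Nat.cast_nonneg _
    have h6 := (abs_le.mp (S.cocycle (pt S h) h g)).1
    have h7 : S.s (pt S h) g⁻¹ ≤ S.len g := by
      have := S.s_le (pt S h) g⁻¹
      rwa [S.len_inv] at this
    have h8 : gpOf S.len h g⁻¹ ≤ S.len g := by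
      have := S_Basic.gp_le_right (S := S) h g⁻¹
      rw [S.len_inv] at this
      exact this
    have h9 : (S.len h : ℝ) ≤ S.len (g * h) + S.len g := by
      have := S.len_mul g⁻¹ (g * h)
      rw [inv_mul_cancel_left, S.len_inv] at this
      have h' : (S.len h : ℝ) ≤ S.len g + S.len (g * h) := by exact_mod_cast this
      linarith
    have h3 : dist (g • pt S h) (pt S (g * h)) < r := by
      refine (S.dist_le _ _ (g * h)).trans_lt (lt_of_le_of_lt ?_ (hK (S.len h) hh))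
      rw [Real.exp_le_exp]
      have h4 : (S.len h : ℝ) - (S.len g + 3 * S.δ) ≤
          min (S.s (g • pt S h) (g * h)) (S.s (pt S (g * h)) (g * h)) - S.δ := by
        have : (S.len h : ℝ) - (S.len g + 2 * S.δ) ≤
            min (S.s (g • pt S h) (g * h)) (S.s (pt S (g * h)) (g * h)) := by
          refine le_min ?_ (by linarith)
          linarith
        linarith
      have := mul_le_mul_of_nonneg_left h4 S.ε_pos.le
      linarith
    have h5 := hr' h3
    rw [Real.dist_eq] at h5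
    exact h5.le
  cont := S.cont

theorem sum_shI' (N : Net G Z) (n : ℕ) (sp : Finset G) (hsp : ∀ h, h ∈ sp ↔ N.len h = n)
    (F : G → G → ℝ) :
    ∑ i ∈ N.shI n, F i.1 i.2.1 = ∑ h ∈ sp, ∑ s ∈ N.st, F h s := by
  classical
  have h1 : N.shI n = sp ×ˢ (Finset.univ : Finset {s : G // s ∈ N.st}) := by
    ext i
    rw [Net.mem_shI, Finset.mem_product, hsp]
    simp only [Finset.mem_univ, and_true]
  rw [h1, Finset.sum_product]
  refine Finset.sum_congr rfl fun h _ => ?_
  exact Finset.sum_coe_sort N.st (fun s => F h s)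

theorem sum_shI [CompactSpace Z] (S : Setup G Z) (st : Finset G) (n : ℕ) (F : G → G → ℝ) :
    ∑ i ∈ (net S st).shI n, F i.1 i.2.1 = ∑ h ∈ S.sph n, ∑ s ∈ st, F h s :=
  sum_shI' (net S st) n (S.sph n) (fun h => by
    unfold Setup.sph
    rw [Set.Finite.mem_toFinset]
    rfl) F

theorem mem_of_oscBound [CompactSpace Z] (S : Setup G Z) (st : Finset G) {u : C(Z, ℝ)}
    (hu : OscBound S u) : u ∈ (net S st).Dom := by
  obtain ⟨c, hc⟩ := (net S st).exists_step_bound
  have hδ := S.one_le_δ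
  obtain ⟨C, hC⟩ := hu (c + 2 * S.δ)
  refine (Net.mem_of_shell (N := net S st) (f := fun h => u (pt S h)) (B := ‖u‖)
    (fun h => u.norm_coe_le_norm _)
    (fun η hη => ⟨0, fun h _ => by
      show |u (pt S h) - u (pt S h)| ≤ η
      rw [sub_self, abs_zero]; exact hη.le⟩) (C := st.card * C) fun n => ?_).1
  obtain ⟨o, ho, hoC⟩ := hC n
  have e1 : ∑ i ∈ (net S st).shI n, ((net S st).dd (fun h => u (pt S h)) i) ^ 2 =
      ∑ h ∈ S.sph n, ∑ s ∈ st, (u (pt S h) - u (pt S (h * s))) ^ 2 :=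
    sum_shI S st n (fun h s => (u (pt S h) - u (pt S (h * s))) ^ 2)
  rw [e1]
  have e2 : ∑ h ∈ S.sph n, ∑ s ∈ st, (u (pt S h) - u (pt S (h * s))) ^ 2 ≤
      ∑ h ∈ S.sph n, ∑ s ∈ st, o h ^ 2 := by
    refine Finset.sum_le_sum fun h hh => Finset.sum_le_sum fun s hs => ?_
    have hcs : ((net S st).len s : ℝ) ≤ c := by exact_mod_cast hc s hs
    have hcs' : (S.len s : ℝ) ≤ c := hcs
    have h0 : (0 : ℝ) ≤ c := Nat.cast_nonneg _
    have h1 : pt S h ∈ S.Sh (c + 2 * S.δ) h := by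
      have := pt_spec S h
      show (S.len h : ℝ) - (c + 2 * S.δ) ≤ S.s (pt S h) h
      linarith
    have h2 : pt S (h * s) ∈ S.Sh (c + 2 * S.δ) h := by
      have := pt_mul_mem S h s
      show (S.len h : ℝ) - (c + 2 * S.δ) ≤ S.s (pt S (h * s)) h
      linarith
    have h3 := ho h hh _ h1 _ h2
    rw [← sq_abs]
    exact pow_le_pow_left₀ (abs_nonneg _) h3 2
  refine e2.trans ?_
  simp only [Finset.sum_const, nsmul_eq_mul]
  rw [← Finset.mul_sum]
  exact mul_le_mul_of_nonneg_left hoC (Nat.cast_nonneg _)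

/-- F1 -/
theorem F1_main [CompactSpace Z] (S : Setup G Z) (T : Tiles S)
    (hsep : ∀ x y : Z, x ≠ y → ∃ u : C(Z, ℝ), OscBound S u ∧ u x ≠ u y) :
    Nonempty (FormCore T) := by
  classical
  let st : Finset G := S.bal ⌈2 * T.R + 2 * S.δ⌉₊
  have hsep' : ∀ x y : Z, x ≠ y → ∃ u ∈ (net S st).Dom, u x ≠ u y := fun x y hxy => by
    obtain ⟨u, hu, hne⟩ := hsep x y hxy
    exact ⟨u, mem_of_oscBound S st hu, hne⟩
  refine ⟨{
    Dom := (net S st).Dom
    Γ := (net S st).Gam
    const_mem := fun c => Net.const_mem c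
    add_mem := fun u hu v hv => Net.add_mem hu hv
    smul_mem := fun c u hu => Net.smul_mem c hu
    mul_mem := fun u hu v hv => Net.mul_mem hu hv
    symm := fun u _ v _ φ => Net.Gam_symm u v φ
    add_left := fun u hu u' hu' v hv φ => Net.Gam_add_left hu hu' hv φ
    smul_left := fun c u hu v hv φ => Net.Gam_smul_left c hu hv φ
    add_test := fun u hu v hv φ φ' => Net.Gam_add_test hu hv φ φ'
    smul_test := fun c u hu v hv φ => Net.Gam_smul_test c hu hv φ
    nonneg := fun u hu φ hφ => Net.Gam_nonneg hu hφ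
    chain := fun ψ hψ u hu v hv w' d1 d2 h1 h2 h3 => Net.Gam_chain hψ hu hv h1 h2 h3
    inv := fun g u v φ u' v' φ' hu hv h1 h2 h3 => Net.Gam_inv g hu hv h1 h2 h3
    closed := fun u w C hu hlim hC => closed_main hsep' u w C hu hlim hC
    mem := fun u hu => mem_of_oscBound S st hu
    p := pt S
    hp := pt_spec S
    S' := st
    hS' := ?_
    shell := ?_ }⟩
  · intro s hs
    show s ∈ S.bal _
    unfold Setup.bal
    rw [Set.Finite.mem_toFinset]
    show S.len s ≤ _
    have := Nat.le_ceil (2 * T.R + 2 * S.δ)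
    exact_mod_cast hs.trans this
  · intro u hu φ hφ η hη K
    obtain ⟨n, hn, f, hf, hsum⟩ := Net.exists_shell hu hφ hη K
    refine ⟨n, hn, f, fun h _ => hf h, ?_⟩
    have e1 := sum_shI S st n (fun h s => φ (pt S h) * (f h - f (h * s)) ^ 2)
    have e2 : ∑ h ∈ S.sph n, φ (pt S h) * ∑ s ∈ st, (f h - f (h * s)) ^ 2 =
        ∑ h ∈ S.sph n, ∑ s ∈ st, φ (pt S h) * (f h - f (h * s)) ^ 2 :=
      Finset.sum_congr rfl fun h _ => Finset.mul_sum _ _ _
    rw [e2, ← e1]
    exact hsum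

/-- F1 exactly as in `F_Spec` -/
theorem F1_spec (G Z : Type) [Group G] [MetricSpace Z] [MulAction G Z] : F_Spec.F1 G Z := by
  intro _ S T h
  exact F1_main S T h

end

end Crest.Agent.R193.F_One
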