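import Crest.Agent.R193.F_Defs
import Crest.Agent.R193.F_PotEx
import Crest.Agent.R193.F_Lim
import Crest.Agent.R193.F_Equi

/-!
# R193, block D1/F3 (helper321): existence of the limit potentials, from the sum estimate `HSum`
-/

set_option autoImplicit false

noncomputable section

open Set Filter Topology Metric
open scoped Classical

namespace Crest.Agent.R193.F_Three

open Crest.Agent.R193 Crest.Agent.R193.F_PotEx Crest.Agent.R193.F_Equi Crest.Agent.R193.D1_Top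

variable {G Z : Type} [Group G] [MetricSpace Z] [MulAction G Z] {S : Setup G Z} (T : Tiles S)

/-- the sum estimate (helper584's D1_Sum) -/
def HSum (ψ : Chart Z) : Prop :=
  ∀ C R : ℝ, ∃ C' : ℝ, ∀ m : ℕ, ∃ n0 : ℕ, ∀ n ≥ n0, ∀ f : G → ℝ,
    Pot T n (ψ.D 1) (ψ.E 2) f → En T n f ≤ C → ∃ o : G → ℝ,
      (∀ h ∈ S.sph m, ∀ k ∈ S.sph n, ∀ k' ∈ S.sph n, (T.U k ∩ S.Sh R h).Nonempty →
        (T.U k' ∩ S.Sh R h).Nonempty → |f k - f k'| ≤ o h) ∧
      ∑ h ∈ S.sph m, (o h) ^ 2 ≤ C'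

theorem two_points_D (ψ : Chart Z) : ∃ a ∈ ψ.D 1, ∃ b ∈ ψ.D 1, a ≠ b := by
  refine ⟨ψ.f 0, ⟨0, by simp, rfl⟩, ψ.f (1, 0), ⟨(1, 0), by simp, rfl⟩, fun h => ?_⟩
  have := ψ.emb.injective h
  simpa using congrArg Prod.fst this

theorem two_points_E (ψ : Chart Z) : ∃ a ∈ ψ.E 2, ∃ b ∈ ψ.E 2, a ≠ b := by
  refine ⟨ψ.f (2, 0), ?_, ψ.f (3, 0), ?_, fun h => ?_⟩
  · rintro ⟨p, hp, hpe⟩
    have := ψ.emb.injective hpe
    rw [this] at hp
    simp at hp
  · rintro ⟨p, hp, hpe⟩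
    have := ψ.emb.injective hpe
    rw [this, mem_ball, dist_zero_right, Prod.norm_def] at hp
    simp at hp
    norm_num at hp
  · have := congrArg Prod.fst (ψ.emb.injective h)
    norm_num at this

theorem F3_of (Φ : Z ≃ₜ S2)
    (hM : ∀ ψ : Chart Z, ∃ L : ℝ, ∀ n : ℕ, SepBound T n (ψ.D 1) (ψ.E 2) L) (ψ : Chart Z)
    (hS : HSum T ψ) :
    ∃ (u : C(Z, ℝ)) (un : ℕ → G → ℝ), IsPot T (ψ.D 1) (ψ.E 2) u un := by
  have := locallyPathConnected Φ
  have := preconnected Φ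
  have := compact Φ
  obtain ⟨L, hL⟩ := hM ψ
  obtain ⟨C, N, hN⟩ := exists_pot T (isCompact_D ψ 1) ⟨_, (two_points_D ψ).choose_spec.1⟩
    (isClosed_E ψ 2) (disjoint_D_E ψ (by norm_num)) hL
  set un : ℕ → G → ℝ := fun n => if h : N ≤ n then (hN n h).choose else fun _ => 0 with hun
  have hunN : ∀ n, N ≤ n → Pot T n (ψ.D 1) (ψ.E 2) (un n) ∧ En T n (un n) ≤ C := by
    intro n hn
    have := (hN n hn).choose_spec
    rw [hun]
    simp only [hn, dif_pos]
    exact this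
  have hbd : ∀ n h, |un n h| ≤ 1 := by
    intro n h
    by_cases hn : N ≤ n
    · have := (hunN n hn).1.bd h
      rw [abs_of_nonneg this.1]
      exact this.2
    · rw [hun]
      simp [hn]
  have hle : ((hyperfilter ℕ : Filter ℕ)) ≤ atTop := Nat.hyperfilter_le_atTop
  have hequi : ∀ η > (0 : ℝ), ∃ r > (0 : ℝ), ∀ᶠ n in (hyperfilter ℕ : Filter ℕ),
      ∀ h ∈ S.sph n, ∀ h' ∈ S.sph n, ∀ x ∈ T.U h, ∀ y ∈ T.U h', dist x y < r →
        |un n h - un n h'| ≤ η := by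
    intro η hη
    obtain ⟨r, hr, n0, hn0⟩ := equi T Φ hM (isConnected_D ψ zero_le_one).isPreconnected
      (isPreconnected_E ψ two_pos) (two_points_D ψ) (two_points_E ψ) C hη
    refine ⟨r, hr, hle ?_⟩
    filter_upwards [eventually_ge_atTop (max n0 N)] with n hn
    have h1 := hunN n ((le_max_right _ _).trans hn)
    exact hn0 n ((le_max_left _ _).trans hn) (un n) h1.1 h1.2
  obtain ⟨u, hu⟩ := F_Lim.exists_limit T un hbd hequi
  have hval : ∀ (x : Z) (c : ℝ), (∀ n, N ≤ n → ∀ h ∈ S.sph n, x ∈ T.U h → un n h = c) →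
      u x = c := by
    intro x c hc
    by_contra hne
    have hpos : 0 < |u x - c| / 2 := half_pos (abs_pos.2 (sub_ne_zero.2 hne))
    obtain ⟨n, hn1, hn2⟩ := ((hu _ hpos).and (hle (eventually_ge_atTop N))).exists
    have h1 := hn1 (F_Lim.tile T n x) (F_Lim.tile_mem T n x) x (F_Lim.mem_tile T n x)
    rw [hc n hn2 _ (F_Lim.tile_mem T n x) (F_Lim.mem_tile T n x), abs_sub_comm] at h1
    linarith [abs_nonneg (u x - c)]
  have hubd : ∀ x, 0 ≤ u x ∧ u x ≤ 1 := by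
    intro x
    have key : ∀ η > (0 : ℝ), -η ≤ u x ∧ u x ≤ 1 + η := by
      intro η hη
      obtain ⟨n, hn1, hn2⟩ := ((hu η hη).and (hle (eventually_ge_atTop N))).exists
      have h1 := abs_le.1 (hn1 (F_Lim.tile T n x) (F_Lim.tile_mem T n x) x (F_Lim.mem_tile T n x))
      have h2 := (hunN n hn2).1.bd (F_Lim.tile T n x)
      constructor <;> linarith [h1.1, h1.2, h2.1, h2.2]
    constructor
    · refine le_of_forall_pos_le_add fun η hη => ?_
      linarith [(key η hη).1]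
    · exact le_of_forall_pos_le_add fun η hη => (key η hη).2
  refine ⟨u, un, ⟨hubd, ?_, ?_, ?_, hu, ?_⟩⟩
  · intro x hx
    exact hval x 1 fun n hn h hh hxh => (hunN n hn).1.one h hh ⟨x, hxh, hx⟩
  · intro x hx
    exact hval x 0 fun n hn h hh hxh => (hunN n hn).1.zero h hh ⟨x, hxh, hx⟩
  · exact hle ((eventually_ge_atTop N).mono fun n hn => (hunN n hn).1)
  · refine F_Lim.oscBound_of_lim T un u hu (fun x => ?_) ?_
    · rw [abs_of_nonneg (hubd x).1]
      exact (hubd x).2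
    · intro R
      obtain ⟨C', hC'⟩ := hS C R
      refine ⟨C', fun m => ?_⟩
      obtain ⟨n0, hn0⟩ := hC' m
      refine hle ((eventually_ge_atTop (max n0 N)).mono fun n hn => ?_)
      have h1 := hunN n ((le_max_right _ _).trans hn)
      exact hn0 n ((le_max_left _ _).trans hn) (un n) h1.1 h1.2

end Crest.Agent.R193.F_Three
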