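import Crest.Agent.R193.F_Pre
import Crest.Agent.R193.F_One
import Crest.Agent.R193.F_Three
import Crest.Agent.R193.D1_Sum

/-!
# R193, block F: `F_main`
-/

set_option autoImplicit false

noncomputable section

open Set Filter Topology Metric

namespace Crest.Agent.R193.F_Main

open Crest.Agent.R193

/-- BLOCK F (statement copied from `Spec.F_main`). -/
theorem F_main {G Z : Type} [Group G] [MetricSpace Z] [MulAction G Z]
    (S : Setup G Z) (T : Tiles S) (Φ : Z ≃ₜ S2)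
    (hM : ∀ ψ : Chart Z, ∃ L : ℝ, ∀ n : ℕ, SepBound T n (ψ.D 1) (ψ.E 2) L) :
    Nonempty (DForm S) := by
  refine F_Pre.F_main_pre (F_One.F1_spec G Z) ?_ S T Φ hM
  intro S T Φ hM ψ
  refine F_Three.F3_of T Φ hM ψ ?_
  intro C R
  obtain ⟨C', hC'⟩ := D1_Sum.hsum T Φ hM ψ C R
  refine ⟨C', fun m => ?_⟩
  obtain ⟨n0, hn0⟩ := hC' m
  exact ⟨n0, fun n hn f hf hen => hn0 n hn f hf hen⟩

end Crest.Agent.R193.F_Main
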