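import Mathlib
import Crest.Agent.R193.F_Defs
import Crest.Agent.R202.Miranda

/-!
# R193, block F5 (helper781): the initial pair

* `monoOn_of_limit`: uniform limits of discrete harmonic functions satisfy the maximum principle;
* `miranda_square`: Poincaré-Miranda on the square `[0,1]²`;
* `Chart.translate`, `exists_chart`;
* `pair_of_potentials`: two functions `u₁` (=1 on the left of `χ.Q`, =0 on the right),
  `u₂` (=1 bottom, =0 top), all of whose linear combinations are limits of discrete functions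
  harmonic inside `χ.Qo`, give the field `pair` of `DForm`.
-/

set_option autoImplicit false

noncomputable section

open Set Filter Topology Metric
open scoped Classical

namespace Crest.Agent.R193.F_Pair

open Crest.Agent.R193

variable {G Z : Type} [Group G] [MetricSpace Z] [MulAction G Z]

/-- the tiles of level `n` cover -/
lemma tiles_cover {S : Setup G Z} (T : Tiles S) (n : ℕ) (x : Z) : ∃ h ∈ S.sph n, x ∈ T.U h := by
  obtain ⟨g, hg, hs⟩ := S.ray x n
  refine ⟨g, ?_, T.cover g ?_⟩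
  · simp [Setup.sph, hg]
  · show (S.len g : ℝ) - S.δ ≤ S.s x g
    rw [hg]
    exact hs

/-- a preconnected set meeting an open set and its complement meets the frontier -/
lemma inter_frontier {X : Type*} [TopologicalSpace X] {D C : Set X} (hD : IsOpen D)
    (hC : IsPreconnected C) (h1 : (C ∩ D).Nonempty) (h2 : (C ∩ Dᶜ).Nonempty) :
    (C ∩ frontier D).Nonempty := by
  by_contra hcon
  rw [not_nonempty_iff_eq_empty] at hcon
  have hno : ∀ z ∈ C, z ∉ frontier D := fun z hz hz' => by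
    have : z ∈ C ∩ frontier D := ⟨hz, hz'⟩
    rw [hcon] at this
    exact this
  have hcl : ∀ z, z ∉ D → z ∉ frontier D → z ∈ (closure D)ᶜ := by
    intro z hz hzf hzc
    exact hzf ⟨hzc, by rw [hD.interior_eq]; exact hz⟩
  obtain ⟨z, hz⟩ := hC D (closure D)ᶜ hD isClosed_closure.isOpen_compl
    (fun z hz => by
      by_cases hzD : z ∈ D
      · exact Or.inl hzD
      · exact Or.inr (hcl z hzD (hno z hz)))
    h1 (by
      obtain ⟨z, hz, hzD⟩ := h2
      exact ⟨z, hz, hcl z hzD (hno z hz)⟩)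
  exact hz.2.2 (subset_closure hz.2.1)

/-- one-sided maximum principle for limits of discrete harmonic functions -/
lemma exists_le_frontier {S : Setup G Z} (T : Tiles S) [CompactSpace Z] [PreconnectedSpace Z]
    {ω : Filter ℕ} [ω.NeBot] {u : C(Z, ℝ)} {un : ℕ → G → ℝ} {D : Set Z} (hD : IsOpen D)
    (hDu : D ≠ univ)
    (hharm : ∀ᶠ n in ω, ∀ h ∈ S.sph n, (T.U h ∩ D).Nonempty →
      HarmAt T n (un n) h)
    (hlim : ∀ η > (0 : ℝ), ∀ᶠ n in ω, ∀ h ∈ S.sph n, ∀ y ∈ T.U h, |un n h - u y| ≤ η)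
    {x : Z} (hx : x ∈ D) : ∃ y ∈ frontier D, u x ≤ u y := by
  classical
  -- the frontier is nonempty
  have hfr : (frontier D).Nonempty := by
    rw [nonempty_iff_ne_empty]
    intro h
    have : IsClopen D := isClopen_iff_frontier_eq_empty.2 h
    rcases isClopen_iff.1 this with h' | h'
    · rw [h'] at hx
      exact hx
    · exact hDu h'
  obtain ⟨y0, hy0, hmax⟩ := isClosed_frontier.isCompact.exists_isMaxOn hfr
    (u.continuous.continuousOn (s := frontier D))
  by_contra hcon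
  push Not at hcon
  have hlt : u y0 < u x := hcon y0 hy0
  set η := (u x - u y0) / 4 with hη
  have hηp : 0 < η := by rw [hη]; linarith
  obtain ⟨n, hn1, hn2⟩ := (hharm.and (hlim η hηp)).exists
  -- the finite set of tiles meeting `D`
  set W := (S.sph n).filter (fun h => (T.U h ∩ D).Nonempty) with hW
  obtain ⟨h0, hh0, hxh0⟩ := tiles_cover T n x
  have hh0W : h0 ∈ W := by
    rw [hW, Finset.mem_filter]
    exact ⟨hh0, x, hxh0, hx⟩
  obtain ⟨h1, hh1W, hh1max⟩ := W.exists_max_image (un n) ⟨h0, hh0W⟩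
  set m := un n h1 with hm
  have hmx : u x - η ≤ m := by
    have e1 := hh1max h0 hh0W
    have e2 := abs_le.1 (hn2 h0 hh0 x hxh0)
    linarith [e2.1]
  -- no tile with value `m` meeting `D` meets the frontier
  have hnofr : ∀ h ∈ W, un n h = m → ∀ y ∈ T.U h, y ∉ frontier D := by
    intro h hhW hhm y hy hyf
    have e1 : u y ≤ u y0 := hmax hyf
    have e2 := abs_le.1 (hn2 h (Finset.mem_filter.1 hhW).1 y hy)
    have : 0 < η := hηp
    rw [hhm] at e2
    have e3 : u x - u y0 = 4 * η := by rw [hη]; ring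
    linarith [e2.2]
  -- so such a tile is contained in `D`
  have hsub : ∀ h ∈ W, un n h = m → T.U h ⊆ D := by
    intro h hhW hhm
    by_contra hns
    rw [not_subset] at hns
    obtain ⟨z, hz1, hz2⟩ := hns
    have hpre : IsPreconnected (T.U h) := (T.isConnected h).isPreconnected
    have := inter_frontier hD hpre (Finset.mem_filter.1 hhW).2 ⟨z, hz1, hz2⟩
    obtain ⟨y, hy1, hy2⟩ := this
    exact hnofr h hhW hhm y hy1 hy2
  -- all neighbours have value `m` and meet `D`
  have hnb : ∀ h ∈ W, un n h = m → ∀ h' ∈ S.sph n, (T.U h ∩ T.U h').Nonempty →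
      h' ∈ W ∧ un n h' = m := by
    intro h hhW hhm
    have hW' : ∀ h' ∈ S.sph n, (T.U h ∩ T.U h').Nonempty → h' ∈ W := by
      intro h' hh' hne
      rw [hW, Finset.mem_filter]
      obtain ⟨z, hz1, hz2⟩ := hne
      exact ⟨hh', z, hz2, hsub h hhW hhm hz1⟩
    have hsum := hn1 h (Finset.mem_filter.1 hhW).1 (Finset.mem_filter.1 hhW).2
    intro h' hh' hne
    refine ⟨hW' h' hh' hne, ?_⟩
    have hnonpos : ∀ k ∈ (S.sph n).filter (fun h' => T.adj h h'),
        un n k - un n h ≤ 0 := by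
      intro k hk
      rw [Finset.mem_filter] at hk
      have := hh1max k (hW' k hk.1 hk.2)
      rw [hhm]
      linarith
    have := (Finset.sum_eq_zero_iff_of_nonpos hnonpos).1 hsum h' (by
      rw [Finset.mem_filter]
      exact ⟨hh', hne⟩)
    linarith [hhm]
  -- the union of these tiles is clopen
  set W' := W.filter (fun h => un n h = m) with hW'
  set A : Set Z := ⋃ h ∈ W', T.U h with hA
  have hAc : IsClosed A := isClosed_biUnion_finset fun h _ => T.isClosed h
  set B : Set Z := ⋃ h ∈ (S.sph n) \ W', T.U h with hB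
  have hBc : IsClosed B := isClosed_biUnion_finset fun h _ => T.isClosed h
  have hdis : Disjoint A B := by
    rw [disjoint_left]
    intro z hzA hzB
    rw [hA, mem_iUnion₂] at hzA
    rw [hB, mem_iUnion₂] at hzB
    obtain ⟨h, hh, hzh⟩ := hzA
    obtain ⟨k, hk, hzk⟩ := hzB
    rw [hW', Finset.mem_filter] at hh
    rw [Finset.mem_sdiff] at hk
    have := hnb h hh.1 hh.2 k hk.1 ⟨z, hzh, hzk⟩
    exact hk.2 (by rw [hW', Finset.mem_filter]; exact this)
  have hcov : A ∪ B = univ := by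
    rw [eq_univ_iff_forall]
    intro z
    obtain ⟨h, hh, hzh⟩ := tiles_cover T n z
    by_cases hhW : h ∈ W'
    · exact Or.inl (mem_iUnion₂.2 ⟨h, hhW, hzh⟩)
    · exact Or.inr (mem_iUnion₂.2 ⟨h, Finset.mem_sdiff.2 ⟨hh, hhW⟩, hzh⟩)
  have hAo : IsOpen A := by
    have : A = Bᶜ := by
      apply Subset.antisymm
      · exact fun z hz hz' => disjoint_left.1 hdis hz hz'
      · intro z hz
        rcases (eq_univ_iff_forall.1 hcov z) with h | h
        · exact h
        · exact absurd h hz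
    rw [this]
    exact hBc.isOpen_compl
  have hh1W' : h1 ∈ W' := by
    rw [hW', Finset.mem_filter]
    exact ⟨hh1W, rfl⟩
  obtain ⟨z1, hz1⟩ := (T.isConnected h1).nonempty
  have hAne : A.Nonempty := ⟨z1, mem_iUnion₂.2 ⟨h1, hh1W', hz1⟩⟩
  have hAu : A = univ := by
    rcases isClopen_iff.1 ⟨hAc, hAo⟩ with h | h
    · rw [h] at hAne
      exact absurd hAne Set.not_nonempty_empty
    · exact h
  -- contradiction at a frontier point
  have : y0 ∈ A := by rw [hAu]; trivial
  rw [hA, mem_iUnion₂] at this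
  obtain ⟨h, hh, hyh⟩ := this
  rw [hW', Finset.mem_filter] at hh
  exact hnofr h hh.1 hh.2 y0 hyh hy0

/-- **limits of discrete harmonic functions are monotone in the sense of Lebesgue** -/
theorem monoOn_of_limit {S : Setup G Z} (T : Tiles S) [CompactSpace Z] [PreconnectedSpace Z]
    {ω : Filter ℕ} [ω.NeBot] {u : C(Z, ℝ)} {un : ℕ → G → ℝ} {O : Set Z} (hO : O ≠ univ)
    (hharm : ∀ K : Set Z, IsCompact K → K ⊆ O → ∀ᶠ n in ω, ∀ h ∈ S.sph n,
      (T.U h ∩ K).Nonempty →
      HarmAt T n (un n) h)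
    (hlim : ∀ η > (0 : ℝ), ∀ᶠ n in ω, ∀ h ∈ S.sph n, ∀ y ∈ T.U h, |un n h - u y| ≤ η) :
    MonoOn u O := by
  intro D hD _ hDO x hx
  have hDu : D ≠ univ := by
    rintro rfl
    exact hO (univ_subset_iff.1 (subset_closure.trans hDO))
  have hh1 : ∀ᶠ n in ω, ∀ h ∈ S.sph n, (T.U h ∩ D).Nonempty →
      HarmAt T n (un n) h := by
    filter_upwards [hharm (closure D) isClosed_closure.isCompact hDO] with n hn h hh hne
    exact hn h hh (hne.mono (inter_subset_inter_right _ subset_closure))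
  refine ⟨exists_le_frontier T hD hDu hh1 hlim hx, ?_⟩
  have hh2 : ∀ᶠ n in ω, ∀ h ∈ S.sph n, (T.U h ∩ D).Nonempty →
      HarmAt T n ((fun n h => - un n h) n) h := by
    filter_upwards [hh1] with n hn h hh hne
    have := hn h hh hne
    have e : ∀ h' ∈ (S.sph n).filter (fun h' => T.adj h h'),
        ((fun n h => - un n h) n h' - (fun n h => - un n h) n h) = - (un n h' - un n h) := by
      intro h' _
      simp only
      ring
    unfold HarmAt at this ⊢
    rw [Finset.sum_congr rfl e, Finset.sum_neg_distrib, this, neg_zero]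
  obtain ⟨y, hy, hle⟩ := exists_le_frontier T (u := -u) (un := fun n h => - un n h) hD hDu hh2
    (by
      intro η hη
      filter_upwards [hlim η hη] with n hn h hh y hy
      have := hn h hh y hy
      have e : (fun n h => - un n h) n h - (-u) y = -(un n h - u y) := by
        simp only [ContinuousMap.neg_apply]
        ring
      rw [e, abs_neg]
      exact this) hx
  refine ⟨y, hy, ?_⟩
  simp only [ContinuousMap.neg_apply] at hle
  linarith

/-! ### Poincaré-Miranda on the unit square -/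

/-- Poincaré-Miranda on `[0,1]²` in the form needed -/
theorem miranda_square {f1 f2 : ℝ × ℝ → ℝ}
    (hf1 : ContinuousOn f1 (Icc (0 : ℝ) 1 ×ˢ Icc (0 : ℝ) 1))
    (hf2 : ContinuousOn f2 (Icc (0 : ℝ) 1 ×ˢ Icc (0 : ℝ) 1))
    (h1l : ∀ t ∈ Icc (0 : ℝ) 1, f1 (0, t) = 1) (h1r : ∀ t ∈ Icc (0 : ℝ) 1, f1 (1, t) = 0)
    (h2b : ∀ t ∈ Icc (0 : ℝ) 1, f2 (t, 0) = 1) (h2t : ∀ t ∈ Icc (0 : ℝ) 1, f2 (t, 1) = 0)
    {a b : ℝ} (ha : a ∈ Icc (0 : ℝ) 1) (hb : b ∈ Icc (0 : ℝ) 1) :
    ∃ p ∈ Icc (0 : ℝ) 1 ×ˢ Icc (0 : ℝ) 1, f1 p = a ∧ f2 p = b := by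
  set q : (Fin 2 → ℝ) → ℝ × ℝ := fun x => ((x 0 + 1) / 2, (x 1 + 1) / 2) with hq
  have hqc : Continuous q := by
    rw [hq]
    fun_prop
  set Q : Set (Fin 2 → ℝ) := Set.pi Set.univ fun _ => Set.Icc (-1 : ℝ) 1 with hQ
  have hmaps : MapsTo q Q (Icc (0 : ℝ) 1 ×ˢ Icc (0 : ℝ) 1) := by
    intro x hx
    have h0 := hx 0 (mem_univ 0)
    have h1 := hx 1 (mem_univ 1)
    exact ⟨⟨by simp only [hq]; linarith [h0.1], by simp only [hq]; linarith [h0.2]⟩,
      ⟨by simp only [hq]; linarith [h1.1], by simp only [hq]; linarith [h1.2]⟩⟩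
  set f : (Fin 2 → ℝ) → Fin 2 → ℝ := fun x => ![a - f1 (q x), b - f2 (q x)] with hf
  have hcont : ContinuousOn f Q := by
    rw [continuousOn_pi]
    intro i
    fin_cases i
    · exact continuousOn_const.sub (hf1.comp hqc.continuousOn hmaps)
    · exact continuousOn_const.sub (hf2.comp hqc.continuousOn hmaps)
  obtain ⟨x, hx, hx0⟩ := R202.poincare_miranda f hcont
    (by
      intro x hx i hi
      have hm := hmaps hx
      fin_cases i
      · have e : q x = (1, (q x).2) := by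
          have hi' : x 0 = 1 := hi
          simp only [hq, hi', Prod.mk.injEq, and_true]
          norm_num
        have : f1 (q x) = 0 := by rw [e]; exact h1r _ hm.2
        show 0 ≤ a - f1 (q x)
        rw [this]
        linarith [ha.1]
      · have e : q x = ((q x).1, 1) := by
          have hi' : x 1 = 1 := hi
          simp only [hq, hi', Prod.mk.injEq, true_and]
          norm_num
        have : f2 (q x) = 0 := by rw [e]; exact h2t _ hm.1
        show 0 ≤ b - f2 (q x)
        rw [this]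
        linarith [hb.1])
    (by
      intro x hx i hi
      have hm := hmaps hx
      fin_cases i
      · have e : q x = (0, (q x).2) := by
          have hi' : x 0 = -1 := hi
          simp only [hq, hi', Prod.mk.injEq, and_true]
          norm_num
        have : f1 (q x) = 1 := by rw [e]; exact h1l _ hm.2
        show a - f1 (q x) ≤ 0
        rw [this]
        linarith [ha.2]
      · have e : q x = ((q x).1, 0) := by
          have hi' : x 1 = -1 := hi
          simp only [hq, hi', Prod.mk.injEq, true_and]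
          norm_num
        have : f2 (q x) = 1 := by rw [e]; exact h2b _ hm.1
        show b - f2 (q x) ≤ 0
        rw [this]
        linarith [hb.2])
  refine ⟨q x, hmaps hx, ?_, ?_⟩
  · have : a - f1 (q x) = 0 := hx0 0
    linarith
  · have : b - f2 (q x) = 0 := hx0 1
    linarith

/-! ### translated charts -/

/-- translate of a chart -/
def translate (χ : Chart Z) (v : ℝ × ℝ) : Chart Z where
  f := fun p => χ.f (p + v)
  emb := χ.emb.comp (Homeomorph.addRight v).isOpenEmbedding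

lemma mem_translate_D {χ : Chart Z} {v : ℝ × ℝ} {r : ℝ} {p : ℝ × ℝ} (h1 : |p.1 - v.1| ≤ r)
    (h2 : |p.2 - v.2| ≤ r) : χ.f p ∈ (translate χ v).D r := by
  refine ⟨p - v, ?_, ?_⟩
  · rw [mem_closedBall, dist_zero_right, Prod.norm_def]
    exact max_le (by simpa using h1) (by simpa using h2)
  · show χ.f (p - v + v) = χ.f p
    rw [sub_add_cancel]

lemma mem_translate_E {χ : Chart Z} {v : ℝ × ℝ} {r : ℝ} {p : ℝ × ℝ}
    (h : r ≤ |p.1 - v.1| ∨ r ≤ |p.2 - v.2|) : χ.f p ∈ (translate χ v).E r := by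
  rintro ⟨q, hq, hqp⟩
  have hqp' : q + v = p := χ.emb.injective hqp
  rw [mem_ball, dist_zero_right, Prod.norm_def, max_lt_iff] at hq
  rcases h with h | h
  · have : |p.1 - v.1| < r := by
      rw [← hqp']
      simpa using hq.1
    linarith
  · have : |p.2 - v.2| < r := by
      rw [← hqp']
      simpa using hq.2
    linarith

lemma notMem_translate_D {χ : Chart Z} {v : ℝ × ℝ} {r : ℝ} {p : ℝ × ℝ}
    (h : r < p.1 - v.1 ∨ r < p.2 - v.2) : χ.f p ∉ (translate χ v).D r := by
  rintro ⟨q, hq, hqp⟩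
  have hqp' : q + v = p := χ.emb.injective hqp
  rw [mem_closedBall, dist_zero_right, Prod.norm_def, max_le_iff] at hq
  rcases h with h | h
  · have : p.1 - v.1 = q.1 := by rw [← hqp']; simp
    rw [this] at h
    exact absurd ((le_abs_self _).trans hq.1) (not_le.2 h)
  · have : p.2 - v.2 = q.2 := by rw [← hqp']; simp
    rw [this] at h
    exact absurd ((le_abs_self _).trans hq.2) (not_le.2 h)

lemma notMem_translate_E {χ : Chart Z} {v : ℝ × ℝ} {r : ℝ} {p : ℝ × ℝ}
    (h1 : |p.1 - v.1| < r) (h2 : |p.2 - v.2| < r) : χ.f p ∉ (translate χ v).E r := by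
  intro h
  refine h ⟨p - v, ?_, ?_⟩
  · rw [mem_ball, dist_zero_right, Prod.norm_def]
    exact max_lt (by simpa using h1) (by simpa using h2)
  · show χ.f (p - v + v) = χ.f p
    rw [sub_add_cancel]

/-- tiles of high level are small -/
lemma tiles_small {S : Setup G Z} (T : Tiles S) {η : ℝ} (hη : 0 < η) :
    ∀ᶠ n in (atTop : Filter ℕ), ∀ h ∈ S.sph n, ∀ z ∈ T.U h, ∀ y ∈ T.U h, dist z y < η := by
  have hlim : Tendsto (fun n : ℕ => Real.exp (-S.ε * ((n : ℝ) - T.R - S.δ))) atTop (𝓝 0) := by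
    refine Real.tendsto_exp_atBot.comp ?_
    have h1 : Tendsto (fun n : ℕ => (n : ℝ) - T.R - S.δ) atTop atTop := by
      have : Tendsto (fun n : ℕ => (n : ℝ) + (- T.R - S.δ)) atTop atTop :=
        tendsto_atTop_add_const_right _ _ tendsto_natCast_atTop_atTop
      refine this.congr fun n => by ring
    exact h1.const_mul_atTop_of_neg (by linarith [S.ε_pos])
  filter_upwards [hlim.eventually (gt_mem_nhds hη)] with n hn h hh z hz y hy
  have hlen : S.len h = n := by simpa [Setup.sph] using hh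
  have hz' : (S.len h : ℝ) - T.R ≤ S.s z h := T.sub h hz
  have hy' : (S.len h : ℝ) - T.R ≤ S.s y h := T.sub h hy
  refine lt_of_le_of_lt (S.dist_le z y h) (lt_of_le_of_lt ?_ hn)
  apply Real.exp_le_exp.2
  rw [hlen] at hz' hy'
  have hmin : (n : ℝ) - T.R ≤ min (S.s z h) (S.s y h) := le_min hz' hy'
  have := S.ε_pos
  nlinarith [mul_le_mul_of_nonneg_left hmin this.le]

/-- the first chart of the pair -/
abbrev ch1 (χ : Chart Z) : Chart Z := translate χ (-1, 1 / 2)
/-- the second chart of the pair -/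
abbrev ch2 (χ : Chart Z) : Chart Z := translate χ (1 / 2, -1)

/-- **the initial pair** -/
theorem pair_of_potentials {S : Setup G Z} (T : Tiles S) [CompactSpace Z] [PreconnectedSpace Z]
    (χ : Chart Z) {u₁ u₂ : C(Z, ℝ)} {v₁ v₂ : ℕ → G → ℝ}
    (h1 : IsPot T ((ch1 χ).D 1) ((ch1 χ).E 2) u₁ v₁)
    (h2 : IsPot T ((ch2 χ).D 1) ((ch2 χ).E 2) u₂ v₂) :
    ∃ (O K : Set Z), IsOpen O ∧ IsCompact K ∧ K ⊆ O ∧
      (∀ a b : ℝ, MonoOn (fun x => a * u₁ x + b * u₂ x) O) ∧
      (interior ((fun x => (u₁ x, u₂ x)) '' K)).Nonempty := by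
  -- the boundary values
  have hl1 : ∀ t ∈ Icc (0 : ℝ) 1, u₁ (χ.f (0, t)) = 1 := fun t ht =>
    h1.one _ (mem_translate_D (by norm_num) (by rw [abs_le]; constructor <;> simp <;> linarith [ht.1, ht.2]))
  have hr1 : ∀ t ∈ Icc (0 : ℝ) 1, u₁ (χ.f (1, t)) = 0 := fun t ht =>
    h1.zero _ (mem_translate_E (Or.inl (by norm_num)))
  have hb2 : ∀ t ∈ Icc (0 : ℝ) 1, u₂ (χ.f (t, 0)) = 1 := fun t ht =>
    h2.one _ (mem_translate_D (by rw [abs_le]; constructor <;> simp <;> linarith [ht.1, ht.2]) (by norm_num))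
  have ht2 : ∀ t ∈ Icc (0 : ℝ) 1, u₂ (χ.f (t, 1)) = 0 := fun t ht =>
    h2.zero _ (mem_translate_E (Or.inr (by norm_num)))
  set F : Z → ℝ × ℝ := fun x => (u₁ x, u₂ x) with hF
  have hFc : Continuous F := u₁.continuous.prodMk u₂.continuous
  have hQc : IsCompact χ.Q := (isCompact_Icc.prod isCompact_Icc).image χ.emb.continuous
  set K : Set Z := χ.Q ∩ F ⁻¹' (Icc (1 / 4 : ℝ) (3 / 4) ×ˢ Icc (1 / 4 : ℝ) (3 / 4)) with hK
  have hKc : IsCompact K := hQc.inter_right ((isClosed_Icc.prod isClosed_Icc).preimage hFc)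
  have hOo : IsOpen χ.Qo := χ.emb.isOpenMap _ (isOpen_Ioo.prod isOpen_Ioo)
  have hKO : K ⊆ χ.Qo := by
    rintro x ⟨⟨p, hp, rfl⟩, hx⟩
    refine ⟨p, ?_, rfl⟩
    obtain ⟨p1, p2⟩ := p
    have hx1 : u₁ (χ.f (p1, p2)) ∈ Icc (1 / 4 : ℝ) (3 / 4) := hx.1
    have hx2 : u₂ (χ.f (p1, p2)) ∈ Icc (1 / 4 : ℝ) (3 / 4) := hx.2
    have hp1 : p1 ∈ Icc (0 : ℝ) 1 := hp.1
    have hp2 : p2 ∈ Icc (0 : ℝ) 1 := hp.2
    refine ⟨⟨lt_of_le_of_ne hp1.1 ?_, lt_of_le_of_ne hp1.2 ?_⟩,
      ⟨lt_of_le_of_ne hp2.1 ?_, lt_of_le_of_ne hp2.2 ?_⟩⟩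
    · intro h
      have h' : p1 = 0 := h.symm
      rw [h', hl1 p2 hp2] at hx1
      linarith [hx1.2]
    · intro h
      have h' : p1 = 1 := h
      rw [h', hr1 p2 hp2] at hx1
      linarith [hx1.1]
    · intro h
      have h' : p2 = 0 := h.symm
      rw [h', hb2 p1 hp1] at hx2
      linarith [hx2.2]
    · intro h
      have h' : p2 = 1 := h
      rw [h', ht2 p1 hp1] at hx2
      linarith [hx2.1]
  have himg : Icc (1 / 4 : ℝ) (3 / 4) ×ˢ Icc (1 / 4 : ℝ) (3 / 4) ⊆ F '' K := by
    rintro ⟨a, b⟩ ⟨ha, hb⟩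
    obtain ⟨p, hp, hp1, hp2⟩ := miranda_square (f1 := fun p => u₁ (χ.f p))
      (f2 := fun p => u₂ (χ.f p))
      (u₁.continuous.comp χ.emb.continuous).continuousOn
      (u₂.continuous.comp χ.emb.continuous).continuousOn hl1 hr1 hb2 ht2
      (a := a) (b := b) ⟨by linarith [ha.1], by linarith [ha.2]⟩ ⟨by linarith [hb.1], by linarith [hb.2]⟩
    have hFp : F (χ.f p) = (a, b) := Prod.ext hp1 hp2
    refine ⟨χ.f p, ⟨⟨p, hp, rfl⟩, ?_⟩, hFp⟩
    rw [mem_preimage, hFp]
    exact ⟨ha, hb⟩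
  refine ⟨χ.Qo, K, hOo, hKc, hKO, ?_, ?_⟩
  · intro a b
    have hOne : χ.Qo ≠ univ := by
      intro h
      have : χ.f (0, 0) ∈ χ.Qo := by rw [h]; trivial
      obtain ⟨q, hq, hqe⟩ := this
      have := χ.emb.injective hqe
      rw [this] at hq
      exact lt_irrefl _ hq.1.1
    have := monoOn_of_limit T (ω := (hyperfilter ℕ : Filter ℕ)) (u := a • u₁ + b • u₂)
      (un := fun n h => a * v₁ n h + b * v₂ n h) (O := χ.Qo) hOne ?_ ?_
    · exact this
    · intro K' hK' hKQ
      -- tiles meeting `K'` do not meet the boundary sets, for large `n`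
      have hfar : ∀ᶠ n in (hyperfilter ℕ : Filter ℕ), ∀ h ∈ S.sph n, (T.U h ∩ K').Nonempty →
          T.U h ⊆ χ.Qo := by
        obtain ⟨η, hη, hηQ⟩ := hK'.exists_thickening_subset_open hOo hKQ
        filter_upwards [(Nat.hyperfilter_le_atTop (tiles_small T hη) :
          ∀ᶠ n in (hyperfilter ℕ : Filter ℕ), ∀ h ∈ S.sph n, ∀ z ∈ T.U h, ∀ y ∈ T.U h,
            dist z y < η)] with n hn h hh hne
        obtain ⟨y, hy, hyK⟩ := hne
        intro z hz
        exact hηQ (mem_thickening_iff.2 ⟨y, hyK, hn h hh z hz y hy⟩)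
      filter_upwards [hfar, h1.pot, h2.pot] with n hn hp1 hp2 h hh hne
      have hsub := hn h hh hne
      have d1 : T.U h ∩ (ch1 χ).D 1 = ∅ := by
        rw [eq_empty_iff_forall_notMem]
        rintro z ⟨hz, hzD⟩
        obtain ⟨⟨p1, p2⟩, hp, rfl⟩ := hsub hz
        exact notMem_translate_D (Or.inl (by simp; linarith [hp.1.1])) hzD
      have e1 : T.U h ∩ (ch1 χ).E 2 = ∅ := by
        rw [eq_empty_iff_forall_notMem]
        rintro z ⟨hz, hzD⟩
        obtain ⟨⟨p1, p2⟩, hp, rfl⟩ := hsub hz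
        obtain ⟨⟨a1, a2⟩, b1, b2⟩ := hp
        exact notMem_translate_E (by simp only at a1 a2 ⊢; rw [abs_lt]; constructor <;> linarith)
          (by simp only at b1 b2 ⊢; rw [abs_lt]; constructor <;> linarith) hzD
      have d2 : T.U h ∩ (ch2 χ).D 1 = ∅ := by
        rw [eq_empty_iff_forall_notMem]
        rintro z ⟨hz, hzD⟩
        obtain ⟨⟨p1, p2⟩, hp, rfl⟩ := hsub hz
        exact notMem_translate_D (Or.inr (by simp; linarith [hp.2.1])) hzD
      have e2 : T.U h ∩ (ch2 χ).E 2 = ∅ := by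
        rw [eq_empty_iff_forall_notMem]
        rintro z ⟨hz, hzD⟩
        obtain ⟨⟨p1, p2⟩, hp, rfl⟩ := hsub hz
        obtain ⟨⟨a1, a2⟩, b1, b2⟩ := hp
        exact notMem_translate_E (by simp only at a1 a2 ⊢; rw [abs_lt]; constructor <;> linarith)
          (by simp only at b1 b2 ⊢; rw [abs_lt]; constructor <;> linarith) hzD
      have k1 := hp1.harm h hh d1 e1
      have k2 := hp2.harm h hh d2 e2
      unfold HarmAt at k1 k2 ⊢
      have : ∀ h' ∈ (S.sph n).filter (fun h' => T.adj h h'),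
          (a * v₁ n h' + b * v₂ n h') - (a * v₁ n h + b * v₂ n h)
            = a * (v₁ n h' - v₁ n h) + b * (v₂ n h' - v₂ n h) := by
        intro h' _
        ring
      rw [Finset.sum_congr rfl this, Finset.sum_add_distrib, ← Finset.mul_sum, ← Finset.mul_sum,
        k1, k2]
      ring
    · intro η hη
      have hpos : 0 < η / (|a| + |b| + 1) := by positivity
      filter_upwards [h1.lim _ hpos, h2.lim _ hpos] with n hn1 hn2 h hh y hy
      have k1 := hn1 h hh y hy
      have k2 := hn2 h hh y hy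
      have e : (a * v₁ n h + b * v₂ n h) - (a • u₁ + b • u₂) y
          = a * (v₁ n h - u₁ y) + b * (v₂ n h - u₂ y) := by
        simp only [ContinuousMap.add_apply, ContinuousMap.smul_apply, smul_eq_mul]
        ring
      rw [e]
      calc |a * (v₁ n h - u₁ y) + b * (v₂ n h - u₂ y)|
          ≤ |a * (v₁ n h - u₁ y)| + |b * (v₂ n h - u₂ y)| := abs_add_le _ _
        _ = |a| * |v₁ n h - u₁ y| + |b| * |v₂ n h - u₂ y| := by rw [abs_mul, abs_mul]
        _ ≤ |a| * (η / (|a| + |b| + 1)) + |b| * (η / (|a| + |b| + 1)) := by gcongr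
        _ = (|a| + |b|) * (η / (|a| + |b| + 1)) := by ring
        _ ≤ (|a| + |b| + 1) * (η / (|a| + |b| + 1)) :=
            mul_le_mul_of_nonneg_right (by linarith) hpos.le
        _ = η := by field_simp
  · refine ⟨(1 / 2, 1 / 2), mem_interior.2 ⟨Ioo (1 / 4 : ℝ) (3 / 4) ×ˢ Ioo (1 / 4 : ℝ) (3 / 4), ?_,
      isOpen_Ioo.prod isOpen_Ioo, ?_⟩⟩
    · exact (Set.prod_mono Ioo_subset_Icc_self Ioo_subset_Icc_self).trans himg
    · constructor <;> constructor <;> norm_num

end Crest.Agent.R193.F_Pair
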