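import Crest.Agent.R193.F_Core
import Crest.Agent.R193.CH_Chart

/-!
# R193, block F: F6 (standard pairs of charts separate points)
-/

set_option autoImplicit false

noncomputable section

open Set Filter Topology Metric

namespace Crest.Agent.R193.F_Six

open Crest.Agent.R193 Crest.Agent.R193.CHx

theorem F6_main {Z : Type} [MetricSpace Z] (Φ : Z ≃ₜ S2) (x y : Z) (hxy : x ≠ y) :
    ∃ ψ : Chart Z, x ∈ ψ.D 1 ∧ y ∈ ψ.E 2 := by
  obtain ⟨ψ, hψ⟩ := exists_chart_at Φ x
  have hc : ContinuousAt ψ.f 0 := ψ.emb.continuous.continuousAt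
  rw [Metric.continuousAt_iff] at hc
  obtain ⟨t, ht, htt⟩ := hc (dist x y) (dist_pos.2 hxy)
  refine ⟨ψ.comp (scale (t / 2) (by positivity)), ?_, ?_⟩
  · refine ⟨0, mem_closedBall_self (by norm_num), ?_⟩
    simp [scale_apply, hψ]
  · rintro ⟨p, hp, hpy⟩
    rw [comp_f, scale_apply] at hpy
    have h1 : dist ((t / 2) • p) 0 < t := by
      rw [mem_ball, dist_zero_right] at hp
      rw [dist_zero_right, norm_smul, Real.norm_eq_abs, abs_of_pos (by positivity)]
      nlinarith
    have h2 := htt h1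
    rw [hψ, hpy, dist_comm] at h2
    exact lt_irrefl _ h2

end Crest.Agent.R193.F_Six
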