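import Crest.Agent.R193.F_Core
import Crest.Agent.R193.F_CL

/-!
# R193, block F: F2 (the Courant-Lebesgue field), from helper283's `CL_of_shell`
-/

set_option autoImplicit false

noncomputable section

open Set Filter Topology Metric

namespace Crest.Agent.R193.F_Two

open Crest.Agent.R193

variable {G Z : Type} [Group G] [MetricSpace Z] [MulAction G Z]

theorem F2_main (S : Setup G Z) (T : Tiles S) (Φ : Z ≃ₜ S2)
    (hM : ∀ ψ : Chart Z, ∃ L : ℝ, ∀ n : ℕ, SepBound T n (ψ.D 1) (ψ.E 2) L) (Q : FormCore T) :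
    ∃ lam C0 ρ0 : ℝ, 1 < lam ∧ 0 < C0 ∧ 0 < ρ0 ∧ CLProp Q.Dom Q.Γ lam C0 ρ0 := by
  obtain ⟨lam, ρ0, C0, hlam, hρ0, hC0, h⟩ := F_CL.CL_of_shell T Φ hM Q.p Q.hp Q.S' Q.hS'
  refine ⟨lam, C0, ρ0, hlam, hC0, hρ0, ?_⟩
  intro x ρ hρ hρle u hu φ hφ hφ1 η hη
  exact h u (fun φ => Q.Γ u u φ) (Q.shell u hu) lam le_rfl x ρ hρ hρle φ hφ hφ1 η hη

end Crest.Agent.R193.F_Two
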