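import Crest.Agent.R193.F_Spec
import Crest.Agent.R193.F_Two
import Crest.Agent.R193.F_Cut
import Crest.Agent.R193.F_Five
import Crest.Agent.R193.F_Six

/-!
# R193, block F: everything except F1 and F3
-/

set_option autoImplicit false

noncomputable section

open Set Filter Topology Metric

namespace Crest.Agent.R193.F_Pre

open Crest.Agent.R193 Crest.Agent.R193.F_Spec

variable {G Z : Type} [Group G] [MetricSpace Z] [MulAction G Z]

theorem F_main_pre (h1 : F1 G Z) (h3 : F3 G Z)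
    (S : Setup G Z) (T : Tiles S) (Φ : Z ≃ₜ S2)
    (hM : ∀ ψ : Chart Z, ∃ L : ℝ, ∀ n : ℕ, SepBound T n (ψ.D 1) (ψ.E 2) L) :
    Nonempty (DForm S) :=
  F_main_of h1 (fun S T Φ hM Q => F_Two.F2_main S T Φ hM Q) h3
    (fun S T Φ Q h => F_Cut.F4_main S T Φ Q h)
    (fun S T Φ h => F_Five.F5_main S T Φ h)
    (fun Φ x y hxy => F_Six.F6_main Φ x y hxy) S T Φ hM

end Crest.Agent.R193.F_Pre
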