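import Crest.Agent.R193.Defs

/-!
R193 block F (helper283): consequences of `Setup`: identities for `(kx|k)`, metric distortion of the
action, comparability of tiles.
-/

set_option autoImplicit false

open Set Filter Topology

namespace Crest.Agent.R193.F_Sep1

open Crest.Agent.R193

variable {G Z : Type} [Group G] [MetricSpace Z] [MulAction G Z] (S : Setup G Z)

theorem len_inv_mul_comm (g h : G) : S.len (g⁻¹ * h) = S.len (h⁻¹ * g) := by
  rw [← S.len_inv (g⁻¹ * h)]; simp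

theorem gp_comm (g h : G) : gpOf S.len g h = gpOf S.len h g := by
  unfold gpOf; rw [len_inv_mul_comm S g h]; ring

theorem gp_one_left (h : G) : gpOf S.len 1 h = 0 := by
  unfold gpOf; simp [S.len_one]

theorem gp_one_right (h : G) : gpOf S.len h 1 = 0 := by
  rw [gp_comm, gp_one_left]

theorem len_le_add (g h : G) : S.len g ≤ S.len h + S.len (h⁻¹ * g) := by
  have := S.len_mul h (h⁻¹ * g)
  simpa using this

theorem gp_le_right (g h : G) : gpOf S.len g h ≤ S.len h := by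
  unfold gpOf
  have h1 : (S.len g : ℝ) ≤ S.len h + S.len (g⁻¹ * h) := by
    have := len_le_add S g h
    rw [len_inv_mul_comm S h g] at this
    exact_mod_cast this
  linarith

theorem gp_le_left (g h : G) : gpOf S.len g h ≤ S.len g := by
  rw [gp_comm]; exact gp_le_right S h g

theorem gp_nonneg (g h : G) : 0 ≤ gpOf S.len g h := by
  unfold gpOf
  have h1 : (S.len (g⁻¹ * h) : ℝ) ≤ S.len g + S.len h := by
    have := S.len_mul g⁻¹ h
    rw [S.len_inv] at this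
    exact_mod_cast this
  linarith

theorem s_one (x : Z) : S.s x 1 = 0 := by
  have h1 := S.s_nonneg x 1
  have h2 := S.s_le x 1
  rw [S.len_one] at h2
  norm_num at h2
  linarith

theorem δ_pos : 0 < S.δ := lt_of_lt_of_le one_pos S.one_le_δ

/-- `(kx|k) + (x|k⁻¹) = |k|` up to `δ`. -/
theorem smul_self (x : Z) (k : G) : |S.s (k • x) k - (S.len k - S.s x k⁻¹)| ≤ S.δ := by
  have h := S.cocycle x 1 k
  rw [mul_one, s_one, gp_one_left] at h
  have e : S.s (k • x) k - (0 - S.s x k⁻¹ - 0 + S.len k) = S.s (k • x) k - (S.len k - S.s x k⁻¹) := by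
    ring
  rwa [e] at h

theorem smul_self_le (x : Z) (k : G) : S.s (k • x) k ≤ S.len k - S.s x k⁻¹ + S.δ := by
  have := (abs_le.1 (smul_self S x k)).2; linarith

theorem le_smul_self (x : Z) (k : G) : S.len k - S.s x k⁻¹ - S.δ ≤ S.s (k • x) k := by
  have := (abs_le.1 (smul_self S x k)).1; linarith

theorem smul_mul_le (x : Z) (g k : G) :
    S.s (k • x) (k * g) ≤ S.s x g - S.s x k⁻¹ - gpOf S.len g k⁻¹ + S.len k + S.δ := by
  have := (abs_le.1 (S.cocycle x g k)).2; linarith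

theorem le_smul_mul (x : Z) (g k : G) :
    S.s x g - S.s x k⁻¹ - gpOf S.len g k⁻¹ + S.len k - S.δ ≤ S.s (k • x) (k * g) := by
  have := (abs_le.1 (S.cocycle x g k)).1; linarith

theorem dist_le_exp_delta (x y : Z) : dist x y ≤ Real.exp (S.ε * S.δ) := by
  have := S.dist_le x y 1
  rw [s_one, s_one] at this
  convert this using 2
  simp

/-- depth at which the rays to `x`, `y` separate -/
theorem exists_common (x y : Z) (hxy : x ≠ y) : ∃ (n : ℕ) (g : G), S.len g = n ∧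
    (n : ℝ) - S.δ ≤ S.s x g ∧ (n : ℝ) - 2 * S.δ ≤ S.s y g ∧
    Real.exp (- S.ε * n) ≤ Real.exp (S.ε * S.δ) * dist x y ∧
    ((n : ℝ) ≤ max 0 (-Real.log (dist x y) / S.ε)) := by
  set t : ℝ := -Real.log (dist x y) / S.ε with ht
  have hd : 0 < dist x y := dist_pos.2 hxy
  have hδ := S.one_le_δ
  obtain ⟨g, hg, hxg⟩ := S.ray x ⌊max 0 t⌋₊
  have hn1 : ((⌊max 0 t⌋₊ : ℕ) : ℝ) ≤ max 0 t := Nat.floor_le (le_max_left _ _)
  have hn2 : max 0 t - 1 < ((⌊max 0 t⌋₊ : ℕ) : ℝ) := by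
    have := Nat.lt_floor_add_one (max 0 t); linarith
  refine ⟨⌊max 0 t⌋₊, g, hg, hxg, ?_, ?_, hn1⟩
  · by_cases h0 : 0 ≤ t
    · have h1 := S.le_s x y g hxy
      rw [max_eq_right h0] at hn1 hxg ⊢
      have h2 : ((⌊t⌋₊ : ℕ) : ℝ) - S.δ ≤ min (S.s x g) t := le_min hxg (by linarith)
      linarith
    · have h3 : max 0 t = 0 := max_eq_left (le_of_not_ge h0)
      rw [h3] at hn1 ⊢
      have := S.s_nonneg y g
      simp only [Nat.floor_zero, Nat.cast_zero]
      linarith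
  · have h1 : Real.exp (-S.ε * t) = dist x y := by
      rw [ht]
      have : -S.ε * (-Real.log (dist x y) / S.ε) = Real.log (dist x y) := by
        field_simp [S.ε_pos.ne']
      rw [this, Real.exp_log hd]
    rw [← h1, ← Real.exp_add, Real.exp_le_exp]
    have h4 : t ≤ max 0 t := le_max_right _ _
    nlinarith [S.ε_pos]

/-- `k⁻¹` is `C e^{ε|k|}`-Lipschitz. -/
theorem dist_inv_smul_le (k : G) (x y : Z) :
    dist (k⁻¹ • x) (k⁻¹ • y) ≤ Real.exp (S.ε * (S.len k + 5 * S.δ)) * dist x y := by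
  by_cases hxy : x = y
  · subst hxy; simp
  obtain ⟨n, g, hg, hx, hy, hn, -⟩ := exists_common S x y hxy
  have key : ∀ z : Z, (n : ℝ) - 2 * S.δ ≤ S.s z g →
      (n : ℝ) - S.len k - 3 * S.δ ≤ S.s (k⁻¹ • z) (k⁻¹ * g) := by
    intro z hz
    have h1 := le_smul_mul S z g k⁻¹
    rw [inv_inv, S.len_inv] at h1
    have h2 := S.s_le z k
    have h3 := gp_le_right S g k
    linarith
  have hδ := δ_pos S
  have h1 := key x (by linarith)
  have h2 := key y hy
  have h3 := S.dist_le (k⁻¹ • x) (k⁻¹ • y) (k⁻¹ * g)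
  refine h3.trans ?_
  have h4 : Real.exp (-S.ε * (min (S.s (k⁻¹ • x) (k⁻¹ * g)) (S.s (k⁻¹ • y) (k⁻¹ * g)) - S.δ))
      ≤ Real.exp (S.ε * (S.len k + 4 * S.δ)) * Real.exp (-S.ε * n) := by
    rw [← Real.exp_add, Real.exp_le_exp]
    have := le_min h1 h2
    nlinarith [S.ε_pos]
  refine h4.trans ?_
  calc Real.exp (S.ε * (S.len k + 4 * S.δ)) * Real.exp (-S.ε * n)
      ≤ Real.exp (S.ε * (S.len k + 4 * S.δ)) * (Real.exp (S.ε * S.δ) * dist x y) := by gcongr
    _ = Real.exp (S.ε * (S.len k + 5 * S.δ)) * dist x y := by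
        rw [← mul_assoc, ← Real.exp_add]; congr 2; ring

/-- away from the pole `k` contracts by `e^{-ε|k|}`. -/
theorem dist_smul_le {R : ℝ} {k : G} {x y : Z} (hx : x ∈ S.Gd R k) (hy : y ∈ S.Gd R k) :
    dist (k • x) (k • y) ≤ Real.exp (S.ε * (2 * R + 7 * S.δ - S.len k)) * dist x y := by
  by_cases hxy : x = y
  · subst hxy; simp
  have hx' : S.s x k⁻¹ ≤ R := hx
  have hy' : S.s y k⁻¹ ≤ R := hy
  have hδ := δ_pos S
  obtain ⟨n, g, hg, hxg, hyg, hn, -⟩ := exists_common S x y hxy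
  have hgp : gpOf S.len g k⁻¹ ≤ R + 2 * S.δ := by
    have h1 := S.hyp_s1 x g k⁻¹
    rcases le_total (S.s x g) (gpOf S.len g k⁻¹) with h | h
    · rw [min_eq_left h] at h1
      have h2 := gp_le_left S g k⁻¹
      rw [hg] at h2
      linarith
    · rw [min_eq_right h] at h1
      linarith
  have key : ∀ z : Z, S.s z k⁻¹ ≤ R → (n : ℝ) - 2 * S.δ ≤ S.s z g →
      (n : ℝ) + S.len k - 2 * R - 5 * S.δ ≤ S.s (k • z) (k * g) := by
    intro z hz hz2
    have h1 := le_smul_mul S z g k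
    linarith
  have h1 := key x hx' (by linarith)
  have h2 := key y hy' hyg
  refine (S.dist_le (k • x) (k • y) (k * g)).trans ?_
  have h4 : Real.exp (-S.ε * (min (S.s (k • x) (k * g)) (S.s (k • y) (k * g)) - S.δ))
      ≤ Real.exp (S.ε * (2 * R + 6 * S.δ - S.len k)) * Real.exp (-S.ε * n) := by
    rw [← Real.exp_add, Real.exp_le_exp]
    have := le_min h1 h2
    nlinarith [S.ε_pos]
  refine h4.trans ?_
  calc Real.exp (S.ε * (2 * R + 6 * S.δ - S.len k)) * Real.exp (-S.ε * n)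
      ≤ Real.exp (S.ε * (2 * R + 6 * S.δ - S.len k)) * (Real.exp (S.ε * S.δ) * dist x y) := by gcongr
    _ = Real.exp (S.ε * (2 * R + 7 * S.δ - S.len k)) * dist x y := by
        rw [← mul_assoc, ← Real.exp_add]; congr 2; ring

/-- points far from a pole are in `Gd`. -/
theorem mem_Gd_of_dist {k : G} {a z : Z} {r : ℝ} (hr : 0 < r)
    (ha : (S.len k : ℝ) - S.δ ≤ S.s a k⁻¹) (hk : S.δ - Real.log r / S.ε < S.len k - S.δ)
    (hz : r ≤ dist z a) : z ∈ S.Gd (S.δ - Real.log r / S.ε) k := by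
  show S.s z k⁻¹ ≤ _
  have h1 := hz.trans (S.dist_le z a k⁻¹)
  rw [← Real.log_le_iff_le_exp hr] at h1
  have hε := S.ε_pos
  have h2 : min (S.s z k⁻¹) (S.s a k⁻¹) ≤ S.δ - Real.log r / S.ε := by
    have : Real.log r / S.ε ≤ -(min (S.s z k⁻¹) (S.s a k⁻¹) - S.δ) := by
      rw [div_le_iff₀ hε]; linarith
    linarith
  rcases min_le_iff.1 h2 with h | h
  · exact h
  · linarith

/-- points of `Gd` are far from the pole. -/
theorem dist_of_mem_Gd {k : G} {a y : Z} {R : ℝ} (ha : (S.len k : ℝ) - S.δ ≤ S.s a k⁻¹)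
    (hk : R + S.δ < S.len k - S.δ) (hy : y ∈ S.Gd R k) :
    Real.exp (- S.ε * (R + S.δ)) ≤ dist y a := by
  have hy' : S.s y k⁻¹ ≤ R := hy
  have hδ := δ_pos S
  have hne : a ≠ y := by
    rintro rfl; linarith
  have hd : 0 < dist y a := dist_pos.2 (Ne.symm hne)
  have h1 := S.le_s a y k⁻¹ hne
  have h2 : min (S.s a k⁻¹) (-Real.log (dist a y) / S.ε) ≤ R + S.δ := by linarith
  rcases min_le_iff.1 h2 with h | h
  · linarith
  · rw [div_le_iff₀ S.ε_pos] at h
    rw [← Real.le_log_iff_exp_le hd, dist_comm y a]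
    linarith

/-- comparability of tiles: a tile at level `n` over `k • z` and a tile at level `n - |k|` over `z`. -/
theorem len_le_of_mem {R R' : ℝ} (hR : 0 ≤ R) (hR' : 0 ≤ R') {k h h' : G} {z : Z}
    (hz : z ∈ S.Gd R k)
    (hh' : z ∈ S.Sh R' h') (hh : k • z ∈ S.Sh R' h) (hlen : S.len h = S.len h' + S.len k) :
    (S.len (h'⁻¹ * (k⁻¹ * h)) : ℝ) ≤ 4 * R + 4 * R' + 8 * S.δ := by
  have hz' : S.s z k⁻¹ ≤ R := hz
  have hh1 : (S.len h' : ℝ) - R' ≤ S.s z h' := hh'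
  have hh2 : (S.len h : ℝ) - R' ≤ S.s (k • z) h := hh
  have hδ := δ_pos S
  have hl : (S.len h : ℝ) = S.len h' + S.len k := by exact_mod_cast hlen
  -- `(kz|k) ≥ |k| - R - δ`
  have h3 := le_smul_self S z k
  -- `(h|k) ≥ |k| - R - R' - 2 δ`
  have h4 := S.hyp_s2 (k • z) h k
  have hl' : (0:ℝ) ≤ S.len h' := Nat.cast_nonneg _
  have h5 : (S.len k : ℝ) - R - R' - 2 * S.δ ≤ gpOf S.len h k := by
    have : (S.len k : ℝ) - R - R' - S.δ ≤ min (S.s (k • z) h) (S.s (k • z) k) := by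
      apply le_min <;> linarith
    linarith
  have h6 := gp_le_right S h k
  -- `(z|k⁻¹ h) ≥ m - R' - δ`
  have h7 := le_smul_mul S (k • z) h k⁻¹
  rw [inv_smul_smul, inv_inv, S.len_inv] at h7
  have h8 := S.s_le (k • z) k
  have h9 : (S.len h' : ℝ) - R' - S.δ ≤ S.s z (k⁻¹ * h) := by linarith
  -- `|k⁻¹ h| ≤ m + 2R + 2R' + 4δ`
  have h10 : (S.len (k⁻¹ * h) : ℝ) ≤ S.len h' + 2 * R + 2 * R' + 4 * S.δ := by
    have : gpOf S.len h k = ((S.len h : ℝ) + S.len k - S.len (h⁻¹ * k)) / 2 := rfl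
    rw [len_inv_mul_comm S k h]
    rw [this] at h5
    linarith
  -- Gromov product
  have h11 := S.hyp_s2 z h' (k⁻¹ * h)
  have h12 : (S.len h' : ℝ) - R' - 2 * S.δ ≤ gpOf S.len h' (k⁻¹ * h) := by
    have : (S.len h' : ℝ) - R' - S.δ ≤ min (S.s z h') (S.s z (k⁻¹ * h)) := by
      apply le_min <;> linarith
    linarith
  have : gpOf S.len h' (k⁻¹ * h)
      = ((S.len h' : ℝ) + S.len (k⁻¹ * h) - S.len (h'⁻¹ * (k⁻¹ * h))) / 2 := rfl
  rw [this] at h12
  linarith

end Crest.Agent.R193.F_Sep1
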