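import Crest.Agent.R193.F_Sep2
import Crest.Agent.R193.CH_Chart

/-!
R193 block F (helper283): uniform `SepBound` for all small metric annuli.
-/

set_option autoImplicit false

open Set Filter Topology Metric

namespace Crest.Agent.R193.F_Sep3

open Crest.Agent.R193 Crest.Agent.R193.F_Sep1 Crest.Agent.R193.F_Sep2

theorem locallyPathConnectedSpace_of_homeo {Z : Type} [TopologicalSpace Z] (Φ : Z ≃ₜ S2) :
    LocallyPathConnectedSpace Z := by
  have h1 : LocallyPathConnectedSpace S2 := by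
    haveI : Fact (Module.finrank ℝ (EuclideanSpace ℝ (Fin 3)) = 2 + 1) := ⟨by simp⟩
    exact ChartedSpace.locallyPathConnectedSpace (EuclideanSpace ℝ (Fin 2)) S2
  exact Φ.isOpenEmbedding.locallyPathConnectedSpace

variable {G Z : Type} [Group G] [MetricSpace Z] [MulAction G Z] {S : Setup G Z}

theorem isClosed_E (ψ : Chart Z) (r : ℝ) : IsClosed (ψ.E r) :=
  (ψ.emb.isOpenMap _ isOpen_ball).isClosed_compl

theorem disjoint_D_E (ψ : Chart Z) {r r' : ℝ} (h : r < r') : Disjoint (ψ.D r) (ψ.E r') := by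
  rw [Set.disjoint_left]
  rintro _ ⟨p, hp, rfl⟩ hE
  exact hE ⟨p, closedBall_subset_ball h hp, rfl⟩

theorem closure_compl_E (ψ : Chart Z) (r : ℝ) : closure (ψ.E r)ᶜ ⊆ ψ.f '' closedBall 0 r := by
  unfold Chart.E
  rw [compl_compl]
  apply closure_minimal (image_mono ball_subset_closedBall)
  exact ((isCompact_closedBall _ _).image ψ.emb.continuous).isClosed

/-- **Uniform separation bounds for metric annuli.** -/
theorem sepBound_all (T : Tiles S) (Φ : Z ≃ₜ S2)
    (hM : ∀ ψ : Chart Z, ∃ L : ℝ, ∀ n : ℕ, SepBound T n (ψ.D 1) (ψ.E 2) L) :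
    ∃ lam0 L ρ0 : ℝ, 1 < lam0 ∧ 0 < L ∧ 0 < ρ0 ∧ ∀ lam, lam0 ≤ lam → ∀ (x : Z) (ρ : ℝ), 0 < ρ →
      ρ ≤ ρ0 → ∃ n0 : ℕ, ∀ n, n0 ≤ n →
        SepBound T n (closedBall x ρ) (ball x (lam * ρ))ᶜ L := by
  haveI := locallyPathConnectedSpace_of_homeo Φ
  obtain ⟨m, ψ, η, R, hη, hfam⟩ := CHx.exists_family S Φ (2 * S.δ) one_pos two_pos
  choose Li hLi using fun i => hM (ψ i)
  set L1 : ℝ := ∑ i, |Li i| + 1 with hL1
  have hL1i : ∀ i, Li i ≤ L1 := fun i => by
    have h1 : |Li i| ≤ ∑ i, |Li i| := Finset.single_le_sum (fun j _ => abs_nonneg (Li j))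
      (Finset.mem_univ i)
    linarith [le_abs_self (Li i)]
  have hL1p : 0 < L1 := by
    have : 0 ≤ ∑ i, |Li i| := Finset.sum_nonneg fun i _ => abs_nonneg _
    linarith
  set R' : ℝ := max R (2 * S.δ) with hR'
  have hδ := δ_pos S
  have hε := S.ε_pos
  have hR'0 : 0 ≤ R' := le_trans (by linarith) (le_max_right _ _)
  have hGd : ∀ {a b : ℝ} {k : G}, a ≤ b → S.Gd a k ⊆ S.Gd b k := fun {a b k} hab x hx =>
    le_trans (show S.s x k⁻¹ ≤ a from hx) hab
  refine ⟨Real.exp (S.ε * (2 * R' + 13 * S.δ + 1)) / η + 1, L1 * (mult T R' : ℝ) ^ 2 + 1,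
    η * Real.exp (-(5 * S.ε * S.δ)), ?_, by positivity, by positivity, ?_⟩
  · have : 0 < Real.exp (S.ε * (2 * R' + 13 * S.δ + 1)) / η := by positivity
    linarith
  intro lam hlam x ρ hρ hρ0
  set t : ℝ := (Real.log η - Real.log ρ) / S.ε - 5 * S.δ with ht
  have ht0 : 0 ≤ t := by
    have h1 : Real.log ρ ≤ Real.log η - 5 * S.ε * S.δ := by
      have := Real.log_le_log hρ hρ0
      rw [Real.log_mul hη.ne' (Real.exp_ne_zero _), Real.log_exp] at this
      linarith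
    have h2 : 5 * S.δ ≤ (Real.log η - Real.log ρ) / S.ε := by
      rw [le_div_iff₀ hε]; linarith
    linarith
  obtain ⟨k, hk, hxk⟩ := S.ray x ⌊t⌋₊
  have hn1 : ((⌊t⌋₊ : ℕ) : ℝ) ≤ t := Nat.floor_le ht0
  have hn2 : t - 1 < ((⌊t⌋₊ : ℕ) : ℝ) := by
    have := Nat.lt_floor_add_one t; linarith
  have hkr : (S.len k : ℝ) = ((⌊t⌋₊ : ℕ) : ℝ) := by rw [hk]
  set y : Z := k⁻¹ • x with hy
  have hky : k • y = x := by rw [hy, smul_inv_smul]
  have hyG : y ∈ S.Gd (2 * S.δ) k := by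
    show S.s y k⁻¹ ≤ 2 * S.δ
    have := smul_self_le S y k
    rw [hky] at this
    linarith
  obtain ⟨i, hi1, hi2⟩ := hfam k y hyG
  have hR'k : (ψ i).f '' closedBall 0 2 ⊆ S.Gd R' k := hi2.trans (hGd (le_max_left _ _))
  -- the transported bound
  have htr : ∀ m' : ℕ, SepBound T (m' + S.len k) ((fun x => k • x) '' (ψ i).D 1)
      ((fun x => k • x) '' (ψ i).E 2) (L1 * (mult T R' : ℝ) ^ 2) := fun m' =>
    sepBound_smul T hR'0 (isClosed_E _ _) (disjoint_D_E _ one_lt_two)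
      ((closure_compl_E _ _).trans hR'k) hL1p.le
      (SepBound.mono (hLi i m') Subset.rfl Subset.rfl (hL1i i))
  refine ⟨S.len k, fun n hn => ?_⟩
  have hn' : n = (n - S.len k) + S.len k := by omega
  rw [hn']
  refine SepBound.mono (htr (n - S.len k)) ?_ ?_ (by linarith)
  · -- `closedBall x ρ ⊆ k D`
    intro z hz
    refine ⟨k⁻¹ • z, ?_, smul_inv_smul _ _⟩
    have h1 : dist (k⁻¹ • z) y ≤ η := by
      have h2 := dist_inv_smul_le S k z x
      have h3 : dist z x ≤ ρ := hz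
      calc dist (k⁻¹ • z) y ≤ Real.exp (S.ε * (S.len k + 5 * S.δ)) * dist z x := h2
        _ ≤ Real.exp (S.ε * (S.len k + 5 * S.δ)) * ρ := by gcongr
        _ = Real.exp (S.ε * (S.len k + 5 * S.δ) + Real.log ρ) := by
            rw [Real.exp_add, Real.exp_log hρ]
        _ ≤ Real.exp (Real.log η) := by
            apply Real.exp_le_exp.2
            rw [hkr]
            have h4 : S.ε * ((⌊t⌋₊ : ℕ) : ℝ) ≤ S.ε * t := by gcongr
            have h5 : S.ε * t = Real.log η - Real.log ρ - 5 * S.δ * S.ε := by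
              rw [ht]; field_simp
            nlinarith
        _ = η := Real.exp_log hη
    obtain ⟨p, hp, hpz⟩ := hi1 (show k⁻¹ • z ∈ closedBall y η from h1)
    exact ⟨p, ball_subset_closedBall hp, hpz⟩
  · -- `(ball x (lam ρ))ᶜ ⊆ k E`
    intro z hz
    by_contra hcon
    apply hz
    have h1 : k⁻¹ • z ∉ (ψ i).E 2 := fun h => hcon ⟨k⁻¹ • z, h, smul_inv_smul _ _⟩
    have h2 : k⁻¹ • z ∈ (ψ i).f '' ball 0 2 := by
      by_contra h3; exact h1 h3
    have h3 : k⁻¹ • z ∈ S.Gd R' k := hR'k (image_mono ball_subset_closedBall h2)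
    have h4 : y ∈ S.Gd R' k := hGd (le_max_right _ _) hyG
    have h5 := dist_smul_le S h3 h4
    rw [smul_inv_smul, hky] at h5
    have h6 : dist (k⁻¹ • z) y ≤ Real.exp (S.ε * S.δ) := dist_le_exp_delta S _ _
    have h7 : dist z x ≤ Real.exp (S.ε * (2 * R' + 13 * S.δ + 1)) / η * ρ := by
      calc dist z x ≤ Real.exp (S.ε * (2 * R' + 7 * S.δ - S.len k)) * dist (k⁻¹ • z) y := h5
        _ ≤ Real.exp (S.ε * (2 * R' + 7 * S.δ - S.len k)) * Real.exp (S.ε * S.δ) := by gcongr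
        _ ≤ Real.exp (S.ε * (2 * R' + 13 * S.δ + 1) - Real.log η + Real.log ρ) := by
            rw [← Real.exp_add]
            apply Real.exp_le_exp.2
            rw [hkr]
            have h4 : S.ε * (t - 1) ≤ S.ε * ((⌊t⌋₊ : ℕ) : ℝ) := by gcongr
            have h5 : S.ε * t = Real.log η - Real.log ρ - 5 * S.δ * S.ε := by
              rw [ht]; field_simp
            nlinarith
        _ = Real.exp (S.ε * (2 * R' + 13 * S.δ + 1)) / η * ρ := by
            rw [Real.exp_add, Real.exp_sub, Real.exp_log hη, Real.exp_log hρ]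
    rw [mem_ball]
    calc dist z x ≤ Real.exp (S.ε * (2 * R' + 13 * S.δ + 1)) / η * ρ := h7
      _ < (Real.exp (S.ε * (2 * R' + 13 * S.δ + 1)) / η + 1) * ρ := by nlinarith
      _ ≤ lam * ρ := by gcongr

end Crest.Agent.R193.F_Sep3
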