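import Mathlib
import Crest.Prelude.Def_WordHyperbolic
import Crest.Prelude.Def_CayleyBoundary

/-! Row 193 (helper586): word metric basics. -/

set_option autoImplicit false

namespace Crest.Agent.R193.H

open Crest.GroupTheory

variable {G : Type*} [Group G] {S : Set G}

/-- admissible words -/
def IsWord (S : Set G) (l : List G) : Prop := ∀ x ∈ l, x ∈ S ∨ x⁻¹ ∈ S

theorem exists_word (hS : Subgroup.closure S = ⊤) (g : G) : ∃ l : List G, IsWord S l ∧ l.prod = g := by
  have hg : g ∈ Subgroup.closure S := by rw [hS]; exact Subgroup.mem_top g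
  rw [← Subgroup.mem_toSubmonoid, Subgroup.closure_toSubmonoid] at hg
  obtain ⟨l, h1, h2⟩ := Submonoid.exists_list_of_mem_closure hg
  refine ⟨l, fun x hx => ?_, h2⟩
  rcases h1 x hx with h | h
  · exact Or.inl h
  · exact Or.inr (Set.mem_inv.mp h)

theorem wordLength_le_of_word {l : List G} (h : IsWord S l) : wordLength S l.prod ≤ l.length :=
  Nat.sInf_le ⟨l, rfl, h, rfl⟩

theorem exists_word_length (hS : Subgroup.closure S = ⊤) (g : G) :
    ∃ l : List G, l.length = wordLength S g ∧ IsWord S l ∧ l.prod = g := by
  obtain ⟨l, hl, hlg⟩ := exists_word hS g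
  have hne : {n : ℕ | ∃ l : List G, l.length = n ∧ (∀ x ∈ l, x ∈ S ∨ x⁻¹ ∈ S) ∧ l.prod = g}.Nonempty :=
    ⟨l.length, l, rfl, hl, hlg⟩
  exact Nat.sInf_mem hne

theorem IsWord.append {l l' : List G} (h : IsWord S l) (h' : IsWord S l') : IsWord S (l ++ l') := by
  intro x hx
  rcases List.mem_append.mp hx with h1 | h1
  · exact h x h1
  · exact h' x h1

theorem IsWord.inv {l : List G} (h : IsWord S l) : IsWord S (l.map (·⁻¹)).reverse := by
  intro x hx
  rw [List.mem_reverse, List.mem_map] at hx
  obtain ⟨y, hy, rfl⟩ := hx
  rcases h y hy with h1 | h1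
  · right; rwa [inv_inv]
  · left; exact h1

theorem wordLength_one : wordLength S (1 : G) = 0 := by
  have := wordLength_le_of_word (S := S) (l := []) (by intro x hx; simp at hx)
  simpa using this

theorem eq_one_of_wordLength (hS : Subgroup.closure S = ⊤) {g : G} (h : wordLength S g = 0) :
    g = 1 := by
  obtain ⟨l, h1, -, h3⟩ := exists_word_length hS g
  rw [h, List.length_eq_zero_iff] at h1
  rw [← h3, h1, List.prod_nil]

theorem wordLength_inv_le (hS : Subgroup.closure S = ⊤) (g : G) :
    wordLength S g⁻¹ ≤ wordLength S g := by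
  obtain ⟨l, h1, h2, h3⟩ := exists_word_length hS g
  have h4 := wordLength_le_of_word h2.inv
  rw [List.length_reverse, List.length_map, h1] at h4
  rwa [← List.prod_inv_reverse, h3] at h4

theorem wordLength_inv (hS : Subgroup.closure S = ⊤) (g : G) :
    wordLength S g⁻¹ = wordLength S g := by
  refine le_antisymm (wordLength_inv_le hS g) ?_
  have := wordLength_inv_le hS g⁻¹
  rwa [inv_inv] at this

theorem wordLength_mul (hS : Subgroup.closure S = ⊤) (g h : G) :
    wordLength S (g * h) ≤ wordLength S g + wordLength S h := by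
  obtain ⟨l, h1, h2, h3⟩ := exists_word_length hS g
  obtain ⟨l', h1', h2', h3'⟩ := exists_word_length hS h
  have h4 := wordLength_le_of_word (h2.append h2')
  rw [List.length_append, List.prod_append, h1, h1', h3, h3'] at h4
  exact h4

/-- geodesics -/
theorem exists_split (hS : Subgroup.closure S = ⊤) (g : G) {k : ℕ} (hk : k ≤ wordLength S g) :
    ∃ p : G, wordLength S p = k ∧ wordLength S (p⁻¹ * g) = wordLength S g - k := by
  obtain ⟨l, h1, h2, h3⟩ := exists_word_length hS g
  refine ⟨(l.take k).prod, ?_⟩
  have ht : IsWord S (l.take k) := fun x hx => h2 x (List.mem_of_mem_take hx)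
  have hd : IsWord S (l.drop k) := fun x hx => h2 x (List.mem_of_mem_drop hx)
  have e1 := wordLength_le_of_word ht
  have e2 := wordLength_le_of_word hd
  have e3 : (l.take k).prod⁻¹ * g = (l.drop k).prod := by
    rw [← h3, ← List.prod_take_mul_prod_drop l k, inv_mul_cancel_left]
  have e4 := wordLength_mul hS (l.take k).prod (l.drop k).prod
  rw [List.prod_take_mul_prod_drop, h3] at e4
  rw [List.length_take] at e1
  rw [List.length_drop] at e2
  rw [e3]
  constructor <;> omega

/-- a geodesic path from `1` to `g`, constant after time `|g|` -/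
theorem exists_path (hS : Subgroup.closure S = ⊤) (g : G) : ∃ p : ℕ → G, p 0 = 1 ∧
    (∀ k, wordLength S g ≤ k → p k = g) ∧
    ∀ m n, m ≤ n → n ≤ wordLength S g → wordLength S ((p m)⁻¹ * p n) = n - m := by
  obtain ⟨l, h1, h2, h3⟩ := exists_word_length hS g
  refine ⟨fun k => (l.take k).prod, by simp, ?_, ?_⟩
  · intro k hk
    show (l.take k).prod = g
    rw [List.take_of_length_le (i := k) (l := l) (by omega), h3]
  · intro m n hmn hn
    -- `take n = take m ++ middle`
    have e0 : ((l.take m).prod)⁻¹ * (l.take n).prod = ((l.take n).drop m).prod := by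
      have : l.take m = (l.take n).take m := by rw [List.take_take, min_eq_left hmn]
      rw [this, inv_mul_eq_iff_eq_mul, List.prod_take_mul_prod_drop]
    have w1 : IsWord S (l.take m) := fun x hx => h2 x (List.mem_of_mem_take hx)
    have w2 : IsWord S ((l.take n).drop m) :=
      fun x hx => h2 x (List.mem_of_mem_take (List.mem_of_mem_drop hx))
    have w3 : IsWord S (l.drop n) := fun x hx => h2 x (List.mem_of_mem_drop hx)
    have e1 := wordLength_le_of_word w1
    have e2 := wordLength_le_of_word w2
    have e3 := wordLength_le_of_word w3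
    have e4 : g = (l.take m).prod * (((l.take n).drop m).prod * (l.drop n).prod) := by
      rw [← mul_assoc, ← e0, mul_inv_cancel_left, List.prod_take_mul_prod_drop, h3]
    have e5 := wordLength_mul hS (l.take m).prod (((l.take n).drop m).prod * (l.drop n).prod)
    have e6 := wordLength_mul hS ((l.take n).drop m).prod (l.drop n).prod
    rw [← e4] at e5
    rw [List.length_take] at e1
    rw [List.length_drop, List.length_take] at e2
    rw [List.length_drop] at e3
    simp only [e0]
    omega

theorem finite_ball (S : Finset G) (hS : Subgroup.closure (S : Set G) = ⊤) (n : ℕ) :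
    {g : G | wordLength (S : Set G) g ≤ n}.Finite := by
  classical
  set A : Finset G := S ∪ S.image (·⁻¹) with hA
  have hfin : {l : List G | l.length ≤ n ∧ ∀ x ∈ l, x ∈ A}.Finite := by
    have h1 : (⋃ k ∈ Finset.range (n + 1), {l : List G | l.length = k ∧ ∀ x ∈ l, x ∈ A}).Finite := by
      refine Set.Finite.biUnion (Finset.finite_toSet _) fun k _ => ?_
      have h2 : ({l : List A | l.length = k} : Set (List A)).Finite := List.finite_length_eq A k
      refine (h2.image (fun l : List A => l.map Subtype.val)).subset ?_
      rintro l ⟨hl, hx⟩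
      refine ⟨l.attach.map (fun x => ⟨x.1, hx x.1 x.2⟩), by simpa using hl, ?_⟩
      show List.map Subtype.val (l.attach.map (fun x => (⟨x.1, hx x.1 x.2⟩ : A))) = l
      rw [List.map_map]
      exact List.attach_map_subtype_val l
    refine h1.subset fun l hl => ?_
    simp only [Set.mem_iUnion, Finset.mem_range]
    exact ⟨l.length, by have := hl.1; omega, rfl, hl.2⟩
  refine (hfin.image List.prod).subset fun g hg => ?_
  obtain ⟨l, h1, h2, h3⟩ := exists_word_length hS g
  refine ⟨l, ⟨by rw [h1]; exact hg, fun x hx => ?_⟩, h3⟩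
  rw [hA, Finset.mem_union, Finset.mem_image]
  rcases h2 x hx with h | h
  · left; exact_mod_cast h
  · right; exact ⟨x⁻¹, by exact_mod_cast h, inv_inv x⟩

/-- exponential growth -/
theorem card_ball_le (S : Finset G) (hS : Subgroup.closure (S : Set G) = ⊤) (n : ℕ) :
    (finite_ball S hS n).toFinset.card ≤ (2 * S.card + 1) ^ n := by
  classical
  set A : Finset G := insert 1 (S ∪ S.image (·⁻¹)) with hA
  have hAc : A.card ≤ 2 * S.card + 1 := by
    rw [hA]
    refine (Finset.card_insert_le _ _).trans ?_
    have := Finset.card_union_le S (S.image (·⁻¹))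
    have h2 := Finset.card_image_le (s := S) (f := (·⁻¹))
    omega
  have h1A : (1 : G) ∈ A := Finset.mem_insert_self _ _
  -- the map from `Fin n → A` to products is onto the ball
  have key : (finite_ball S hS n).toFinset ⊆
      (Fintype.piFinset (fun _ : Fin n => A)).image (fun f => (List.ofFn f).prod) := by
    intro g hg
    rw [Set.Finite.mem_toFinset] at hg
    change wordLength (S : Set G) g ≤ n at hg
    obtain ⟨l, h1, h2, h3⟩ := exists_word_length hS g
    rw [Finset.mem_image]
    set l' : List G := l ++ List.replicate (n - l.length) 1 with hl'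
    have hlen : l'.length = n := by
      rw [hl', List.length_append, List.length_replicate]; omega
    refine ⟨fun i => l'.get ⟨i, by rw [hlen]; exact i.2⟩, ?_, ?_⟩
    · rw [Fintype.mem_piFinset]
      intro i
      have hm : l'.get ⟨i, by rw [hlen]; exact i.2⟩ ∈ l' := List.get_mem _ _
      rcases List.mem_append.mp hm with hm | hm
      · rw [hA, Finset.mem_insert, Finset.mem_union, Finset.mem_image]
        rcases h2 _ hm with h | h
        · right; left; exact_mod_cast h
        · right; right; exact ⟨_, by exact_mod_cast h, inv_inv _⟩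
      · rw [List.eq_of_mem_replicate hm]; exact h1A
    · have : List.ofFn (fun i : Fin n => l'.get ⟨i, by rw [hlen]; exact i.2⟩) = l' := by
        apply List.ext_get
        · simp [hlen]
        · intro m h1 h2
          simp
      show (List.ofFn (fun i : Fin n => l'.get ⟨i, by rw [hlen]; exact i.2⟩)).prod = g
      rw [this, hl', List.prod_append, List.prod_replicate, one_pow, mul_one, h3]
  calc _ ≤ _ := Finset.card_le_card key
    _ ≤ (Fintype.piFinset (fun _ : Fin n => A)).card := Finset.card_image_le
    _ = A.card ^ n := by rw [Fintype.card_piFinset]; simp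
    _ ≤ _ := Nat.pow_le_pow_left hAc n

end Crest.Agent.R193.H
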