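import Mathlib
import Crest.Prelude.Def_WordHyperbolic
import Crest.Prelude.Def_CayleyBoundary
import Crest.Agent.R193.HWord

/-! Row 193 (helper586): rays, limit rays, products along rays, the action on the boundary. -/

set_option autoImplicit false

namespace Crest.Agent.R193.H

open Crest.GroupTheory Filter

variable {G : Type*} [Group G] {S : Set G}

/-! ### the word distance and the Gromov product based at `1` -/

/-- Gromov product based at `1` -/
noncomputable def gp (S : Set G) (x y : G) : ℝ := gromovProduct S 1 x y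

theorem dist_nonneg' (x y : G) : 0 ≤ wordDist S x y := Nat.cast_nonneg _

theorem dist_self' (x : G) : wordDist S x x = 0 := by
  unfold wordDist; rw [inv_mul_cancel, wordLength_one]; simp

theorem dist_comm' (hS : Subgroup.closure S = ⊤) (x y : G) : wordDist S x y = wordDist S y x := by
  unfold wordDist
  rw [← wordLength_inv hS (x⁻¹ * y), mul_inv_rev, inv_inv]

theorem dist_triangle' (hS : Subgroup.closure S = ⊤) (x y z : G) :
    wordDist S x z ≤ wordDist S x y + wordDist S y z := by
  unfold wordDist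
  have h := wordLength_mul hS (x⁻¹ * y) (y⁻¹ * z)
  rw [mul_assoc, mul_inv_cancel_left] at h
  exact_mod_cast h

theorem dist_smul' (g x y : G) : wordDist S (g * x) (g * y) = wordDist S x y := by
  unfold wordDist
  rw [mul_inv_rev, mul_assoc, inv_mul_cancel_left]

theorem dist_one' (hS : Subgroup.closure S = ⊤) (x : G) : wordDist S x 1 = wordLength S x := by
  unfold wordDist
  rw [mul_one, wordLength_inv hS]

theorem eq_of_dist' (hS : Subgroup.closure S = ⊤) {x y : G} (h : wordDist S x y = 0) : x = y := by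
  unfold wordDist at h
  have h1 : wordLength S (x⁻¹ * y) = 0 := by exact_mod_cast h
  have h2 := eq_one_of_wordLength hS h1
  rw [inv_mul_eq_one] at h2
  exact h2

theorem gp_def (hS : Subgroup.closure S = ⊤) (x y : G) :
    gp S x y = ((wordLength S x : ℝ) + wordLength S y - wordDist S x y) / 2 := by
  unfold gp gromovProduct
  rw [dist_one' hS, dist_one' hS]

theorem gp_comm (hS : Subgroup.closure S = ⊤) (x y : G) : gp S x y = gp S y x := by
  rw [gp_def hS, gp_def hS, dist_comm' hS x y]; ring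

theorem gp_self (hS : Subgroup.closure S = ⊤) (x : G) : gp S x x = wordLength S x := by
  rw [gp_def hS, dist_self']; ring

theorem length_le_add_dist (hS : Subgroup.closure S = ⊤) (x y : G) :
    (wordLength S x : ℝ) ≤ wordLength S y + wordDist S x y := by
  have := dist_triangle' hS x y 1
  rw [dist_one' hS, dist_one' hS] at this
  linarith

theorem gp_nonneg (hS : Subgroup.closure S = ⊤) (x y : G) : 0 ≤ gp S x y := by
  rw [gp_def hS]
  have h := dist_triangle' hS x 1 y
  rw [dist_one' hS, dist_comm' hS 1 y, dist_one' hS] at h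
  linarith

theorem gp_le_left (hS : Subgroup.closure S = ⊤) (x y : G) : gp S x y ≤ wordLength S x := by
  rw [gp_def hS]
  have h := length_le_add_dist hS y x
  rw [dist_comm' hS] at h
  linarith

theorem gp_le_right (hS : Subgroup.closure S = ⊤) (x y : G) : gp S x y ≤ wordLength S y := by
  rw [gp_comm hS]; exact gp_le_left hS y x

theorem gp_lip (hS : Subgroup.closure S = ⊤) (x y z : G) :
    gp S x y ≤ gp S x z + wordDist S y z := by
  rw [gp_def hS, gp_def hS]
  have h1 := length_le_add_dist hS y z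
  have h2 := dist_triangle' hS x y z
  linarith

theorem dist_eq_gp (hS : Subgroup.closure S = ⊤) (x y : G) :
    wordDist S x y = wordLength S x + wordLength S y - 2 * gp S x y := by
  rw [gp_def hS]; ring

/-- the exact duality `(gx|g) + (x|g⁻¹) = |g|` -/
theorem gp_smul (hS : Subgroup.closure S = ⊤) (g x : G) :
    gp S (g * x) g + gp S x g⁻¹ = wordLength S g := by
  rw [gp_def hS, gp_def hS]
  have h1 : wordDist S (g * x) g = wordLength S x := by
    have := dist_smul' (S := S) g x 1
    rw [mul_one, dist_one' hS] at this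
    exact this
  have h2 : wordDist S x g⁻¹ = wordLength S (g * x) := by
    have := dist_smul' (S := S) g x g⁻¹
    rw [mul_inv_cancel, dist_one' hS] at this
    exact this.symm
  rw [h1, h2, wordLength_inv hS]; ring

/-- the four-point condition based at `1` -/
def Hyp (S : Set G) (δ : ℝ) : Prop :=
  ∀ x y z : G, min (gp S x y) (gp S y z) - δ ≤ gp S x z

theorem Hyp.three {δ : ℝ} (h : Hyp S δ) (hδ : 0 ≤ δ) (x y z w : G) :
    min (gp S x y) (min (gp S y z) (gp S z w)) - 2 * δ ≤ gp S x w := by
  have h1 := h x y w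
  have h2 := h y z w
  have h3 : min (gp S x y) (min (gp S y z) (gp S z w)) - δ ≤ min (gp S x y) (gp S y w) := by
    refine le_min ?_ ?_
    · have := min_le_left (gp S x y) (min (gp S y z) (gp S z w)); linarith
    · have := min_le_right (gp S x y) (min (gp S y z) (gp S z w)); linarith
  linarith

/-! ### rays -/

theorem ray_length (hS : Subgroup.closure S = ⊤) (c : CayleyRay S) (n : ℕ) :
    wordLength S (c.toFun n) = n := by
  have h := c.dist_eq n 0
  rw [c.map_zero, dist_one' hS] at h
  simp only [CharP.cast_eq_zero, sub_zero, Nat.abs_cast] at h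
  exact_mod_cast h

theorem ray_dist_le (c : CayleyRay S) {m n : ℕ} (h : m ≤ n) :
    wordDist S (c.toFun m) (c.toFun n) = n - m := by
  rw [c.dist_eq, abs_sub_comm, abs_of_nonneg]
  have : (m : ℝ) ≤ n := by exact_mod_cast h
  linarith

theorem gp_ray_ray (hS : Subgroup.closure S = ⊤) (c : CayleyRay S) {m n : ℕ} (h : m ≤ n) :
    gp S (c.toFun m) (c.toFun n) = m := by
  rw [gp_def hS, ray_length hS, ray_length hS, ray_dist_le c h]; ring

theorem gp_ray_mono (hS : Subgroup.closure S = ⊤) (c : CayleyRay S) (x : G) :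
    Monotone fun n => gp S (c.toFun n) x := by
  refine monotone_nat_of_le_succ fun n => ?_
  show gp S (c.toFun n) x ≤ gp S (c.toFun (n + 1)) x
  rw [gp_def hS, gp_def hS, ray_length hS, ray_length hS]
  have h1 := dist_triangle' hS (c.toFun (n + 1)) (c.toFun n) x
  rw [dist_comm' hS (c.toFun (n + 1)) (c.toFun n), ray_dist_le c (Nat.le_succ n)] at h1
  push_cast at h1 ⊢
  linarith

theorem gp_ray_mono₂ (hS : Subgroup.closure S = ⊤) (c c' : CayleyRay S) {m n m' n' : ℕ}
    (h : m ≤ n) (h' : m' ≤ n') :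
    gp S (c.toFun m) (c'.toFun m') ≤ gp S (c.toFun n) (c'.toFun n') := by
  have h1 := gp_ray_mono hS c (c'.toFun m') h
  have h2 := gp_ray_mono hS c' (c.toFun n) h'
  simp only at h1 h2
  rw [gp_comm hS (c'.toFun m'), gp_comm hS (c'.toFun n')] at h2
  exact h1.trans h2

theorem gp_diag_mono (hS : Subgroup.closure S = ⊤) (c c' : CayleyRay S) :
    Monotone fun n => gp S (c.toFun n) (c'.toFun n) :=
  fun _ _ h => gp_ray_mono₂ hS c c' h h

/-- product of two rays, in the extended reals -/
theorem productLiminf_eq (hS : Subgroup.closure S = ⊤) (c c' : CayleyRay S) :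
    CayleyRay.productLiminf c c' = ⨆ n : ℕ, ((gp S (c.toFun n) (c'.toFun n) : ℝ) : EReal) := by
  unfold CayleyRay.productLiminf
  have hm : Monotone fun n : ℕ => ((gp S (c.toFun n) (c'.toFun n) : ℝ) : EReal) := by
    intro m n h
    exact EReal.coe_le_coe (gp_diag_mono hS c c' h)
  exact (tendsto_atTop_iSup hm).liminf_eq

/-- if the products of two rays are unbounded, the rays stay `4δ`-close -/
theorem dist_le_of_unbounded (hS : Subgroup.closure S = ⊤) {δ : ℝ} (hδ : 0 ≤ δ) (hyp : Hyp S δ)
    (c c' : CayleyRay S) (n : ℕ) (h : ∃ N, (n : ℝ) ≤ gp S (c.toFun N) (c'.toFun N)) :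
    wordDist S (c.toFun n) (c'.toFun n) ≤ 4 * δ := by
  obtain ⟨N, hN⟩ := h
  have hnN : n ≤ N := by
    have := gp_le_left hS (c.toFun N) (c'.toFun N)
    rw [ray_length hS] at this
    exact_mod_cast hN.trans this
  have h1 := hyp.three hδ (c.toFun n) (c.toFun N) (c'.toFun N) (c'.toFun n)
  rw [gp_ray_ray hS c hnN, gp_comm hS (c'.toFun N), gp_ray_ray hS c' hnN,
    min_eq_left (le_min hN le_rfl)] at h1
  rw [dist_eq_gp hS, ray_length hS, ray_length hS]
  linarith

theorem gp_ge_of_asymp (hS : Subgroup.closure S = ⊤) {c c' : CayleyRay S} {C : ℝ}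
    (h : ∀ n, wordDist S (c.toFun n) (c'.toFun n) ≤ C) (n : ℕ) :
    (n : ℝ) - C / 2 ≤ gp S (c.toFun n) (c'.toFun n) := by
  rw [gp_def hS, ray_length hS, ray_length hS]
  have := h n
  linarith

theorem asymp_iff (hS : Subgroup.closure S = ⊤) {δ : ℝ} (hδ : 0 ≤ δ) (hyp : Hyp S δ)
    (c c' : CayleyRay S) :
    c.IsAsymptotic c' ↔ ∀ n, wordDist S (c.toFun n) (c'.toFun n) ≤ 4 * δ := by
  constructor
  · rintro ⟨C, hC⟩ n
    refine dist_le_of_unbounded hS hδ hyp c c' n ?_
    obtain ⟨N, hN⟩ := exists_nat_ge ((n : ℝ) + C / 2)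
    refine ⟨N, ?_⟩
    have := gp_ge_of_asymp hS hC N
    linarith
  · intro h
    exact ⟨_, h⟩

theorem asymp_iff_unbounded (hS : Subgroup.closure S = ⊤) {δ : ℝ} (hδ : 0 ≤ δ) (hyp : Hyp S δ)
    (c c' : CayleyRay S) :
    c.IsAsymptotic c' ↔ ∀ r : ℝ, ∃ N, r ≤ gp S (c.toFun N) (c'.toFun N) := by
  constructor
  · rintro ⟨C, hC⟩ r
    obtain ⟨N, hN⟩ := exists_nat_ge (r + C / 2)
    refine ⟨N, ?_⟩
    have := gp_ge_of_asymp hS hC N
    linarith
  · intro h
    exact ⟨4 * δ, fun n => dist_le_of_unbounded hS hδ hyp c c' n (h n)⟩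

theorem asymp_refl (c : CayleyRay S) : c.IsAsymptotic c :=
  ⟨0, fun n => by rw [dist_self']⟩

theorem asymp_symm (hS : Subgroup.closure S = ⊤) {c c' : CayleyRay S} (h : c.IsAsymptotic c') :
    c'.IsAsymptotic c := by
  obtain ⟨C, hC⟩ := h
  exact ⟨C, fun n => by rw [dist_comm' hS]; exact hC n⟩

theorem asymp_trans (hS : Subgroup.closure S = ⊤) {c c' c'' : CayleyRay S}
    (h : c.IsAsymptotic c') (h' : c'.IsAsymptotic c'') : c.IsAsymptotic c'' := by
  obtain ⟨C, hC⟩ := h
  obtain ⟨C', hC'⟩ := h'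
  refine ⟨C + C', fun n => ?_⟩
  have := dist_triangle' hS (c.toFun n) (c'.toFun n) (c''.toFun n)
  have h1 := hC n
  have h2 := hC' n
  linarith

theorem asymp_equivalence (hS : Subgroup.closure S = ⊤) :
    Equivalence (CayleyRay.IsAsymptotic (S := S)) :=
  ⟨asymp_refl, asymp_symm hS, asymp_trans hS⟩

theorem mk_eq_iff (hS : Subgroup.closure S = ⊤) (c c' : CayleyRay S) :
    (Quot.mk _ c : CayleyBoundary S) = Quot.mk _ c' ↔ c.IsAsymptotic c' := by
  rw [Quot.eq]
  exact ⟨fun h => (asymp_equivalence hS).eqvGen_iff.mp h, fun h => .rel _ _ h⟩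

/-! ### limit rays -/

theorem exists_limit_ray (S : Set G) (hS : Subgroup.closure S = ⊤)
    (hfin : ∀ n, {g : G | wordLength S g ≤ n}.Finite) {ι : Type*}
    (U : Ultrafilter ι) (p : ι → ℕ → G) (N : ι → ℕ) (hN : ∀ k, ∀ᶠ i in (U : Filter ι), k ≤ N i)
    (h0 : ∀ i, p i 0 = 1)
    (hp : ∀ i m n, m ≤ n → n ≤ N i → wordLength S ((p i m)⁻¹ * p i n) = n - m) :
    ∃ c : CayleyRay S, ∀ k, ∀ᶠ i in (U : Filter ι), p i k = c.toFun k := by
  have key : ∀ k, ∃ x : G, ∀ᶠ i in (U : Filter ι), p i k = x := by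
    intro k
    have h1 : ∀ᶠ i in (U : Filter ι), ∃ x ∈ {g : G | wordLength S g ≤ k}, p i k = x := by
      filter_upwards [hN k] with i hi
      refine ⟨p i k, ?_, rfl⟩
      have := hp i 0 k (Nat.zero_le k) hi
      rw [h0, inv_one, one_mul] at this
      show wordLength S (p i k) ≤ k
      omega
    rw [Ultrafilter.eventually_exists_mem_iff (hfin k)] at h1
    obtain ⟨x, -, hx⟩ := h1
    exact ⟨x, hx⟩
  choose c hc using key
  have hle : ∀ m n : ℕ, m ≤ n → wordDist S (c m) (c n) = n - m := by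
    intro m n hmn
    obtain ⟨i, h1, h2, h3⟩ := ((hc m).and ((hc n).and (hN n))).exists
    have := hp i m n hmn h3
    rw [h1, h2] at this
    unfold wordDist
    rw [this, Nat.cast_sub hmn]
  refine ⟨⟨c, ?_, ?_⟩, hc⟩
  · obtain ⟨i, h1⟩ := (hc 0).exists
    rw [← h1, h0]
  · intro m n
    rcases le_total m n with h | h
    · rw [hle m n h, abs_sub_comm, abs_of_nonneg]
      have : (m : ℝ) ≤ n := by exact_mod_cast h
      linarith
    · rw [dist_comm' hS, hle n m h, abs_of_nonneg]
      have : (n : ℝ) ≤ m := by exact_mod_cast h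
      linarith

/-- a family of group elements going to infinity along an ultrafilter has a limit ray:
`(c(k)|g_i) = k` for most `i` -/
theorem exists_limit_ray' (S : Set G) (hS : Subgroup.closure S = ⊤)
    (hfin : ∀ n, {g : G | wordLength S g ≤ n}.Finite) {ι : Type*}
    (U : Ultrafilter ι) (g : ι → G) (hg : ∀ k : ℕ, ∀ᶠ i in (U : Filter ι), k ≤ wordLength S (g i)) :
    ∃ c : CayleyRay S, ∀ k, ∀ᶠ i in (U : Filter ι), gp S (c.toFun k) (g i) = k := by
  choose p hp0 hp1 hp2 using fun i => exists_path hS (g i)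
  obtain ⟨c, hc⟩ := exists_limit_ray S hS hfin U p (fun i => wordLength S (g i)) hg hp0 hp2
  refine ⟨c, fun k => ?_⟩
  filter_upwards [hc k, hg k] with i h1 h2
  have h3 := hp2 i k _ h2 le_rfl
  rw [hp1 i _ le_rfl] at h3
  rw [← h1, gp_def hS]
  have h4 : wordLength S (p i k) = k := by rw [h1, ray_length hS]
  unfold wordDist
  rw [h3, h4, Nat.cast_sub h2]
  ring

/-- translates of rays -/
theorem exists_translate (S : Set G) (hS : Subgroup.closure S = ⊤)
    (hfin : ∀ n, {g : G | wordLength S g ≤ n}.Finite) {δ : ℝ} (hδ : 0 ≤ δ) (hyp : Hyp S δ)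
    (g : G) (c : CayleyRay S) :
    ∃ c' : CayleyRay S,
      ∀ k i : ℕ, k + wordLength S g ≤ i → (k : ℝ) - δ ≤ gp S (c'.toFun k) (g * c.toFun i) := by
  have hlen : ∀ i : ℕ, (i : ℝ) - wordLength S g ≤ wordLength S (g * c.toFun i) := by
    intro i
    have h1 := length_le_add_dist hS (c.toFun i) (g⁻¹)
    have h2 : wordDist S (c.toFun i) g⁻¹ = wordLength S (g * c.toFun i) := by
      have := dist_smul' (S := S) g (c.toFun i) g⁻¹
      rw [mul_inv_cancel, dist_one' hS] at this
      exact this.symm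
    rw [ray_length hS, wordLength_inv hS, h2] at h1
    linarith
  obtain ⟨c', hc'⟩ := exists_limit_ray' S hS hfin (hyperfilter ℕ) (fun i => g * c.toFun i) (by
    intro k
    refine Nat.hyperfilter_le_atTop ?_
    filter_upwards [eventually_ge_atTop (k + wordLength S g)] with i hi
    have h1 := hlen i
    have h2 : ((k : ℝ) + wordLength S g) ≤ i := by exact_mod_cast hi
    have h3 : (k : ℝ) ≤ wordLength S (g * c.toFun i) := by linarith
    exact_mod_cast h3)
  refine ⟨c', fun k i hi => ?_⟩
  have h1 : ∀ᶠ j in ((hyperfilter ℕ : Ultrafilter ℕ) : Filter ℕ), i ≤ j :=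
    Nat.hyperfilter_le_atTop (eventually_ge_atTop i)
  obtain ⟨j, hj1, hj2⟩ := ((hc' k).and h1).exists
  have h2 := hyp (c'.toFun k) (g * c.toFun j) (g * c.toFun i)
  rw [hj1] at h2
  have h3 : (k : ℝ) ≤ gp S (g * c.toFun j) (g * c.toFun i) := by
    rw [gp_def hS, dist_smul', dist_comm' hS, ray_dist_le c hj2]
    have e1 := hlen i
    have e2 := hlen j
    have h2 : ((k : ℝ) + wordLength S g) ≤ i := by exact_mod_cast hi
    linarith
  rw [min_eq_left h3] at h2
  exact h2

theorem translate_dist (hS : Subgroup.closure S = ⊤) {δ : ℝ} (hδ : 0 ≤ δ) (hyp : Hyp S δ)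
    {g : G} {c c' : CayleyRay S}
    (h : ∀ k i : ℕ, k + wordLength S g ≤ i → (k : ℝ) - δ ≤ gp S (c'.toFun k) (g * c.toFun i))
    (k : ℕ) : wordDist S (c'.toFun k) (g * c.toFun k) ≤ 3 * wordLength S g + 4 * δ := by
  have h1 := h k (k + wordLength S g) le_rfl
  have h2 := hyp (c'.toFun k) (g * c.toFun (k + wordLength S g)) (g * c.toFun k)
  have hlen : ∀ i : ℕ, (i : ℝ) - wordLength S g ≤ wordLength S (g * c.toFun i) := by
    intro i
    have h1 := length_le_add_dist hS (c.toFun i) (g⁻¹)
    have h2 : wordDist S (c.toFun i) g⁻¹ = wordLength S (g * c.toFun i) := by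
      have := dist_smul' (S := S) g (c.toFun i) g⁻¹
      rw [mul_inv_cancel, dist_one' hS] at this
      exact this.symm
    rw [ray_length hS, wordLength_inv hS, h2] at h1
    linarith
  have h3 : (k : ℝ) - wordLength S g ≤ gp S (g * c.toFun (k + wordLength S g)) (g * c.toFun k) := by
    rw [gp_def hS, dist_smul', dist_comm' hS, ray_dist_le c (Nat.le_add_right _ _)]
    have e1 := hlen k
    have e2 := hlen (k + wordLength S g)
    push_cast at e2 ⊢
    linarith
  have h4 : (k : ℝ) - wordLength S g - 2 * δ ≤ gp S (c'.toFun k) (g * c.toFun k) := by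
    have : (k : ℝ) - wordLength S g - δ ≤
        min (gp S (c'.toFun k) (g * c.toFun (k + wordLength S g)))
          (gp S (g * c.toFun (k + wordLength S g)) (g * c.toFun k)) := by
      refine le_min ?_ (by linarith)
      have : (0 : ℝ) ≤ wordLength S g := Nat.cast_nonneg _
      linarith
    linarith
  rw [dist_eq_gp hS, ray_length hS]
  have h5 : (wordLength S (g * c.toFun k) : ℝ) ≤ wordLength S g + k := by
    have := wordLength_mul hS g (c.toFun k)
    rw [ray_length hS] at this
    exact_mod_cast this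
  linarith

end Crest.Agent.R193.H
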