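import Mathlib
import Crest.Prelude.Def_WordHyperbolic
import Crest.Prelude.Def_CayleyBoundary

/-!
R193, hyperbolic toolkit, layer H1: word metric, geodesics, Gromov products based at `1`.
-/

set_option autoImplicit false

namespace Crest.Agent.R193.Hyp

open Crest.GroupTheory

variable {G : Type*} [Group G]

/-! ### Word length -/

section word
variable {S : Set G}

/-- a word in the letters `S ∪ S⁻¹` -/
def IsWord (S : Set G) (l : List G) : Prop := ∀ x ∈ l, x ∈ S ∨ x⁻¹ ∈ S

theorem IsWord.append {l l' : List G} (h : IsWord S l) (h' : IsWord S l') : IsWord S (l ++ l') := by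
  intro x hx
  rcases List.mem_append.1 hx with hx | hx
  · exact h x hx
  · exact h' x hx

theorem IsWord.take {l : List G} (h : IsWord S l) (k : ℕ) : IsWord S (l.take k) :=
  fun x hx => h x (List.mem_of_mem_take hx)

theorem IsWord.drop {l : List G} (h : IsWord S l) (k : ℕ) : IsWord S (l.drop k) :=
  fun x hx => h x (List.mem_of_mem_drop hx)

theorem IsWord.inv {l : List G} (h : IsWord S l) : IsWord S (l.map (·⁻¹)).reverse := by
  intro x hx
  rw [List.mem_reverse, List.mem_map] at hx
  obtain ⟨y, hy, rfl⟩ := hx
  rcases h y hy with h1 | h1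
  · right; simpa using h1
  · left; exact h1

theorem exists_word (hS : Subgroup.closure S = ⊤) (g : G) :
    ∃ l : List G, IsWord S l ∧ l.prod = g := by
  have hg : g ∈ Subgroup.closure S := by rw [hS]; trivial
  induction hg using Subgroup.closure_induction with
  | mem x hx => exact ⟨[x], by intro y hy; simp at hy; subst hy; exact Or.inl hx, by simp⟩
  | one => exact ⟨[], by intro y hy; simp at hy, by simp⟩
  | mul x y _ _ hx hy =>
    obtain ⟨l, hl, rfl⟩ := hx
    obtain ⟨l', hl', rfl⟩ := hy
    exact ⟨l ++ l', hl.append hl', by simp⟩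
  | inv x _ hx =>
    obtain ⟨l, hl, rfl⟩ := hx
    exact ⟨(l.map (·⁻¹)).reverse, hl.inv, by rw [List.prod_inv_reverse]⟩

theorem wordLength_le_length {l : List G} (hl : IsWord S l) : wordLength S l.prod ≤ l.length :=
  Nat.sInf_le ⟨l, rfl, hl, rfl⟩

theorem exists_geodesic_word (hS : Subgroup.closure S = ⊤) (g : G) :
    ∃ l : List G, l.length = wordLength S g ∧ IsWord S l ∧ l.prod = g := by
  have hne : {n : ℕ | ∃ l : List G, l.length = n ∧ (∀ x ∈ l, x ∈ S ∨ x⁻¹ ∈ S) ∧ l.prod = g}.Nonempty := by
    obtain ⟨l, hl, hlg⟩ := exists_word hS g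
    exact ⟨l.length, l, rfl, hl, hlg⟩
  obtain ⟨l, h1, h2, h3⟩ := Nat.sInf_mem hne
  exact ⟨l, h1, h2, h3⟩

@[simp] theorem wordLength_one : wordLength S (1 : G) = 0 := by
  have : wordLength S (([] : List G).prod) ≤ ([] : List G).length :=
    wordLength_le_length (by intro y hy; simp at hy)
  simpa using this

theorem wordLength_mul_le (hS : Subgroup.closure S = ⊤) (g h : G) :
    wordLength S (g * h) ≤ wordLength S g + wordLength S h := by
  obtain ⟨l, hl1, hl2, hl3⟩ := exists_geodesic_word hS g
  obtain ⟨l', hl1', hl2', hl3'⟩ := exists_geodesic_word hS h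
  have := wordLength_le_length (hl2.append hl2')
  rw [List.prod_append, List.length_append, hl3, hl3', hl1, hl1'] at this
  exact this

theorem wordLength_inv_le (hS : Subgroup.closure S = ⊤) (g : G) :
    wordLength S g⁻¹ ≤ wordLength S g := by
  obtain ⟨l, hl1, hl2, hl3⟩ := exists_geodesic_word hS g
  have := wordLength_le_length hl2.inv
  rw [← List.prod_inv_reverse, hl3] at this
  simpa [hl1] using this

theorem wordLength_inv (hS : Subgroup.closure S = ⊤) (g : G) :
    wordLength S g⁻¹ = wordLength S g :=
  le_antisymm (wordLength_inv_le hS g) (by simpa using wordLength_inv_le hS g⁻¹)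

theorem wordLength_eq_zero (hS : Subgroup.closure S = ⊤) {g : G} (h : wordLength S g = 0) : g = 1 := by
  obtain ⟨l, hl1, _, hl3⟩ := exists_geodesic_word hS g
  rw [h] at hl1
  rw [List.length_eq_zero_iff] at hl1
  subst hl1
  simpa using hl3.symm

/-- geodesic interpolation -/
theorem exists_between (hS : Subgroup.closure S = ⊤) (g : G) {k : ℕ} (hk : k ≤ wordLength S g) :
    ∃ h : G, wordLength S h = k ∧ wordLength S (h⁻¹ * g) = wordLength S g - k := by
  obtain ⟨l, hl1, hl2, hl3⟩ := exists_geodesic_word hS g
  refine ⟨(l.take k).prod, ?_⟩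
  have h1 : wordLength S (l.take k).prod ≤ k := by
    have := wordLength_le_length (hl2.take k)
    rw [List.length_take] at this; omega
  have h2 : wordLength S (l.drop k).prod ≤ wordLength S g - k := by
    have := wordLength_le_length (hl2.drop k)
    rw [List.length_drop, hl1] at this; omega
  have h3 : (l.take k).prod⁻¹ * g = (l.drop k).prod := by
    rw [← hl3, ← List.prod_take_mul_prod_drop l k]; group
  have h4 := wordLength_mul_le hS (l.take k).prod (l.drop k).prod
  rw [List.prod_take_mul_prod_drop, hl3] at h4
  rw [h3]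
  omega

/-- the ball of radius `n` is finite when `S` is finite -/
theorem finite_ball (hS : Subgroup.closure S = ⊤) (hf : S.Finite) (n : ℕ) :
    {g : G | wordLength S g ≤ n}.Finite := by
  classical
  set T : Set G := S ∪ S⁻¹ ∪ {1} with hT
  have hTf : T.Finite := (hf.union hf.inv).union (Set.finite_singleton 1)
  have key : ∀ n : ℕ, {g : G | ∃ l : List G, l.length = n ∧ (∀ x ∈ l, x ∈ T) ∧ l.prod = g}.Finite := by
    intro n
    induction n with
    | zero =>
      refine (Set.finite_singleton (1 : G)).subset ?_
      rintro g ⟨l, hl, _, rfl⟩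
      rw [List.length_eq_zero_iff] at hl; subst hl; simp
    | succ n ih =>
      refine (hTf.mul ih).subset ?_
      rintro g ⟨l, hl, hl2, rfl⟩
      cases l with
      | nil => simp at hl
      | cons a l =>
        refine ⟨a, hl2 a (by simp), l.prod, ⟨l, by simpa using hl, fun x hx => hl2 x (by simp [hx]), rfl⟩, by simp⟩
  refine (key n).subset ?_
  intro g hg
  obtain ⟨l, hl1, hl2, hl3⟩ := exists_geodesic_word hS g
  refine ⟨l ++ List.replicate (n - l.length) 1, ?_, ?_, ?_⟩
  · simp only [List.length_append, List.length_replicate]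
    have : l.length ≤ n := by rw [hl1]; exact hg
    omega
  · intro x hx
    rcases List.mem_append.1 hx with hx | hx
    · rcases hl2 x hx with h | h
      · exact Or.inl (Or.inl h)
      · exact Or.inl (Or.inr h)
    · rw [List.mem_replicate] at hx; rw [hx.2]; right; rfl
  · simp [hl3]

end word

/-! ### Real valued length, distance and Gromov product -/

section real
variable {S : Set G}

/-- real word length -/
noncomputable def len (S : Set G) (g : G) : ℝ := (wordLength S g : ℝ)

/-- the Gromov product based at `1` -/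
noncomputable def gp (S : Set G) (x y : G) : ℝ := gromovProduct S 1 x y

theorem len_nonneg (g : G) : 0 ≤ len S g := Nat.cast_nonneg _

@[simp] theorem len_one : len S (1 : G) = 0 := by simp [len]

theorem len_mul_le (hS : Subgroup.closure S = ⊤) (g h : G) : len S (g * h) ≤ len S g + len S h := by
  have := wordLength_mul_le hS g h
  simp only [len]; exact_mod_cast this

theorem len_inv (hS : Subgroup.closure S = ⊤) (g : G) : len S g⁻¹ = len S g := by
  simp only [len, wordLength_inv hS]

theorem wordDist_eq (g h : G) : wordDist S g h = len S (g⁻¹ * h) := rfl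

theorem wordDist_self (g : G) : wordDist S g g = 0 := by simp [wordDist_eq]

theorem wordDist_nonneg (g h : G) : 0 ≤ wordDist S g h := Nat.cast_nonneg _

theorem wordDist_comm (hS : Subgroup.closure S = ⊤) (g h : G) : wordDist S g h = wordDist S h g := by
  rw [wordDist_eq, wordDist_eq, ← len_inv hS]; congr 1; group

theorem wordDist_triangle (hS : Subgroup.closure S = ⊤) (g h k : G) :
    wordDist S g k ≤ wordDist S g h + wordDist S h k := by
  rw [wordDist_eq, wordDist_eq, wordDist_eq]
  have := len_mul_le hS (g⁻¹ * h) (h⁻¹ * k)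
  have h2 : g⁻¹ * h * (h⁻¹ * k) = g⁻¹ * k := by group
  rwa [h2] at this

@[simp] theorem wordDist_mul_left (a g h : G) : wordDist S (a * g) (a * h) = wordDist S g h := by
  rw [wordDist_eq, wordDist_eq]; congr 1; group

theorem wordDist_one_left (g : G) : wordDist S 1 g = len S g := by simp [wordDist_eq]

theorem wordDist_one_right (hS : Subgroup.closure S = ⊤) (g : G) : wordDist S g 1 = len S g := by
  rw [wordDist_comm hS, wordDist_one_left]

theorem gp_def (hS : Subgroup.closure S = ⊤) (x y : G) :
    gp S x y = (len S x + len S y - wordDist S x y) / 2 := by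
  simp only [gp, gromovProduct, wordDist_one_right hS]

theorem gp_comm (hS : Subgroup.closure S = ⊤) (x y : G) : gp S x y = gp S y x := by
  rw [gp_def hS, gp_def hS, wordDist_comm hS x y]; ring

theorem wordDist_eq_gp (hS : Subgroup.closure S = ⊤) (x y : G) :
    wordDist S x y = len S x + len S y - 2 * gp S x y := by
  rw [gp_def hS]; ring

theorem gp_nonneg (hS : Subgroup.closure S = ⊤) (x y : G) : 0 ≤ gp S x y := by
  rw [gp_def hS]
  have := wordDist_triangle hS x 1 y
  rw [wordDist_one_right hS, wordDist_one_left] at this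
  linarith

theorem gp_le_left (hS : Subgroup.closure S = ⊤) (x y : G) : gp S x y ≤ len S x := by
  rw [gp_def hS]
  have := wordDist_triangle hS 1 x y
  rw [wordDist_one_left, wordDist_one_left] at this
  linarith

theorem gp_le_right (hS : Subgroup.closure S = ⊤) (x y : G) : gp S x y ≤ len S y := by
  rw [gp_comm hS]; exact gp_le_left hS y x

theorem gp_self (hS : Subgroup.closure S = ⊤) (x : G) : gp S x x = len S x := by
  rw [gp_def hS, wordDist_self]; ring

@[simp] theorem gp_one_left (hS : Subgroup.closure S = ⊤) (x : G) : gp S 1 x = 0 := by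
  rw [gp_def hS, wordDist_one_left]; simp

/-- `1`-Lipschitz in each variable -/
theorem gp_lip_left (hS : Subgroup.closure S = ⊤) (x x' y : G) :
    |gp S x y - gp S x' y| ≤ wordDist S x x' := by
  rw [gp_def hS, gp_def hS, abs_le]
  have h1 := wordDist_triangle hS 1 x x'
  have h2 := wordDist_triangle hS 1 x' x
  have h3 := wordDist_triangle hS x x' y
  have h4 := wordDist_triangle hS x' x y
  rw [wordDist_one_left, wordDist_one_left] at h1 h2
  rw [wordDist_comm hS x' x] at h2 h4
  constructor <;> linarith

theorem gp_lip_right (hS : Subgroup.closure S = ⊤) (x y y' : G) :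
    |gp S x y - gp S x y'| ≤ wordDist S y y' := by
  rw [gp_comm hS x y, gp_comm hS x y']; exact gp_lip_left hS y y' x

/-- change of base point (exact): `(x|y)_w = (x|y) - (x|w) - (y|w) + |w|` -/
theorem gromovProduct_eq (hS : Subgroup.closure S = ⊤) (w x y : G) :
    gromovProduct S w x y = gp S x y - gp S x w - gp S y w + len S w := by
  rw [gp_def hS, gp_def hS, gp_def hS]
  simp only [gromovProduct]
  ring

theorem gromovProduct_mul_left (a w x y : G) :
    gromovProduct S (a * w) (a * x) (a * y) = gromovProduct S w x y := by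
  simp only [gromovProduct, wordDist_mul_left]

/-- exact: `(gx|gy) = (x|y) - (x|g⁻¹) - (y|g⁻¹) + |g|` -/
theorem gp_mul_mul (hS : Subgroup.closure S = ⊤) (g x y : G) :
    gp S (g * x) (g * y) = gp S x y - gp S x g⁻¹ - gp S y g⁻¹ + len S g := by
  have h1 : gp S (g * x) (g * y) = gromovProduct S g⁻¹ x y := by
    have := gromovProduct_mul_left (S := S) g g⁻¹ x y
    rw [mul_inv_cancel] at this
    exact this
  rw [h1, gromovProduct_eq hS, len_inv hS]

/-- exact: `(gx|g) + (x|g⁻¹) = |g|` -/
theorem gp_mul_self (hS : Subgroup.closure S = ⊤) (g x : G) :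
    gp S (g * x) g + gp S x g⁻¹ = len S g := by
  have h := gp_mul_mul hS g x 1
  rw [mul_one, gp_comm hS x 1, gp_one_left hS, gp_one_left hS] at h
  linarith

end real

end Crest.Agent.R193.Hyp
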