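import Mathlib
import Crest.Prelude.Def_WordHyperbolic
import Crest.Prelude.Def_CayleyBoundary
import Crest.Agent.R193.HypWord

/-!
R193, hyperbolic toolkit, layer H2: Gromov products on `G ⊔ ∂G`.

* `IsHyp S δ` : `S` finite, generates, four point condition with constant `δ`.
* `Pt S = G ⊕ CayleyBoundary S`, `pth p : ℕ → G` (constant for group elements, a ray for boundary
  points), `P p q : EReal` the (monotone) limit of `(pth p n | pth q n)`.
* `zg x g : ℝ` product of a boundary point and a group element, `zz x y : EReal`.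
* exact four point inequality on `Pt S` with the same constant `δ`.
* comparison with the product of the Prelude, neighbourhood bases.
-/

set_option autoImplicit false

namespace Crest.Agent.R193.Hyp

open Crest.GroupTheory Filter Topology

variable {G : Type*} [Group G] {S : Set G} {δ : ℝ}

/-- standing hypothesis -/
structure IsHyp (S : Set G) (δ : ℝ) : Prop where
  gen : Subgroup.closure S = ⊤
  fin : S.Finite
  nonneg : 0 ≤ δ
  four : ∀ w x y z : G, min (gromovProduct S w x y) (gromovProduct S w y z) - δ ≤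
    gromovProduct S w x z

theorem IsHyp.gp_four (H : IsHyp S δ) (x y z : G) : min (gp S x y) (gp S y z) - δ ≤ gp S x z :=
  H.four 1 x y z

/-! ### radial sequences -/

/-- a sequence moving away from `1` radially -/
def Radial (S : Set G) (c : ℕ → G) : Prop :=
  ∀ m n, m ≤ n → wordDist S (c m) (c n) = len S (c n) - len S (c m)

theorem Radial.gp_eq (hS : Subgroup.closure S = ⊤) {c : ℕ → G} (hc : Radial S c) {m n : ℕ}
    (h : m ≤ n) : gp S (c m) (c n) = len S (c m) := by
  rw [gp_def hS, hc m n h]; ring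

theorem Radial.gp_mono_left (hS : Subgroup.closure S = ⊤) {c : ℕ → G} (hc : Radial S c) (y : G) :
    Monotone fun n => gp S (c n) y := by
  intro m n h
  simp only
  rw [gp_def hS, gp_def hS]
  have h1 := hc m n h
  have h2 := wordDist_triangle hS (c n) (c m) y
  rw [wordDist_comm hS (c n) (c m), h1] at h2
  linarith

theorem Radial.gp_mono_right (hS : Subgroup.closure S = ⊤) {c : ℕ → G} (hc : Radial S c) (y : G) :
    Monotone fun n => gp S y (c n) := by
  have := hc.gp_mono_left hS y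
  intro m n h
  simp only
  rw [gp_comm hS y, gp_comm hS y]
  exact this h

theorem gp_mono (hS : Subgroup.closure S = ⊤) {c c' : ℕ → G} (hc : Radial S c) (hc' : Radial S c')
    {m n m' n' : ℕ} (h : m ≤ n) (h' : m' ≤ n') : gp S (c m) (c' m') ≤ gp S (c n) (c' n') :=
  (hc.gp_mono_left hS (c' m') h).trans (hc'.gp_mono_right hS (c n) h')

theorem radial_const (g : G) : Radial S (fun _ => g) := by
  intro m n _; simp [wordDist_self]

theorem ray_len (hS : Subgroup.closure S = ⊤) (γ : CayleyRay S) (n : ℕ) : len S (γ.toFun n) = n := by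
  have := γ.dist_eq 0 n
  rw [γ.map_zero, wordDist_one_left] at this
  rw [this]; simp

theorem ray_wordLength (hS : Subgroup.closure S = ⊤) (γ : CayleyRay S) (n : ℕ) :
    wordLength S (γ.toFun n) = n := by
  have := ray_len hS γ n
  simp only [len] at this
  exact_mod_cast this

theorem ray_radial (hS : Subgroup.closure S = ⊤) (γ : CayleyRay S) : Radial S γ.toFun := by
  intro m n h
  rw [γ.dist_eq, ray_len hS, ray_len hS, abs_sub_comm, abs_of_nonneg]
  have : (m : ℝ) ≤ n := by exact_mod_cast h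
  linarith

/-! ### points of `G ⊔ ∂G` -/

/-- `G ⊔ ∂G` -/
abbrev Pt (S : Set G) := G ⊕ CayleyBoundary S

/-- a chosen ray of a boundary point -/
noncomputable def rep (x : CayleyBoundary S) : CayleyRay S := Quot.out x

theorem mk_rep (x : CayleyBoundary S) : Quot.mk _ (rep x) = x := Quot.out_eq x

/-- the chosen ray as a function -/
noncomputable def ray (x : CayleyBoundary S) : ℕ → G := (rep x).toFun

/-- the path of a point -/
noncomputable def pth : Pt S → ℕ → G
  | Sum.inl g => fun _ => g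
  | Sum.inr x => ray x

@[simp] theorem pth_inl (g : G) (n : ℕ) : pth (Sum.inl g : Pt S) n = g := rfl
@[simp] theorem pth_inr (x : CayleyBoundary S) (n : ℕ) : pth (Sum.inr x : Pt S) n = ray x n := rfl

theorem len_ray (H : IsHyp S δ) (x : CayleyBoundary S) (n : ℕ) : len S (ray x n) = n :=
  ray_len H.gen _ n

theorem wordLength_ray (H : IsHyp S δ) (x : CayleyBoundary S) (n : ℕ) : wordLength S (ray x n) = n :=
  ray_wordLength H.gen _ n

theorem wordDist_ray (x : CayleyBoundary S) (m n : ℕ) :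
    wordDist S (ray x m) (ray x n) = |(m : ℝ) - n| := (rep x).dist_eq m n

theorem radial_pth (H : IsHyp S δ) (p : Pt S) : Radial S (pth p) := by
  cases p with
  | inl g => exact radial_const g
  | inr x => exact ray_radial H.gen _

/-- the Gromov product on `G ⊔ ∂G` -/
noncomputable def P (p q : Pt S) : EReal := ⨆ n : ℕ, ((gp S (pth p n) (pth q n) : ℝ) : EReal)

theorem lt_P_iff {p q : Pt S} {R : ℝ} :
    (R : EReal) < P p q ↔ ∃ n, R < gp S (pth p n) (pth q n) := by
  simp only [P, lt_iSup_iff, EReal.coe_lt_coe_iff]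

theorem P_le_iff {p q : Pt S} {R : ℝ} :
    P p q ≤ (R : EReal) ↔ ∀ n, gp S (pth p n) (pth q n) ≤ R := by
  simp only [P, iSup_le_iff, EReal.coe_le_coe_iff]

theorem gp_le_P (H : IsHyp S δ) (p q : Pt S) (m n : ℕ) :
    ((gp S (pth p m) (pth q n) : ℝ) : EReal) ≤ P p q := by
  have h := gp_mono H.gen (radial_pth H p) (radial_pth H q) (le_max_left m n) (le_max_right m n)
  exact (EReal.coe_le_coe_iff.2 h).trans (le_iSup (fun n : ℕ => ((gp S (pth p n) (pth q n) : ℝ) : EReal)) (max m n))

theorem le_P_of_forall_lt {p q : Pt S} {R : ℝ} (h : ∀ R' : ℝ, R' < R → (R' : EReal) < P p q) :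
    (R : EReal) ≤ P p q := by
  refine le_of_forall_lt fun c hc => ?_
  induction c with
  | bot => exact lt_of_le_of_lt bot_le (h (R - 1) (by linarith))
  | coe c => exact h c (EReal.coe_lt_coe_iff.1 hc)
  | top => exact absurd hc (by simp)

theorem P_comm (H : IsHyp S δ) (p q : Pt S) : P p q = P q p := by
  simp only [P]; congr 1; ext n; rw [gp_comm H.gen]

theorem P_nonneg (H : IsHyp S δ) (p q : Pt S) : 0 ≤ P p q := by
  have := gp_le_P H p q 0 0
  refine le_trans ?_ this
  exact_mod_cast gp_nonneg H.gen _ _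

/-- four point inequality, strict form -/
theorem P_four_lt (H : IsHyp S δ) {p q r : Pt S} {R : ℝ} (h1 : (R : EReal) < P p q)
    (h2 : (R : EReal) < P q r) : ((R - δ : ℝ) : EReal) < P p r := by
  rw [lt_P_iff] at *
  obtain ⟨m, hm⟩ := h1
  obtain ⟨n, hn⟩ := h2
  have h3 := gp_mono H.gen (radial_pth H p) (radial_pth H q) (le_max_left m n) (le_max_left m n)
  have h4 := gp_mono H.gen (radial_pth H q) (radial_pth H r) (le_max_right m n) (le_max_right m n)
  refine ⟨max m n, ?_⟩
  have := H.gp_four (pth p (max m n)) (pth q (max m n)) (pth r (max m n))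
  have h5 : R < min (gp S (pth p (max m n)) (pth q (max m n)))
      (gp S (pth q (max m n)) (pth r (max m n))) := lt_min (by linarith) (by linarith)
  linarith

/-- four point inequality, weak form -/
theorem P_four_le (H : IsHyp S δ) {p q r : Pt S} {R : ℝ} (h1 : (R : EReal) ≤ P p q)
    (h2 : (R : EReal) ≤ P q r) : ((R - δ : ℝ) : EReal) ≤ P p r := by
  refine le_P_of_forall_lt fun R' hR' => ?_
  have h3 : ((R' + δ : ℝ) : EReal) < (R : EReal) := EReal.coe_lt_coe_iff.2 (by linarith)
  have := P_four_lt H (h3.trans_le h1) (h3.trans_le h2)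
  simpa using this

/-- four point inequality, `min` form -/
theorem P_four (H : IsHyp S δ) (p q r : Pt S) : min (P p q) (P q r) ≤ P p r + (δ : EReal) := by
  refine le_of_forall_lt fun c hc => ?_
  rw [lt_min_iff] at hc
  induction c with
  | bot =>
    have h0 := P_nonneg H p r
    have : (0 : EReal) ≤ P p r + δ := add_nonneg h0 (by exact_mod_cast H.nonneg)
    exact lt_of_lt_of_le (by simp) this
  | coe c =>
    have h := P_four_lt H hc.1 hc.2
    have h2 : ((c : ℝ) : EReal) = ((c - δ : ℝ) : EReal) + (δ : EReal) := by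
      rw [← EReal.coe_add]; congr 1; ring
    rw [h2]
    exact EReal.add_lt_add_right_coe h δ
  | top => exact absurd hc.1 (by simp)

/-! ### boundary point versus group element -/

/-- product of a boundary point and a group element (a real number) -/
noncomputable def zg (x : CayleyBoundary S) (g : G) : ℝ := ⨆ n : ℕ, gp S (ray x n) g

/-- product of two boundary points -/
noncomputable def zz (x y : CayleyBoundary S) : EReal := P (Sum.inr x) (Sum.inr y)

theorem bdd_zg (H : IsHyp S δ) (x : CayleyBoundary S) (g : G) :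
    BddAbove (Set.range fun n : ℕ => gp S (ray x n) g) :=
  ⟨len S g, by rintro _ ⟨n, rfl⟩; exact gp_le_right H.gen _ _⟩

theorem gp_le_zg (H : IsHyp S δ) (x : CayleyBoundary S) (g : G) (n : ℕ) : gp S (ray x n) g ≤ zg x g :=
  le_ciSup (bdd_zg H x g) n

theorem zg_le (H : IsHyp S δ) {x : CayleyBoundary S} {g : G} {R : ℝ} (h : ∀ n, gp S (ray x n) g ≤ R) :
    zg x g ≤ R := ciSup_le h

theorem P_zg (H : IsHyp S δ) (x : CayleyBoundary S) (g : G) :
    P (Sum.inr x) (Sum.inl g) = (zg x g : EReal) := by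
  apply le_antisymm
  · rw [P_le_iff]; intro n; exact gp_le_zg H x g n
  · refine le_P_of_forall_lt fun R' hR' => ?_
    rw [lt_P_iff]
    exact exists_lt_of_lt_ciSup hR'

theorem P_gz (H : IsHyp S δ) (x : CayleyBoundary S) (g : G) :
    P (Sum.inl g) (Sum.inr x) = (zg x g : EReal) := by
  rw [P_comm H, P_zg H]

theorem P_gg (g h : G) : P (Sum.inl g : Pt S) (Sum.inl h) = ((gp S g h : ℝ) : EReal) := by
  simp [P]

theorem zg_nonneg (H : IsHyp S δ) (x : CayleyBoundary S) (g : G) : 0 ≤ zg x g :=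
  (gp_nonneg H.gen _ _).trans (gp_le_zg H x g 0)

theorem zg_le_len (H : IsHyp S δ) (x : CayleyBoundary S) (g : G) : zg x g ≤ len S g :=
  zg_le H fun n => gp_le_right H.gen _ _

theorem zz_comm (H : IsHyp S δ) (x y : CayleyBoundary S) : zz x y = zz y x := P_comm H _ _

theorem tendsto_zg (H : IsHyp S δ) (x : CayleyBoundary S) (g : G) :
    Tendsto (fun n => gp S (ray x n) g) atTop (𝓝 (zg x g)) :=
  tendsto_atTop_ciSup ((ray_radial H.gen (rep x)).gp_mono_left H.gen g) (bdd_zg H x g)

/-- along its own ray the product is exact -/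
theorem zg_ray (H : IsHyp S δ) (x : CayleyBoundary S) (n : ℕ) : zg x (ray x n) = n := by
  apply le_antisymm
  · rw [← len_ray H x n]; exact zg_le_len H x _
  · have := gp_le_zg H x (ray x n) n
    rw [gp_self H.gen, len_ray H] at this
    exact this

theorem zz_self (H : IsHyp S δ) (x : CayleyBoundary S) : zz x x = ⊤ := by
  rw [EReal.eq_top_iff_forall_lt]
  intro R
  obtain ⟨n, hn⟩ := exists_nat_gt R
  rw [zz, lt_P_iff]
  refine ⟨n, ?_⟩
  simp only [pth_inr]
  rw [gp_self H.gen, len_ray H]; exact hn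

/-! four point inequalities by type -/

theorem four_zgz (H : IsHyp S δ) (x y : CayleyBoundary S) (g : G) {R : ℝ} (h1 : R ≤ zg x g)
    (h2 : R ≤ zg y g) : ((R - δ : ℝ) : EReal) ≤ zz x y :=
  P_four_le H (q := Sum.inl g) (by rw [P_zg H]; exact_mod_cast h1) (by rw [P_gz H]; exact_mod_cast h2)

theorem four_zzg (H : IsHyp S δ) (x y : CayleyBoundary S) (g : G) {R : ℝ} (h1 : (R : EReal) ≤ zz x y)
    (h2 : R ≤ zg y g) : R - δ ≤ zg x g := by
  have := P_four_le H (p := Sum.inr x) (q := Sum.inr y) (r := Sum.inl g) h1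
    (by rw [P_zg H]; exact_mod_cast h2)
  rw [P_zg H] at this
  exact_mod_cast this

theorem four_zzz (H : IsHyp S δ) (x y z : CayleyBoundary S) {R : ℝ} (h1 : (R : EReal) ≤ zz x y)
    (h2 : (R : EReal) ≤ zz y z) : ((R - δ : ℝ) : EReal) ≤ zz x z :=
  P_four_le H h1 h2

theorem four_zzz_lt (H : IsHyp S δ) (x y z : CayleyBoundary S) {R : ℝ} (h1 : (R : EReal) < zz x y)
    (h2 : (R : EReal) < zz y z) : ((R - δ : ℝ) : EReal) < zz x z :=
  P_four_lt H h1 h2

theorem four_zgg (H : IsHyp S δ) (x : CayleyBoundary S) (g h : G) :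
    min (zg x g) (gp S g h) - δ ≤ zg x h := by
  have := P_four_le H (p := Sum.inr x) (q := Sum.inl g) (r := Sum.inl h)
    (R := min (zg x g) (gp S g h))
    (by rw [P_zg H]; exact_mod_cast min_le_left _ _) (by rw [P_gg]; exact_mod_cast min_le_right _ _)
  rw [P_zg H] at this
  exact_mod_cast this

theorem four_gzg (H : IsHyp S δ) (x : CayleyBoundary S) (g h : G) :
    min (zg x g) (zg x h) - δ ≤ gp S g h := by
  have := P_four_le H (p := Sum.inl g) (q := Sum.inr x) (r := Sum.inl h)
    (R := min (zg x g) (zg x h))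
    (by rw [P_gz H]; exact_mod_cast min_le_left _ _) (by rw [P_zg H]; exact_mod_cast min_le_right _ _)
  rw [P_gg] at this
  exact_mod_cast this

/-- `zg` is `1`-Lipschitz in the group variable -/
theorem zg_lip (H : IsHyp S δ) (x : CayleyBoundary S) (g h : G) : |zg x g - zg x h| ≤ wordDist S g h := by
  have h1 := ((tendsto_zg H x g).sub (tendsto_zg H x h)).abs
  exact le_of_tendsto' h1 fun n => gp_lip_right H.gen _ _ _

/-! ### asymptotic rays -/

theorem IsAsymptotic.dist_le (H : IsHyp S δ) {γ γ' : CayleyRay S} (h : γ.IsAsymptotic γ') (m : ℕ) :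
    wordDist S (γ.toFun m) (γ'.toFun m) ≤ 4 * δ := by
  obtain ⟨C, hC⟩ := h
  obtain ⟨n, hn⟩ := exists_nat_gt (m + |C|)
  have hmn : m ≤ n := by
    have h0 := abs_nonneg C
    have : (m : ℝ) ≤ n := by linarith
    exact_mod_cast this
  have r1 := ray_radial H.gen γ
  have r2 := ray_radial H.gen γ'
  have e1 : gp S (γ.toFun m) (γ.toFun n) = m := by rw [r1.gp_eq H.gen hmn, ray_len H.gen]
  have e2 : gp S (γ'.toFun m) (γ'.toFun n) = m := by rw [r2.gp_eq H.gen hmn, ray_len H.gen]
  have e3 : (m : ℝ) ≤ gp S (γ.toFun n) (γ'.toFun n) := by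
    rw [gp_def H.gen, ray_len H.gen, ray_len H.gen]
    have := hC n
    have := le_abs_self C
    have h0 := abs_nonneg C
    linarith
  have e4 : (m : ℝ) - δ ≤ gp S (γ.toFun m) (γ'.toFun n) := by
    have := H.gp_four (γ.toFun m) (γ.toFun n) (γ'.toFun n)
    rw [e1, min_eq_left e3] at this
    exact this
  have e5 : (m : ℝ) - 2 * δ ≤ gp S (γ.toFun m) (γ'.toFun m) := by
    have := H.gp_four (γ.toFun m) (γ'.toFun n) (γ'.toFun m)
    rw [gp_comm H.gen (γ'.toFun n), e2] at this
    have h1 : (m : ℝ) - δ ≤ min (gp S (γ.toFun m) (γ'.toFun n)) m :=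
      le_min e4 (by linarith [H.nonneg])
    linarith
  rw [wordDist_eq_gp H.gen, ray_len H.gen, ray_len H.gen]
  linarith

theorem isAsymptotic_equivalence (H : IsHyp S δ) :
    Equivalence (CayleyRay.IsAsymptotic (S := S)) where
  refl γ := ⟨0, fun n => by rw [wordDist_self]⟩
  symm := fun ⟨C, hC⟩ => ⟨C, fun n => by rw [wordDist_comm H.gen]; exact hC n⟩
  trans := fun ⟨C, hC⟩ ⟨C', hC'⟩ => ⟨C + C', fun n =>
    (wordDist_triangle H.gen _ _ _).trans (add_le_add (hC n) (hC' n))⟩

theorem mk_eq_iff (H : IsHyp S δ) {γ γ' : CayleyRay S} :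
    (Quot.mk _ γ : CayleyBoundary S) = Quot.mk _ γ' ↔ γ.IsAsymptotic γ' := by
  constructor
  · intro h
    have := Quot.eqvGen_exact h
    rwa [(isAsymptotic_equivalence H).eqvGen_eq] at this
  · intro h; exact Quot.sound h

theorem rep_dist_le (H : IsHyp S δ) {γ : CayleyRay S} {x : CayleyBoundary S}
    (h : Quot.mk _ γ = x) (m : ℕ) : wordDist S (γ.toFun m) (ray x m) ≤ 4 * δ := by
  have h1 : (Quot.mk _ γ : CayleyBoundary S) = Quot.mk _ (rep x) := by rw [mk_rep, h]
  exact IsAsymptotic.dist_le H ((mk_eq_iff H).1 h1) m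

/-- points with infinite product are equal -/
theorem eq_of_zz (H : IsHyp S δ) {x y : CayleyBoundary S} (h : ∀ R : ℝ, (R : EReal) < zz x y) :
    x = y := by
  rw [← mk_rep x, ← mk_rep y]
  refine (mk_eq_iff H).2 ⟨4 * δ, fun m => ?_⟩
  have h1 := h m
  have e1 : ((m : ℝ) : EReal) ≤ P (Sum.inr x) (Sum.inl (ray x m)) := by rw [P_zg H, zg_ray H]
  have e2 : ((m : ℝ) : EReal) ≤ P (Sum.inr y) (Sum.inl (ray y m)) := by rw [P_zg H, zg_ray H]
  have e3 : ((m - δ : ℝ) : EReal) ≤ P (Sum.inl (ray x m)) (Sum.inr y) :=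
    P_four_le H (by rw [P_comm H]; exact e1) h1.le
  have e4 : ((m - δ - δ : ℝ) : EReal) ≤ P (Sum.inl (ray x m) : Pt S) (Sum.inl (ray y m)) := by
    refine P_four_le H e3 (le_trans ?_ e2)
    exact_mod_cast (by linarith [H.nonneg] : (m : ℝ) - δ ≤ m)
  rw [P_gg] at e4
  have e5 : (m : ℝ) - δ - δ ≤ gp S (ray x m) (ray y m) := by exact_mod_cast e4
  change wordDist S (ray x m) (ray y m) ≤ 4 * δ
  rw [wordDist_eq_gp H.gen, len_ray H, len_ray H]
  linarith

theorem zz_eq_top_iff (H : IsHyp S δ) {x y : CayleyBoundary S} : zz x y = ⊤ ↔ x = y := by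
  constructor
  · intro h; exact eq_of_zz H (by rw [h]; exact fun R => EReal.coe_lt_top R)
  · rintro rfl; exact zz_self H x

/-- distinct boundary points have a finite product -/
theorem exists_zz_le (H : IsHyp S δ) {x y : CayleyBoundary S} (h : x ≠ y) :
    ∃ R : ℝ, zz x y ≤ (R : EReal) := by
  by_contra hc
  exact h (eq_of_zz H fun R => not_le.1 fun hR => hc ⟨R, hR⟩)

/-! ### comparison with the Prelude product -/

theorem productLiminf_eq (H : IsHyp S δ) (γ γ' : CayleyRay S) :
    CayleyRay.productLiminf γ γ' = ⨆ n : ℕ, ((gp S (γ.toFun n) (γ'.toFun n) : ℝ) : EReal) := by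
  have hm : Monotone fun n : ℕ => ((gp S (γ.toFun n) (γ'.toFun n) : ℝ) : EReal) := by
    intro m n h
    exact EReal.coe_le_coe_iff.2 (gp_mono H.gen (ray_radial H.gen γ) (ray_radial H.gen γ') h h)
  exact (tendsto_atTop_iSup hm).liminf_eq

theorem zz_le_product (H : IsHyp S δ) (x y : CayleyBoundary S) :
    zz x y ≤ CayleyBoundary.product x y := by
  have h : zz x y = CayleyRay.productLiminf (rep x) (rep y) := by
    rw [productLiminf_eq H]; rfl
  rw [h]
  exact le_iSup₂_of_le (f := fun (γ : {γ : CayleyRay S // Quot.mk _ γ = x})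
    (γ' : {γ' : CayleyRay S // Quot.mk _ γ' = y}) => CayleyRay.productLiminf γ.1 γ'.1)
    ⟨rep x, mk_rep x⟩ ⟨rep y, mk_rep y⟩ le_rfl

theorem product_lt (H : IsHyp S δ) {x y : CayleyBoundary S} {R : ℝ}
    (h : (R : EReal) < CayleyBoundary.product x y) : ((R - 8 * δ : ℝ) : EReal) < zz x y := by
  simp only [CayleyBoundary.product, lt_iSup_iff] at h
  obtain ⟨⟨γ, hγ⟩, ⟨γ', hγ'⟩, h⟩ := h
  rw [productLiminf_eq H, lt_iSup_iff] at h
  obtain ⟨n, hn⟩ := h
  simp only [EReal.coe_lt_coe_iff] at hn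
  rw [zz, lt_P_iff]
  refine ⟨n, ?_⟩
  simp only [pth_inr]
  have h1 := abs_le.1 (gp_lip_left H.gen (γ.toFun n) (ray x n) (γ'.toFun n))
  have h2 := abs_le.1 (gp_lip_right H.gen (ray x n) (γ'.toFun n) (ray y n))
  have h3 := rep_dist_le H hγ n
  have h4 := rep_dist_le H hγ' n
  linarith

/-! ### topology -/

/-- the product balls `{η | N < (ξ|η)}` are neighbourhoods -/
theorem ball_mem_nhds (H : IsHyp S δ) (x : CayleyBoundary S) (R : ℝ) :
    {y | (R : EReal) < zz x y} ∈ 𝓝 x := by
  rw [mem_nhds_iff]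
  refine ⟨{y | ∃ M : ℝ, ∀ z, (M : EReal) < CayleyBoundary.product y z → (R : EReal) < zz x z}, ?_, ?_, ?_⟩
  · rintro y ⟨M, hM⟩
    refine hM y (lt_of_lt_of_le ?_ (zz_le_product H y y))
    rw [zz_self H]; exact EReal.coe_lt_top M
  · intro y hy
    obtain ⟨M, hM⟩ := hy
    obtain ⟨N, hN⟩ := exists_nat_gt (M + 9 * δ + 1)
    refine ⟨N, fun y' hy' => ⟨N, fun z hz => hM z ?_⟩⟩
    have h1 := product_lt H hy'
    have h2 := product_lt H hz
    have h3 := four_zzz_lt H y y' z h1 h2
    refine lt_of_lt_of_le ?_ (zz_le_product H y z)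
    refine lt_trans ?_ h3
    exact_mod_cast (by linarith [H.nonneg] : M < (N : ℝ) - 8 * δ - δ)
  · refine ⟨R + 8 * δ, fun z hz => ?_⟩
    have := product_lt H hz
    simpa using this

theorem mem_nhds_iff_zz (H : IsHyp S δ) {x : CayleyBoundary S} {U : Set (CayleyBoundary S)} :
    U ∈ 𝓝 x ↔ ∃ N : ℕ, ∀ y, (((N : ℝ)) : EReal) < zz x y → y ∈ U := by
  constructor
  · intro h
    rw [mem_nhds_iff] at h
    obtain ⟨V, hVU, hV, hx⟩ := h
    obtain ⟨N, hN⟩ := hV x hx
    exact ⟨N, fun y hy => hVU (hN y (hy.trans_le (zz_le_product H x y)))⟩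
  · rintro ⟨N, hN⟩
    exact Filter.mem_of_superset (ball_mem_nhds H x N) fun y hy => hN y hy

theorem hasBasis_nhds (H : IsHyp S δ) (x : CayleyBoundary S) :
    (𝓝 x).HasBasis (fun _ : ℕ => True) fun N => {y | (((N : ℝ)) : EReal) < zz x y} := by
  rw [Filter.hasBasis_iff]
  intro U
  rw [mem_nhds_iff_zz H]
  simp [Set.subset_def]

/-- convergence in the boundary -/
theorem tendsto_iff (H : IsHyp S δ) {α : Type*} {l : Filter α} {f : α → CayleyBoundary S}
    {x : CayleyBoundary S} :
    Tendsto f l (𝓝 x) ↔ ∀ R : ℝ, ∀ᶠ a in l, (R : EReal) < zz x (f a) := by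
  constructor
  · intro h R
    exact h (ball_mem_nhds H x R)
  · intro h U hU
    obtain ⟨N, hN⟩ := (mem_nhds_iff_zz H).1 hU
    exact Filter.mem_of_superset (h N) fun a ha => hN _ ha

end Crest.Agent.R193.Hyp
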