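import Mathlib
import Crest.Prelude.Def_WordHyperbolic
import Crest.Prelude.Def_CayleyBoundary
import Crest.Agent.R193.HypWord
import Crest.Agent.R193.HypBdry
import Crest.Agent.R193.HRay

/-!
R193, hyperbolic toolkit, layer H3: the action of `G` on `CayleyBoundary S`.
-/

set_option autoImplicit false

namespace Crest.Agent.R193.Hyp

open Crest.GroupTheory Filter Topology

variable {G : Type*} [Group G] {S : Set G} {δ : ℝ}

theorem IsHyp.ball (H : IsHyp S δ) (n : ℕ) : {g : G | wordLength S g ≤ n}.Finite :=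
  finite_ball H.gen H.fin n

theorem IsHyp.toHyp (H : IsHyp S δ) : Crest.Agent.R193.H.Hyp S δ := fun x y z => H.gp_four x y z

/-- `y` is the endpoint of `g · (ray to x)` -/
def Foll (g : G) (x y : CayleyBoundary S) : Prop :=
  ∃ C : ℝ, ∀ n : ℕ, wordDist S (ray y n) (g * ray x n) ≤ C

theorem Foll.unique (H : IsHyp S δ) {g : G} {x y y' : CayleyBoundary S} (h : Foll g x y)
    (h' : Foll g x y') : y = y' := by
  obtain ⟨C, hC⟩ := h
  obtain ⟨C', hC'⟩ := h'
  rw [← mk_rep y, ← mk_rep y']
  refine (mk_eq_iff H).2 ⟨C + C', fun n => ?_⟩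
  refine (wordDist_triangle H.gen _ (g * ray x n) _).trans (add_le_add (hC n) ?_)
  rw [wordDist_comm H.gen]
  exact hC' n

theorem Foll.exists (H : IsHyp S δ) (g : G) (x : CayleyBoundary S) :
    ∃ y : CayleyBoundary S, Foll g x y := by
  obtain ⟨c, hc⟩ := Crest.Agent.R193.H.exists_translate S H.gen H.ball H.nonneg H.toHyp g (rep x)
  refine ⟨Quot.mk _ c, 4 * δ + (3 * wordLength S g + 4 * δ), fun n => ?_⟩
  have h1 := Crest.Agent.R193.H.translate_dist H.gen H.nonneg H.toHyp hc n
  have h2 := rep_dist_le H (γ := c) rfl n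
  refine (wordDist_triangle H.gen _ (c.toFun n) _).trans (add_le_add ?_ h1)
  rw [wordDist_comm H.gen]
  exact h2

theorem Foll.one (x : CayleyBoundary S) : Foll 1 x x :=
  ⟨0, fun n => by rw [one_mul, wordDist_self]⟩

theorem Foll.mul (H : IsHyp S δ) {g h : G} {x y z : CayleyBoundary S} (h1 : Foll g x y)
    (h2 : Foll h y z) : Foll (h * g) x z := by
  obtain ⟨C, hC⟩ := h1
  obtain ⟨C', hC'⟩ := h2
  refine ⟨C' + C, fun n => ?_⟩
  refine (wordDist_triangle H.gen _ (h * ray y n) _).trans (add_le_add (hC' n) ?_)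
  rw [mul_assoc, wordDist_mul_left]
  exact hC n

open Classical in
/-- the action on the boundary -/
noncomputable def act (g : G) (x : CayleyBoundary S) : CayleyBoundary S :=
  if h : ∃ y : CayleyBoundary S, Foll g x y then h.choose else x

theorem foll_act (H : IsHyp S δ) (g : G) (x : CayleyBoundary S) : Foll g x (act g x) := by
  have h := Foll.exists H g x
  rw [act, dif_pos h]
  exact h.choose_spec

theorem act_eq (H : IsHyp S δ) {g : G} {x y : CayleyBoundary S} (h : Foll g x y) : act g x = y :=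
  (foll_act H g x).unique H h

theorem act_one (H : IsHyp S δ) (x : CayleyBoundary S) : act 1 x = x := act_eq H (Foll.one x)

theorem act_mul (H : IsHyp S δ) (g h : G) (x : CayleyBoundary S) :
    act (g * h) x = act g (act h x) :=
  act_eq H ((foll_act H h x).mul H (foll_act H g (act h x)))

/-- the products between `ray (g x) n` and `g · ray x n` tend to infinity -/
theorem Foll.gp_ge (H : IsHyp S δ) {g : G} {x y : CayleyBoundary S} (h : Foll g x y) :
    ∃ C : ℝ, ∀ n : ℕ, (n : ℝ) - C ≤ gp S (ray y n) (g * ray x n) := by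
  obtain ⟨C, hC⟩ := h
  refine ⟨C + len S g, fun n => ?_⟩
  have h1 := hC n
  have h2 : (n : ℝ) - len S g ≤ len S (g * ray x n) := by
    have := len_mul_le H.gen g⁻¹ (g * ray x n)
    rw [inv_mul_cancel_left, len_ray H, len_inv H.gen] at this
    linarith
  have h3 := wordDist_nonneg (S := S) (ray y n) (g * ray x n)
  have h4 := len_nonneg (S := S) g
  rw [gp_def H.gen, len_ray H]
  linarith

theorem Foll.gp_tendsto (H : IsHyp S δ) {g : G} {x y : CayleyBoundary S} (h : Foll g x y) (R : ℝ) :
    ∀ᶠ n : ℕ in atTop, R ≤ gp S (ray y n) (g * ray x n) := by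
  obtain ⟨C, hC⟩ := h.gp_ge H
  obtain ⟨N, hN⟩ := exists_nat_gt (R + C)
  filter_upwards [eventually_ge_atTop N] with n hn
  have : (N : ℝ) ≤ n := by exact_mod_cast hn
  linarith [hC n]

/-- cocycle identity up to `δ` -/
theorem cocycle (H : IsHyp S δ) (x : CayleyBoundary S) (g k : G) :
    |zg (act k x) (k * g) - (zg x g - zg x k⁻¹ - gp S g k⁻¹ + len S k)| ≤ δ := by
  set y := act k x with hy
  have hF := foll_act H k x
  rw [← hy] at hF
  -- limit of `(k ray x n | k g)`
  have h1 : Tendsto (fun n => gp S (k * ray x n) (k * g)) atTop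
      (𝓝 (zg x g - zg x k⁻¹ - gp S g k⁻¹ + len S k)) := by
    have e : (fun n => gp S (k * ray x n) (k * g)) =
        fun n => gp S (ray x n) g - gp S (ray x n) k⁻¹ - gp S g k⁻¹ + len S k := by
      funext n; rw [gp_mul_mul H.gen]
    rw [e]
    exact (((tendsto_zg H x g).sub (tendsto_zg H x k⁻¹)).sub_const _).add_const _
  have h2 := tendsto_zg H y (k * g)
  have h3 := (h2.sub h1).abs
  refine le_of_tendsto h3 ?_
  filter_upwards [hF.gp_tendsto H (len S (k * g))] with n hn
  have e1 := H.gp_four (ray y n) (k * ray x n) (k * g)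
  have e2 := H.gp_four (k * ray x n) (ray y n) (k * g)
  rw [gp_comm H.gen (k * ray x n) (ray y n)] at e2
  have e3 := gp_le_right H.gen (k * ray x n) (k * g)
  have e4 := gp_le_right H.gen (ray y n) (k * g)
  rw [min_eq_right (by linarith)] at e1 e2
  rw [abs_le]
  constructor <;> linarith

/-- the action distorts the product of boundary points by at most `|g| + 2δ` -/
theorem zz_act_lt (H : IsHyp S δ) (g : G) {x y : CayleyBoundary S} {R : ℝ}
    (h : (R : EReal) < zz x y) : ((R - len S g - 2 * δ : ℝ) : EReal) < zz (act g x) (act g y) := by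
  rw [zz, lt_P_iff] at *
  obtain ⟨m, hm⟩ := h
  simp only [pth_inr] at hm ⊢
  have h1 := (foll_act H g x).gp_tendsto H (R + 1)
  have h2 := (foll_act H g y).gp_tendsto H (R + 1)
  obtain ⟨n, hn1, hn2, hn3⟩ := (h1.and (h2.and (eventually_ge_atTop m))).exists
  refine ⟨n, ?_⟩
  have e0 : gp S (ray x m) (ray y m) ≤ gp S (ray x n) (ray y n) :=
    gp_mono H.gen (ray_radial H.gen _) (ray_radial H.gen _) hn3 hn3
  have l := len_nonneg (S := S) g
  have e1 : R - len S g < gp S (g * ray x n) (g * ray y n) := by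
    rw [gp_mul_mul H.gen]
    have h3 := gp_le_right H.gen (ray x n) g⁻¹
    have h4 := gp_le_right H.gen (ray y n) g⁻¹
    rw [len_inv H.gen] at h3 h4
    linarith
  have e2 := H.gp_four (ray (act g x) n) (g * ray x n) (g * ray y n)
  have e3 := H.gp_four (ray (act g x) n) (g * ray y n) (ray (act g y) n)
  rw [gp_comm H.gen (g * ray y n) (ray (act g y) n)] at e3
  have e4 : R - len S g < min (gp S (ray (act g x) n) (g * ray x n))
      (gp S (g * ray x n) (g * ray y n)) := lt_min (by linarith) e1
  have e5 : R - len S g - δ < min (gp S (ray (act g x) n) (g * ray y n))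
      (gp S (ray (act g y) n) (g * ray y n)) := lt_min (by linarith) (by linarith [H.nonneg])
  linarith

theorem continuous_act (H : IsHyp S δ) (g : G) : Continuous (act g : CayleyBoundary S → _) := by
  rw [continuous_iff_continuousAt]
  intro x
  rw [ContinuousAt, tendsto_iff H]
  intro R
  have := ball_mem_nhds H x (R + len S g + 2 * δ)
  refine Filter.mem_of_superset this fun y hy => ?_
  have h := zz_act_lt H g hy
  have e : R + len S g + 2 * δ - len S g - 2 * δ = R := by ring
  rw [e] at h
  exact h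

/-- every group element points to a boundary point -/
theorem exists_star (H : IsHyp S δ) {p q : CayleyBoundary S} (hpq : p ≠ q) :
    ∃ C : ℝ, ∀ g : G, ∃ x : CayleyBoundary S, len S g - C ≤ zg x g := by
  obtain ⟨R, hR⟩ := exists_zz_le H hpq
  refine ⟨R + 2 * δ + 1, fun g => ?_⟩
  have h1 : zg p g⁻¹ ≤ R + δ + 1 ∨ zg q g⁻¹ ≤ R + δ + 1 := by
    by_contra hc
    rw [not_or, not_le, not_le] at hc
    have := four_zgz H p q g⁻¹ hc.1.le hc.2.le
    have h2 := this.trans hR
    have h3 : R + δ + 1 - δ ≤ R := by exact_mod_cast h2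
    linarith
  have key : ∀ x : CayleyBoundary S, zg x g⁻¹ ≤ R + δ + 1 → len S g - (R + 2 * δ + 1) ≤ zg (act g x) g := by
    intro x hx
    have h := cocycle H x 1 g
    rw [mul_one, gp_one_left H.gen] at h
    have h2 : zg x (1 : G) = 0 := by
      have a := zg_nonneg H x 1
      have b := zg_le_len H x 1
      rw [len_one] at b
      linarith
    rw [h2] at h
    have h3 := (abs_le.1 h).1
    linarith
  rcases h1 with h1 | h1
  · exact ⟨_, key p h1⟩
  · exact ⟨_, key q h1⟩

end Crest.Agent.R193.Hyp
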