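import Mathlib
import Crest.Prelude.Def_WordHyperbolic
import Crest.Prelude.Def_CayleyBoundary
import Crest.Agent.R193.HypWord
import Crest.Agent.R193.HypBdry
import Crest.Agent.R193.HypAct

/-!
R193, hyperbolic toolkit: the visual metric.
-/

set_option autoImplicit false

namespace Crest.Agent.R193.H_Metric

open Crest.GroupTheory Filter Topology NNReal
open Crest.Agent.R193.Hyp

variable {G : Type} [Group G] {S : Set G} {δ ε : ℝ}

/-- copy of the boundary which will carry the visual metric -/
def Bd (S : Set G) : Type := CayleyBoundary S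

/-- back to the boundary -/
def Bd.p (x : Bd S) : CayleyBoundary S := x

open Classical in
/-- the visual quasimetric `exp (-ε (x|y))` -/
noncomputable def rho (ε : ℝ) (x y : Bd S) : ℝ≥0 :=
  if x = y then 0 else ⟨Real.exp (-ε * (zz x.p y.p).toReal), (Real.exp_pos _).le⟩

theorem rho_self (x : Bd S) : rho ε x x = 0 := by simp [rho]

theorem rho_comm (H : IsHyp S δ) (x y : Bd S) : rho ε x y = rho ε y x := by
  by_cases h : x = y
  · rw [h]
  · rw [rho, rho, if_neg h, if_neg (Ne.symm h)]
    simp only [zz_comm H x.p y.p]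

theorem rho_ne {x y : Bd S} (h : x ≠ y) :
    ((rho ε x y : ℝ≥0) : ℝ) = Real.exp (-ε * (zz x.p y.p).toReal) := by
  rw [rho, if_neg h]; rfl

theorem zz_coe (H : IsHyp S δ) {x y : Bd S} (h : x ≠ y) :
    (((zz x.p y.p).toReal : ℝ) : EReal) = zz x.p y.p := by
  obtain ⟨R, hR⟩ := exists_zz_le H (x := x.p) (y := y.p) h
  refine EReal.coe_toReal ?_ ?_
  · intro h1; rw [h1] at hR; exact absurd hR (by simp)
  · intro h1
    have := P_nonneg H (Sum.inr x.p) (Sum.inr y.p)
    rw [← zz, h1] at this
    exact absurd this (by simp)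

theorem rho_eq_zero {x y : Bd S} (h : rho ε x y = 0) : x = y := by
  by_contra hc
  have h1 := rho_ne (ε := ε) hc
  rw [h] at h1
  have := Real.exp_pos (-ε * (zz x.p y.p).toReal)
  rw [← h1] at this
  simp at this

theorem le_zz_iff (H : IsHyp S δ) (hε : 0 < ε) {x y : Bd S} {R : ℝ} :
    (R : EReal) ≤ zz x.p y.p ↔ ((rho ε x y : ℝ≥0) : ℝ) ≤ Real.exp (-ε * R) := by
  by_cases h : x = y
  · subst h
    rw [rho_self, zz_self H]
    simp [(Real.exp_pos _).le]
  · rw [rho_ne h]
    have hz := zz_coe H h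
    generalize (zz x.p y.p).toReal = t at hz ⊢
    rw [← hz, EReal.coe_le_coe_iff, Real.exp_le_exp]
    constructor
    · intro h1; nlinarith
    · intro h1
      have h2 : ε * R ≤ ε * t := by linarith
      exact le_of_mul_le_mul_left h2 hε

theorem rho_four (H : IsHyp S δ) (hε : 0 < ε) (hεδ : ε * (2 * δ) ≤ Real.log 2)
    (x₁ x₂ x₃ x₄ : Bd S) :
    rho ε x₁ x₄ ≤ 2 * max (rho ε x₁ x₂) (max (rho ε x₂ x₃) (rho ε x₃ x₄)) := by
  set M := max (rho ε x₁ x₂) (max (rho ε x₂ x₃) (rho ε x₃ x₄)) with hM
  have h12 : rho ε x₁ x₂ ≤ M := le_max_left _ _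
  have h23 : rho ε x₂ x₃ ≤ M := (le_max_left _ _).trans (le_max_right _ _)
  have h34 : rho ε x₃ x₄ ≤ M := (le_max_right _ _).trans (le_max_right _ _)
  rcases eq_or_ne M 0 with h0 | h0
  · rw [h0] at h12 h23 h34
    have e1 := rho_eq_zero (le_antisymm h12 bot_le)
    have e2 := rho_eq_zero (le_antisymm h23 bot_le)
    have e3 := rho_eq_zero (le_antisymm h34 bot_le)
    rw [e1, e2, e3, rho_self]
    exact bot_le
  · have hpos : 0 < (M : ℝ) := by
      have : 0 < M := bot_lt_iff_ne_bot.2 h0
      exact_mod_cast this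
    set R : ℝ := -Real.log M / ε with hR
    have hexp : Real.exp (-ε * R) = M := by
      rw [hR]
      have : -ε * (-Real.log M / ε) = Real.log M := by field_simp
      rw [this, Real.exp_log hpos]
    have l12 : (R : EReal) ≤ zz x₁.p x₂.p := by
      rw [le_zz_iff H hε, hexp]; exact_mod_cast h12
    have l23 : (R : EReal) ≤ zz x₂.p x₃.p := by
      rw [le_zz_iff H hε, hexp]; exact_mod_cast h23
    have l34 : (R : EReal) ≤ zz x₃.p x₄.p := by
      rw [le_zz_iff H hε, hexp]; exact_mod_cast h34
    have l13 := four_zzz H _ _ _ l12 l23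
    have l34' : ((R - δ : ℝ) : EReal) ≤ zz x₃.p x₄.p := by
      refine le_trans ?_ l34
      exact_mod_cast (by linarith [H.nonneg] : R - δ ≤ R)
    have l14 := four_zzz H _ _ _ l13 l34'
    rw [le_zz_iff H hε] at l14
    have e : -ε * (R - δ - δ) = -ε * R + ε * (2 * δ) := by ring
    rw [e, Real.exp_add, hexp] at l14
    have h2 : Real.exp (ε * (2 * δ)) ≤ 2 := by
      calc Real.exp (ε * (2 * δ)) ≤ Real.exp (Real.log 2) := Real.exp_le_exp.2 hεδ
        _ = 2 := Real.exp_log (by norm_num)
    have h3 : ((rho ε x₁ x₄ : ℝ≥0) : ℝ) ≤ 2 * M := by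
      calc ((rho ε x₁ x₄ : ℝ≥0) : ℝ) ≤ M * Real.exp (ε * (2 * δ)) := l14
        _ ≤ M * 2 := by gcongr
        _ = 2 * M := by ring
    exact_mod_cast h3

/-- the visual metric -/
@[reducible] noncomputable def visual (H : IsHyp S δ) (hε : 0 < ε) (hεδ : ε * (2 * δ) ≤ Real.log 2) :
    MetricSpace (Bd S) :=
  letI : PseudoMetricSpace (Bd S) := PseudoMetricSpace.ofPreNNDist (rho ε) rho_self (rho_comm H)
  { (inferInstance : PseudoMetricSpace (Bd S)) with
    eq_of_dist_eq_zero := by
      intro x y h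
      have h1 := PseudoMetricSpace.le_two_mul_dist_ofPreNNDist (rho ε) rho_self (rho_comm H)
        (rho_four H hε hεδ) x y
      have h2 : ((rho ε x y : ℝ≥0) : ℝ) ≤ 2 * dist x y := h1
      rw [h] at h2
      have h3 : ((rho ε x y : ℝ≥0) : ℝ) = 0 := le_antisymm (by linarith) (NNReal.coe_nonneg _)
      exact rho_eq_zero (by exact_mod_cast h3) }

theorem visual_dist_le (H : IsHyp S δ) (hε : 0 < ε) (hεδ : ε * (2 * δ) ≤ Real.log 2) (x y : Bd S) :
    @dist _ (visual H hε hεδ).toDist x y ≤ rho ε x y :=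
  PseudoMetricSpace.dist_ofPreNNDist_le (rho ε) rho_self (rho_comm H) x y

theorem visual_le_two_dist (H : IsHyp S δ) (hε : 0 < ε) (hεδ : ε * (2 * δ) ≤ Real.log 2)
    (x y : Bd S) : (rho ε x y : ℝ) ≤ 2 * @dist _ (visual H hε hεδ).toDist x y :=
  PseudoMetricSpace.le_two_mul_dist_ofPreNNDist (rho ε) rho_self (rho_comm H)
    (rho_four H hε hεδ) x y

/-- the visual metric induces the topology of the boundary -/
noncomputable def visualHomeo (H : IsHyp S δ) (hε : 0 < ε) (hεδ : ε * (2 * δ) ≤ Real.log 2) :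
    letI := visual H hε hεδ
    CayleyBoundary S ≃ₜ Bd S :=
  letI := visual H hε hεδ
  { toFun := fun x => x
    invFun := fun x => x.p
    left_inv := fun _ => rfl
    right_inv := fun _ => rfl
    continuous_toFun := by
      rw [continuous_iff_continuousAt]
      intro x
      rw [Metric.continuousAt_iff']
      intro r hr
      have h1 := ball_mem_nhds H x (-Real.log (r / 2) / ε)
      refine Filter.mem_of_superset h1 fun y hy => ?_
      have h2 := (le_zz_iff H hε (x := (x : Bd S)) (y := (y : Bd S))).1 (le_of_lt hy)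
      have h3 : -ε * (-Real.log (r / 2) / ε) = Real.log (r / 2) := by field_simp
      rw [h3, Real.exp_log (by linarith)] at h2
      have h4 := visual_dist_le H hε hεδ (x : Bd S) (y : Bd S)
      show @dist (Bd S) _ y x < r
      rw [dist_comm]
      exact lt_of_le_of_lt (h4.trans h2) (by linarith)
    continuous_invFun := by
      rw [continuous_iff_continuousAt]
      intro x
      rw [ContinuousAt, tendsto_iff H]
      intro R
      have hr : 0 < Real.exp (-ε * (R + 1)) / 2 := by positivity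
      refine Filter.mem_of_superset (Metric.ball_mem_nhds x hr) fun y hy => ?_
      rw [Metric.mem_ball, dist_comm] at hy
      have h1 := visual_le_two_dist H hε hεδ x y
      have h2 : ((rho ε x y : ℝ≥0) : ℝ) ≤ Real.exp (-ε * (R + 1)) := by linarith
      have h3 := (le_zz_iff H hε).2 h2
      refine lt_of_lt_of_le ?_ h3
      exact_mod_cast (by linarith : R < R + 1) }

end Crest.Agent.R193.H_Metric
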