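import Mathlib
import Crest.Prelude.Def_WordHyperbolic
import Crest.Prelude.Def_CayleyBoundary
import Crest.Agent.R193.Defs
import Crest.Agent.R193.HypWord
import Crest.Agent.R193.HypBdry
import Crest.Agent.R193.HypAct
import Crest.Agent.R193.H_Metric

/-!
R193, block H: the boundary of a hyperbolic group gives a `Setup`.
-/

set_option autoImplicit false

noncomputable section

open Set Filter Topology NNReal
open Crest.GroupTheory
open Crest.Agent.R193.Hyp Crest.Agent.R193.H_Metric

namespace Crest.Agent.R193.H_Main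

open Crest.Agent.R193

/-! ### growth -/

open Classical Pointwise in
theorem prod_mem_pow {G : Type} [Group G] (T : Finset G) (l : List G) (h : ∀ x ∈ l, x ∈ T) :
    l.prod ∈ T ^ l.length := by
  induction l with
  | nil => simp
  | cons a l ih =>
    rw [List.prod_cons, List.length_cons, pow_succ']
    exact Finset.mul_mem_mul (h a (by simp)) (ih fun x hx => h x (by simp [hx]))

open Classical Pointwise in
theorem growth {G : Type} [Group G] {S : Set G} (hS : Subgroup.closure S = ⊤) (hf : S.Finite) :
    ∃ v : ℝ, 0 < v ∧ ∀ n : ℕ, ({g : G | wordLength S g ≤ n}.ncard : ℝ) ≤ Real.exp (v * n) := by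
  set T : Finset G := hf.toFinset ∪ hf.toFinset⁻¹ ∪ {1} with hT
  have h1T : (1 : G) ∈ T := by simp [hT]
  refine ⟨Real.log (T.card + 1), Real.log_pos ?_, fun n => ?_⟩
  · have : 0 < T.card := Finset.card_pos.2 ⟨1, h1T⟩
    have : (0 : ℝ) < T.card := by exact_mod_cast this
    linarith
  · have hsub : {g : G | wordLength S g ≤ n} ⊆ ((T ^ n : Finset G) : Set G) := by
      intro g hg
      obtain ⟨l, hl1, hl2, hl3⟩ := exists_geodesic_word hS g
      have hl : l.prod ∈ T ^ l.length := by
        refine prod_mem_pow T l fun x hx => ?_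
        rcases hl2 x hx with h | h
        · simp [hT, h]
        · simp [hT, h]
      rw [hl3] at hl
      have hle : l.length ≤ n := by rw [hl1]; exact hg
      exact Finset.mem_coe.2 (Finset.pow_subset_pow_right h1T hle hl)
    have h1 : {g : G | wordLength S g ≤ n}.ncard ≤ T.card ^ n := by
      calc {g : G | wordLength S g ≤ n}.ncard ≤ ((T ^ n : Finset G) : Set G).ncard :=
            Set.ncard_le_ncard hsub (Finset.finite_toSet _)
        _ = (T ^ n : Finset G).card := Set.ncard_coe_finset _
        _ ≤ T.card ^ n := Finset.card_pow_le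
    calc ({g : G | wordLength S g ≤ n}.ncard : ℝ) ≤ ((T.card ^ n : ℕ) : ℝ) := by exact_mod_cast h1
      _ = (T.card : ℝ) ^ n := by push_cast; ring
      _ ≤ ((T.card : ℝ) + 1) ^ n := by gcongr; linarith
      _ = Real.exp (Real.log (T.card + 1) * n) := by
        rw [mul_comm, Real.exp_nat_mul, Real.exp_log (by positivity)]

theorem gpOf_eq {G : Type} [Group G] {S : Set G} (hS : Subgroup.closure S = ⊤) (g h : G) :
    gpOf (wordLength S) g h = gp S g h := by
  rw [gp_def hS]; rfl

theorem exists_ne_S2 : ∃ p q : S2, p ≠ q := by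
  refine ⟨⟨EuclideanSpace.single 0 1, by simp⟩, ⟨EuclideanSpace.single 1 1, by simp⟩, ?_⟩
  intro h
  have h1 := congrArg (fun p : S2 => (p : EuclideanSpace ℝ (Fin 3)) 0) h
  simp at h1

/-- the action on the copy of the boundary -/
@[reducible] def bdAct {G : Type} [Group G] {S : Set G} {δ : ℝ} (H : IsHyp S δ) :
    MulAction G (Bd S) where
  smul g x := act g x.p
  one_smul x := act_one H x.p
  mul_smul g h x := act_mul H g h x.p

/-- BLOCK H: hyperbolic toolkit. -/
theorem H_main (G : Type) [Group G] (S : Finset G) (hS : Subgroup.closure (S : Set G) = ⊤)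
    (hδ : ∃ δ : ℝ, 0 ≤ δ ∧ ∀ w x y z : G,
      min (gromovProduct (S : Set G) w x y) (gromovProduct (S : Set G) w y z) - δ ≤
        gromovProduct (S : Set G) w x z)
    (hB : Nonempty (CayleyBoundary (S : Set G) ≃ₜ Metric.sphere (0 : EuclideanSpace ℝ (Fin 3)) 1)) :
    ∃ (Z : Type) (_ : MetricSpace Z) (_ : MulAction G Z) (_ : Setup G Z), Nonempty (Z ≃ₜ S2) := by
  obtain ⟨δ₀, h0, h4⟩ := hδ
  obtain ⟨Φ⟩ := hB
  have H : IsHyp (S : Set G) δ₀ := ⟨hS, S.finite_toSet, h0, h4⟩
  set ε : ℝ := Real.log 2 / (2 * (δ₀ + 1)) with hεdef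
  have hl2 : 0 < Real.log 2 := Real.log_pos (by norm_num)
  have hε : 0 < ε := by positivity
  have hεδ : ε * (2 * δ₀) ≤ Real.log 2 := by
    rw [hεdef, div_mul_eq_mul_div, div_le_iff₀ (by positivity)]
    nlinarith
  have hl2ε : Real.log 2 / ε = 2 * (δ₀ + 1) := by
    rw [hεdef]; field_simp
  obtain ⟨p, q, hpq⟩ := exists_ne_S2
  have hpq' : Φ.symm p ≠ Φ.symm q := fun h => hpq (Φ.symm.injective h)
  obtain ⟨C, hC⟩ := exists_star H hpq'
  obtain ⟨v, hv, hcard⟩ := growth hS S.finite_toSet
  have hδ1 : (1 : ℝ) ≤ 4 + 4 * δ₀ + |C| := by linarith [abs_nonneg C]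
  letI iM : MetricSpace (Bd (S : Set G)) := visual H hε hεδ
  letI iA : MulAction G (Bd (S : Set G)) := bdAct H
  have hsm : ∀ (g : G) (x : Bd (S : Set G)), (g • x).p = act g x.p := fun g x => rfl
  let Ψ : CayleyBoundary (S : Set G) ≃ₜ Bd (S : Set G) := visualHomeo H hε hεδ
  refine ⟨Bd (S : Set G), iM, iA,
    { len := wordLength (S : Set G)
      len_one := wordLength_one
      len_inv := wordLength_inv hS
      len_mul := wordLength_mul_le hS
      finite_ball := finite_ball hS S.finite_toSet
      v := v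
      v_pos := hv
      card_ball := hcard
      geod := fun g k hk => exists_between hS g hk
      δ := 4 + 4 * δ₀ + |C|
      one_le_δ := hδ1
      hyp := ?_
      s := fun x g => zg x.p g
      s_nonneg := fun x g => zg_nonneg H _ _
      s_le := fun x g => zg_le_len H _ _
      hyp_s1 := ?_
      hyp_s2 := ?_
      cocycle := ?_
      ε := ε
      ε_pos := hε
      dist_le := ?_
      le_s := ?_
      ray := ?_
      star := ?_
      cont := ?_ }, ?_⟩
  · intro g h k
    rw [gpOf_eq hS, gpOf_eq hS, gpOf_eq hS]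
    have := H.gp_four g h k
    linarith [abs_nonneg C]
  · intro x g h
    rw [gpOf_eq hS]
    have := four_zgg H x.p g h
    linarith [abs_nonneg C]
  · intro x g h
    rw [gpOf_eq hS]
    have := four_gzg H x.p g h
    linarith [abs_nonneg C]
  · intro x g k
    rw [gpOf_eq hS, hsm]
    have := Crest.Agent.R193.Hyp.cocycle H x.p g k
    exact this.trans (by linarith [abs_nonneg C])
  · intro x y g
    refine (visual_dist_le H hε hεδ x y).trans ?_
    have h1 := four_zgz H x.p y.p g (R := min (zg x.p g) (zg y.p g)) (min_le_left _ _)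
      (min_le_right _ _)
    have h2 := (le_zz_iff H hε (x := x) (y := y)).1 h1
    refine h2.trans (Real.exp_le_exp.2 ?_)
    have : 0 ≤ ε * (4 + 3 * δ₀ + |C|) := by positivity
    nlinarith
  · intro x y g hxy
    have hd : 0 < dist x y := dist_pos.2 hxy
    set R : ℝ := -Real.log (dist x y) / ε with hR
    have h1 := visual_le_two_dist H hε hεδ x y
    have h2 : Real.exp (-ε * (R - Real.log 2 / ε)) = 2 * dist x y := by
      have : -ε * (R - Real.log 2 / ε) = Real.log 2 + Real.log (dist x y) := by
        rw [hR]; field_simp; ring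
      rw [this, Real.exp_add, Real.exp_log (by norm_num), Real.exp_log hd]
    have h3 : ((R - Real.log 2 / ε : ℝ) : EReal) ≤ zz x.p y.p := by
      rw [le_zz_iff H hε, h2]; exact h1
    have h4 := four_zzg H y.p x.p g (R := min (zg x.p g) R - Real.log 2 / ε) ?_ ?_
    · rw [hl2ε] at h4
      linarith [abs_nonneg C]
    · rw [zz_comm H]
      refine le_trans ?_ h3
      have := min_le_right (zg x.p g) R
      exact_mod_cast (by linarith : min (zg x.p g) R - Real.log 2 / ε ≤ R - Real.log 2 / ε)
    · have := min_le_left (zg x.p g) R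
      have : 0 < Real.log 2 / ε := by positivity
      linarith
  · intro x n
    refine ⟨ray x.p n, wordLength_ray H _ n, ?_⟩
    rw [zg_ray H]
    linarith [abs_nonneg C]
  · intro g
    obtain ⟨x, hx⟩ := hC g
    refine ⟨x, ?_⟩
    have h1 : len (S : Set G) g - C ≤ zg x g := hx
    have h2 : ((wordLength (S : Set G) g : ℝ)) = len (S : Set G) g := rfl
    rw [h2]
    have := le_abs_self C
    show len (S : Set G) g - (4 + 4 * δ₀ + |C|) ≤ zg x g
    linarith
  · intro g
    have h1 : Continuous (fun x : Bd (S : Set G) => Ψ (act g (Ψ.symm x))) :=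
      Ψ.continuous.comp ((continuous_act H g).comp Ψ.symm.continuous)
    exact h1
  · exact ⟨Ψ.symm.trans Φ⟩

end Crest.Agent.R193.H_Main
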