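import Mathlib
import Crest.Prelude.Def_HyperbolicThreeSpace

/-!
Row 193, block K (part 1): the action of `SL(2,ℂ)` (and of complex conjugation) on hyperbolic
three-space in the upper half-space model, through positive Hermitian matrices of determinant one.
-/

set_option autoImplicit false

namespace Crest.Agent.R193.K

open Crest.HyperbolicSpace Matrix Complex ComplexConjugate

noncomputable section

/-- the complex coordinate of a point of the upper half-space -/
def zc (p : UpperHalfSpace3) : ℂ := ⟨p.1 0, p.1 1⟩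

/-- the height of a point of the upper half-space -/
def ht (p : UpperHalfSpace3) : ℝ := p.1 2

lemma ht_pos (p : UpperHalfSpace3) : 0 < ht p := p.2

/-- the point with given coordinates -/
def mkP (z : ℂ) (t : ℝ) (h : 0 < t) : UpperHalfSpace3 :=
  ⟨WithLp.toLp 2 ![z.re, z.im, t], by simpa using h⟩

@[simp] lemma zc_mkP (z : ℂ) (t : ℝ) (h : 0 < t) : zc (mkP z t h) = z := by
  apply Complex.ext <;> simp [zc, mkP]

@[simp] lemma ht_mkP (z : ℂ) (t : ℝ) (h : 0 < t) : ht (mkP z t h) = t := by
  simp [ht, mkP]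

lemma ext_P {p q : UpperHalfSpace3} (h1 : zc p = zc q) (h2 : ht p = ht q) : p = q := by
  apply Subtype.ext
  ext i
  fin_cases i
  · exact congrArg Complex.re h1
  · exact congrArg Complex.im h1
  · exact h2

/-- the Hermitian matrix of a point -/
def toM (p : UpperHalfSpace3) : Matrix (Fin 2) (Fin 2) ℂ :=
  !![((normSq (zc p) + ht p ^ 2) / ht p : ℝ), zc p / ht p; conj (zc p) / ht p, (1 / ht p : ℝ)]

lemma toM_00 (p : UpperHalfSpace3) : toM p 0 0 = ((normSq (zc p) + ht p ^ 2) / ht p : ℝ) := rfl
lemma toM_01 (p : UpperHalfSpace3) : toM p 0 1 = zc p / ht p := rfl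
lemma toM_10 (p : UpperHalfSpace3) : toM p 1 0 = conj (zc p) / ht p := rfl
lemma toM_11 (p : UpperHalfSpace3) : toM p 1 1 = (1 / ht p : ℝ) := rfl

lemma toM_inj {p q : UpperHalfSpace3} (h : toM p = toM q) : p = q := by
  have h11 : (1 / ht p : ℝ) = 1 / ht q := by
    have := congrFun (congrFun h 1) 1
    rw [toM_11, toM_11] at this
    exact_mod_cast this
  have hp := ht_pos p
  have hq := ht_pos q
  have ht' : ht p = ht q := by
    field_simp at h11
    linarith
  refine ext_P ?_ ht'
  have h01 := congrFun (congrFun h 0) 1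
  rw [toM_01, toM_01, ht'] at h01
  have : (ht q : ℂ) ≠ 0 := by exact_mod_cast hq.ne'
  field_simp at h01
  exact h01

lemma toM_herm (p : UpperHalfSpace3) : (toM p)ᴴ = toM p := by
  ext i j
  fin_cases i <;> fin_cases j <;> simp [toM, Matrix.conjTranspose]

lemma toM_det (p : UpperHalfSpace3) : (toM p).det = 1 := by
  have hp : (ht p : ℂ) ≠ 0 := by exact_mod_cast (ht_pos p).ne'
  rw [Matrix.det_fin_two, toM_00, toM_01, toM_10, toM_11]
  push_cast
  field_simp
  rw [Complex.normSq_eq_conj_mul_self]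
  ring

/-- every Hermitian matrix of determinant one with positive lower right entry is the matrix of a
point -/
lemma exists_toM (M : Matrix (Fin 2) (Fin 2) ℂ) (hH : Mᴴ = M) (hd : M.det = 1)
    (hp : 0 < (M 1 1).re) : ∃ p, toM p = M := by
  have h11 : M 1 1 = ((M 1 1).re : ℂ) := by
    have h := congrFun (congrFun hH 1) 1
    simp only [Matrix.conjTranspose_apply] at h
    exact (Complex.conj_eq_iff_real.mp h).elim (fun r hr => by rw [hr]; simp)
  have h00 : M 0 0 = ((M 0 0).re : ℂ) := by
    have h := congrFun (congrFun hH 0) 0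
    simp only [Matrix.conjTranspose_apply] at h
    exact (Complex.conj_eq_iff_real.mp h).elim (fun r hr => by rw [hr]; simp)
  have h10 : M 1 0 = conj (M 0 1) := by
    have h := congrFun (congrFun hH 1) 0
    simp only [Matrix.conjTranspose_apply] at h
    exact h.symm
  set a := (M 1 1).re with ha
  have ha0 : (a : ℂ) ≠ 0 := by exact_mod_cast hp.ne'
  refine ⟨mkP (M 0 1 / a) (1 / a) (by positivity), ?_⟩
  ext i j
  fin_cases i <;> fin_cases j
  · change toM _ 0 0 = M 0 0
    rw [toM_00, zc_mkP, ht_mkP]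
    rw [Matrix.det_fin_two, h11, h10] at hd
    have hd' : M 0 0 * a = 1 + M 0 1 * conj (M 0 1) := by linear_combination hd
    have : (normSq (M 0 1 / a) : ℂ) = M 0 1 * conj (M 0 1) / (a * a) := by
      rw [Complex.normSq_eq_conj_mul_self, map_div₀, Complex.conj_ofReal]
      field_simp
    push_cast
    rw [this]
    field_simp
    linear_combination -hd'
  · change toM _ 0 1 = M 0 1
    rw [toM_01, zc_mkP, ht_mkP]
    push_cast
    field_simp
  · change toM _ 1 0 = M 1 0
    rw [toM_10, zc_mkP, ht_mkP, h10, map_div₀, Complex.conj_ofReal]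
    push_cast
    field_simp
  · change toM _ 1 1 = M 1 1
    rw [toM_11, ht_mkP, h11]
    push_cast
    field_simp

lemma coshDist3_eq (p q : UpperHalfSpace3) :
    coshDist3 p q = (normSq (zc p - zc q) + ht p ^ 2 + ht q ^ 2) / (2 * ht p * ht q) := by
  have hp := ht_pos p
  have hq := ht_pos q
  have h1 : ‖p.1 - q.1‖ ^ 2 = normSq (zc p - zc q) + (ht p - ht q) ^ 2 := by
    rw [EuclideanSpace.norm_sq_eq, Fin.sum_univ_three]
    simp only [PiLp.sub_apply, Real.norm_eq_abs, sq_abs, Complex.normSq_apply, zc, ht,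
      Complex.sub_re, Complex.sub_im]
    ring
  unfold coshDist3
  rw [h1]
  change 1 + _ / (2 * ht p * ht q) = _
  field_simp
  ring

lemma coshDist3_eq_trace (p q : UpperHalfSpace3) :
    coshDist3 p q = ((toM p).adjugate * toM q).trace.re / 2 := by
  have hp := ht_pos p
  have hq := ht_pos q
  have hp' : (ht p : ℂ) ≠ 0 := by exact_mod_cast hp.ne'
  have hq' : (ht q : ℂ) ≠ 0 := by exact_mod_cast hq.ne'
  have h : ((toM p).adjugate * toM q).trace =
      (((normSq (zc p - zc q) + ht p ^ 2 + ht q ^ 2) / (ht p * ht q) : ℝ) : ℂ) := by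
    rw [Matrix.adjugate_fin_two, Matrix.trace_fin_two]
    simp only [Matrix.mul_apply, Fin.sum_univ_two, Matrix.of_apply, Matrix.cons_val', Matrix.cons_val_zero,
      Matrix.cons_val_one, Matrix.cons_val_fin_one]
    rw [toM_00, toM_01, toM_10, toM_11, toM_00, toM_01, toM_10, toM_11]
    push_cast
    rw [Complex.normSq_eq_conj_mul_self, Complex.normSq_eq_conj_mul_self,
      Complex.normSq_eq_conj_mul_self, map_sub]
    field_simp
    ring
  rw [h, Complex.ofReal_re, coshDist3_eq]
  field_simp

/-- `A` maps the matrix of a point to the matrix of a point -/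
lemma exists_act (A : Matrix.SpecialLinearGroup (Fin 2) ℂ) (p : UpperHalfSpace3) :
    ∃ q, toM q = A.1 * toM p * A.1ᴴ := by
  have hp := ht_pos p
  have hp' : (ht p : ℂ) ≠ 0 := by exact_mod_cast hp.ne'
  apply exists_toM
  · rw [Matrix.conjTranspose_mul, Matrix.conjTranspose_mul, Matrix.conjTranspose_conjTranspose,
      toM_herm, Matrix.mul_assoc]
  · rw [Matrix.det_mul, Matrix.det_mul, Matrix.det_conjTranspose, toM_det, A.2]
    simp
  · have h : (A.1 * toM p * A.1ᴴ) 1 1 =
        (((normSq (A.1 1 0 * zc p + A.1 1 1) + normSq (A.1 1 0) * ht p ^ 2) / ht p : ℝ) : ℂ) := by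
      simp only [Matrix.mul_apply, Fin.sum_univ_two, Matrix.conjTranspose_apply]
      rw [toM_00, toM_01, toM_10, toM_11]
      push_cast
      rw [Complex.normSq_eq_conj_mul_self, Complex.normSq_eq_conj_mul_self,
        Complex.normSq_eq_conj_mul_self, map_add, map_mul]
      simp only [RCLike.star_def]
      field_simp
      ring
    rw [h, Complex.ofReal_re]
    apply div_pos _ hp
    by_cases hc : A.1 1 0 = 0
    · have hdne : A.1 1 1 ≠ 0 := by
        intro hd
        have := A.2
        rw [Matrix.det_fin_two, hc, hd] at this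
        simp at this
      rw [hc]
      simpa using hdne
    · have h1 : 0 < normSq (A.1 1 0) := Complex.normSq_pos.mpr hc
      have h2 := Complex.normSq_nonneg (A.1 1 0 * zc p + A.1 1 1)
      positivity

/-- the action of a matrix on a point -/
def actPt (A : Matrix.SpecialLinearGroup (Fin 2) ℂ) (p : UpperHalfSpace3) : UpperHalfSpace3 :=
  (exists_act A p).choose

lemma toM_actPt (A : Matrix.SpecialLinearGroup (Fin 2) ℂ) (p : UpperHalfSpace3) :
    toM (actPt A p) = A.1 * toM p * A.1ᴴ := (exists_act A p).choose_spec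

lemma actPt_one (p : UpperHalfSpace3) : actPt 1 p = p := by
  apply toM_inj
  rw [toM_actPt]
  simp

lemma actPt_mul (A B : Matrix.SpecialLinearGroup (Fin 2) ℂ) (p : UpperHalfSpace3) :
    actPt (A * B) p = actPt A (actPt B p) := by
  apply toM_inj
  rw [toM_actPt, toM_actPt, toM_actPt, Matrix.SpecialLinearGroup.coe_mul,
    Matrix.conjTranspose_mul]
  simp only [Matrix.mul_assoc]

lemma coshDist3_actPt (A : Matrix.SpecialLinearGroup (Fin 2) ℂ) (p q : UpperHalfSpace3) :
    coshDist3 (actPt A p) (actPt A q) = coshDist3 p q := by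
  rw [coshDist3_eq_trace, coshDist3_eq_trace, toM_actPt, toM_actPt]
  congr 2
  rw [Matrix.adjugate_mul_distrib, Matrix.adjugate_mul_distrib]
  have h1 : A.1.adjugate * A.1 = 1 := by
    rw [Matrix.adjugate_mul, A.2, one_smul]
  have h2 : A.1ᴴ * A.1ᴴ.adjugate = 1 := by
    rw [Matrix.mul_adjugate, Matrix.det_conjTranspose, A.2]
    simp
  calc (A.1ᴴ.adjugate * ((toM p).adjugate * A.1.adjugate) * (A.1 * toM q * A.1ᴴ)).trace
      = (A.1ᴴ.adjugate * ((toM p).adjugate * (A.1.adjugate * A.1) * toM q * A.1ᴴ)).trace := by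
        simp only [Matrix.mul_assoc]
    _ = (((toM p).adjugate * toM q * A.1ᴴ) * A.1ᴴ.adjugate).trace := by
        rw [h1, Matrix.mul_one, Matrix.trace_mul_comm]
    _ = ((toM p).adjugate * toM q).trace := by
        rw [Matrix.mul_assoc, h2, Matrix.mul_one]

/-- the Poincaré extension of `SL(2,ℂ)` -/
def psi : Matrix.SpecialLinearGroup (Fin 2) ℂ →* isometryGroup3 where
  toFun A := ⟨⟨actPt A, actPt A⁻¹, fun p => by rw [← actPt_mul, inv_mul_cancel, actPt_one],
    fun p => by rw [← actPt_mul, mul_inv_cancel, actPt_one]⟩,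
    fun p q => coshDist3_actPt A p q⟩
  map_one' := by
    apply Subtype.ext
    apply Equiv.ext
    intro p
    exact actPt_one p
  map_mul' A B := by
    apply Subtype.ext
    apply Equiv.ext
    intro p
    exact actPt_mul A B p

lemma psi_apply (A : Matrix.SpecialLinearGroup (Fin 2) ℂ) (p : UpperHalfSpace3) :
    (psi A : Equiv.Perm UpperHalfSpace3) p = actPt A p := rfl

lemma psi_neg (A : Matrix.SpecialLinearGroup (Fin 2) ℂ) : psi (-A) = psi A := by
  apply Subtype.ext
  apply Equiv.ext
  intro p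
  apply toM_inj
  rw [psi_apply, psi_apply, toM_actPt, toM_actPt]
  simp

/-- complex conjugation on the upper half-space -/
def cjPt (p : UpperHalfSpace3) : UpperHalfSpace3 := mkP (conj (zc p)) (ht p) (ht_pos p)

lemma toM_cjPt (p : UpperHalfSpace3) : toM (cjPt p) = (toM p).map conj := by
  ext i j
  fin_cases i <;> fin_cases j <;> simp [toM, cjPt]

lemma cjPt_cjPt (p : UpperHalfSpace3) : cjPt (cjPt p) = p := by
  apply ext_P <;> simp [cjPt]

lemma coshDist3_cjPt (p q : UpperHalfSpace3) : coshDist3 (cjPt p) (cjPt q) = coshDist3 p q := by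
  rw [coshDist3_eq, coshDist3_eq]
  simp only [cjPt, zc_mkP, ht_mkP]
  rw [← map_sub, Complex.normSq_conj]

/-- complex conjugation as an isometry -/
def sigma : isometryGroup3 :=
  ⟨⟨cjPt, cjPt, cjPt_cjPt, cjPt_cjPt⟩, fun p q => coshDist3_cjPt p q⟩

lemma sigma_apply (p : UpperHalfSpace3) : (sigma : Equiv.Perm UpperHalfSpace3) p = cjPt p := rfl

lemma sigma_mul_sigma : sigma * sigma = 1 := by
  apply Subtype.ext
  apply Equiv.ext
  intro p
  exact cjPt_cjPt p

/-- entrywise complex conjugation on `SL(2,ℂ)` -/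
def cjSL : Matrix.SpecialLinearGroup (Fin 2) ℂ →* Matrix.SpecialLinearGroup (Fin 2) ℂ :=
  Matrix.SpecialLinearGroup.map (starRingEnd ℂ)

lemma cjSL_coe (A : Matrix.SpecialLinearGroup (Fin 2) ℂ) : (cjSL A).1 = A.1.map conj := rfl

lemma cjSL_cjSL (A : Matrix.SpecialLinearGroup (Fin 2) ℂ) : cjSL (cjSL A) = A := by
  apply Subtype.ext
  rw [cjSL_coe, cjSL_coe]
  ext i j
  simp

lemma sigma_psi (A : Matrix.SpecialLinearGroup (Fin 2) ℂ) :
    sigma * psi A = psi (cjSL A) * sigma := by
  apply Subtype.ext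
  apply Equiv.ext
  intro p
  apply toM_inj
  change toM (cjPt (actPt A p)) = toM (actPt (cjSL A) (cjPt p))
  rw [toM_cjPt, toM_actPt, toM_actPt, toM_cjPt, cjSL_coe]
  rw [Matrix.map_mul, Matrix.map_mul]
  congr 1

end

end Crest.Agent.R193.K
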