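import Mathlib
import Crest.Agent.R193.K_Herm

/-!
Row 193, block K (part 2): an action of `G` on the Riemann sphere `OnePoint ℂ` by Möbius and
anti-Möbius maps lifts to a homomorphism `G →* isometryGroup3`; chordal hypotheses give
properness, cocompactness and finite kernel.
-/

set_option autoImplicit false

namespace Crest.Agent.R193.K

open Crest.HyperbolicSpace Matrix Complex ComplexConjugate OnePoint

noncomputable section

/-- identity (`false`) or complex conjugation (`true`) -/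
def cb (ε : Bool) : ℂ →+* ℂ := if ε then starRingEnd ℂ else RingHom.id ℂ

@[simp] lemma cb_true (z : ℂ) : cb true z = conj z := rfl
@[simp] lemma cb_false (z : ℂ) : cb false z = z := rfl

lemma cb_cb (ε δ : Bool) (z : ℂ) : cb ε (cb δ z) = cb (xor ε δ) z := by
  cases ε <;> cases δ <;> simp

lemma normSq_cb (ε : Bool) (z : ℂ) : normSq (cb ε z) = normSq z := by
  cases ε <;> simp [Complex.normSq_conj]

lemma cb_ne_zero (ε : Bool) {z : ℂ} (h : z ≠ 0) : cb ε z ≠ 0 := by
  cases ε <;> simpa using h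

lemma cb_ofReal (ε : Bool) (x : ℝ) : cb ε (x : ℂ) = x := by
  cases ε <;> simp

/-- homogeneous coordinates of a point of the Riemann sphere -/
def rep (p : OnePoint ℂ) : Fin 2 → ℂ := Option.elim p ![1, 0] (fun z => ![z, 1])

lemma rep_infty : rep ∞ = ![1, 0] := rfl
lemma rep_coe (z : ℂ) : rep (z : OnePoint ℂ) = ![z, 1] := rfl

/-- the map `f` is the Möbius (`ε = false`) or anti-Möbius map given by `A` -/
def Rel (A : Matrix (Fin 2) (Fin 2) ℂ) (ε : Bool) (f : OnePoint ℂ → OnePoint ℂ) : Prop :=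
  ∀ p, ∃ l : ℂ, l ≠ 0 ∧ A *ᵥ (cb ε ∘ rep p) = l • rep (f p)

lemma cb_mulVec (ε : Bool) (B : Matrix (Fin 2) (Fin 2) ℂ) (v : Fin 2 → ℂ) :
    cb ε ∘ (B *ᵥ v) = (B.map (cb ε)) *ᵥ (cb ε ∘ v) := by
  ext i
  fin_cases i <;> simp [Matrix.mulVec, dotProduct, Fin.sum_univ_two]

lemma Rel.comp {A B : Matrix (Fin 2) (Fin 2) ℂ} {ε δ : Bool} {f g : OnePoint ℂ → OnePoint ℂ}
    (hA : Rel A ε f) (hB : Rel B δ g) :
    Rel (A * B.map (cb ε)) (xor ε δ) (f ∘ g) := by
  intro p
  obtain ⟨m, hm, h1⟩ := hB p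
  obtain ⟨l, hl, h2⟩ := hA (g p)
  refine ⟨cb ε m * l, mul_ne_zero (cb_ne_zero ε hm) hl, ?_⟩
  have h3 : cb (xor ε δ) ∘ rep p = cb ε ∘ (cb δ ∘ rep p) := by
    ext i
    simp [cb_cb]
  rw [h3, ← Matrix.mulVec_mulVec, ← cb_mulVec, h1]
  have h4 : cb ε ∘ (m • rep (g p)) = cb ε m • (cb ε ∘ rep (g p)) := by
    ext i
    simp
  rw [h4, Matrix.mulVec_smul, h2, smul_smul]
  rfl

/-- the isometry attached to a matrix and a conjugation flag -/
def iso (A : Matrix.SpecialLinearGroup (Fin 2) ℂ) (ε : Bool) : isometryGroup3 :=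
  psi A * (if ε then sigma else 1)

/-- conjugation flag acting on `SL(2,ℂ)` -/
def cbSL (ε : Bool) : Matrix.SpecialLinearGroup (Fin 2) ℂ →* Matrix.SpecialLinearGroup (Fin 2) ℂ :=
  Matrix.SpecialLinearGroup.map (cb ε)

lemma cbSL_coe (ε : Bool) (A : Matrix.SpecialLinearGroup (Fin 2) ℂ) :
    (cbSL ε A).1 = A.1.map (cb ε) := rfl

lemma cbSL_true (A : Matrix.SpecialLinearGroup (Fin 2) ℂ) : cbSL true A = cjSL A := rfl

lemma cbSL_false (A : Matrix.SpecialLinearGroup (Fin 2) ℂ) : cbSL false A = A := by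
  apply Subtype.ext
  rw [cbSL_coe]
  ext i j
  simp

lemma iso_mul (A B : Matrix.SpecialLinearGroup (Fin 2) ℂ) (ε δ : Bool) :
    iso A ε * iso B δ = iso (A * cbSL ε B) (xor ε δ) := by
  unfold iso
  cases ε
  · rw [cbSL_false]
    simp [mul_assoc]
  · rw [cbSL_true, map_mul]
    cases δ
    · simp only [if_true, Bool.xor_false, mul_assoc, Bool.false_eq_true, if_false, mul_one]
      rw [sigma_psi]
    · simp only [if_true, Bool.xor_self, Bool.false_eq_true, if_false, mul_one]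
      rw [mul_assoc, ← mul_assoc sigma, sigma_psi, mul_assoc (psi (cjSL B)), sigma_mul_sigma,
        mul_one]

/-- the matrix of the image of a point -/
lemma toM_iso (A : Matrix.SpecialLinearGroup (Fin 2) ℂ) (ε : Bool) (p : UpperHalfSpace3) :
    toM ((iso A ε : Equiv.Perm UpperHalfSpace3) p) = A.1 * (toM p).map (cb ε) * A.1ᴴ := by
  cases ε
  · have h : (iso A false : Equiv.Perm UpperHalfSpace3) p = actPt A p := by
      simp only [iso, Bool.false_eq_true, if_false, mul_one]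
      exact psi_apply A p
    rw [h, toM_actPt]
    congr 2
  · have h : (iso A true : Equiv.Perm UpperHalfSpace3) p = actPt A (cjPt p) := rfl
    rw [h, toM_actPt, toM_cjPt]
    rfl

/-- scalar matrices of determinant one -/
lemma scalar_of_eigen (C : Matrix (Fin 2) (Fin 2) ℂ) (hd : C.det = 1)
    (h0 : C 1 0 = 0) (h1 : C 0 1 = 0) (h2 : C 0 0 = C 1 1) : C = 1 ∨ C = -1 := by
  rw [Matrix.det_fin_two, h0, h1, h2] at hd
  have : (C 1 1 - 1) * (C 1 1 + 1) = 0 := by linear_combination hd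
  rcases mul_eq_zero.mp this with h | h
  · left
    have h' : C 1 1 = 1 := by linear_combination h
    ext i j
    fin_cases i <;> fin_cases j <;> simp [h0, h1, h2, h']
  · right
    have h' : C 1 1 = -1 := by linear_combination h
    ext i j
    fin_cases i <;> fin_cases j <;> simp [h0, h1, h2, h']

lemma iso_unique {A B : Matrix.SpecialLinearGroup (Fin 2) ℂ} {ε δ : Bool}
    {f : OnePoint ℂ → OnePoint ℂ} (hA : Rel A.1 ε f) (hB : Rel B.1 δ f) : iso A ε = iso B δ := by
  have key : ∀ p, ∃ l : ℂ, (B⁻¹ * A).1 *ᵥ (cb ε ∘ rep p) = l • (cb δ ∘ rep p) := by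
    intro p
    obtain ⟨l, hl, h1⟩ := hA p
    obtain ⟨m, hm, h2⟩ := hB p
    refine ⟨l * m⁻¹, ?_⟩
    rw [Matrix.SpecialLinearGroup.coe_mul, ← Matrix.mulVec_mulVec, h1]
    have h3 : rep (f p) = m⁻¹ • (B.1 *ᵥ (cb δ ∘ rep p)) := by
      rw [h2, smul_smul, inv_mul_cancel₀ hm, one_smul]
    rw [h3, smul_smul, Matrix.mulVec_smul, Matrix.mulVec_mulVec,
      ← Matrix.SpecialLinearGroup.coe_mul, inv_mul_cancel]
    simp
  set C := B⁻¹ * A with hC
  obtain ⟨l0, h0⟩ := key ∞
  obtain ⟨l1, h1⟩ := key (0 : ℂ)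
  obtain ⟨l2, h2⟩ := key (1 : ℂ)
  obtain ⟨l3, h3⟩ := key (Complex.I : ℂ)
  rw [rep_infty] at h0
  rw [rep_coe] at h1 h2 h3
  have h00 := congrFun h0 0
  have h01 := congrFun h0 1
  have h10 := congrFun h1 0
  have h11 := congrFun h1 1
  have h20 := congrFun h2 0
  have h21 := congrFun h2 1
  have h30 := congrFun h3 0
  have h31 := congrFun h3 1
  simp [Matrix.mulVec, dotProduct, Fin.sum_univ_two] at h00 h01 h10 h11 h20 h21 h30 h31
  have e1 : C.1 0 0 = C.1 1 1 := by
    rw [h01] at h21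
    rw [h10] at h20
    linear_combination h20 - h21
  have hpm := scalar_of_eigen C.1 C.2 h01 h10 e1
  have hne : C.1 1 1 ≠ 0 := by
    rcases hpm with h | h <;> rw [h] <;> simp
  have hεδ : ε = δ := by
    rw [h01, zero_mul, zero_add] at h31
    rw [h10, e1, h31, add_zero] at h30
    have hl3 : l3 ≠ 0 := by rw [← h31]; exact hne
    have h4 : cb ε I = cb δ I := mul_left_cancel₀ hl3 h30
    cases ε <;> cases δ <;> simp at h4 ⊢
    · exact absurd h4 (by intro h; have := congrArg Complex.im h; norm_num at this)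
    · exact absurd h4 (by intro h; have := congrArg Complex.im h; norm_num at this)
  subst hεδ
  have hAB : A = B * C := by rw [hC]; group
  rcases hpm with h | h
  · have : C = 1 := Subtype.ext h
    rw [hAB, this, mul_one]
  · have : C = -1 := by
      apply Subtype.ext
      rw [h]
      simp
    rw [hAB, this]
    unfold iso
    rw [mul_neg, mul_one, psi_neg]

/-- normalisation of the determinant -/
lemma exists_SL {A : Matrix (Fin 2) (Fin 2) ℂ} {ε : Bool} {f : OnePoint ℂ → OnePoint ℂ}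
    (hd : A.det ≠ 0) (h : Rel A ε f) : ∃ B : Matrix.SpecialLinearGroup (Fin 2) ℂ, Rel B.1 ε f := by
  obtain ⟨s, hs⟩ := IsAlgClosed.exists_eq_mul_self (A.det)⁻¹
  have hs0 : s ≠ 0 := by
    rintro rfl
    simp at hs
    exact hd hs
  refine ⟨⟨s • A, ?_⟩, ?_⟩
  · rw [Matrix.det_smul, Fintype.card_fin, pow_two, ← hs, inv_mul_cancel₀ hd]
  · intro p
    obtain ⟨l, hl, h1⟩ := h p
    refine ⟨s * l, mul_ne_zero hs0 hl, ?_⟩
    change (s • A) *ᵥ _ = _
    rw [Matrix.smul_mulVec, h1, smul_smul]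

/-- lifting a Möbius / anti-Möbius action to the isometry group -/
theorem exists_lift {G : Type*} [Group G] (f : G → OnePoint ℂ → OnePoint ℂ)
    (hm : ∀ g h x, f (g * h) x = f g (f h x))
    (H0 : ∀ g, ∃ (A : Matrix (Fin 2) (Fin 2) ℂ) (ε : Bool), A.det ≠ 0 ∧ Rel A ε (f g)) :
    ∃ (ρ : G →* isometryGroup3) (A : G → Matrix.SpecialLinearGroup (Fin 2) ℂ) (ε : G → Bool),
      (∀ g, Rel (A g).1 (ε g) (f g)) ∧ ∀ g, ρ g = iso (A g) (ε g) := by
  have H : ∀ g, ∃ (A : Matrix.SpecialLinearGroup (Fin 2) ℂ) (ε : Bool), Rel A.1 ε (f g) := by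
    intro g
    obtain ⟨A, ε, hd, hr⟩ := H0 g
    obtain ⟨B, hB⟩ := exists_SL hd hr
    exact ⟨B, ε, hB⟩
  choose A ε hA using H
  have hmul : ∀ g h, iso (A (g * h)) (ε (g * h)) = iso (A g) (ε g) * iso (A h) (ε h) := by
    intro g h
    rw [iso_mul]
    apply iso_unique (hA (g * h))
    have := (hA g).comp (hA h)
    have e : f g ∘ f h = f (g * h) := by
      ext1 x
      exact (hm g h x).symm
    rw [e] at this
    rw [Matrix.SpecialLinearGroup.coe_mul, cbSL_coe]
    exact this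
  refine ⟨⟨⟨fun g => iso (A g) (ε g), ?_⟩, hmul⟩, A, ε, hA, fun g => rfl⟩
  have := hmul 1 1
  rw [mul_one] at this
  exact (mul_eq_left.mp this.symm)

end

end Crest.Agent.R193.K
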