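import Mathlib
import Crest.Agent.R193.K_Mob

/-!
Row 193, block K (part 3): chordal estimates, properness, cocompactness, finite kernel.
-/

set_option autoImplicit false

namespace Crest.Agent.R193.K

open Crest.HyperbolicSpace Matrix Complex ComplexConjugate OnePoint

noncomputable section

/-- squared Euclidean norm of a vector -/
def nv (v : Fin 2 → ℂ) : ℝ := normSq (v 0) + normSq (v 1)

/-- the determinant of two vectors -/
def dv (v w : Fin 2 → ℂ) : ℂ := v 0 * w 1 - v 1 * w 0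

/-- squared chordal distance of two homogeneous vectors -/
def cd (v w : Fin 2 → ℂ) : ℝ := normSq (dv v w) / (nv v * nv w)

/-- squared chordal distance of two points of the Riemann sphere -/
def cs (x y : OnePoint ℂ) : ℝ := cd (rep x) (rep y)

lemma nv_nonneg (v : Fin 2 → ℂ) : 0 ≤ nv v := add_nonneg (normSq_nonneg _) (normSq_nonneg _)

lemma nv_smul (l : ℂ) (v : Fin 2 → ℂ) : nv (l • v) = normSq l * nv v := by
  simp [nv, Complex.normSq_mul]
  ring

lemma dv_smul (l m : ℂ) (v w : Fin 2 → ℂ) : dv (l • v) (m • w) = l * m * dv v w := by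
  simp [dv]
  ring

lemma cd_smul {l m : ℂ} (hl : l ≠ 0) (hm : m ≠ 0) (v w : Fin 2 → ℂ) :
    cd (l • v) (m • w) = cd v w := by
  unfold cd
  rw [nv_smul, nv_smul, dv_smul, Complex.normSq_mul, Complex.normSq_mul]
  have h1 : normSq l ≠ 0 := by simpa using hl
  have h2 : normSq m ≠ 0 := by simpa using hm
  rw [show normSq l * nv v * (normSq m * nv w) = normSq l * normSq m * (nv v * nv w) by ring]
  rw [mul_div_mul_left]
  exact mul_ne_zero h1 h2

lemma nv_cb (ε : Bool) (v : Fin 2 → ℂ) : nv (cb ε ∘ v) = nv v := by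
  simp [nv, normSq_cb]

lemma dv_cb (ε : Bool) (v w : Fin 2 → ℂ) : dv (cb ε ∘ v) (cb ε ∘ w) = cb ε (dv v w) := by
  simp [dv]

lemma cd_cb (ε : Bool) (v w : Fin 2 → ℂ) : cd (cb ε ∘ v) (cb ε ∘ w) = cd v w := by
  unfold cd
  rw [nv_cb, nv_cb, dv_cb, normSq_cb]

lemma nv_rep_pos (x : OnePoint ℂ) : 0 < nv (rep x) := by
  induction x using OnePoint.rec with
  | infty => rw [rep_infty]; simp [nv]
  | coe z =>
    rw [rep_coe]
    simp only [nv, Matrix.cons_val_zero, Matrix.cons_val_one]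
    have := normSq_nonneg z
    simp only [map_one]
    positivity

/-- Frobenius norm squared -/
def fr (A : Matrix (Fin 2) (Fin 2) ℂ) : ℝ :=
  normSq (A 0 0) + normSq (A 0 1) + normSq (A 1 0) + normSq (A 1 1)

lemma fr_nonneg (A : Matrix (Fin 2) (Fin 2) ℂ) : 0 ≤ fr A := by
  unfold fr
  have := normSq_nonneg (A 0 0)
  have := normSq_nonneg (A 0 1)
  have := normSq_nonneg (A 1 0)
  have := normSq_nonneg (A 1 1)
  positivity

lemma cauchy2 (a b v w : ℂ) :
    normSq (a * v + b * w) ≤ (normSq a + normSq b) * (normSq v + normSq w) := by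
  have h : (normSq a + normSq b) * (normSq v + normSq w) - normSq (a * v + b * w) =
      normSq (a * conj w - b * conj v) := by
    simp only [Complex.normSq_apply, Complex.add_re, Complex.add_im, Complex.mul_re,
      Complex.mul_im, Complex.sub_re, Complex.sub_im, Complex.conj_re, Complex.conj_im]
    ring
  have := normSq_nonneg (a * conj w - b * conj v)
  linarith

lemma nv_mulVec_le (A : Matrix (Fin 2) (Fin 2) ℂ) (v : Fin 2 → ℂ) :
    nv (A *ᵥ v) ≤ fr A * nv v := by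
  have h0 : (A *ᵥ v) 0 = A 0 0 * v 0 + A 0 1 * v 1 := by
    simp [Matrix.mulVec, dotProduct, Fin.sum_univ_two]
  have h1 : (A *ᵥ v) 1 = A 1 0 * v 0 + A 1 1 * v 1 := by
    simp [Matrix.mulVec, dotProduct, Fin.sum_univ_two]
  unfold nv fr
  rw [h0, h1]
  have := cauchy2 (A 0 0) (A 0 1) (v 0) (v 1)
  have := cauchy2 (A 1 0) (A 1 1) (v 0) (v 1)
  linarith

lemma dv_mulVec (A : Matrix (Fin 2) (Fin 2) ℂ) (v w : Fin 2 → ℂ) :
    dv (A *ᵥ v) (A *ᵥ w) = A.det * dv v w := by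
  simp only [dv, Matrix.det_fin_two, Matrix.mulVec, dotProduct, Fin.sum_univ_two]
  ring

lemma nv_mulVec_pos {A : Matrix (Fin 2) (Fin 2) ℂ} (hd : A.det = 1) {v : Fin 2 → ℂ}
    (hv : 0 < nv v) : 0 < nv (A *ᵥ v) := by
  rcases (nv_nonneg (A *ᵥ v)).lt_or_eq with h | h
  · exact h
  · exfalso
    have h0 : normSq ((A *ᵥ v) 0) = 0 := by
      have := normSq_nonneg ((A *ᵥ v) 0)
      have := normSq_nonneg ((A *ᵥ v) 1)
      unfold nv at h
      linarith
    have h1 : normSq ((A *ᵥ v) 1) = 0 := by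
      have := normSq_nonneg ((A *ᵥ v) 0)
      have := normSq_nonneg ((A *ᵥ v) 1)
      unfold nv at h
      linarith
    have hz : A *ᵥ v = 0 := by
      ext i
      fin_cases i
      · exact Complex.normSq_eq_zero.mp h0
      · exact Complex.normSq_eq_zero.mp h1
    have : v = 0 := by
      have h2 : A.adjugate *ᵥ (A *ᵥ v) = v := by
        rw [Matrix.mulVec_mulVec, Matrix.adjugate_mul, hd]
        simp
      rw [← h2, hz, Matrix.mulVec_zero]
    rw [this] at hv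
    simp [nv] at hv

lemma cd_le_mulVec {A : Matrix (Fin 2) (Fin 2) ℂ} (hd : A.det = 1) {v w : Fin 2 → ℂ}
    (hv : 0 < nv v) (hw : 0 < nv w) : cd v w ≤ fr A ^ 2 * cd (A *ᵥ v) (A *ᵥ w) := by
  have hAv := nv_mulVec_pos hd hv
  have hAw := nv_mulVec_pos hd hw
  have h1 := nv_mulVec_le A v
  have h2 := nv_mulVec_le A w
  unfold cd
  rw [dv_mulVec, hd, one_mul, ← mul_div_assoc, div_le_div_iff₀ (by positivity) (by positivity)]
  have h3 : nv (A *ᵥ v) * nv (A *ᵥ w) ≤ (fr A * nv v) * (fr A * nv w) :=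
    mul_le_mul h1 h2 hAw.le (by have := fr_nonneg A; positivity)
  have h4 := normSq_nonneg (dv v w)
  nlinarith [mul_le_mul_of_nonneg_left h3 h4]

lemma cs_le_of_rel {A : Matrix (Fin 2) (Fin 2) ℂ} {ε : Bool} {f : OnePoint ℂ → OnePoint ℂ}
    (hd : A.det = 1) (h : Rel A ε f) (x y : OnePoint ℂ) :
    cs x y ≤ fr A ^ 2 * cs (f x) (f y) := by
  obtain ⟨l, hl, h1⟩ := h x
  obtain ⟨m, hm, h2⟩ := h y
  unfold cs
  rw [← cd_smul hl hm (rep (f x)), ← h1, ← h2, ← cd_cb ε (rep x)]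
  apply cd_le_mulVec hd
  · rw [nv_cb]; exact nv_rep_pos x
  · rw [nv_cb]; exact nv_rep_pos y

/-- the trace of the matrix of a point -/
def tr (p : UpperHalfSpace3) : ℝ := (normSq (zc p) + ht p ^ 2 + 1) / ht p

lemma tr_pos (p : UpperHalfSpace3) : 0 < tr p := by
  have := ht_pos p
  have := normSq_nonneg (zc p)
  unfold tr
  positivity

lemma tr_eq (p : UpperHalfSpace3) : (toM p).trace = (tr p : ℂ) := by
  have hp : (ht p : ℂ) ≠ 0 := by exact_mod_cast (ht_pos p).ne'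
  rw [Matrix.trace_fin_two, toM_00, toM_11]
  unfold tr
  push_cast
  field_simp

lemma trace_mul_conjTranspose (A : Matrix (Fin 2) (Fin 2) ℂ) :
    (A * Aᴴ).trace = (fr A : ℂ) := by
  rw [Matrix.trace_fin_two]
  simp only [Matrix.mul_apply, Fin.sum_univ_two, Matrix.conjTranspose_apply]
  unfold fr
  push_cast
  simp only [Complex.normSq_eq_conj_mul_self, RCLike.star_def]
  ring

/-- `‖A‖² ≤ tr(M) tr(A M A*)` for a Hermitian matrix `M` of determinant one -/
lemma fr_le (A M : Matrix (Fin 2) (Fin 2) ℂ) (hH : Mᴴ = M) (hd : M.det = 1) (t s : ℝ)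
    (ht : M.trace = t) (hs : (A * M * Aᴴ).trace = s) : fr A ≤ t * s := by
  have hCH : M * M = (t : ℂ) • M - 1 := by
    ext i j
    have h1 : M.trace = M 0 0 + M 1 1 := Matrix.trace_fin_two M
    rw [← ht, h1]
    rw [Matrix.det_fin_two] at hd
    fin_cases i <;> fin_cases j <;>
      simp [Matrix.mul_apply, Fin.sum_univ_two] <;>
      first | linear_combination (0 : ℂ) * hd | linear_combination -hd
  have h2 : ((A * M) * (A * M)ᴴ).trace = (fr (A * M) : ℂ) := trace_mul_conjTranspose _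
  have h3 : (A * M) * (A * M)ᴴ = (t : ℂ) • (A * M * Aᴴ) - A * Aᴴ := by
    rw [Matrix.conjTranspose_mul, hH]
    calc A * M * (M * Aᴴ) = A * (M * M) * Aᴴ := by simp only [Matrix.mul_assoc]
      _ = _ := by
        rw [hCH, Matrix.mul_sub, Matrix.sub_mul, Matrix.mul_one, Matrix.mul_smul, Matrix.smul_mul]
  rw [h3, Matrix.trace_sub, Matrix.trace_smul, hs, trace_mul_conjTranspose] at h2
  have h4 : t * s - fr A = fr (A * M) := by
    have : ((t * s - fr A : ℝ) : ℂ) = (fr (A * M) : ℝ) := by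
      push_cast
      rw [← h2]
      simp
    exact_mod_cast this
  have := fr_nonneg (A * M)
  linarith

lemma trace_map_cb (ε : Bool) (M : Matrix (Fin 2) (Fin 2) ℂ) :
    (M.map (cb ε)).trace = cb ε M.trace := by
  rw [Matrix.trace_fin_two, Matrix.trace_fin_two]
  simp

lemma det_map_cb (ε : Bool) (M : Matrix (Fin 2) (Fin 2) ℂ) :
    (M.map (cb ε)).det = cb ε M.det := by
  rw [Matrix.det_fin_two, Matrix.det_fin_two]
  simp

lemma conjTranspose_map_cb (ε : Bool) (M : Matrix (Fin 2) (Fin 2) ℂ) :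
    (M.map (cb ε))ᴴ = (Mᴴ).map (cb ε) := by
  ext i j
  cases ε <;> simp

lemma fr_le_tr (A : Matrix.SpecialLinearGroup (Fin 2) ℂ) (ε : Bool) (p : UpperHalfSpace3) :
    fr A.1 ≤ tr p * tr ((iso A ε : Equiv.Perm UpperHalfSpace3) p) := by
  apply fr_le A.1 ((toM p).map (cb ε))
  · rw [conjTranspose_map_cb, toM_herm]
  · rw [det_map_cb, toM_det, map_one]
  · rw [trace_map_cb, tr_eq, cb_ofReal]
  · rw [← toM_iso, tr_eq]

lemma continuous_tr : Continuous tr := by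
  have h0 : Continuous fun p : UpperHalfSpace3 => p.1 0 := by fun_prop
  have h1 : Continuous fun p : UpperHalfSpace3 => p.1 1 := by fun_prop
  have h2 : Continuous fun p : UpperHalfSpace3 => p.1 2 := by fun_prop
  have : tr = fun p : UpperHalfSpace3 =>
      (p.1 0 * p.1 0 + p.1 1 * p.1 1 + (p.1 2) ^ 2 + 1) / p.1 2 := by
    ext p
    simp [tr, zc, ht, Complex.normSq_apply]
  rw [this]
  apply Continuous.div (by fun_prop) h2
  intro p
  exact p.2.ne'

/-- sublevel sets of the trace are compact -/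
lemma isCompact_tr (R : ℝ) : IsCompact {p : UpperHalfSpace3 | tr p ≤ R} := by
  rw [Subtype.isCompact_iff]
  have hset : (Subtype.val '' {p : UpperHalfSpace3 | tr p ≤ R}) =
      {v : EuclideanSpace ℝ (Fin 3) | 0 ≤ v 2 ∧ v 0 ^ 2 + v 1 ^ 2 + v 2 ^ 2 + 1 ≤ R * v 2} := by
    ext v
    constructor
    · rintro ⟨p, hp, rfl⟩
      have h2 : 0 < p.1 2 := p.2
      refine ⟨h2.le, ?_⟩
      simp only [Set.mem_ofPred_eq, tr, zc, ht, Complex.normSq_apply] at hp
      rw [div_le_iff₀ h2] at hp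
      nlinarith [hp]
    · rintro ⟨h0, h1⟩
      have h2 : 0 < v 2 := by
        rcases h0.lt_or_eq with h | h
        · exact h
        · rw [← h] at h1
          nlinarith [sq_nonneg (v 0), sq_nonneg (v 1)]
      refine ⟨⟨v, h2⟩, ?_, rfl⟩
      simp only [Set.mem_ofPred_eq, tr, zc, ht, Complex.normSq_apply]
      rw [div_le_iff₀ h2]
      nlinarith [h1]
  rw [hset]
  have c0 : Continuous fun v : EuclideanSpace ℝ (Fin 3) => v 0 := by fun_prop
  have c1 : Continuous fun v : EuclideanSpace ℝ (Fin 3) => v 1 := by fun_prop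
  have c2 : Continuous fun v : EuclideanSpace ℝ (Fin 3) => v 2 := by fun_prop
  apply Metric.isCompact_of_isClosed_isBounded
  · apply IsClosed.inter
    · exact isClosed_le continuous_const c2
    · exact isClosed_le
        (((((c0.pow 2).add (c1.pow 2)).add (c2.pow 2)).add continuous_const))
        (continuous_const.mul c2)
  · rw [isBounded_iff_forall_norm_le]
    refine ⟨|R| + 1, ?_⟩
    rintro v ⟨h0, h1⟩
    have h3 : ‖v‖ ^ 2 = v 0 ^ 2 + v 1 ^ 2 + v 2 ^ 2 := by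
      rw [EuclideanSpace.norm_sq_eq, Fin.sum_univ_three]
      simp
    have h4 : v 2 ≤ ‖v‖ := by
      apply le_of_sq_le_sq _ (norm_nonneg v)
      rw [h3]
      nlinarith [sq_nonneg (v 0), sq_nonneg (v 1)]
    have h5 : ‖v‖ ^ 2 ≤ |R| * ‖v‖ := by
      rw [h3]
      have h6 : R * v 2 ≤ |R| * ‖v‖ := by
        calc R * v 2 ≤ |R| * v 2 := mul_le_mul_of_nonneg_right (le_abs_self R) h0
          _ ≤ |R| * ‖v‖ := mul_le_mul_of_nonneg_left h4 (abs_nonneg R)
      linarith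
    rcases (norm_nonneg v).lt_or_eq with h | h
    · have : ‖v‖ ≤ |R| := by
        have h7 : ‖v‖ * ‖v‖ ≤ |R| * ‖v‖ := by rw [← pow_two]; exact h5
        exact le_of_mul_le_mul_right h7 h
      linarith
    · rw [← h]
      positivity

/-- the chordal contraction hypothesis: infinite sets of group elements contract some pair by an
arbitrarily large factor -/
def Contr {G : Type*} (f : G → OnePoint ℂ → OnePoint ℂ) : Prop :=
  ∀ T : Set G, T.Infinite → ∀ C : ℝ, 0 < C → ∃ g ∈ T, ∃ x y, C * cs (f g x) (f g y) < cs x y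

/-- cocompactness on triples, in chordal terms -/
def Coco {G : Type*} (f : G → OnePoint ℂ → OnePoint ℂ) : Prop :=
  ∃ c : ℝ, 0 < c ∧ ∀ x y z : OnePoint ℂ, x ≠ y → y ≠ z → x ≠ z →
    ∃ g, c ≤ cs (f g x) (f g y) ∧ c ≤ cs (f g y) (f g z) ∧ c ≤ cs (f g x) (f g z)

lemma proper_of_contr {G : Type*} [Group G] {f : G → OnePoint ℂ → OnePoint ℂ}
    {ρ : G →* isometryGroup3} {A : G → Matrix.SpecialLinearGroup (Fin 2) ℂ} {ε : G → Bool}
    (hA : ∀ g, Rel (A g).1 (ε g) (f g)) (hρ : ∀ g, ρ g = iso (A g) (ε g)) (H1 : Contr f)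
    (K : Set UpperHalfSpace3) (hK : IsCompact K) :
    Set.Finite {g : G | ∃ x ∈ K, (ρ g : Equiv.Perm UpperHalfSpace3) x ∈ K} := by
  by_contra hinf
  have hinf' : Set.Infinite {g : G | ∃ x ∈ K, (ρ g : Equiv.Perm UpperHalfSpace3) x ∈ K} := hinf
  obtain ⟨R, hR⟩ := (hK.image continuous_tr).isBounded.bddAbove
  have hR' : ∀ p ∈ K, tr p ≤ R := fun p hp => hR ⟨p, hp, rfl⟩
  have hRpos : 0 < R := by
    obtain ⟨g, hg⟩ := hinf'.nonempty
    obtain ⟨x, hx, _⟩ := hg
    exact (tr_pos x).trans_le (hR' x hx)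
  obtain ⟨g, ⟨x, hx, hgx⟩, a, b, hab⟩ := H1 _ hinf' ((R * R) ^ 2) (by positivity)
  have h1 := cs_le_of_rel (A g).2 (hA g) a b
  have h2 : fr (A g).1 ≤ R * R := by
    refine (fr_le_tr (A g) (ε g) x).trans ?_
    rw [← hρ]
    exact mul_le_mul (hR' x hx) (hR' _ hgx) (tr_pos _).le hRpos.le
  have h3 : fr (A g).1 ^ 2 ≤ (R * R) ^ 2 := pow_le_pow_left₀ (fr_nonneg _) h2 2
  have h4 : 0 ≤ cs (f g a) (f g b) := by
    unfold cs cd
    have := normSq_nonneg (dv (rep (f g a)) (rep (f g b)))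
    have := nv_nonneg (rep (f g a))
    have := nv_nonneg (rep (f g b))
    positivity
  have h5 := mul_le_mul_of_nonneg_right h3 h4
  linarith

lemma fr_le_of_sep {D : Matrix (Fin 2) (Fin 2) ℂ} (hd : D.det = 1) {c : ℝ} (hc : 0 < c)
    (h1 : c ≤ cd (D *ᵥ ![1, 0]) (D *ᵥ ![0, 1]))
    (h2 : c ≤ cd (D *ᵥ ![0, 1]) (D *ᵥ ![1, 1]))
    (h3 : c ≤ cd (D *ᵥ ![1, 0]) (D *ᵥ ![1, 1])) : fr D ≤ 2 / c := by
  have hp1 : 0 < nv (D *ᵥ ![1, 0]) := nv_mulVec_pos hd (by simp [nv])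
  have hp2 : 0 < nv (D *ᵥ ![0, 1]) := nv_mulVec_pos hd (by simp [nv])
  have hp3 : 0 < nv (D *ᵥ ![1, 1]) := nv_mulVec_pos hd (by simp [nv])
  have hfr : fr D = nv (D *ᵥ ![1, 0]) + nv (D *ᵥ ![0, 1]) := by
    simp [fr, nv, Matrix.mulVec, dotProduct, Fin.sum_univ_two]
    ring
  have e1 : cd (D *ᵥ ![1, 0]) (D *ᵥ ![0, 1]) =
      1 / (nv (D *ᵥ ![1, 0]) * nv (D *ᵥ ![0, 1])) := by
    unfold cd
    rw [dv_mulVec, hd]
    simp [dv]
  have e2 : cd (D *ᵥ ![0, 1]) (D *ᵥ ![1, 1]) =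
      1 / (nv (D *ᵥ ![0, 1]) * nv (D *ᵥ ![1, 1])) := by
    unfold cd
    rw [dv_mulVec, hd]
    simp [dv]
  have e3 : cd (D *ᵥ ![1, 0]) (D *ᵥ ![1, 1]) =
      1 / (nv (D *ᵥ ![1, 0]) * nv (D *ᵥ ![1, 1])) := by
    unfold cd
    rw [dv_mulVec, hd]
    simp [dv]
  -- Hadamard
  have had : ∀ v w : Fin 2 → ℂ, normSq (dv v w) ≤ nv v * nv w := by
    intro v w
    have := cauchy2 (v 0) (-v 1) (w 1) (w 0)
    unfold dv nv
    rw [Complex.normSq_neg] at this
    rw [show v 0 * w 1 - v 1 * w 0 = v 0 * w 1 + -v 1 * w 0 by ring]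
    linarith
  have k1 := had (D *ᵥ ![1, 0]) (D *ᵥ ![1, 1])
  have k2 := had (D *ᵥ ![0, 1]) (D *ᵥ ![1, 1])
  have d1 : normSq (dv (D *ᵥ ![1, 0]) (D *ᵥ ![1, 1])) = 1 := by
    rw [dv_mulVec, hd]; simp [dv]
  have d2 : normSq (dv (D *ᵥ ![0, 1]) (D *ᵥ ![1, 1])) = 1 := by
    rw [dv_mulVec, hd]; simp [dv]
  rw [d1] at k1
  rw [d2] at k2
  rw [e1, le_div_iff₀ (by positivity)] at h1
  rw [e2, le_div_iff₀ (by positivity)] at h2
  rw [e3, le_div_iff₀ (by positivity)] at h3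
  set a := nv (D *ᵥ ![1, 0])
  set b := nv (D *ᵥ ![0, 1])
  set s := nv (D *ᵥ ![1, 1])
  have ha : c * a ≤ 1 := by
    -- (c a b) (c a s) ≤ 1 ≤ b s
    have h4 : (c * (a * b)) * (c * (a * s)) ≤ 1 := by
      calc (c * (a * b)) * (c * (a * s)) ≤ 1 * 1 :=
            mul_le_mul h1 h3 (by positivity) (by norm_num)
        _ = 1 := by norm_num
    have h5 : (c * a) ^ 2 * (b * s) ≤ 1 := by nlinarith [h4]
    have h6 : (c * a) ^ 2 ≤ 1 := by
      nlinarith [sq_nonneg (c * a)]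
    nlinarith [mul_pos hc hp1]
  have hb : c * b ≤ 1 := by
    have h4 : (c * (a * b)) * (c * (b * s)) ≤ 1 := by
      calc (c * (a * b)) * (c * (b * s)) ≤ 1 * 1 :=
            mul_le_mul h1 h2 (by positivity) (by norm_num)
        _ = 1 := by norm_num
    have h5 : (c * b) ^ 2 * (a * s) ≤ 1 := by nlinarith [h4]
    have h6 : (c * b) ^ 2 ≤ 1 := by
      nlinarith [sq_nonneg (c * b)]
    nlinarith [mul_pos hc hp2]
  rw [hfr, le_div_iff₀ hc]
  linarith

/-- every point is the image of the base point under an upper triangular matrix -/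
lemma exists_frame (p : UpperHalfSpace3) : ∃ B : Matrix (Fin 2) (Fin 2) ℂ,
    B.det = 1 ∧ toM p = B * Bᴴ ∧
    (∃ l : ℂ, l ≠ 0 ∧ l • (B *ᵥ ![1, 0]) = rep ∞) ∧
    (∃ l : ℂ, l ≠ 0 ∧ l • (B *ᵥ ![0, 1]) = rep (zc p : ℂ)) ∧
    (∃ l : ℂ, l ≠ 0 ∧ l • (B *ᵥ ![1, 1]) = rep ((zc p + ht p : ℂ) : OnePoint ℂ)) := by
  have hp := ht_pos p
  set s : ℝ := Real.sqrt (ht p) with hs
  have hs0 : 0 < s := Real.sqrt_pos.mpr hp
  have hss : s * s = ht p := Real.mul_self_sqrt hp.le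
  have hsc : (s : ℂ) ≠ 0 := by exact_mod_cast hs0.ne'
  have hssc : (s : ℂ) * s = ht p := by exact_mod_cast hss
  refine ⟨!![(s : ℂ), zc p / s; 0, 1 / s], ?_, ?_, ?_, ?_, ?_⟩
  · rw [Matrix.det_fin_two]
    simp [hsc]
  · ext i j
    fin_cases i <;> fin_cases j
    · change toM p 0 0 = _
      rw [toM_00, ← hss]
      simp [Matrix.mul_apply, Fin.sum_univ_two, Matrix.conjTranspose_apply]
      rw [Complex.normSq_eq_conj_mul_self]
      field_simp
      ring
    · change toM p 0 1 = _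
      rw [toM_01, ← hssc]
      simp [Matrix.mul_apply, Fin.sum_univ_two, Matrix.conjTranspose_apply]
      field_simp
    · change toM p 1 0 = _
      rw [toM_10, ← hssc]
      simp [Matrix.mul_apply, Fin.sum_univ_two, Matrix.conjTranspose_apply]
      field_simp
    · change toM p 1 1 = _
      rw [toM_11, ← hss]
      simp [Matrix.mul_apply, Fin.sum_univ_two, Matrix.conjTranspose_apply]
  · refine ⟨1 / s, by simpa using hsc, ?_⟩
    rw [rep_infty]
    ext i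
    fin_cases i <;> simp [Matrix.mulVec, dotProduct, Fin.sum_univ_two, hsc]
  · refine ⟨s, hsc, ?_⟩
    rw [rep_coe]
    ext i
    fin_cases i <;> simp [Matrix.mulVec, dotProduct, Fin.sum_univ_two, hsc]
    field_simp
  · refine ⟨s, hsc, ?_⟩
    rw [rep_coe, ← hssc]
    ext i
    fin_cases i <;> simp [Matrix.mulVec, dotProduct, Fin.sum_univ_two, hsc]
    field_simp
    ring

lemma cocompact_of_coco {G : Type*} [Group G] {f : G → OnePoint ℂ → OnePoint ℂ}
    {ρ : G →* isometryGroup3} {A : G → Matrix.SpecialLinearGroup (Fin 2) ℂ} {ε : G → Bool}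
    (hA : ∀ g, Rel (A g).1 (ε g) (f g)) (hρ : ∀ g, ρ g = iso (A g) (ε g)) (H2 : Coco f) :
    ∃ K : Set UpperHalfSpace3, IsCompact K ∧
      ∀ x : UpperHalfSpace3, ∃ g : G, (ρ g : Equiv.Perm UpperHalfSpace3) x ∈ K := by
  obtain ⟨c, hc, H⟩ := H2
  refine ⟨{p | tr p ≤ 2 / c}, isCompact_tr _, ?_⟩
  intro p
  obtain ⟨B, hBd, hB, ⟨l0, hl0, hB0⟩, ⟨l1, hl1, hB1⟩, ⟨l2, hl2, hB2⟩⟩ := exists_frame p
  have hpt : (ht p : ℂ) ≠ 0 := by exact_mod_cast (ht_pos p).ne'
  obtain ⟨g, hg1, hg2, hg3⟩ := H ∞ (zc p : ℂ) ((zc p + ht p : ℂ) : OnePoint ℂ)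
    (OnePoint.infty_ne_coe _)
    (by
      intro h
      rw [OnePoint.coe_eq_coe] at h
      apply hpt
      linear_combination -h)
    (OnePoint.infty_ne_coe _)
  refine ⟨g, ?_⟩
  change tr _ ≤ 2 / c
  set B' := B.map (cb (ε g)) with hB'
  set D := (A g).1 * B' with hD
  have hDd : D.det = 1 := by
    rw [hD, Matrix.det_mul, (A g).2, hB', det_map_cb, hBd]
    simp
  have htoM : toM ((ρ g : Equiv.Perm UpperHalfSpace3) p) = D * Dᴴ := by
    rw [hρ, toM_iso, hB, Matrix.map_mul, hD, Matrix.conjTranspose_mul, hB',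
      conjTranspose_map_cb]
    simp only [Matrix.mul_assoc]
  have htr : tr ((ρ g : Equiv.Perm UpperHalfSpace3) p) = fr D := by
    have := tr_eq ((ρ g : Equiv.Perm UpperHalfSpace3) p)
    rw [htoM, trace_mul_conjTranspose] at this
    exact_mod_cast this.symm
  rw [htr]
  -- images of the frame vectors
  have img : ∀ (x : OnePoint ℂ) (v : Fin 2 → ℂ) (l : ℂ), cb (ε g) ∘ v = v → l ≠ 0 →
      l • (B *ᵥ v) = rep x → ∃ m : ℂ, m ≠ 0 ∧ D *ᵥ v = m • rep (f g x) := by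
    intro x v l hv hl hx
    obtain ⟨m, hm, h1⟩ := hA g x
    refine ⟨(cb (ε g) l)⁻¹ * m, mul_ne_zero (inv_ne_zero (cb_ne_zero _ hl)) hm, ?_⟩
    rw [← smul_smul, ← h1, ← hx]
    have h2 : cb (ε g) ∘ (l • (B *ᵥ v)) = cb (ε g) l • (B' *ᵥ v) := by
      have h3 : cb (ε g) ∘ (B *ᵥ v) = B' *ᵥ v := by
        rw [cb_mulVec, hv]
      rw [← h3]
      ext i
      simp only [Function.comp_apply, Pi.smul_apply, smul_eq_mul, map_mul]
    rw [h2, Matrix.mulVec_smul, smul_smul, inv_mul_cancel₀ (cb_ne_zero _ hl), one_smul,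
      Matrix.mulVec_mulVec]
  obtain ⟨m0, hm0, e0⟩ := img ∞ ![1, 0] l0 (by ext i; fin_cases i <;> simp) hl0 hB0
  obtain ⟨m1, hm1, e1⟩ := img _ ![0, 1] l1 (by ext i; fin_cases i <;> simp) hl1 hB1
  obtain ⟨m2, hm2, e2⟩ := img _ ![1, 1] l2 (by ext i; fin_cases i <;> simp) hl2 hB2
  apply fr_le_of_sep hDd hc
  · rw [e0, e1, cd_smul hm0 hm1]; exact hg1
  · rw [e1, e2, cd_smul hm1 hm2]; exact hg2
  · rw [e0, e2, cd_smul hm0 hm2]; exact hg3

/-- THEOREM K (chordal form): a Möbius / anti-Möbius action on the sphere which is contracting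
and cocompact on triples gives the conclusion of S0294 -/
theorem theoremK {G : Type*} [Group G] (f : G → OnePoint ℂ → OnePoint ℂ)
    (hm : ∀ g h x, f (g * h) x = f g (f h x))
    (H0 : ∀ g, ∃ (A : Matrix (Fin 2) (Fin 2) ℂ) (ε : Bool), A.det ≠ 0 ∧ Rel A ε (f g))
    (H1 : Contr f) (H2 : Coco f) :
    ∃ ρ : G →* isometryGroup3,
      (∀ K : Set UpperHalfSpace3, IsCompact K →
        Set.Finite {g : G | ∃ x ∈ K, (ρ g : Equiv.Perm UpperHalfSpace3) x ∈ K}) ∧
      (∃ K : Set UpperHalfSpace3, IsCompact K ∧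
        ∀ x : UpperHalfSpace3, ∃ g : G, (ρ g : Equiv.Perm UpperHalfSpace3) x ∈ K) ∧
      Finite ρ.ker := by
  obtain ⟨ρ, A, ε, hA, hρ⟩ := exists_lift f hm H0
  refine ⟨ρ, proper_of_contr hA hρ H1, cocompact_of_coco hA hρ H2, ?_⟩
  have hfin := proper_of_contr hA hρ H1 {mkP 0 1 one_pos} isCompact_singleton
  apply Set.Finite.to_subtype
  apply hfin.subset
  intro g hg
  refine ⟨mkP 0 1 one_pos, rfl, ?_⟩
  have : ρ g = 1 := hg
  rw [this]
  rfl

end

end Crest.Agent.R193.K
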