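import Mathlib
import Crest.Agent.R193.Defs
import Crest.Agent.R193.K_Act

/-!
Row 193, block K (part 4): from `IsMob` to `Rel`, and from metric statements on `Z` to the chordal
hypotheses of `theoremK`.
-/

set_option autoImplicit false

namespace Crest.Agent.R193.K_Wire

open Crest.HyperbolicSpace Matrix Complex ComplexConjugate OnePoint Crest.Agent.R193.K
open Filter Topology

noncomputable section

lemma cbf (v : Fin 2 → ℂ) : cb false ∘ v = v := rfl

lemma rel_mob (a b c d : ℂ) (h : a * d - b * c ≠ 0) : Rel !![a, b; c, d] false (mob a b c d) := by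
  intro p
  induction p using OnePoint.rec with
  | infty =>
    by_cases hc : c = 0
    · refine ⟨a, ?_, ?_⟩
      · rintro rfl
        apply h
        rw [hc]
        ring
      · have : mob a b c d ∞ = ∞ := by
          change (if c = 0 then OnePoint.infty else ((a / c : ℂ) : OnePoint ℂ)) = _
          rw [if_pos hc]
        rw [this, rep_infty, cbf]
        ext i
        fin_cases i <;> simp [hc]
    · refine ⟨c, hc, ?_⟩
      have : mob a b c d ∞ = ((a / c : ℂ) : OnePoint ℂ) := by
        change (if c = 0 then OnePoint.infty else ((a / c : ℂ) : OnePoint ℂ)) = _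
        rw [if_neg hc]
      rw [this, rep_infty, rep_coe, cbf]
      ext i
      fin_cases i
      · simp
        field_simp
      · simp
  | coe z =>
    by_cases hc : c * z + d = 0
    · refine ⟨a * z + b, ?_, ?_⟩
      · intro h0
        apply h
        by_cases hc0 : c = 0
        · have hd : d = 0 := by rw [hc0] at hc; simpa using hc
          rw [hc0, hd]
          ring
        · have hz : z = -d / c := by
            field_simp
            linear_combination hc
          rw [hz] at h0
          field_simp at h0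
          linear_combination -h0
      · have : mob a b c d (z : OnePoint ℂ) = ∞ := by
          change (if c * z + d = 0 then OnePoint.infty else
            (((a * z + b) / (c * z + d) : ℂ) : OnePoint ℂ)) = _
          rw [if_pos hc]
        rw [this, rep_infty, rep_coe, cbf]
        ext i
        fin_cases i
        · simp
          ring
        · simp
          linear_combination hc
    · refine ⟨c * z + d, hc, ?_⟩
      have : mob a b c d (z : OnePoint ℂ) = (((a * z + b) / (c * z + d) : ℂ) : OnePoint ℂ) := by
        change (if c * z + d = 0 then OnePoint.infty else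
          (((a * z + b) / (c * z + d) : ℂ) : OnePoint ℂ)) = _
        rw [if_neg hc]
      have hc' : z * c + d ≠ 0 := by
        intro h'
        apply hc
        linear_combination h'
      rw [this, rep_coe, rep_coe, cbf]
      ext i
      fin_cases i
      · simp
        rw [mul_comm c z, mul_comm a z]
        field_simp
      · simp
        ring

lemma cb_rep (w : OnePoint ℂ) : cb true ∘ rep w = rep (conjO w) := by
  induction w using OnePoint.rec with
  | infty =>
    change cb true ∘ rep ∞ = rep ∞
    rw [rep_infty]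
    ext i
    fin_cases i <;> simp
  | coe z =>
    change cb true ∘ rep (z : OnePoint ℂ) = rep ((conj z : ℂ) : OnePoint ℂ)
    rw [rep_coe, rep_coe]
    ext i
    fin_cases i <;> simp

lemma rel_of_isMob {f : OnePoint ℂ → OnePoint ℂ} (hf : IsMob f) :
    ∃ (A : Matrix (Fin 2) (Fin 2) ℂ) (ε : Bool), A.det ≠ 0 ∧ Rel A ε f := by
  obtain ⟨a, b, c, d, h, rfl | rfl⟩ := hf
  · refine ⟨!![a, b; c, d], false, ?_, rel_mob a b c d h⟩
    rw [Matrix.det_fin_two]
    simpa using h
  · refine ⟨!![a, b; c, d], true, ?_, ?_⟩
    · rw [Matrix.det_fin_two]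
      simpa using h
    · intro p
      obtain ⟨l, hl, h1⟩ := rel_mob a b c d h (conjO p)
      refine ⟨l, hl, ?_⟩
      rw [cb_rep, ← h1]
      congr 1

/-- `|v₀|²/|v|²` -/
def al (x : OnePoint ℂ) : ℝ := normSq (rep x 0) / nv (rep x)

/-- `v₀ conj v₁/|v|²` -/
def be (x : OnePoint ℂ) : ℂ := rep x 0 * conj (rep x 1) / (nv (rep x) : ℂ)

lemma cs_eq (x y : OnePoint ℂ) :
    cs x y = al x * (1 - al y) + (1 - al x) * al y - 2 * (be x * conj (be y)).re := by
  have hx := nv_rep_pos x
  have hy := nv_rep_pos y
  have e1 : (be x * conj (be y)).re =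
      (rep x 0 * conj (rep x 1) * (conj (rep y 0) * rep y 1)).re / (nv (rep x) * nv (rep y)) := by
    have : be x * conj (be y) =
        (rep x 0 * conj (rep x 1) * (conj (rep y 0) * rep y 1)) /
          ((nv (rep x) * nv (rep y) : ℝ) : ℂ) := by
      unfold be
      rw [map_div₀, Complex.conj_ofReal, map_mul, Complex.conj_conj]
      push_cast
      field_simp
    rw [this, Complex.div_ofReal_re]
  rw [e1]
  unfold al cs cd
  have hnx : nv (rep x) = normSq (rep x 0) + normSq (rep x 1) := rfl
  have hny : nv (rep y) = normSq (rep y 0) + normSq (rep y 1) := rfl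
  have hd : normSq (dv (rep x) (rep y)) = normSq (rep x 0) * normSq (rep y 1) +
      normSq (rep x 1) * normSq (rep y 0) -
      2 * (rep x 0 * conj (rep x 1) * (conj (rep y 0) * rep y 1)).re := by
    unfold dv
    rw [Complex.normSq_sub, Complex.normSq_mul, Complex.normSq_mul, map_mul]
    congr 3
    ring
  rw [hd]
  have a1 : 1 - normSq (rep x 0) / nv (rep x) = normSq (rep x 1) / nv (rep x) := by
    field_simp
    rw [hnx]; ring
  have a2 : 1 - normSq (rep y 0) / nv (rep y) = normSq (rep y 1) / nv (rep y) := by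
    field_simp
    rw [hny]; ring
  rw [a1, a2]
  field_simp

lemma tendsto_norm_cocompact : Tendsto (fun z : ℂ => ‖z‖) (cocompact ℂ) atTop :=
  tendsto_norm_cocompact_atTop

lemma nv_rep_coe (z : ℂ) : nv (rep (z : OnePoint ℂ)) = normSq z + 1 := by
  rw [rep_coe]
  simp [nv]

lemma continuous_al : Continuous al := by
  rw [OnePoint.continuous_iff]
  have hcoe : (al ∘ ((↑) : ℂ → OnePoint ℂ)) = fun z => 1 - 1 / (normSq z + 1) := by
    ext z
    have : 0 < normSq z + 1 := by have := normSq_nonneg z; positivity
    simp only [Function.comp_apply, al, nv_rep_coe]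
    rw [rep_coe, Matrix.cons_val_zero]
    field_simp
    ring
  have hinf : al ∞ = 1 := by
    simp [al, rep_infty, nv]
  constructor
  · rw [hinf]
    have h1 : Tendsto (fun z : ℂ => 1 - 1 / (normSq z + 1)) (cocompact ℂ) (𝓝 (1 - 0)) := by
      apply Tendsto.sub tendsto_const_nhds
      simp only [one_div]
      apply Tendsto.inv_tendsto_atTop
      apply Filter.tendsto_atTop_add_const_right
      have h2 : Tendsto (fun z : ℂ => ‖z‖ ^ 2) (cocompact ℂ) atTop :=
        (tendsto_pow_atTop two_ne_zero).comp tendsto_norm_cocompact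
      refine h2.congr ?_
      intro z
      rw [Complex.normSq_eq_norm_sq]
    rw [sub_zero] at h1
    rw [Filter.coclosedCompact_eq_cocompact]
    refine h1.congr ?_
    intro z
    exact (congrFun hcoe z).symm
  · rw [show (fun x : ℂ => al (x : OnePoint ℂ)) = al ∘ ((↑) : ℂ → OnePoint ℂ) from rfl, hcoe]
    apply Continuous.sub continuous_const
    apply Continuous.div continuous_const
    · exact Complex.continuous_normSq.add continuous_const
    · intro z
      have := normSq_nonneg z
      positivity

lemma continuous_be : Continuous be := by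
  rw [OnePoint.continuous_iff]
  have hcoe : (be ∘ ((↑) : ℂ → OnePoint ℂ)) = fun z => z / ((normSq z + 1 : ℝ) : ℂ) := by
    ext z
    simp only [Function.comp_apply, be, nv_rep_coe]
    rw [rep_coe]
    change z * conj (1 : ℂ) / _ = _
    rw [map_one, mul_one]
  have hinf : be ∞ = 0 := by
    simp [be, rep_infty, nv]
  constructor
  · rw [hinf, Filter.coclosedCompact_eq_cocompact]
    have h1 : Tendsto (fun z : ℂ => ‖z‖⁻¹) (cocompact ℂ) (𝓝 0) :=
      tendsto_inv_atTop_zero.comp tendsto_norm_cocompact
    apply squeeze_zero_norm' _ h1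
    filter_upwards [tendsto_norm_cocompact.eventually_gt_atTop 0] with z hz
    have e : be (z : OnePoint ℂ) = z / ((normSq z + 1 : ℝ) : ℂ) := congrFun hcoe z
    rw [e, norm_div, Complex.norm_real, Complex.normSq_eq_norm_sq, Real.norm_eq_abs,
      abs_of_pos (by positivity), div_le_iff₀ (by positivity)]
    field_simp
    nlinarith
  · rw [show (fun x : ℂ => be (x : OnePoint ℂ)) = be ∘ ((↑) : ℂ → OnePoint ℂ) from rfl, hcoe]
    apply Continuous.div continuous_id
    · exact Complex.continuous_ofReal.comp (Complex.continuous_normSq.add continuous_const)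
    · intro z
      have := normSq_nonneg z
      have : (normSq z + 1 : ℝ) ≠ 0 := by positivity
      exact_mod_cast this

lemma continuous_cs : Continuous fun p : OnePoint ℂ × OnePoint ℂ => cs p.1 p.2 := by
  have : (fun p : OnePoint ℂ × OnePoint ℂ => cs p.1 p.2) = fun p =>
      al p.1 * (1 - al p.2) + (1 - al p.1) * al p.2 - 2 * (be p.1 * conj (be p.2)).re := by
    ext p
    exact cs_eq p.1 p.2
  rw [this]
  have h1 := continuous_al.comp (continuous_fst (X := OnePoint ℂ) (Y := OnePoint ℂ))
  have h2 := continuous_al.comp (continuous_snd (X := OnePoint ℂ) (Y := OnePoint ℂ))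
  have h3 := continuous_be.comp (continuous_fst (X := OnePoint ℂ) (Y := OnePoint ℂ))
  have h4 := continuous_be.comp (continuous_snd (X := OnePoint ℂ) (Y := OnePoint ℂ))
  simp only [Function.comp_def] at h1 h2 h3 h4
  exact ((h1.mul (continuous_const.sub h2)).add ((continuous_const.sub h1).mul h2)).sub
    (continuous_const.mul (Complex.continuous_re.comp (h3.mul (Complex.continuous_conj.comp h4))))

lemma cs_self (x : OnePoint ℂ) : cs x x = 0 := by
  have : dv (rep x) (rep x) = 0 := by unfold dv; ring
  simp [cs, cd, this]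

lemma dv_rep_ne {x y : OnePoint ℂ} (h : x ≠ y) : dv (rep x) (rep y) ≠ 0 := by
  induction x using OnePoint.rec with
  | infty =>
    induction y using OnePoint.rec with
    | infty => exact absurd rfl h
    | coe w => simp [dv, rep_infty, rep_coe]
  | coe z =>
    induction y using OnePoint.rec with
    | infty => simp [dv, rep_infty, rep_coe]
    | coe w =>
      simp only [dv, rep_coe, Matrix.cons_val_zero, Matrix.cons_val_one]
      intro h'
      apply h
      rw [OnePoint.coe_eq_coe]
      linear_combination h'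

lemma cs_pos {x y : OnePoint ℂ} (h : x ≠ y) : 0 < cs x y := by
  unfold cs cd
  have := nv_rep_pos x
  have := nv_rep_pos y
  have := Complex.normSq_pos.mpr (dv_rep_ne h)
  positivity

section
variable {G Z : Type} [Group G] [MetricSpace Z] [MulAction G Z]

/-- contraction, metric form -/
def MContr (G Z : Type) [Group G] [MetricSpace Z] [MulAction G Z] : Prop :=
  ∀ (a b c : Z), a ≠ b → b ≠ c → a ≠ c → ∀ (T : Set G), T.Infinite → ∀ (r : ℝ), 0 < r →
    ∃ g ∈ T, ∃ x y : Z, (x = a ∨ x = b) ∧ (y = b ∨ y = c) ∧ x ≠ y ∧ dist (g • x) (g • y) ≤ r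

/-- cocompactness on triples, metric form -/
def MCoco (G Z : Type) [Group G] [MetricSpace Z] [MulAction G Z] : Prop :=
  ∃ c : ℝ, 0 < c ∧ ∀ x y z : Z, x ≠ y → y ≠ z → x ≠ z →
    ∃ g : G, c ≤ dist (g • x) (g • y) ∧ c ≤ dist (g • y) (g • z) ∧ c ≤ dist (g • x) (g • z)

lemma continuous_csF {Y : Type} [TopologicalSpace Y] (F : Y → OnePoint ℂ) (hF : Continuous F) :
    Continuous fun p : Y × Y => cs (F p.1) (F p.2) := by
  have h1 : Continuous fun p : Y × Y => (F p.1, F p.2) :=
    (hF.comp continuous_fst).prodMk (hF.comp continuous_snd)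
  have h2 := continuous_cs.comp h1
  simpa only [Function.comp_def] using h2

lemma contr_of_metric (F : Z ≃ₜ OnePoint ℂ) (h : MContr G Z) :
    Contr (fun (g : G) (w : OnePoint ℂ) => F (g • F.symm w)) := by
  have : CompactSpace Z := F.symm.compactSpace
  intro T hT C hC
  have h01 : ((0 : ℂ) : OnePoint ℂ) ≠ ((1 : ℂ) : OnePoint ℂ) := by
    rw [Ne, OnePoint.coe_eq_coe]; exact zero_ne_one
  have h0i : ((0 : ℂ) : OnePoint ℂ) ≠ ∞ := OnePoint.coe_ne_infty _
  have h1i : ((1 : ℂ) : OnePoint ℂ) ≠ ∞ := OnePoint.coe_ne_infty _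
  set m := min (cs (0 : ℂ) (1 : ℂ)) (min (cs (0 : ℂ) ∞) (cs (1 : ℂ) ∞)) with hm
  have hm0 : 0 < m := lt_min (cs_pos h01) (lt_min (cs_pos h0i) (cs_pos h1i))
  have hk : Continuous fun p : Z × Z => cs (F p.1) (F p.2) := continuous_csF F F.continuous
  have hu := CompactSpace.uniformContinuous_of_continuous hk
  rw [Metric.uniformContinuous_iff] at hu
  obtain ⟨r, hr, hur⟩ := hu (m / C) (by positivity)
  have hinj := F.symm.injective
  obtain ⟨g, hg, x, y, hx, hy, hxy, hd⟩ := h (F.symm (0 : ℂ)) (F.symm (1 : ℂ)) (F.symm ∞)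
    (fun e => h01 (hinj e)) (fun e => h1i (hinj e)) (fun e => h0i (hinj e)) T hT (r / 2)
    (by positivity)
  refine ⟨g, hg, F x, F y, ?_⟩
  have h1 : m ≤ cs (F x) (F y) := by
    rcases hx with rfl | rfl <;> rcases hy with rfl | rfl
    · simp only [Homeomorph.apply_symm_apply]; exact min_le_left _ _
    · simp only [Homeomorph.apply_symm_apply]
      exact (min_le_right _ _).trans (min_le_left _ _)
    · exact absurd rfl hxy
    · simp only [Homeomorph.apply_symm_apply]
      exact (min_le_right _ _).trans (min_le_right _ _)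
  have h2 : dist ((g • x, g • y) : Z × Z) (g • x, g • x) < r := by
    rw [Prod.dist_eq]
    simp only [dist_self]
    rw [max_eq_right dist_nonneg, dist_comm]
    linarith
  have h3 := hur h2
  simp only [cs_self, dist_zero_right] at h3
  simp only [Homeomorph.symm_apply_apply]
  have h4 : cs (F (g • x)) (F (g • y)) < m / C := (le_abs_self _).trans_lt h3
  rw [lt_div_iff₀ hC] at h4
  linarith

lemma coco_of_metric (F : Z ≃ₜ OnePoint ℂ) (h : MCoco G Z) :
    Coco (fun (g : G) (w : OnePoint ℂ) => F (g • F.symm w)) := by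
  have : CompactSpace Z := F.symm.compactSpace
  obtain ⟨c, hc, H⟩ := h
  have hk : Continuous fun p : Z × Z => cs (F p.1) (F p.2) := continuous_csF F F.continuous
  have hK : IsCompact {p : Z × Z | c ≤ dist p.1 p.2} :=
    (isClosed_le continuous_const continuous_dist).isCompact
  have hex : ∃ c' : ℝ, 0 < c' ∧ ∀ u v : Z, c ≤ dist u v → c' ≤ cs (F u) (F v) := by
    by_cases hne : {p : Z × Z | c ≤ dist p.1 p.2}.Nonempty
    · obtain ⟨p, hp, hmin⟩ := hK.exists_isMinOn hne hk.continuousOn
      refine ⟨cs (F p.1) (F p.2), ?_, ?_⟩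
      · apply cs_pos
        intro e
        have e' := F.injective e
        have : c ≤ dist p.1 p.2 := hp
        rw [e', dist_self] at this
        linarith
      · intro u v huv
        have hmem : (u, v) ∈ {p : Z × Z | c ≤ dist p.1 p.2} := huv
        have := hmin hmem
        simpa only [Set.mem_ofPred_eq] using this
    · refine ⟨1, one_pos, ?_⟩
      intro u v huv
      exact absurd ⟨(u, v), huv⟩ hne
  obtain ⟨c', hc', hcs⟩ := hex
  refine ⟨c', hc', ?_⟩
  intro x y z hxy hyz hxz
  have hinj := F.symm.injective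
  obtain ⟨g, h1, h2, h3⟩ := H (F.symm x) (F.symm y) (F.symm z) (fun e => hxy (hinj e))
    (fun e => hyz (hinj e)) (fun e => hxz (hinj e))
  have k1 := hcs _ _ h1
  have k2 := hcs _ _ h2
  have k3 := hcs _ _ h3
  exact ⟨g, k1, k2, k3⟩

/-- block K, from the metric hypotheses -/
theorem K_of_metric (F : Z ≃ₜ OnePoint ℂ) (hF : ∀ g : G, IsMob (fun w => F (g • F.symm w)))
    (h1 : MContr G Z) (h2 : MCoco G Z) :
    ∃ ρ : G →* isometryGroup3,
      (∀ K : Set UpperHalfSpace3, IsCompact K →
        Set.Finite {g : G | ∃ x ∈ K, (ρ g : Equiv.Perm UpperHalfSpace3) x ∈ K}) ∧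
      (∃ K : Set UpperHalfSpace3, IsCompact K ∧
        ∀ x : UpperHalfSpace3, ∃ g : G, (ρ g : Equiv.Perm UpperHalfSpace3) x ∈ K) ∧
      Finite ρ.ker := by
  apply theoremK (fun (g : G) (w : OnePoint ℂ) => F (g • F.symm w))
  · intro g h x
    simp [mul_smul]
  · intro g
    exact rel_of_isMob (hF g)
  · exact contr_of_metric F h1
  · exact coco_of_metric F h2

end

end

end Crest.Agent.R193.K_Wire
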