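import Mathlib
import Crest.Prelude.Def_HyperbolicThreeSpace
import Crest.Agent.R193.Defs
import Crest.Agent.R193.K_Wire
import Crest.Agent.R193.K_Triples

/-!
Row 193, block K: the main statement.
-/

set_option autoImplicit false

noncomputable section

open Set Filter Topology MeasureTheory
open Crest.HyperbolicSpace

namespace Crest.Agent.R193.K_Main

open Crest.Agent.R193

/-- BLOCK K: from a Moebius action to the conclusion. -/
theorem K_main {G Z : Type} [Group G] [MetricSpace Z] [MulAction G Z] (S : Setup G Z)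
    (F : Z ≃ₜ OnePoint ℂ) (hF : ∀ g : G, IsMob (fun w => F (g • F.symm w))) :
    ∃ ρ : G →* isometryGroup3,
      (∀ K : Set UpperHalfSpace3, IsCompact K →
        Set.Finite {g : G | ∃ x ∈ K, (ρ g : Equiv.Perm UpperHalfSpace3) x ∈ K}) ∧
      (∃ K : Set UpperHalfSpace3, IsCompact K ∧
        ∀ x : UpperHalfSpace3, ∃ g : G, (ρ g : Equiv.Perm UpperHalfSpace3) x ∈ K) ∧
      Finite ρ.ker := by
  apply K_Wire.K_of_metric F hF
  · intro a b c hab hbc hac T hT r hr
    exact K_Triples.KT1 S a b c hab hbc hac T hT r hr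
  · exact K_Triples.KT2 S

end Crest.Agent.R193.K_Main
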