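import Mathlib
import Crest.Agent.R193.Planar1
import Crest.Agent.R193.Planar2

/-!
# R193 planar toolkit 3 (helper983): level chains reach the boundary (P4), gluing four crossings (P5)
-/

set_option autoImplicit false

open Set Filter Topology Metric

namespace Crest.Agent.R193.Planar

section Level

variable {X : Type*} [TopologicalSpace X] {ι : Type*}

/-- tiles of `V` touching a tile of `V` of the other colour -/
def Lam (V : Finset ι) (U : ι → Set X) (P : ι → Prop) : Set ι :=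
  {h | h ∈ V ∧ ∃ h' ∈ V, (P h ↔ ¬ P h') ∧ (U h ∩ U h').Nonempty}

/-- **P4, closed-union version.** `X` unicoherent (`Splits`), `T` a closed connected set, `U h`
(`h ∈ V`) finitely many closed sets which together with `T` cover `X`, `P` a 2-colouring such that
`T` together with the tiles of either colour is connected. Then a nonempty set `c` of bichromatic
tiles which is closed under adjacency inside `Lam` contains a tile meeting `T`. -/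
theorem Splits.level_meets (hX : Splits X) {V : Finset ι} {U : ι → Set X}
    (hU : ∀ h ∈ V, IsClosed (U h)) {T : Set X} (hT : IsClosed T) (hTne : T.Nonempty)
    (hcov : T ∪ (⋃ h ∈ V, U h) = univ) (P : ι → Prop)
    (hP : IsPreconnected (T ∪ ⋃ h ∈ {h | h ∈ V ∧ P h}, U h))
    (hN : IsPreconnected (T ∪ ⋃ h ∈ {h | h ∈ V ∧ ¬ P h}, U h))
    {c : Set ι} (hc : c ⊆ Lam V U P) (hcne : c.Nonempty)
    (hadj : ∀ h ∈ c, ∀ h' ∈ Lam V U P, (U h ∩ U h').Nonempty → h' ∈ c) :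
    ∃ h ∈ c, (U h ∩ T).Nonempty := by
  classical
  by_contra hcon
  push Not at hcon
  have hcl : ∀ s : Set ι, s ⊆ V → IsClosed (⋃ h ∈ s, U h) := by
    intro s hs
    have hfin : s.Finite := V.finite_toSet.subset hs
    exact hfin.isClosed_biUnion fun h hh => hU h (hs hh)
  have hA : IsClosed (T ∪ ⋃ h ∈ {h | h ∈ V ∧ P h}, U h) := hT.union (hcl _ fun h hh => hh.1)
  have hB : IsClosed (T ∪ ⋃ h ∈ {h | h ∈ V ∧ ¬ P h}, U h) := hT.union (hcl _ fun h hh => hh.1)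
  have hAB : (T ∪ ⋃ h ∈ {h | h ∈ V ∧ P h}, U h) ∪ (T ∪ ⋃ h ∈ {h | h ∈ V ∧ ¬ P h}, U h) = univ := by
    rw [eq_univ_iff_forall]
    intro x
    have hx : x ∈ T ∪ (⋃ h ∈ V, U h) := by rw [hcov]; trivial
    rcases hx with hx | hx
    · exact Or.inl (Or.inl hx)
    · simp only [mem_iUnion, exists_prop] at hx
      obtain ⟨h, hh, hxh⟩ := hx
      by_cases hPh : P h
      · left; right
        simp only [mem_iUnion, exists_prop]
        exact ⟨h, ⟨hh, hPh⟩, hxh⟩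
      · right; right
        simp only [mem_iUnion, exists_prop]
        exact ⟨h, ⟨hh, hPh⟩, hxh⟩
  have hI := hX.inter_isPreconnected hA hB hP hN hAB
  have hLV : Lam V U P ⊆ V := fun h hh => hh.1
  have hc1 : IsClosed (⋃ h ∈ c, U h) := hcl c (hc.trans hLV)
  have hc2 : IsClosed (T ∪ ⋃ h ∈ Lam V U P \ c, U h) :=
    hT.union (hcl _ (sdiff_subset.trans hLV))
  rw [isPreconnected_closed_iff] at hI
  have g1 : (T ∪ ⋃ h ∈ {h | h ∈ V ∧ P h}, U h) ∩ (T ∪ ⋃ h ∈ {h | h ∈ V ∧ ¬ P h}, U h) ⊆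
      (⋃ h ∈ c, U h) ∪ (T ∪ ⋃ h ∈ Lam V U P \ c, U h) := by
    rintro z ⟨hzA, hzB⟩
    by_cases hzT : z ∈ T
    · exact Or.inr (Or.inl hzT)
    have hzA' := hzA.resolve_left hzT
    have hzB' := hzB.resolve_left hzT
    simp only [mem_iUnion, exists_prop] at hzA' hzB'
    obtain ⟨h1, ⟨h1V, h1P⟩, h1z⟩ := hzA'
    obtain ⟨h2, ⟨h2V, h2P⟩, h2z⟩ := hzB'
    have hL : h1 ∈ Lam V U P := ⟨h1V, h2, h2V, by simp only [h1P, h2P, not_false_eq_true],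
      ⟨z, h1z, h2z⟩⟩
    by_cases h1c : h1 ∈ c
    · left
      simp only [mem_iUnion, exists_prop]
      exact ⟨h1, h1c, h1z⟩
    · right; right
      simp only [mem_iUnion, exists_prop]
      exact ⟨h1, ⟨hL, h1c⟩, h1z⟩
  have g2 : (((T ∪ ⋃ h ∈ {h | h ∈ V ∧ P h}, U h) ∩ (T ∪ ⋃ h ∈ {h | h ∈ V ∧ ¬ P h}, U h)) ∩
      (⋃ h ∈ c, U h)).Nonempty := by
    obtain ⟨h, hh⟩ := hcne
    obtain ⟨hV, h', hV', hPP, z, hz1, hz2⟩ := hc hh
    refine ⟨z, ⟨?_, ?_⟩, ?_⟩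
    · right
      simp only [mem_iUnion, exists_prop]
      by_cases hPh : P h
      · exact ⟨h, ⟨hV, hPh⟩, hz1⟩
      · exact ⟨h', ⟨hV', by tauto⟩, hz2⟩
    · right
      simp only [mem_iUnion, exists_prop]
      by_cases hPh : P h
      · exact ⟨h', ⟨hV', by tauto⟩, hz2⟩
      · exact ⟨h, ⟨hV, hPh⟩, hz1⟩
    · simp only [mem_iUnion, exists_prop]
      exact ⟨h, hh, hz1⟩
  have g3 : (((T ∪ ⋃ h ∈ {h | h ∈ V ∧ P h}, U h) ∩ (T ∪ ⋃ h ∈ {h | h ∈ V ∧ ¬ P h}, U h)) ∩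
      (T ∪ ⋃ h ∈ Lam V U P \ c, U h)).Nonempty := by
    obtain ⟨z, hz⟩ := hTne
    exact ⟨z, ⟨Or.inl hz, Or.inl hz⟩, Or.inl hz⟩
  obtain ⟨z, hz, hz1, hz2⟩ := hI _ _ hc1 hc2 g1 g2 g3
  simp only [mem_iUnion, exists_prop] at hz1
  obtain ⟨h, hh, hzh⟩ := hz1
  rcases hz2 with hzT | hz2
  · have h3 : z ∈ U h ∩ T := ⟨hzh, hzT⟩
    rw [hcon h hh] at h3
    exact h3
  · simp only [mem_iUnion, exists_prop] at hz2
    obtain ⟨h', hh', hzh'⟩ := hz2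
    exact hh'.2 (hadj h hh h' hh'.1 ⟨z, hzh, hzh'⟩)

/-- **P4, path version.** Every bichromatic tile is joined, inside the set of bichromatic tiles, to
one meeting `T`. -/
theorem Splits.level_reaches (hX : Splits X) {V : Finset ι} {U : ι → Set X}
    (hU : ∀ h ∈ V, IsClosed (U h)) {T : Set X} (hT : IsClosed T) (hTne : T.Nonempty)
    (hcov : T ∪ (⋃ h ∈ V, U h) = univ) (P : ι → Prop)
    (hP : IsPreconnected (T ∪ ⋃ h ∈ {h | h ∈ V ∧ P h}, U h))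
    (hN : IsPreconnected (T ∪ ⋃ h ∈ {h | h ∈ V ∧ ¬ P h}, U h))
    {h : ι} (hh : h ∈ Lam V U P) :
    ∃ h', Relation.ReflTransGen
        (fun a b => a ∈ Lam V U P ∧ b ∈ Lam V U P ∧ (U a ∩ U b).Nonempty) h h' ∧
      h' ∈ Lam V U P ∧ (U h' ∩ T).Nonempty := by
  set R := fun a b => a ∈ Lam V U P ∧ b ∈ Lam V U P ∧ (U a ∩ U b).Nonempty with hR
  obtain ⟨h', ⟨h1, h2⟩, h3⟩ := hX.level_meets hU hT hTne hcov P hP hN
    (c := {h' | h' ∈ Lam V U P ∧ Relation.ReflTransGen R h h'}) (fun a ha => ha.1)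
    ⟨h, hh, Relation.ReflTransGen.refl⟩ (fun a ha b hb hab =>
      ⟨hb, ha.2.tail ⟨ha.1, hb, hab⟩⟩)
  exact ⟨h', h2, h1, h3⟩

end Level

/-! ### gluing four crossings around a square -/

/-- The basic step: a path from the inner square that leaves the box through the top side meets a
left-right crossing lying above the inner square. -/
theorem top_cross {r1 r2 : ℝ} (h1 : 0 ≤ r1) (h12 : r1 ≤ r2) {H : Set (ℝ × ℝ)} (hH : IsCompact H)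
    (hHc : IsPreconnected H) (hHy : ∀ p ∈ H, r1 < p.2 ∧ p.2 ≤ r2)
    (hH1 : ∃ p ∈ H, p.1 ≤ -r2) (hH2 : ∃ p ∈ H, r2 ≤ p.1)
    {C : Set (ℝ × ℝ)} (hC : IsCompact C) (hCc : IsPreconnected C)
    (hCx : ∀ p ∈ C, p.1 ∈ Icc (-r2) r2)
    (hC1 : ∃ p ∈ C, p ∈ Icc (-r1) r1 ×ˢ Icc (-r1) r1) (hC2 : ∃ p ∈ C, r2 ≤ p.2) :
    (C ∩ H).Nonempty := by
  obtain ⟨p, hpC, hpD⟩ := hC1
  obtain ⟨q, hqC, hq2⟩ := hC2
  set D : Set (ℝ × ℝ) := Icc (-r1) r1 ×ˢ Icc (-r1) r1 with hD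
  set S : Set (ℝ × ℝ) := {0} ×ˢ Icc (-r2) 0 with hS
  have h0D : (0, 0) ∈ D := ⟨⟨by simpa using h1, by simpa using h1⟩,
    ⟨by simpa using h1, by simpa using h1⟩⟩
  have h0S : ((0 : ℝ), (0 : ℝ)) ∈ S := ⟨rfl, by show -r2 ≤ 0; linarith, le_rfl⟩
  set V := C ∪ D ∪ S with hV
  have hVc : IsPreconnected V :=
    (hCc.union p hpC hpD (isPreconnected_Icc.prod isPreconnected_Icc)).union (0, 0) (Or.inr h0D) h0S
      (isPreconnected_singleton.prod isPreconnected_Icc)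
  have hVcpt : IsCompact V := (hC.union (isCompact_Icc.prod isCompact_Icc)).union
    (isCompact_singleton.prod isCompact_Icc)
  obtain ⟨z, hzH, hzV⟩ := continua_cross (a := -r2) (b := r2) (c := -r2) (d := r2) hH hVcpt hHc hVc
    (fun p hp => ⟨by linarith [(hHy p hp).1], (hHy p hp).2⟩)
    (by
      rintro p ((hp | hp) | hp)
      · exact hCx p hp
      · exact ⟨by linarith [hp.1.1], by linarith [hp.1.2]⟩
      · have : p.1 = 0 := hp.1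
        rw [this]
        exact ⟨by linarith, by linarith⟩)
    hH1 hH2
    ⟨(0, -r2), Or.inr ⟨rfl, le_rfl, by show -r2 ≤ 0; linarith⟩, le_rfl⟩
    ⟨q, Or.inl (Or.inl hqC), hq2⟩
  rcases hzV with (hz | hz) | hz
  · exact ⟨z, hz, hzH⟩
  · exact absurd hz.2.2 (not_le.2 (hHy z hzH).1)
  · have h3 : z.2 ≤ 0 := hz.2.2
    exact absurd (hHy z hzH).1 (not_lt.2 (h3.trans h1))

/-- a compact connected subset of the closed box `[-r2,r2]²` from the inner square to the boundary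
of the box meets the union of the four crossings -/
theorem four_cross_box {r1 r2 : ℝ} (h1 : 0 ≤ r1) (h12 : r1 ≤ r2) {Ht Hb Vl Vr : Set (ℝ × ℝ)}
    (hHt : IsCompact Ht) (hHb : IsCompact Hb) (hVl : IsCompact Vl) (hVr : IsCompact Vr)
    (cHt : IsPreconnected Ht) (cHb : IsPreconnected Hb) (cVl : IsPreconnected Vl)
    (cVr : IsPreconnected Vr)
    (sHt : ∀ p ∈ Ht, r1 < p.2 ∧ p.2 ≤ r2) (sHb : ∀ p ∈ Hb, -r2 ≤ p.2 ∧ p.2 < -r1)
    (sVl : ∀ p ∈ Vl, -r2 ≤ p.1 ∧ p.1 < -r1) (sVr : ∀ p ∈ Vr, r1 < p.1 ∧ p.1 ≤ r2)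
    (eHt1 : ∃ p ∈ Ht, p.1 ≤ -r2) (eHt2 : ∃ p ∈ Ht, r2 ≤ p.1)
    (eHb1 : ∃ p ∈ Hb, p.1 ≤ -r2) (eHb2 : ∃ p ∈ Hb, r2 ≤ p.1)
    (eVl1 : ∃ p ∈ Vl, p.2 ≤ -r2) (eVl2 : ∃ p ∈ Vl, r2 ≤ p.2)
    (eVr1 : ∃ p ∈ Vr, p.2 ≤ -r2) (eVr2 : ∃ p ∈ Vr, r2 ≤ p.2)
    {C : Set (ℝ × ℝ)} (hC : IsCompact C) (hCc : IsPreconnected C)
    (hCb : C ⊆ Icc (-r2) r2 ×ˢ Icc (-r2) r2)
    (hC1 : ∃ p ∈ C, p ∈ Icc (-r1) r1 ×ˢ Icc (-r1) r1)
    (hC2 : ∃ p ∈ C, p ∉ Ioo (-r2) r2 ×ˢ Ioo (-r2) r2) :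
    (C ∩ (Ht ∪ Hb ∪ Vl ∪ Vr)).Nonempty := by
  obtain ⟨q, hqC, hq⟩ := hC2
  obtain ⟨p, hpC, hpD⟩ := hC1
  have hqb := hCb hqC
  have hcase : r2 ≤ q.2 ∨ q.2 ≤ -r2 ∨ r2 ≤ q.1 ∨ q.1 ≤ -r2 := by
    by_contra hcon
    push Not at hcon
    exact hq ⟨⟨hcon.2.2.2, hcon.2.2.1⟩, ⟨hcon.2.1, hcon.1⟩⟩
  -- symmetries
  set f : ℝ × ℝ → ℝ × ℝ := fun z => (z.1, -z.2) with hf
  set g : ℝ × ℝ → ℝ × ℝ := fun z => (z.2, z.1) with hg
  set k : ℝ × ℝ → ℝ × ℝ := fun z => (z.2, -z.1) with hk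
  have cf : Continuous f := by fun_prop
  have cg : Continuous g := by fun_prop
  have ck : Continuous k := by fun_prop
  have ff : ∀ a b : ℝ × ℝ, f a = f b → a = b := by
    intro a b hab
    have e1 : (f a).1 = (f b).1 := by rw [hab]
    have e2 : (f a).2 = (f b).2 := by rw [hab]
    exact Prod.ext e1 (neg_injective e2)
  have gg : ∀ a b : ℝ × ℝ, g a = g b → a = b := by
    intro a b hab
    have e1 : (g a).1 = (g b).1 := by rw [hab]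
    have e2 : (g a).2 = (g b).2 := by rw [hab]
    exact Prod.ext e2 e1
  have kk : ∀ a b : ℝ × ℝ, k a = k b → a = b := by
    intro a b hab
    have e1 : (k a).1 = (k b).1 := by rw [hab]
    have e2 : (k a).2 = (k b).2 := by rw [hab]
    exact Prod.ext (neg_injective e2) e1
  rcases hcase with h | h | h | h
  · obtain ⟨z, hz1, hz2⟩ := top_cross h1 h12 hHt cHt sHt eHt1 eHt2 hC hCc (fun p hp => (hCb hp).1)
      ⟨p, hpC, hpD⟩ ⟨q, hqC, h⟩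
    exact ⟨z, hz1, Or.inl (Or.inl (Or.inl hz2))⟩
  · obtain ⟨z, ⟨z1, hz1, hz1e⟩, ⟨z2, hz2, hz2e⟩⟩ := top_cross h1 h12 (hHb.image cf)
      (cHb.image f cf.continuousOn)
      (by
        rintro _ ⟨p, hp, rfl⟩
        have := sHb p hp
        simp only [hf]
        constructor <;> linarith)
      (by obtain ⟨p, hp, hp'⟩ := eHb1; exact ⟨f p, ⟨p, hp, rfl⟩, hp'⟩)
      (by obtain ⟨p, hp, hp'⟩ := eHb2; exact ⟨f p, ⟨p, hp, rfl⟩, hp'⟩)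
      (hC.image cf) (hCc.image f cf.continuousOn)
      (by rintro _ ⟨p, hp, rfl⟩; exact (hCb hp).1)
      ⟨f p, ⟨p, hpC, rfl⟩, hpD.1, by
        have := hpD.2
        simp only [hf]
        exact ⟨by linarith [this.2], by linarith [this.1]⟩⟩
      ⟨f q, ⟨q, hqC, rfl⟩, by simp only [hf]; linarith⟩
    have : z1 = z2 := ff _ _ (hz1e.trans hz2e.symm)
    exact ⟨z1, hz1, Or.inl (Or.inl (Or.inr (this ▸ hz2)))⟩
  · obtain ⟨z, ⟨z1, hz1, hz1e⟩, ⟨z2, hz2, hz2e⟩⟩ := top_cross h1 h12 (hVr.image cg)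
      (cVr.image g cg.continuousOn)
      (by
        rintro _ ⟨p, hp, rfl⟩
        exact sVr p hp)
      (by obtain ⟨p, hp, hp'⟩ := eVr1; exact ⟨g p, ⟨p, hp, rfl⟩, hp'⟩)
      (by obtain ⟨p, hp, hp'⟩ := eVr2; exact ⟨g p, ⟨p, hp, rfl⟩, hp'⟩)
      (hC.image cg) (hCc.image g cg.continuousOn)
      (by rintro _ ⟨p, hp, rfl⟩; exact (hCb hp).2)
      ⟨g p, ⟨p, hpC, rfl⟩, hpD.2, hpD.1⟩
      ⟨g q, ⟨q, hqC, rfl⟩, h⟩
    have : z1 = z2 := gg _ _ (hz1e.trans hz2e.symm)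
    exact ⟨z1, hz1, Or.inr (this ▸ hz2)⟩
  · obtain ⟨z, ⟨z1, hz1, hz1e⟩, ⟨z2, hz2, hz2e⟩⟩ := top_cross h1 h12 (hVl.image ck)
      (cVl.image k ck.continuousOn)
      (by
        rintro _ ⟨p, hp, rfl⟩
        have := sVl p hp
        simp only [hk]
        constructor <;> linarith)
      (by obtain ⟨p, hp, hp'⟩ := eVl1; exact ⟨k p, ⟨p, hp, rfl⟩, hp'⟩)
      (by obtain ⟨p, hp, hp'⟩ := eVl2; exact ⟨k p, ⟨p, hp, rfl⟩, hp'⟩)
      (hC.image ck) (hCc.image k ck.continuousOn)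
      (by rintro _ ⟨p, hp, rfl⟩; exact (hCb hp).2)
      ⟨k p, ⟨p, hpC, rfl⟩, hpD.2, by
        have := hpD.1
        simp only [hk]
        exact ⟨by linarith [this.2], by linarith [this.1]⟩⟩
      ⟨k q, ⟨q, hqC, rfl⟩, by simp only [hk]; linarith⟩
    have : z1 = z2 := kk _ _ (hz1e.trans hz2e.symm)
    exact ⟨z1, hz1, Or.inl (Or.inr (this ▸ hz2))⟩

/-- **P5, gluing.** Any preconnected set from the inner square `[-r1,r1]²` to the outside of the open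
box `(-r2,r2)²` meets the union of the four crossings. -/
theorem four_cross {r1 r2 : ℝ} (h1 : 0 ≤ r1) (h12 : r1 < r2) {Ht Hb Vl Vr : Set (ℝ × ℝ)}
    (hHt : IsCompact Ht) (hHb : IsCompact Hb) (hVl : IsCompact Vl) (hVr : IsCompact Vr)
    (cHt : IsPreconnected Ht) (cHb : IsPreconnected Hb) (cVl : IsPreconnected Vl)
    (cVr : IsPreconnected Vr)
    (sHt : ∀ p ∈ Ht, r1 < p.2 ∧ p.2 ≤ r2) (sHb : ∀ p ∈ Hb, -r2 ≤ p.2 ∧ p.2 < -r1)
    (sVl : ∀ p ∈ Vl, -r2 ≤ p.1 ∧ p.1 < -r1) (sVr : ∀ p ∈ Vr, r1 < p.1 ∧ p.1 ≤ r2)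
    (eHt1 : ∃ p ∈ Ht, p.1 ≤ -r2) (eHt2 : ∃ p ∈ Ht, r2 ≤ p.1)
    (eHb1 : ∃ p ∈ Hb, p.1 ≤ -r2) (eHb2 : ∃ p ∈ Hb, r2 ≤ p.1)
    (eVl1 : ∃ p ∈ Vl, p.2 ≤ -r2) (eVl2 : ∃ p ∈ Vl, r2 ≤ p.2)
    (eVr1 : ∃ p ∈ Vr, p.2 ≤ -r2) (eVr2 : ∃ p ∈ Vr, r2 ≤ p.2)
    {S : Set (ℝ × ℝ)} (hS : IsPreconnected S)
    (hS1 : ∃ p ∈ S, p ∈ Icc (-r1) r1 ×ˢ Icc (-r1) r1)
    (hS2 : ∃ p ∈ S, p ∉ Ioo (-r2) r2 ×ˢ Ioo (-r2) r2) :
    (S ∩ (Ht ∪ Hb ∪ Vl ∪ Vr)).Nonempty := by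
  by_contra hcon
  obtain ⟨p, hpS, hpD⟩ := hS1
  obtain ⟨q, hqS, hqB⟩ := hS2
  set F := Ht ∪ Hb ∪ Vl ∪ Vr with hF
  have hFcl : IsClosed F := (((hHt.union hHb).union hVl).union hVr).isClosed
  have hSF : S ⊆ Fᶜ := fun z hz hzF => hcon ⟨z, hz, hzF⟩
  set W := connectedComponentIn Fᶜ p with hW
  have hWo : IsOpen W := hFcl.isOpen_compl.connectedComponentIn
  have hSW : S ⊆ W := hS.subset_connectedComponentIn hpS hSF
  have hWF : W ⊆ Fᶜ := connectedComponentIn_subset _ _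
  obtain ⟨γ, hγ, hγ0, hγ1, hγW⟩ := exists_path_Icc hWo isPreconnected_connectedComponentIn
    (hSW hpS) (hSW hqS)
  set B := Ioo (-r2) r2 ×ˢ Ioo (-r2) r2 with hB
  have hBo : IsOpen B := isOpen_Ioo.prod isOpen_Ioo
  -- first exit time
  have hKcl : IsClosed (Icc (-1 : ℝ) 1 ∩ γ ⁻¹' Bᶜ) :=
    hγ.preimage_isClosed_of_isClosed isClosed_Icc hBo.isClosed_compl
  have hKne : (Icc (-1 : ℝ) 1 ∩ γ ⁻¹' Bᶜ).Nonempty := ⟨1, ⟨by norm_num, le_rfl⟩, by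
    show γ 1 ∉ B
    rw [hγ1]; exact hqB⟩
  obtain ⟨t0, ht0, hmin⟩ := (isCompact_Icc.of_isClosed_subset hKcl inter_subset_left).exists_isLeast
    hKne
  have hlt : ∀ t ∈ Ico (-1 : ℝ) t0, γ t ∈ B := by
    intro t ht
    by_contra h
    have := hmin ⟨⟨ht.1, ht.2.le.trans ht0.1.2⟩, h⟩
    linarith [ht.2]
  have hsub : Icc (-1 : ℝ) t0 ⊆ Icc (-1) 1 := Icc_subset_Icc_right ht0.1.2
  have hcont : ContinuousOn γ (Icc (-1) t0) := hγ.mono hsub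
  have hr : -r2 < r2 := by linarith
  have hBcl : closure B = Icc (-r2) r2 ×ˢ Icc (-r2) r2 := by
    rw [hB, closure_prod_eq, closure_Ioo hr.ne]
  have hpB : p ∈ B := ⟨⟨by linarith [hpD.1.1], by linarith [hpD.1.2]⟩,
    ⟨by linarith [hpD.2.1], by linarith [hpD.2.2]⟩⟩
  have h4 : -1 < t0 := by
    rcases eq_or_lt_of_le ht0.1.1 with h5 | h5
    · exfalso
      have h6 : γ t0 ∉ B := ht0.2
      rw [← h5, hγ0] at h6
      exact h6 hpB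
    · exact h5
  have hCb : γ '' Icc (-1) t0 ⊆ Icc (-r2) r2 ×ˢ Icc (-r2) r2 := by
    rw [← hBcl, ← closure_Ico h4.ne]
    rintro _ ⟨t, ht, rfl⟩
    have h5 : ContinuousWithinAt γ (Ico (-1) t0) t :=
      (hcont.mono (by rw [closure_Ico h4.ne])) t ht |>.mono subset_closure
    exact closure_mono (by rintro _ ⟨s, hs, rfl⟩; exact hlt s hs) (h5.mem_closure_image ht)
  obtain ⟨z, ⟨t, ht, rfl⟩, hz⟩ := four_cross_box h1 h12.le hHt hHb hVl hVr cHt cHb cVl cVr sHt sHb sVl sVr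
    eHt1 eHt2 eHb1 eHb2 eVl1 eVl2 eVr1 eVr2
    (isCompact_Icc.image_of_continuousOn hcont) (isPreconnected_Icc.image γ hcont) hCb
    ⟨p, ⟨-1, ⟨le_rfl, ht0.1.1⟩, hγ0⟩, hpD⟩ ⟨γ t0, ⟨t0, ⟨ht0.1.1, le_rfl⟩, rfl⟩, ht0.2⟩
  exact hWF (hγW t (hsub ht)) hz

end Crest.Agent.R193.Planar
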