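import Mathlib
import Crest.Agent.R193.Defs
import Crest.Agent.R193.CH_Chart
import Crest.Agent.R193.Planar3
import Crest.Agent.R193.Planar4

/-!
# R193 M1 (helper260): gluing four crossings, record levels
-/

set_option autoImplicit false

open Set Filter Topology Metric

namespace Crest.Agent.R193.M1x

open Crest.Agent.R193 Crest.Agent.R193.CHx

/-! ### lifting connected sets to the chart -/

section Lift

variable {Z : Type} [MetricSpace Z] [LocallyConnectedSpace Z]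

/-- A preconnected set in the complement of a closed set `K` meeting the inner square and the
complement of the open outer square of a chart yields a preconnected set in the plane. -/
theorem exists_lift (ψ : Chart Z) {r1 r2 : ℝ} (h12 : r1 < r2) {K c : Set Z} (hK : IsClosed K)
    (hc : IsPreconnected c) (hcK : ¬ (c ∩ K).Nonempty) (hcD : (c ∩ ψ.D r1).Nonempty)
    (hcE : (c ∩ ψ.E r2).Nonempty) :
    ∃ s : Set (ℝ × ℝ), IsPreconnected s ∧ (∃ p ∈ s, p ∈ closedBall (0 : ℝ × ℝ) r1) ∧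
      (∃ p ∈ s, p ∉ ball (0 : ℝ × ℝ) r2) ∧ ∀ p ∈ s, ψ.f p ∉ K := by
  obtain ⟨x, hxc, hxD⟩ := hcD
  obtain ⟨y, hyc, hyE⟩ := hcE
  obtain ⟨p, hp, rfl⟩ := hxD
  have hcK' : c ⊆ Kᶜ := fun z hz hzK => hcK ⟨z, hz, hzK⟩
  set W := connectedComponentIn Kᶜ (ψ.f p) with hW
  have hWo : IsOpen W := hK.isOpen_compl.connectedComponentIn
  have hcW : c ⊆ W := hc.subset_connectedComponentIn hxc hcK'
  have hWK : W ⊆ Kᶜ := connectedComponentIn_subset _ _
  have hWc : IsPreconnected W := isPreconnected_connectedComponentIn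
  set B : Set Z := ψ.f '' ball (0 : ℝ × ℝ) r2 with hB
  have hBo : IsOpen B := ψ.emb.isOpenMap _ isOpen_ball
  have hpB : ψ.f p ∈ B := ⟨p, closedBall_subset_ball h12 hp, rfl⟩
  have hpWB : ψ.f p ∈ W ∩ B := ⟨hcW hxc, hpB⟩
  set C := connectedComponentIn (W ∩ B) (ψ.f p) with hC
  have hCo : IsOpen C := (hWo.inter hBo).connectedComponentIn
  have hCsub : C ⊆ W ∩ B := connectedComponentIn_subset _ _
  have hpC : ψ.f p ∈ C := mem_connectedComponentIn hpWB
  have hyW : y ∈ W := hcW hyc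
  have hyB : y ∉ B := hyE
  -- the closure of the component leaves `B`
  have hex : ∃ z ∈ W, z ∈ closure C ∧ z ∉ B := by
    by_contra hcon
    push Not at hcon
    have hcl : ∀ z ∈ W, z ∈ closure C → z ∈ C := by
      intro z hzW hzC
      have hzB : z ∈ B := hcon z hzW hzC
      have h1 : connectedComponentIn (W ∩ B) z ∈ 𝓝 z :=
        ((hWo.inter hBo).connectedComponentIn).mem_nhds (mem_connectedComponentIn ⟨hzW, hzB⟩)
      rw [mem_closure_iff_nhds] at hzC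
      obtain ⟨w, hw1, hw2⟩ := hzC _ h1
      have h2 := connectedComponentIn_eq hw1
      have h3 := connectedComponentIn_eq hw2
      rw [hC, h3, ← h2]
      exact mem_connectedComponentIn ⟨hzW, hzB⟩
    have h4 : W ⊆ C := by
      have hcl2 : IsClosed (closure C) := isClosed_closure
      refine (hWc.subset_left_of_subset_union hCo hcl2.isOpen_compl ?_ ?_ ⟨ψ.f p, hcW hxc, hpC⟩)
      · exact disjoint_compl_right.mono_left subset_closure
      · intro z hz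
        by_cases h : z ∈ closure C
        · exact Or.inl (hcl z hz h)
        · exact Or.inr h
    exact hyB (hCsub (h4 hyW)).2
  obtain ⟨z, hzW, hzC, hzB⟩ := hex
  have hBcl : closure B ⊆ ψ.f '' closedBall (0 : ℝ × ℝ) r2 := by
    refine closure_minimal (image_mono ball_subset_closedBall) ?_
    exact ((isCompact_closedBall (0 : ℝ × ℝ) r2).image ψ.emb.continuous).isClosed
  have hCz : IsPreconnected (insert z C) :=
    isPreconnected_connectedComponentIn.subset_closure (subset_insert _ _)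
      (insert_subset hzC subset_closure)
  have hrange : insert z C ⊆ range ψ.f := by
    rintro w (rfl | hw)
    · obtain ⟨q, _, hq⟩ := hBcl (closure_mono (hCsub.trans inter_subset_right) hzC)
      exact ⟨q, hq⟩
    · obtain ⟨q, _, hq⟩ := (hCsub hw).2
      exact ⟨q, hq⟩
  refine ⟨ψ.f ⁻¹' (insert z C), hCz.preimage_of_isOpenMap ψ.emb.injective ψ.emb.isOpenMap hrange,
    ⟨p, Or.inr hpC, hp⟩, ?_, ?_⟩
  · obtain ⟨q, hq⟩ := hrange (mem_insert z C)
    refine ⟨q, ?_, fun h => hzB ⟨q, h, hq⟩⟩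
    show ψ.f q ∈ insert z C
    rw [hq]; exact mem_insert _ _
  · intro q hq
    rcases hq with hq | hq
    · rw [hq]; exact hWK hzW
    · exact hWK (hCsub hq).1

end Lift

section Main

variable {G Z : Type} [Group G] [MetricSpace Z] [MulAction G Z]

lemma mem_sph {S : Setup G Z} {n : ℕ} {h : G} : h ∈ S.sph n ↔ S.len h = n := by
  simp [Setup.sph]

/-- tiles are uniformly small -/
theorem tile_small {S : Setup G Z} (T : Tiles S) {η : ℝ} (hη : 0 < η) :
    ∃ N : ℕ, ∀ n ≥ N, ∀ h ∈ S.sph n, ∀ x ∈ T.U h, ∀ y ∈ T.U h, dist x y < η := by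
  have hε := S.ε_pos
  obtain ⟨N, hN⟩ := exists_nat_gt (T.R + S.δ - Real.log η / S.ε)
  refine ⟨N, fun n hn h hh x hx y hy => ?_⟩
  have hlen : S.len h = n := mem_sph.mp hh
  have h1 : (S.len h : ℝ) - T.R ≤ S.s x h := T.sub h hx
  have h2 : (S.len h : ℝ) - T.R ≤ S.s y h := T.sub h hy
  have h3 := S.dist_le x y h
  have h4 : (S.len h : ℝ) - T.R ≤ min (S.s x h) (S.s y h) := le_min h1 h2
  have h5 : (N : ℝ) ≤ n := by exact_mod_cast hn
  have h6 : Real.exp (-S.ε * (min (S.s x h) (S.s y h) - S.δ)) < η := by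
    rw [← Real.lt_log_iff_exp_lt hη]
    have h7 : -Real.log η / S.ε < min (S.s x h) (S.s y h) - S.δ := by
      have : -Real.log η / S.ε = -(Real.log η / S.ε) := by ring
      rw [this]
      rw [hlen] at h4
      linarith
    rw [div_lt_iff₀ hε] at h7
    linarith
  exact h3.trans_lt h6

/-- every level covers -/
theorem un_sph {S : Setup G Z} (T : Tiles S) (n : ℕ) : T.un (S.sph n) = univ := by
  rw [eq_univ_iff_forall]
  intro x
  obtain ⟨g, hg, hx⟩ := S.ray x n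
  refine mem_biUnion (x := g) (by exact_mod_cast mem_sph.mpr hg) (T.cover g ?_)
  show (S.len g : ℝ) - S.δ ≤ S.s x g
  rw [hg]; exact hx

lemma separates_sph {S : Setup G Z} (T : Tiles S) (n : ℕ) (D E : Set Z) :
    Separates (T.un (S.sph n)) D E := by
  intro c _ hD _
  obtain ⟨x, hx, _⟩ := hD
  exact ⟨x, hx, by rw [un_sph]; trivial⟩

/-- a chain of tiles of level `n` crossing the rectangle of the chart `χ` from left to right -/
structure Crossing {S : Setup G Z} (T : Tiles S) (n : ℕ) (χ : Chart Z) (A : Finset G) : Prop where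
  sub : A ⊆ S.sph n
  meets : ∀ h ∈ A, (T.U h ∩ χ.Q).Nonempty
  conn : IsPreconnected (T.un A)
  left : ∃ h ∈ A, (T.U h ∩ χ.left).Nonempty
  right : ∃ h ∈ A, (T.U h ∩ χ.right).Nonempty

/-- `ρ` is admissible for the crossings of the rectangle of `χ` at level `n` -/
def LRadm {S : Setup G Z} (T : Tiles S) (n : ℕ) (χ : Chart Z) (ρ : G → ℝ) : Prop :=
  ∀ A : Finset G, Crossing T n χ A → 1 ≤ ∑ h ∈ A, ρ h

/-- affine homeomorphisms of the plane -/
noncomputable def aff (a b c d : ℝ) (hb : b ≠ 0) (hd : d ≠ 0) : (ℝ × ℝ) ≃ₜ (ℝ × ℝ) :=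
  ((Homeomorph.mulLeft₀ b hb).trans (Homeomorph.addLeft a)).prodCongr
    ((Homeomorph.mulLeft₀ d hd).trans (Homeomorph.addLeft c))

@[simp] lemma aff_apply (a b c d : ℝ) (hb : b ≠ 0) (hd : d ≠ 0) (x : ℝ × ℝ) :
    aff a b c d hb hd x = (a + b * x.1, c + d * x.2) := rfl

/-- position of a crossing in the plane -/
theorem crossing_lift {S : Setup G Z} [CompactSpace Z] (T : Tiles S) (ψ : Chart Z)
    (e : (ℝ × ℝ) ≃ₜ (ℝ × ℝ)) {ε0 : ℝ} (hε : 0 < ε0) :
    ∃ N : ℕ, ∀ n ≥ N, ∀ A : Finset G, Crossing T n (ψ.comp e) A →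
      ∃ H : Set (ℝ × ℝ), IsCompact H ∧ IsPreconnected H ∧ (∀ p ∈ H, ψ.f p ∈ T.un A) ∧
        (∀ p ∈ H, ∃ q ∈ Icc (0 : ℝ) 1 ×ˢ Icc (0 : ℝ) 1, dist p (e q) < ε0) ∧
        (∃ y ∈ Icc (0 : ℝ) 1, e (0, y) ∈ H) ∧ (∃ y ∈ Icc (0 : ℝ) 1, e (1, y) ∈ H) := by
  have hQ : IsCompact (e '' (Icc (0 : ℝ) 1 ×ˢ Icc (0 : ℝ) 1)) :=
    (isCompact_Icc.prod isCompact_Icc).image e.continuous
  obtain ⟨η, hη, hclose⟩ := exists_close ψ hQ hε
  obtain ⟨N, hN⟩ := tile_small T hη
  refine ⟨N, fun n hn A hA => ?_⟩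
  -- every point of a tile of `A`
  have hpt : ∀ z ∈ T.un A, ∃ p, ψ.f p = z ∧
      ∃ q ∈ Icc (0 : ℝ) 1 ×ˢ Icc (0 : ℝ) 1, dist p (e q) < ε0 := by
    intro z hz
    obtain ⟨h, hh, hzh⟩ := mem_iUnion₂.mp hz
    obtain ⟨w, hw, hwQ⟩ := hA.meets h hh
    obtain ⟨q, hq, rfl⟩ := hwQ
    have hd := hN n hn h (hA.sub hh) z hzh _ hw
    obtain ⟨x', hx', hd'⟩ := hclose (e q) ⟨q, hq, rfl⟩ z hd
    exact ⟨x', hx', q, hq, hd'⟩
  have hrange : T.un A ⊆ range ψ.f := fun z hz => by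
    obtain ⟨p, hp, _⟩ := hpt z hz
    exact ⟨p, hp⟩
  have hcl : IsClosed (T.un A) := isClosed_biUnion_finset fun h _ => T.isClosed h
  refine ⟨ψ.f ⁻¹' (T.un A), ?_, hA.conn.preimage_of_isOpenMap ψ.emb.injective ψ.emb.isOpenMap hrange,
    fun p hp => hp, ?_, ?_, ?_⟩
  · rw [ψ.emb.isEmbedding.isCompact_iff, image_preimage_eq_of_subset hrange]
    exact hcl.isCompact
  · intro p hp
    obtain ⟨p', hp', hq⟩ := hpt _ hp
    have : p' = p := ψ.emb.injective hp'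
    rwa [this] at hq
  · obtain ⟨h, hh, w, hw, hwl⟩ := hA.left
    obtain ⟨⟨a, y⟩, ⟨ha, hy⟩, rfl⟩ := hwl
    have ha0 : a = 0 := ha
    subst ha0
    exact ⟨y, hy, mem_biUnion (by exact_mod_cast hh) hw⟩
  · obtain ⟨h, hh, w, hw, hwl⟩ := hA.right
    obtain ⟨⟨a, y⟩, ⟨ha, hy⟩, rfl⟩ := hwl
    have ha0 : a = 1 := ha
    subst ha0
    exact ⟨y, hy, mem_biUnion (by exact_mod_cast hh) hw⟩

/-- the four homeomorphisms of the plane mapping the unit square onto the four rectangles -/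
noncomputable def rect : Fin 4 → ((ℝ × ℝ) ≃ₜ (ℝ × ℝ))
  | 0 => aff (-7/4) (7/2) (5/4) (1/4) (by norm_num) (by norm_num)
  | 1 => aff (-7/4) (7/2) (-3/2) (1/4) (by norm_num) (by norm_num)
  | 2 => (Homeomorph.prodComm ℝ ℝ).trans
      (aff (-3/2) (1/4) (-7/4) (7/2) (by norm_num) (by norm_num))
  | 3 => (Homeomorph.prodComm ℝ ℝ).trans
      (aff (5/4) (1/4) (-7/4) (7/2) (by norm_num) (by norm_num))

/-- **Gluing.** Four crossings of the four rectangles in the annulus of `ψ` separate. -/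
theorem gluing {S : Setup G Z} (T : Tiles S) (Φ : Z ≃ₜ S2) (ψ : Chart Z) :
    ∃ N : ℕ, ∀ n ≥ N, ∀ A : Fin 4 → Finset G, (∀ k, Crossing T n (ψ.comp (rect k)) (A k)) →
      ∀ B : Finset G, (∀ k, A k ⊆ B) → Separates (T.un B) (ψ.D 1) (ψ.E 2) := by
  have hcpt : CompactSpace Z := Φ.symm.compactSpace
  have hlc : LocallyConnectedSpace Z := Φ.isOpenEmbedding.locallyConnectedSpace
  choose N hN using fun k : Fin 4 => crossing_lift T ψ (rect k) (ε0 := 1/8) (by norm_num)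
  refine ⟨(N 0) ⊔ (N 1) ⊔ (N 2) ⊔ (N 3), fun n hn A hA B hB => ?_⟩
  intro c hc hcD hcE
  by_contra hcon
  have hcl : IsClosed (T.un B) := isClosed_biUnion_finset fun h _ => T.isClosed h
  obtain ⟨s, hs, hs1, hs2, hsK⟩ := exists_lift ψ (by norm_num : (1 : ℝ) < 2) hcl hc hcon hcD hcE
  obtain ⟨H0, c0, p0, i0, q0, l0, r0⟩ := hN 0 n (by simp only [ge_iff_le, sup_le_iff] at hn; tauto) _ (hA 0)
  obtain ⟨H1, c1, p1, i1, q1, l1, r1⟩ := hN 1 n (by simp only [ge_iff_le, sup_le_iff] at hn; tauto) _ (hA 1)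
  obtain ⟨H2, c2, p2, i2, q2, l2, r2⟩ := hN 2 n (by simp only [ge_iff_le, sup_le_iff] at hn; tauto) _ (hA 2)
  obtain ⟨H3, c3, p3, i3, q3, l3, r3⟩ := hN 3 n (by simp only [ge_iff_le, sup_le_iff] at hn; tauto) _ (hA 3)
  simp only [rect, aff_apply, Homeomorph.trans_apply, Homeomorph.coe_prodComm,
    Prod.fst_swap, Prod.snd_swap, Prod.dist_eq, sup_lt_iff, Real.dist_eq, abs_lt] at q0 l0 r0 q1 l1 r1 q2 l2 r2 q3 l3 r3
  have main := Planar.four_cross (r1 := 1) (r2 := 13/8) (by norm_num) (by norm_num)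
    c0 c1 c2 c3 p0 p1 p2 p3
    (by
      intro p hp
      obtain ⟨q, ⟨hq1, hq2⟩, h1, h2⟩ := q0 p hp
      constructor <;> linarith [hq1.1, hq1.2, hq2.1, hq2.2])
    (by
      intro p hp
      obtain ⟨q, ⟨hq1, hq2⟩, h1, h2⟩ := q1 p hp
      constructor <;> linarith [hq1.1, hq1.2, hq2.1, hq2.2])
    (by
      intro p hp
      obtain ⟨q, ⟨hq1, hq2⟩, h1, h2⟩ := q2 p hp
      constructor <;> linarith [hq1.1, hq1.2, hq2.1, hq2.2])
    (by
      intro p hp
      obtain ⟨q, ⟨hq1, hq2⟩, h1, h2⟩ := q3 p hp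
      constructor <;> linarith [hq1.1, hq1.2, hq2.1, hq2.2])
    (by obtain ⟨y, hy, h⟩ := l0; exact ⟨_, h, by norm_num⟩)
    (by obtain ⟨y, hy, h⟩ := r0; exact ⟨_, h, by norm_num⟩)
    (by obtain ⟨y, hy, h⟩ := l1; exact ⟨_, h, by norm_num⟩)
    (by obtain ⟨y, hy, h⟩ := r1; exact ⟨_, h, by norm_num⟩)
    (by obtain ⟨y, hy, h⟩ := l2; exact ⟨_, h, by norm_num⟩)
    (by obtain ⟨y, hy, h⟩ := r2; exact ⟨_, h, by norm_num⟩)
    (by obtain ⟨y, hy, h⟩ := l3; exact ⟨_, h, by norm_num⟩)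
    (by obtain ⟨y, hy, h⟩ := r3; exact ⟨_, h, by norm_num⟩)
    hs
    (by
      obtain ⟨p, hp, hpb⟩ := hs1
      refine ⟨p, hp, ?_⟩
      rw [mem_closedBall, dist_zero_right, Prod.norm_def, sup_le_iff, Real.norm_eq_abs,
        Real.norm_eq_abs, abs_le, abs_le] at hpb
      exact ⟨hpb.1, hpb.2⟩)
    (by
      obtain ⟨p, hp, hpb⟩ := hs2
      refine ⟨p, hp, fun h => hpb ?_⟩
      rw [mem_ball, dist_zero_right, Prod.norm_def, sup_lt_iff, Real.norm_eq_abs,
        Real.norm_eq_abs, abs_lt, abs_lt]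
      obtain ⟨h1, h2⟩ := h
      refine ⟨⟨?_, ?_⟩, ⟨?_, ?_⟩⟩ <;> linarith [h1.1, h1.2, h2.1, h2.2])
  obtain ⟨p, hps, hpU⟩ := main
  have hsub : ∀ k, T.un (A k) ⊆ T.un B := fun k => biUnion_subset_biUnion_left (hB k)
  rcases hpU with ((h | h) | h) | h
  · exact hsK p hps (hsub 0 (i0 p h))
  · exact hsK p hps (hsub 1 (i1 p h))
  · exact hsK p hps (hsub 2 (i2 p h))
  · exact hsK p hps (hsub 3 (i3 p h))

end Main

end Crest.Agent.R193.M1x
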