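import Mathlib
import Crest.Agent.R193.Defs

/-!
# R193, step 6 of Part M (helper983): where is `g • P_{g2}`? Location and counting.
-/

set_option autoImplicit false

open Set Filter Topology

namespace Crest.Agent.R193.M6_Loc

variable {G Z : Type} [Group G] [MetricSpace Z] [MulAction G Z] (S : Setup G Z)

/-! ### elementary facts on products -/


lemma mem_sph {n : ℕ} {g : G} : g ∈ S.sph n ↔ S.len g = n := by
  simp [Setup.sph]

lemma mem_bal {n : ℕ} {g : G} : g ∈ S.bal n ↔ S.len g ≤ n := by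
  simp [Setup.bal]

lemma gp_comm (g h : G) : S.gp g h = S.gp h g := by
  have h1 : S.len (g⁻¹ * h) = S.len (h⁻¹ * g) := by
    rw [← S.len_inv (g⁻¹ * h)]
    congr 1
    group
  simp only [Setup.gp, gpOf, h1]
  ring

lemma len_inv_mul (g h : G) : (S.len (g⁻¹ * h) : ℝ) = S.len g + S.len h - 2 * S.gp g h := by
  simp only [Setup.gp, gpOf]
  ring

lemma gp_hyp (g h k : G) : min (S.gp g h) (S.gp h k) - S.δ ≤ S.gp g k := S.hyp g h k

lemma s_one (x : Z) : S.s x 1 = 0 := by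
  have h1 := S.s_le x 1
  have h2 := S.s_nonneg x 1
  rw [S.len_one] at h1
  simp only [Nat.cast_zero] at h1
  exact le_antisymm h1 h2

lemma gp_one_left (g : G) : S.gp 1 g = 0 := by
  simp [Setup.gp, gpOf, S.len_one]

/-- `(f y | f) = |f| - (y | f⁻¹)` up to `δ` -/
lemma s_smul_self (y : Z) (f : G) : |S.s (f • y) f - ((S.len f : ℝ) - S.s y f⁻¹)| ≤ S.δ := by
  have h := S.cocycle y 1 f
  rw [mul_one, s_one] at h
  have h2 : gpOf S.len 1 f⁻¹ = 0 := gp_one_left S f⁻¹
  rw [h2] at h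
  have e : S.s (f • y) f - (0 - S.s y f⁻¹ - 0 + (S.len f : ℝ)) =
      S.s (f • y) f - ((S.len f : ℝ) - S.s y f⁻¹) := by ring
  rw [e] at h
  exact h

/-- exact products for `f = g g2⁻¹`, `|g| = |g2|` -/
lemma gp_quot {g g2 : G} (h : S.len g = S.len g2) :
    S.gp (g * g2⁻¹) g = (S.len (g * g2⁻¹) : ℝ) / 2 ∧
    S.gp (g * g2⁻¹)⁻¹ g2 = (S.len (g * g2⁻¹) : ℝ) / 2 := by
  constructor
  · have e : (g * g2⁻¹)⁻¹ * g = g2 := by group
    simp only [Setup.gp, gpOf, e, h]
    ring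
  · have e : (g * g2⁻¹)⁻¹⁻¹ * g2 = g := by group
    simp only [Setup.gp, gpOf, e, h, S.len_inv]
    ring

lemma len_quot_le {g g2 : G} {j : ℕ} (h : S.len g = j) (h2 : S.len g2 = j) :
    S.len (g * g2⁻¹) ≤ 2 * j := by
  have := S.len_mul g g2⁻¹
  rw [S.len_inv, h, h2] at this
  omega

/-! ### location -/

/-- **Location of `f • Tm`** for `f = g g2⁻¹`. `K1` is at distance `≥ ε1` from `Tm`, the
`ε0`-neighbourhood of `K0` is in `K1`. -/
theorem location (T : Tiles S) {K0 K1 Tm : Set Z} {ε0 ε1 : ℝ} (h0 : 0 < ε0) (h1 : 0 < ε1)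
    (hK : ∀ x ∈ K0, ∀ y, dist x y < ε0 → y ∈ K1) (hT : ∀ x ∈ K0, ∀ y ∈ Tm, ε1 ≤ dist x y)
    (R0 : ℝ) : ∃ (C : ℕ) (i0 : ℕ), ∀ (j : ℕ) (g g2 : G), S.len g = j → S.len g2 = j →
      (∃ p ∈ K0, p ∈ S.Sh R0 g) → (∃ p ∈ K0, p ∈ S.Sh R0 g2) → i0 ≤ S.len (g * g2⁻¹) →
      ∀ y ∈ Tm, (g * g2⁻¹) • y ∈ K1 ∧ ∃ f' ∈ S.sph (S.len (g * g2⁻¹)),
        (g * g2⁻¹) • y ∈ T.U f' ∧ S.len ((g * g2⁻¹)⁻¹ * f') ≤ C ∧
        (S.len (g * g2⁻¹) : ℝ) / 2 - C ≤ S.gp f' g := by
  have hδ := S.one_le_δ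
  have hε := S.ε_pos
  set A1 : ℝ := S.δ + |Real.log ε1| / S.ε with hA1
  have hA1pos : 0 < A1 := by positivity
  set A0 : ℝ := |Real.log ε0| / S.ε with hA0
  have hA0pos : 0 ≤ A0 := by positivity
  obtain ⟨C, hC⟩ := exists_nat_ge (2 * (A1 + 2 * S.δ))
  obtain ⟨i0, hi0⟩ := exists_nat_gt (2 * (A1 + 2 * S.δ + |R0| + A0))
  refine ⟨C, i0, fun j g g2 hg hg2 hp hp2 hi y hy => ?_⟩
  obtain ⟨p, hpK, hps⟩ := hp
  obtain ⟨p2, hp2K, hp2s⟩ := hp2
  set f := g * g2⁻¹ with hf
  set i := S.len f with hidef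
  have hi' : 2 * (A1 + 2 * S.δ + |R0| + A0) < (i : ℝ) := hi0.trans_le (by exact_mod_cast hi)
  have hi2j : (i : ℝ) ≤ 2 * j := by exact_mod_cast len_quot_le S hg hg2
  obtain ⟨q1, q2⟩ := gp_quot S (hg.trans hg2.symm)
  rw [← hf] at q1 q2
  have hR0 := le_abs_self R0
  have hps' : (j : ℝ) - R0 ≤ S.s p g := by
    have := hps
    simp only [Setup.Sh, mem_ofPred_eq, hg] at this
    exact this
  have hp2s' : (j : ℝ) - R0 ≤ S.s p2 g2 := by
    have := hp2s
    simp only [Setup.Sh, mem_ofPred_eq, hg2] at this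
    exact this
  -- `s p2 f⁻¹` is large
  have e1 : (i : ℝ) / 2 - |R0| - S.δ ≤ S.s p2 f⁻¹ := by
    have h3 := S.hyp_s1 p2 g2 f⁻¹
    have h4 : gpOf S.len g2 f⁻¹ = (i : ℝ) / 2 := by
      have := gp_comm S g2 f⁻¹
      simp only [Setup.gp] at this q2
      rw [this, q2]
    rw [h4] at h3
    have h5 : (i : ℝ) / 2 - |R0| ≤ min (S.s p2 g2) ((i : ℝ) / 2) := by
      refine le_min ?_ ?_
      · linarith
      · have := abs_nonneg R0
        linarith
    linarith
  -- `s y f⁻¹` is bounded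
  have hexp : ∀ (ε' m : ℝ), 0 < ε' → ε' ≤ Real.exp (-S.ε * (m - S.δ)) →
      m ≤ S.δ + |Real.log ε'| / S.ε := by
    intro ε' m hε' h
    have h3 := Real.log_le_log hε' h
    rw [Real.log_exp] at h3
    have h4 : S.ε * (m - S.δ) ≤ |Real.log ε'| := by
      have := neg_abs_le (Real.log ε')
      linarith
    have h5 : m - S.δ ≤ |Real.log ε'| / S.ε := by
      rw [le_div_iff₀ hε]
      linarith
    linarith
  have e2 : S.s y f⁻¹ ≤ A1 := by
    have h3 := S.dist_le p2 y f⁻¹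
    have h4 := hexp ε1 _ h1 ((hT p2 hp2K y hy).trans h3)
    rcases min_le_iff.1 h4 with h5 | h5
    · exfalso
      linarith [abs_nonneg R0]
    · exact h5
  -- `s (f y) f` is large
  have e3 : (i : ℝ) - A1 - S.δ ≤ S.s (f • y) f := by
    have h3 := abs_le.1 (s_smul_self S y f)
    linarith [h3.1]
  have e4 : (i : ℝ) / 2 - S.δ ≤ S.s (f • y) g := by
    have h3 := S.hyp_s1 (f • y) f g
    have h4 : gpOf S.len f g = (i : ℝ) / 2 := by
      simp only [Setup.gp] at q1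
      exact q1
    rw [h4] at h3
    have h5 : (i : ℝ) / 2 ≤ min (S.s (f • y) f) ((i : ℝ) / 2) := by
      refine le_min ?_ le_rfl
      linarith [abs_nonneg R0]
    linarith
  have e5 : f • y ∈ K1 := by
    refine hK p hpK _ ?_
    by_contra h
    rw [not_lt] at h
    have h3 := S.dist_le p (f • y) g
    have h4 := hexp ε0 _ h0 (h.trans h3)
    have h5 : (i : ℝ) / 2 - |R0| - S.δ ≤ min (S.s p g) (S.s (f • y) g) := by
      refine le_min ?_ ?_
      · linarith
      · linarith [abs_nonneg R0]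
    linarith
  refine ⟨e5, ?_⟩
  obtain ⟨f', hf', hf's⟩ := S.ray (f • y) i
  refine ⟨f', (mem_sph S).2 hf', T.cover f' ?_, ?_, ?_⟩
  · simp only [Setup.Sh, mem_ofPred_eq, hf']
    exact hf's
  · have h3 : (i : ℝ) - A1 - 2 * S.δ ≤ S.gp f f' := by
      have h4 := S.hyp_s2 (f • y) f f'
      have h5 : (i : ℝ) - A1 - S.δ ≤ min (S.s (f • y) f) (S.s (f • y) f') := by
        refine le_min e3 ?_
        linarith
      simp only [Setup.gp]
      linarith
    have h6 := len_inv_mul S f f'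
    rw [hf'] at h6
    have h7 : (S.len (f⁻¹ * f') : ℝ) ≤ C := by
      have : (S.len f : ℝ) = i := rfl
      rw [h6, this]
      linarith
    exact_mod_cast h7
  · have h4 := S.hyp_s2 (f • y) f' g
    have h5 : (i : ℝ) / 2 - S.δ ≤ min (S.s (f • y) f') (S.s (f • y) g) := by
      refine le_min ?_ e4
      linarith [abs_nonneg R0]
    simp only [Setup.gp]
    linarith

/-! ### counting -/

lemma card_bal_le (n : ℕ) : ((S.bal n).card : ℝ) ≤ Real.exp (S.v * n) := by
  have h := S.card_ball n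
  rwa [Set.ncard_eq_toFinset_card _ (S.finite_ball n)] at h

/-- points of a geodesic -/
lemma exists_on_geod (g : G) {k : ℕ} (hk : k ≤ S.len g) :
    ∃ h : G, S.len h = k ∧ S.len (h⁻¹ * g) = S.len g - k ∧ S.gp h g = k := by
  obtain ⟨h, h1, h2⟩ := S.geod g k hk
  refine ⟨h, h1, h2, ?_⟩
  simp only [Setup.gp, gpOf, h1, h2]
  rw [Nat.cast_sub hk]
  ring

/-- **Counting**: the number of elements of the sphere of radius `j` whose product with `f'` is at
least `m` is at most `C exp (v (j - m))`. -/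
theorem card_gp_ge : ∃ C : ℝ, 0 < C ∧ ∀ (j : ℕ) (m : ℝ) (f' : G) (s : Finset G), m ≤ S.len f' →
    (∀ g ∈ s, S.len g = j ∧ m ≤ S.gp f' g) → (s.card : ℝ) ≤ C * Real.exp (S.v * (j - m)) := by
  classical
  have hδ := S.one_le_δ
  have hv := S.v_pos
  obtain ⟨D, hD⟩ := exists_nat_ge (4 * S.δ)
  refine ⟨Real.exp (S.v * D) * Real.exp S.v, by positivity, fun j m f' s hmf hs => ?_⟩
  rcases s.eq_empty_or_nonempty with rfl | ⟨g1, hg1⟩
  · simp only [Finset.card_empty, Nat.cast_zero]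
    positivity
  -- reduce to `m0 = floor (max m 0)`
  set m0 : ℕ := ⌊m⌋₊ with hm0
  have hmf0 : m0 ≤ S.len f' := by
    rw [hm0]
    exact Nat.floor_le_of_le hmf
  have hgplen : ∀ g : G, S.gp f' g ≤ S.len g := by
    intro g
    have h1 : S.len f' ≤ S.len g + S.len (f'⁻¹ * g) := by
      have h2 := S.len_mul g (f'⁻¹ * g)⁻¹
      have e : g * (f'⁻¹ * g)⁻¹ = f' := by group
      rw [e, S.len_inv] at h2
      exact h2
    have h2 : (S.len f' : ℝ) ≤ S.len g + S.len (f'⁻¹ * g) := by exact_mod_cast h1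
    simp only [Setup.gp, gpOf]
    linarith
  have hm0j : m0 ≤ j := by
    have h1 := hs g1 hg1
    have h2 := hgplen g1
    rw [h1.1] at h2
    exact Nat.floor_le_of_le (h1.2.trans h2)
  have hmm0 : m - 1 < m0 := by
    have := Nat.lt_floor_add_one m
    rw [hm0]
    linarith
  have hgpn : ∀ g ∈ s, (m0 : ℝ) ≤ S.gp f' g := by
    intro g hg
    rcases le_or_gt 0 m with h | h
    · exact (Nat.floor_le h).trans (hs g hg).2
    · have h3 : m0 = 0 := Nat.floor_of_nonpos h.le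
      rw [h3]
      have h4 := S.len_mul f'⁻¹ g
      rw [S.len_inv] at h4
      have h5 : (S.len (f'⁻¹ * g) : ℝ) ≤ S.len f' + S.len g := by exact_mod_cast h4
      simp only [Setup.gp, gpOf, Nat.cast_zero]
      linarith
  obtain ⟨h0, hh0, -, hh0gp⟩ := exists_on_geod S f' hmf0
  have hch : ∀ g : G, ∃ h : G, g ∈ s → S.len h = m0 ∧ S.len (h⁻¹ * g) = j - m0 ∧ S.gp h g = m0 := by
    intro g
    by_cases hg : g ∈ s
    · have h1 := (hs g hg).1
      obtain ⟨h, a, b, c⟩ := exists_on_geod S g (k := m0) (by rw [h1]; exact hm0j)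
      exact ⟨h, fun _ => ⟨a, by rw [b, h1], c⟩⟩
    · exact ⟨1, fun h => absurd h hg⟩
  choose H hH using hch
  -- injection into a product of balls
  have hinj : s.card ≤ (S.bal D ×ˢ S.bal (j - m0)).card := by
    refine Finset.card_le_card_of_injOn (fun g => (h0⁻¹ * H g, (H g)⁻¹ * g)) ?_ ?_
    · intro g hg
      have hg' : g ∈ s := hg
      obtain ⟨a, b, c⟩ := hH g hg'
      have k1 : S.gp f' (H g) ≥ m0 - S.δ := by
        have h5 := gp_hyp S f' g (H g)
        rw [gp_comm S g (H g), c] at h5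
        have h6 : (m0 : ℝ) ≤ min (S.gp f' g) (m0 : ℝ) := le_min (hgpn g hg') le_rfl
        linarith
      have k2 : (m0 : ℝ) - 2 * S.δ ≤ S.gp h0 (H g) := by
        have h5 := gp_hyp S h0 f' (H g)
        rw [hh0gp] at h5
        have h6 : (m0 : ℝ) - S.δ ≤ min (m0 : ℝ) (S.gp f' (H g)) := le_min (by linarith) k1
        linarith
      have k3 := len_inv_mul S h0 (H g)
      rw [hh0, a] at k3
      have k4 : (S.len (h0⁻¹ * H g) : ℝ) ≤ D := by
        rw [k3]
        linarith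
      have k5 : S.len (h0⁻¹ * H g) ≤ D := by exact_mod_cast k4
      simp only [Finset.coe_product, mem_prod, Finset.mem_coe, mem_bal]
      exact ⟨k5, b.le⟩
    · intro g hg g' hg' he
      simp only [Prod.mk.injEq] at he
      have e1 : H g = H g' := by
        have := he.1
        exact mul_left_cancel this
      have e2 := he.2
      rw [e1] at e2
      exact mul_left_cancel e2
  rw [Finset.card_product] at hinj
  have h1 : (s.card : ℝ) ≤ (S.bal D).card * (S.bal (j - m0)).card := by exact_mod_cast hinj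
  have h2 := card_bal_le S D
  have h3 := card_bal_le S (j - m0)
  rw [Nat.cast_sub hm0j] at h3
  have h4 : Real.exp (S.v * ((j : ℝ) - m0)) ≤ Real.exp S.v * Real.exp (S.v * (j - m)) := by
    rw [← Real.exp_add]
    apply Real.exp_le_exp.2
    nlinarith
  calc (s.card : ℝ) ≤ (S.bal D).card * (S.bal (j - m0)).card := h1
    _ ≤ Real.exp (S.v * D) * Real.exp (S.v * ((j : ℝ) - m0)) :=
        mul_le_mul h2 h3 (Nat.cast_nonneg _) (Real.exp_pos _).le
    _ ≤ Real.exp (S.v * D) * (Real.exp S.v * Real.exp (S.v * (j - m))) := by gcongr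
    _ = _ := by ring

/-! ### the counting functions of step 6 -/

open Classical in
/-- tiles of level `i` meeting `K1` whose `w`-image contains `t` -/
noncomputable def ZF {S : Setup G Z} (T : Tiles S) (K1 : Set Z) (w : Z → ℝ) (i : ℕ) (t : ℝ) :
    Finset G :=
  (S.sph i).filter fun f' => (T.U f' ∩ K1).Nonempty ∧ t ∈ w '' T.U f'

open Classical in
/-- those which moreover have product at least `i/2 - C` with `g` -/
noncomputable def VF {S : Setup G Z} (T : Tiles S) (K1 : Set Z) (w : Z → ℝ) (C : ℕ) (i : ℕ) (g : G)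
    (t : ℝ) : Finset G :=
  (ZF T K1 w i t).filter fun f' => (i : ℝ) / 2 - C ≤ S.gp f' g

open Classical in
/-- elements of the sphere of radius `j` whose shadow meets `K0` -/
noncomputable def GJ (S : Setup G Z) (K0 : Set Z) (R0 : ℝ) (j : ℕ) : Finset G :=
  (S.sph j).filter fun g => ∃ p ∈ K0, p ∈ S.Sh R0 g

open Classical in
/-- the elements `g2` whose pole disc is hit by the level `t` seen from `g` -/
noncomputable def MF (S : Setup G Z) (K0 Tm : Set Z) (w : Z → ℝ) (R0 : ℝ) (i0 j : ℕ) (g : G)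
    (t : ℝ) : Finset G :=
  (GJ S K0 R0 j).filter fun g2 => S.len (g * g2⁻¹) < i0 ∨
    t ∈ w '' ((fun y => (g * g2⁻¹) • y) '' Tm)

variable {S}

lemma card_ZF_mono {T : Tiles S} {K1 K2 : Set Z} (h : K1 ⊆ K2) (w : Z → ℝ) (i : ℕ) (t : ℝ) :
    (ZF T K1 w i t).card ≤ (ZF T K2 w i t).card := by
  classical
  refine Finset.card_le_card fun f' hf' => ?_
  simp only [ZF, Finset.mem_filter] at hf' ⊢
  exact ⟨hf'.1, hf'.2.1.mono (inter_subset_inter_right _ h), hf'.2.2⟩

lemma card_ZF_le (T : Tiles S) (K1 : Set Z) (w : Z → ℝ) (i : ℕ) (t : ℝ) :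
    ((ZF T K1 w i t).card : ℝ) ≤ Real.exp (S.v * i) := by
  classical
  refine le_trans ?_ (card_bal_le S i)
  have : (ZF T K1 w i t).card ≤ (S.bal i).card := by
    refine Finset.card_le_card fun f' hf' => ?_
    simp only [ZF, Finset.mem_filter, mem_sph] at hf'
    exact (mem_bal S).2 hf'.1.le
  exact_mod_cast this

lemma card_VF_le (T : Tiles S) (K1 : Set Z) (w : Z → ℝ) (C i : ℕ) (g : G) (t : ℝ) :
    (VF T K1 w C i g t).card ≤ (ZF T K1 w i t).card :=
  Finset.card_le_card (Finset.filter_subset _ _)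

/-- **Upper bound for `m_g(t)`** (mb). -/
theorem card_MF_le (T : Tiles S) {K0 K1 Tm : Set Z} {ε0 ε1 : ℝ} (h0 : 0 < ε0) (h1 : 0 < ε1)
    (hK : ∀ x ∈ K0, ∀ y, dist x y < ε0 → y ∈ K1) (hT : ∀ x ∈ K0, ∀ y ∈ Tm, ε1 ≤ dist x y)
    (R0 : ℝ) : ∃ (C i0 : ℕ), ∀ (w : Z → ℝ) (j : ℕ) (g : G) (t : ℝ), g ∈ GJ S K0 R0 j →
      ((MF S K0 Tm w R0 i0 j g t).card : ℝ) ≤
        C + C * ∑ i ∈ Finset.Icc i0 (2 * j), ((VF T K1 w C i g t).card : ℝ) := by
  classical
  obtain ⟨C, i0, hloc⟩ := location S T h0 h1 hK hT R0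
  refine ⟨max C (max (S.bal i0).card (S.bal C).card), i0, fun w j g t hg => ?_⟩
  set C' := max C (max (S.bal i0).card (S.bal C).card) with hC'
  have hCC : C ≤ C' := le_max_left _ _
  have hC1 : (S.bal i0).card ≤ C' := (le_max_left _ _).trans (le_max_right _ _)
  have hC2 : (S.bal C).card ≤ C' := (le_max_right _ _).trans (le_max_right _ _)
  simp only [GJ, Finset.mem_filter, mem_sph] at hg
  -- split
  set M1 := (GJ S K0 R0 j).filter fun g2 => S.len (g * g2⁻¹) < i0 with hM1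
  set M2 := (GJ S K0 R0 j).filter fun g2 => i0 ≤ S.len (g * g2⁻¹) ∧
    t ∈ w '' ((fun y => (g * g2⁻¹) • y) '' Tm) with hM2
  have hsub : MF S K0 Tm w R0 i0 j g t ⊆ M1 ∪ M2 := by
    intro g2 hg2
    simp only [MF, Finset.mem_filter] at hg2
    rw [Finset.mem_union, hM1, hM2, Finset.mem_filter, Finset.mem_filter]
    rcases hg2.2 with h | h
    · exact Or.inl ⟨hg2.1, h⟩
    · by_cases h' : S.len (g * g2⁻¹) < i0
      · exact Or.inl ⟨hg2.1, h'⟩
      · exact Or.inr ⟨hg2.1, not_lt.1 h', h⟩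
  have hc1 : M1.card ≤ (S.bal i0).card := by
    refine Finset.card_le_card_of_injOn (fun g2 => g * g2⁻¹) ?_ ?_
    · intro g2 hg2
      have hg2' : g2 ∈ M1 := hg2
      rw [hM1, Finset.mem_filter] at hg2'
      exact (mem_bal S).2 hg2'.2.le
    · intro a _ b _ hab
      exact inv_injective (mul_left_cancel hab)
  -- the second part
  have hch : ∀ g2 : G, ∃ f' : G, g2 ∈ M2 → f' ∈ VF T K1 w C (S.len (g * g2⁻¹)) g t ∧
      S.len ((g * g2⁻¹)⁻¹ * f') ≤ C := by
    intro g2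
    by_cases hg2 : g2 ∈ M2
    · have hg2' := hg2
      rw [hM2, Finset.mem_filter] at hg2'
      obtain ⟨hG, hi, ⟨_, ⟨y, hy, rfl⟩, hyt⟩⟩ := hg2'
      simp only [GJ, Finset.mem_filter, mem_sph] at hG
      obtain ⟨hK1, f', hf', hU, hlen, hgp⟩ := hloc j g g2 hg.1 hG.1 hg.2 hG.2 hi y hy
      refine ⟨f', fun _ => ⟨?_, hlen⟩⟩
      simp only [VF, ZF, Finset.mem_filter]
      exact ⟨⟨hf', ⟨_, hU, hK1⟩, ⟨_, hU, hyt⟩⟩, hgp⟩
    · exact ⟨1, fun h => absurd h hg2⟩
  choose F hF using hch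
  have hc2 : M2.card ≤ ∑ i ∈ Finset.Icc i0 (2 * j), (VF T K1 w C i g t).card * (S.bal C).card := by
    have h3 : M2.card ≤ ((Finset.Icc i0 (2 * j)).sigma fun i =>
        VF T K1 w C i g t ×ˢ S.bal C).card := by
      refine Finset.card_le_card_of_injOn
        (fun g2 => (⟨S.len (g * g2⁻¹), (F g2, (g * g2⁻¹)⁻¹ * F g2)⟩ : (_ : ℕ) × (G × G))) ?_ ?_
      · intro g2 hg2
        have hg2' : g2 ∈ M2 := hg2
        obtain ⟨a, b⟩ := hF g2 hg2'
        rw [hM2, Finset.mem_filter] at hg2'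
        have hG := hg2'.1
        simp only [GJ, Finset.mem_filter, mem_sph] at hG
        simp only [Finset.coe_sigma, Set.mem_sigma_iff, Finset.mem_coe, Finset.mem_Icc,
          Finset.mem_product]
        exact ⟨⟨hg2'.2.1, len_quot_le S hg.1 hG.1⟩, a, (mem_bal S).2 b⟩
      · intro a _ b _ hab
        simp only [Sigma.mk.injEq] at hab
        obtain ⟨-, hab⟩ := hab
        have hab' := eq_of_heq hab
        simp only [Prod.mk.injEq] at hab'
        have e2 := hab'.2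
        rw [hab'.1] at e2
        have e3 := mul_right_cancel e2
        have e4 : g * a⁻¹ = g * b⁻¹ := inv_injective e3
        exact inv_injective (mul_left_cancel e4)
    rw [Finset.card_sigma] at h3
    simpa only [Finset.card_product] using h3
  have hVF : ∀ i, VF T K1 w C i g t ⊆ VF T K1 w C' i g t := by
    intro i f' hf'
    simp only [VF, Finset.mem_filter] at hf' ⊢
    refine ⟨hf'.1, le_trans ?_ hf'.2⟩
    have : (C : ℝ) ≤ C' := by exact_mod_cast hCC
    linarith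
  have hfin : (MF S K0 Tm w R0 i0 j g t).card ≤
      C' + C' * ∑ i ∈ Finset.Icc i0 (2 * j), (VF T K1 w C' i g t).card := by
    calc (MF S K0 Tm w R0 i0 j g t).card ≤ (M1 ∪ M2).card := Finset.card_le_card hsub
      _ ≤ M1.card + M2.card := Finset.card_union_le _ _
      _ ≤ C' + ∑ i ∈ Finset.Icc i0 (2 * j), (VF T K1 w C i g t).card * (S.bal C).card :=
          add_le_add (hc1.trans hC1) hc2
      _ ≤ C' + ∑ i ∈ Finset.Icc i0 (2 * j), (VF T K1 w C' i g t).card * C' := by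
          gcongr with i hi
          exact hVF i
      _ = _ := by rw [← Finset.sum_mul, mul_comm]
  exact_mod_cast hfin

/-- **(Vc)** -/
theorem sum_VF_le (T : Tiles S) (K0 K1 : Set Z) (R0 : ℝ) (C : ℕ) : ∃ C1 : ℝ, 0 < C1 ∧
    ∀ (w : Z → ℝ) (i j : ℕ) (t : ℝ), i ≤ 2 * j →
      ∑ g ∈ GJ S K0 R0 j, ((VF T K1 w C i g t).card : ℝ) ≤
        C1 * Real.exp (S.v * (j - i / 2)) * (ZF T K1 w i t).card := by
  classical
  obtain ⟨C0, hC0, hcnt⟩ := card_gp_ge S
  refine ⟨C0 * Real.exp (S.v * C), by positivity, fun w i j t _ => ?_⟩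
  have h1 : ∑ g ∈ GJ S K0 R0 j, (VF T K1 w C i g t).card =
      ∑ f' ∈ ZF T K1 w i t, ((GJ S K0 R0 j).filter fun g => (i : ℝ) / 2 - C ≤ S.gp f' g).card := by
    simp only [VF, Finset.card_filter]
    exact Finset.sum_comm
  have h2 : ∀ f' ∈ ZF T K1 w i t,
      (((GJ S K0 R0 j).filter fun g => (i : ℝ) / 2 - C ≤ S.gp f' g).card : ℝ) ≤
        C0 * Real.exp (S.v * C) * Real.exp (S.v * (j - i / 2)) := by
    intro f' hf'
    simp only [ZF, Finset.mem_filter, mem_sph] at hf'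
    have h3 := hcnt j ((i : ℝ) / 2 - C) f'
      ((GJ S K0 R0 j).filter fun g => (i : ℝ) / 2 - C ≤ S.gp f' g)
      (by
        rw [hf'.1]
        have : (0 : ℝ) ≤ i := Nat.cast_nonneg i
        have : (0 : ℝ) ≤ C := Nat.cast_nonneg C
        linarith)
      (by
        intro g hg
        simp only [GJ, Finset.mem_filter, mem_sph] at hg
        exact ⟨hg.1.1, hg.2⟩)
    refine h3.trans (le_of_eq ?_)
    rw [mul_assoc, ← Real.exp_add]
    congr 2
    ring
  have h3 : (∑ g ∈ GJ S K0 R0 j, ((VF T K1 w C i g t).card : ℝ)) =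
      ∑ f' ∈ ZF T K1 w i t,
        (((GJ S K0 R0 j).filter fun g => (i : ℝ) / 2 - C ≤ S.gp f' g).card : ℝ) := by
    exact_mod_cast h1
  rw [h3]
  calc _ ≤ ∑ f' ∈ ZF T K1 w i t, C0 * Real.exp (S.v * C) * Real.exp (S.v * (j - i / 2)) :=
        Finset.sum_le_sum h2
    _ = _ := by
        rw [Finset.sum_const, nsmul_eq_mul]
        ring

end Crest.Agent.R193.M6_Loc
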