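import Mathlib
import Crest.Agent.R193.Defs
import Crest.Agent.R193.FG1b
import Crest.Agent.R193.M6_Loc

/-!
# R193, block M: common definitions and interfaces (integrator: helper878)

`Tiles.V T χ n`  tiles of level `n` meeting the closed rectangle `χ.Q`,
`Tiles.gr`       the tile graph on them, `Tiles.Lt/Rt` the tiles meeting the left/right side,
`Tiles.lev`      level chain (= `FG.lev` / `Planar.Lam` without subtypes),
`Chart.core χ s` closed square of margin `s`, `Chart.coreO` its open version,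
`Rec T`          output of M1 (standard pairs, running maximum `L`, records, potentials `u n`),
`Lim P`          output of M2 (limit function `w = u_∞`, level size),
`zc`             the counting function `Z_i^s(t)`.
-/

set_option autoImplicit false

noncomputable section

open Set Filter Topology MeasureTheory

namespace Crest.Agent.R193

section
variable {G Z : Type} [Group G] [MetricSpace Z] [MulAction G Z] {S : Setup G Z}

/-- the tiles of level `n` meeting the closed rectangle of the chart -/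
def Tiles.V (T : Tiles S) (χ : Chart Z) (n : ℕ) : Finset G := by
  classical
  exact (S.sph n).filter (fun h => (T.U h ∩ χ.Q).Nonempty)

theorem Setup.mem_sph {g : G} {n : ℕ} : g ∈ S.sph n ↔ S.len g = n := by
  simp [Setup.sph]

theorem Tiles.mem_V {T : Tiles S} {χ : Chart Z} {n : ℕ} {h : G} :
    h ∈ T.V χ n ↔ S.len h = n ∧ (T.U h ∩ χ.Q).Nonempty := by
  classical
  simp [Tiles.V, Setup.mem_sph]

theorem Tiles.adj_symm {T : Tiles S} {g h : G} (hgh : T.adj g h) : T.adj h g := by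
  obtain ⟨x, hx⟩ := hgh
  exact ⟨x, hx.2, hx.1⟩

/-- the tile graph on the tiles meeting `Q` -/
def Tiles.gr (T : Tiles S) (χ : Chart Z) (n : ℕ) : SimpleGraph (T.V χ n) where
  Adj a b := a ≠ b ∧ T.adj (a : G) (b : G)
  symm := ⟨fun _ _ hab => ⟨hab.1.symm, Tiles.adj_symm hab.2⟩⟩
  loopless := ⟨fun _ h => h.1 rfl⟩

/-- left tiles -/
def Tiles.Lt (T : Tiles S) (χ : Chart Z) (n : ℕ) : Set (T.V χ n) :=
  {h | (T.U (h : G) ∩ χ.left).Nonempty}

/-- right tiles -/
def Tiles.Rt (T : Tiles S) (χ : Chart Z) (n : ℕ) : Set (T.V χ n) :=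
  {h | (T.U (h : G) ∩ χ.right).Nonempty}

/-- level chain -/
def Tiles.lev (T : Tiles S) (χ : Chart Z) (n : ℕ) (u : G → ℝ) (t : ℝ) : Set G :=
  {h | h ∈ T.V χ n ∧ ∃ h' ∈ T.V χ n, T.adj h h' ∧ ((u h ≤ t ∧ t < u h') ∨ (u h' ≤ t ∧ t < u h))}

/-- closed square with margin `s` in the chart -/
def Chart.core (χ : Chart Z) (s : ℝ) : Set Z := χ.f '' (Icc s (1 - s) ×ˢ Icc s (1 - s))

/-- open square with margin `s` in the chart (`coreO 0 = Qo`) -/
def Chart.coreO (χ : Chart Z) (s : ℝ) : Set Z := χ.f '' (Ioo s (1 - s) ×ˢ Ioo s (1 - s))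

/-- number of tiles of level `i` meeting the core `s` which are visited by the level `t` of `w` -/
def zc (T : Tiles S) (χ : Chart Z) (w : Z → ℝ) (s : ℝ) (i : ℕ) (t : ℝ) : ℝ := by
  classical
  exact (((S.sph i).filter (fun h => (T.U h ∩ χ.core s).Nonempty ∧
    t ∈ closure (w '' (T.U h ∩ χ.Qo)))).card : ℝ)

/-- Output of M1: finite family of standard pairs, running maximum `L` of `1 / M_sep`, record
levels and, in one fixed rectangle `χ`, discrete harmonic functions of energy `≤ C / L n`. -/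
structure Rec (T : Tiles S) where
  ι : Type
  [fin : Fintype ι]
  ψ : ι → Chart Z
  R0 : ℝ
  hR0 : T.R + 100 * S.δ ≤ R0
  R1 : ℝ
  R1_pos : 0 < R1
  η : ℝ
  η_pos : 0 < η
  /-- every point away from the pole of `g` is well inside some standard pair away from the pole -/
  fam : ∀ (g : G) (y : Z), y ∈ S.Gd R0 g →
    ∃ i, Metric.ball y η ⊆ (ψ i).D 1 ∧ closure (((ψ i).E 2)ᶜ) ⊆ S.Gd R1 g
  L : ℕ → ℝ
  one_le : ∀ n, 1 ≤ L n
  mono : Monotone L
  sep : ∀ i m n, m ≤ n → SepBound T m ((ψ i).D 1) ((ψ i).E 2) (L n)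
  χ : Chart Z
  C : ℝ
  C_pos : 0 < C
  /-- the record levels -/
  recs : Set ℕ
  unbdd : ∀ (B : ℝ) (N : ℕ), ∃ n ∈ recs, N ≤ n ∧ B ≤ L n
  u : ℕ → G → ℝ
  disj : ∀ n ∈ recs, Disjoint (T.Lt χ n) (T.Rt χ n)
  sol : ∀ n ∈ recs, FG.Sol (T.gr χ n) (T.Lt χ n) (T.Rt χ n) (fun h => u n (h : G))
  en_le : ∀ n ∈ recs, FG.en (T.gr χ n) (fun h => u n (h : G)) ≤ C / L n

/-- Output of M2: the limit function. -/
structure Lim {T : Tiles S} (P : Rec T) where
  l : Filter ℕ
  ne : l.NeBot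
  le : l ≤ atTop
  recs : P.recs ∈ l
  tend : Tendsto P.L l atTop
  w : Z → ℝ
  rng : ∀ x, 0 ≤ w x ∧ w x ≤ 1
  cont : ContinuousOn w P.χ.Qo
  /-- convention: `w = 0` off the open rectangle (so that images of closed sets are Borel) -/
  off : ∀ x, x ∉ P.χ.Qo → w x = 0
  unif : ∀ K : Set Z, IsCompact K → K ⊆ P.χ.Qo → ∀ e > 0, ∀ᶠ n in l,
    ∀ h ∈ T.V P.χ n, ∀ y ∈ T.U h ∩ K, |P.u n h - w y| ≤ e
  s0 : ℝ
  s0_pos : 0 < s0
  s0_lt : s0 < 1 / 2
  low : ∃ c > 0, ∃ a > 0, ∀ᶠ i : ℕ in atTop,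
    c * Real.exp (a * i) ≤ ∫ t in Icc (1 / 4 : ℝ) (3 / 4), zc T P.χ w s0 i t

end

end Crest.Agent.R193
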