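import Mathlib
import Crest.Agent.R193.M_Defs

/-!
# R193, block M: the interfaces between the sub-blocks as Props (no sorry).

`M1Stmt` (260 + 878), `M2Stmt` (818), `M3Stmt` (878), `M5Stmt` (578, 635).
The assembly `M_main_of : M1Stmt T → M2Stmt T → M5Stmt T → ...` is in `M_Asm.lean`.
-/

set_option autoImplicit false

noncomputable section

open Set Filter Topology MeasureTheory

namespace Crest.Agent.R193

section
variable {G Z : Type} [Group G] [MetricSpace Z] [MulAction G Z] {S : Setup G Z}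

/-- M1: unbounded moduli produce records. -/
def M1Stmt (T : Tiles S) : Prop :=
  ∀ ψ0 : Chart Z, (¬ ∃ L : ℝ, ∀ n : ℕ, SepBound T n (ψ0.D 1) (ψ0.E 2) L) → Nonempty (Rec T)

/-- M2: records produce a limit function. -/
def M2Stmt (T : Tiles S) : Prop := ∀ P : Rec T, Nonempty (Lim P)

/-- M3: at large record levels every component of a level chain reaches `T = Z \ Qo`. -/
def M3Stmt (T : Tiles S) : Prop :=
  ∀ P : Rec T, ∀ n ∈ P.recs, ∀ t : ℝ, 0 ≤ t → t < 1 → ∀ h ∈ T.lev P.χ n (P.u n) t,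
    ∃ h', Relation.ReflTransGen (fun a b => a ∈ T.lev P.χ n (P.u n) t ∧
        b ∈ T.lev P.χ n (P.u n) t ∧ T.adj a b) h h' ∧
      h' ∈ T.lev P.χ n (P.u n) t ∧ (T.U h' ∩ P.χ.T).Nonempty

/-- number of `g2 ∈ Γ` whose pole disc is hit by the level `t` seen from `g` -/
def mcount (S : Setup G Z) (Γ : Finset G) (Tm : Set Z) (w : Z → ℝ) (I0 : ℕ) (g : G) (t : ℝ) : ℝ :=
  by
  classical
  exact ((Γ.filter fun g2 => S.len (g * g2⁻¹) < I0 ∨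
    t ∈ w '' ((fun y => (g * g2⁻¹) • y) '' Tm)).card : ℝ)

/-- M5: the packing inequality (*). -/
def M5Stmt (T : Tiles S) : Prop :=
  ∀ (P : Rec T) (Λ : Lim P) (Tm K1 : Set Z), IsClosed Tm → P.χ.T ⊆ interior Tm → IsCompact K1 →
    K1 ⊆ P.χ.Qo → Disjoint K1 Tm → ∀ I0 : ℕ,
    ∃ C1 : ℝ, ∀ (j : ℕ) (i : P.ι) (Γ : Finset G), (∀ g ∈ Γ, S.len g = j) →
      (∀ g ∈ Γ, ∀ x ∈ closure ((P.ψ i).E 2)ᶜ, g • x ∈ K1) →
      (∀ g ∈ Γ, closure ((P.ψ i).E 2)ᶜ ⊆ S.Gd P.R1 g) →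
      (∀ g ∈ Γ, ∀ g2 ∈ Γ, I0 ≤ S.len (g * g2⁻¹) → ∀ y ∈ Tm, (g * g2⁻¹) • y ∈ K1) →
      ∀ Θ : Set ℝ, MeasurableSet Θ → Θ ⊆ Icc (1 / 4) (3 / 4) → ∀ M : ℝ, 0 ≤ M →
      (∑ g ∈ Γ, volume.real (Θ ∩ (Λ.w '' ((fun x => g • x) '' (P.ψ i).D 1)) ∩
        {t | mcount S Γ Tm Λ.w I0 g t ≤ M})) ^ 2 ≤ C1 * (2 * M + 1) * volume.real Θ

end

end Crest.Agent.R193
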