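import Mathlib
import Crest.Agent.R193.Defs
import Crest.Agent.R193.M_Defs
import Crest.Agent.R193.M6_Loc
import Crest.Agent.R193.Count

/-!
# R193, step 7 of Part M (helper635): from the packing inequality to the contradiction

`M5Out` is the output of step 5 (packing inequality), `M7 : ... → False`.
-/

set_option autoImplicit false
set_option linter.deprecated false

open Set Filter Topology MeasureTheory

namespace Crest.Agent.R193.M7_Glue

open Crest.Agent.R193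

variable {G Z : Type} [Group G] [MetricSpace Z] [MulAction G Z] {S : Setup G Z}

/-! ### cores -/

lemma core_isCompact (χ : Chart Z) (s : ℝ) : IsCompact (χ.core s) :=
  (isCompact_Icc.prod isCompact_Icc).image χ.emb.continuous

lemma coreO_isOpen (χ : Chart Z) (s : ℝ) : IsOpen (χ.coreO s) :=
  χ.emb.isOpenMap _ (isOpen_Ioo.prod isOpen_Ioo)

lemma core_subset_coreO (χ : Chart Z) {s s' : ℝ} (h : s' < s) : χ.core s ⊆ χ.coreO s' := by
  refine image_mono (Set.prod_mono ?_ ?_) <;>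
  · intro x hx
    exact ⟨by linarith [hx.1], by linarith [hx.2]⟩

lemma coreO_subset_core (χ : Chart Z) (s : ℝ) : χ.coreO s ⊆ χ.core s :=
  image_mono (Set.prod_mono Ioo_subset_Icc_self Ioo_subset_Icc_self)

lemma core_subset_Qo (χ : Chart Z) {s : ℝ} (h : 0 < s) : χ.core s ⊆ χ.Qo := by
  have := core_subset_coreO χ h
  simpa [Chart.coreO, Chart.Qo] using this

/-- a compact subset of an open set has a metric collar -/
lemma exists_collar {K O : Set Z} (hK : IsCompact K) (hO : IsOpen O) (h : K ⊆ O) :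
    ∃ e > 0, ∀ x ∈ K, ∀ y, dist x y < e → y ∈ O := by
  obtain ⟨e, he, h1⟩ := hK.exists_thickening_subset_open hO h
  refine ⟨e, he, fun x hx y hxy => h1 ?_⟩
  rw [Metric.mem_thickening_iff]
  exact ⟨x, hx, by rwa [dist_comm]⟩

/-! ### shadows -/

lemma exists_small (S : Setup G Z) (R : ℝ) {e : ℝ} (he : 0 < e) :
    ∃ J : ℕ, ∀ g : G, J ≤ S.len g → ∀ x ∈ S.Sh R g, ∀ y ∈ S.Sh R g, dist x y < e := by
  have hε := S.ε_pos
  have h1 : Tendsto (fun j : ℕ => Real.exp (-S.ε * ((j : ℝ) - R - S.δ))) atTop (𝓝 0) := by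
    refine Real.tendsto_exp_atBot.comp ?_
    have h2 : Tendsto (fun j : ℕ => (j : ℝ) - R - S.δ) atTop atTop := by
      have h3 : Tendsto (fun j : ℕ => (j : ℝ)) atTop atTop := tendsto_natCast_atTop_atTop
      have := tendsto_atTop_add_const_right atTop (-R - S.δ) h3
      refine this.congr (fun j => by ring)
    exact h2.const_mul_atTop_of_neg (by linarith)
  obtain ⟨J, hJ⟩ := (h1.eventually (gt_mem_nhds he)).exists_forall_of_atTop
  refine ⟨J, fun g hg x hx y hy => ?_⟩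
  refine lt_of_le_of_lt ?_ (hJ (S.len g) hg)
  refine (S.dist_le x y g).trans (Real.exp_le_exp.2 ?_)
  have h3 : (S.len g : ℝ) - R ≤ min (S.s x g) (S.s y g) := le_min hx hy
  have h4 : (S.len g : ℝ) - R - S.δ ≤ min (S.s x g) (S.s y g) - S.δ := by linarith
  nlinarith

lemma smul_mem_Sh {R : ℝ} {g : G} {y : Z} (hy : y ∈ S.Gd R g) : g • y ∈ S.Sh (R + S.δ) g := by
  have h := M6_Loc.s_smul_self S y g
  have h2 := (abs_le.1 h).1
  simp only [Setup.Gd, mem_setOf_eq] at hy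
  simp only [Setup.Sh, mem_setOf_eq]
  linarith

lemma inv_smul_mem_Gd {R : ℝ} {g : G} {y : Z} (hy : y ∈ S.Sh R g) :
    g⁻¹ • y ∈ S.Gd (R + S.δ) g := by
  have h := M6_Loc.s_smul_self S y g⁻¹
  have h2 := (abs_le.1 h).2
  rw [inv_inv, S.len_inv] at h2
  simp only [Setup.Sh, mem_setOf_eq] at hy
  simp only [Setup.Gd, mem_setOf_eq]
  linarith

lemma Sh_mono {R R' : ℝ} (h : R ≤ R') (g : G) : S.Sh R g ⊆ S.Sh R' g := by
  intro y hy
  simp only [Setup.Sh, mem_setOf_eq] at hy ⊢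
  linarith

/-! ### the interface of step 5 -/

open Classical in
/-- number of `g2 ∈ Γ` whose pole disc, seen from `g`, is hit by the level `t` -/
noncomputable def mc (S : Setup G Z) (w : Z → ℝ) (Tm : Set Z) (Γ : Finset G) (I0 : ℕ) (g : G)
    (t : ℝ) : ℕ :=
  (Γ.filter fun g2 => S.len (g * g2⁻¹) < I0 ∨ ∃ y ∈ Tm, w ((g * g2⁻¹) • y) = t).card

/-- the levels which visit `g • D` -/
def vis (w : Z → ℝ) (D : Set Z) (g : G) : Set ℝ := {t | ∃ y ∈ D, w (g • y) = t}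

/-- Output of M5: the packing inequality (*) -/
def M5Out {T : Tiles S} (P : Rec T) (Λ : Lim P) : Prop :=
  ∀ K1 Tm : Set Z, IsClosed Tm → P.χ.T ⊆ interior Tm → IsCompact K1 → K1 ⊆ P.χ.Qo →
    Disjoint K1 Tm → ∃ C1 : ℝ, ∀ (j : ℕ) (i : P.ι) (Γ : Finset G) (I0 : ℕ), Γ ⊆ S.sph j →
    (∀ g ∈ Γ, (∀ y ∈ closure (((P.ψ i).E 2)ᶜ), g • y ∈ K1) ∧
      closure (((P.ψ i).E 2)ᶜ) ⊆ S.Gd P.R1 g) →
    (∀ g ∈ Γ, ∀ g2 ∈ Γ, I0 ≤ S.len (g * g2⁻¹) → ∀ y ∈ Tm, (g * g2⁻¹) • y ∈ K1) →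
    ∀ Θ : Set ℝ, MeasurableSet Θ → Θ ⊆ Icc (1 / 4 : ℝ) (3 / 4) → ∀ M : ℝ, 0 ≤ M →
      (∑ g ∈ Γ, volume.real (Θ ∩ vis Λ.w ((P.ψ i).D 1) g ∩
        {t | (mc S Λ.w Tm Γ I0 g t : ℝ) ≤ M})) ^ 2 ≤ C1 * (2 * M + 1) * volume.real Θ

/-! ### counting functions -/

open Classical in
noncomputable def ZC (T : Tiles S) (χ : Chart Z) (w : Z → ℝ) (s : ℝ) (i : ℕ) (t : ℝ) : Finset G :=
  (S.sph i).filter (fun h => (T.U h ∩ χ.core s).Nonempty ∧ t ∈ closure (w '' (T.U h ∩ χ.Qo)))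

lemma zc_eq (T : Tiles S) (χ : Chart Z) (w : Z → ℝ) (s : ℝ) (i : ℕ) (t : ℝ) :
    zc T χ w s i t = ((ZC T χ w s i t).card : ℝ) := rfl

open Classical in
noncomputable def VC (T : Tiles S) (χ : Chart Z) (w : Z → ℝ) (s : ℝ) (C : ℕ) (i : ℕ) (g : G)
    (t : ℝ) : Finset G :=
  (ZC T χ w s i t).filter fun f' => (i : ℝ) / 2 - C ≤ S.gp f' g

omit [Group G] in
lemma measurable_card_filter (A : Finset G) (E : G → Set ℝ) (hE : ∀ h ∈ A, MeasurableSet (E h))
    (F : ℝ → Finset G) (hF : ∀ t h, h ∈ F t ↔ h ∈ A ∧ t ∈ E h) :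
    Measurable (fun t : ℝ => ((F t).card : ℝ)) := by
  classical
  have h1 : (fun t : ℝ => ((F t).card : ℝ)) =
      fun t => ∑ h ∈ A, (E h).indicator (fun _ => (1 : ℝ)) t := by
    funext t
    have h2 : F t = A.filter (fun h => t ∈ E h) := by
      ext h
      rw [hF, Finset.mem_filter]
    rw [h2, Finset.card_filter]
    push_cast
    refine Finset.sum_congr rfl (fun h _ => ?_)
    by_cases h2 : t ∈ E h <;> simp [h2]
  rw [h1]
  exact Finset.measurable_sum _ (fun h hh => measurable_const.indicator (hE h hh))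

lemma mem_ZC {T : Tiles S} {χ : Chart Z} {w : Z → ℝ} {s : ℝ} {i : ℕ} {t : ℝ} {h : G} :
    h ∈ ZC T χ w s i t ↔ S.len h = i ∧ (T.U h ∩ χ.core s).Nonempty ∧
      t ∈ closure (w '' (T.U h ∩ χ.Qo)) := by
  classical
  simp [ZC, Setup.mem_sph]

lemma mem_VC {T : Tiles S} {χ : Chart Z} {w : Z → ℝ} {s : ℝ} {C i : ℕ} {t : ℝ} {g h : G} :
    h ∈ VC T χ w s C i g t ↔ h ∈ ZC T χ w s i t ∧ (i : ℝ) / 2 - C ≤ S.gp h g := by
  classical
  simp [VC]

/-- the open rectangle is exhausted by the cores -/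
lemma Qo_eq_iUnion (χ : Chart Z) : χ.Qo = ⋃ n : ℕ, χ.core (1 / ((n : ℝ) + 2)) := by
  ext x
  rw [mem_iUnion]
  constructor
  · rintro ⟨⟨a, b⟩, ⟨ha, hb⟩, rfl⟩
    simp only [mem_Ioo] at ha hb
    obtain ⟨n, hn⟩ := exists_nat_one_div_lt (lt_min (lt_min ha.1 hb.1)
      (lt_min (sub_pos.2 ha.2) (sub_pos.2 hb.2)))
    have h1 : 1 / ((n : ℝ) + 2) ≤ 1 / ((n : ℝ) + 1) :=
      one_div_le_one_div_of_le (by positivity) (by linarith)
    rw [lt_min_iff, lt_min_iff, lt_min_iff] at hn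
    refine ⟨n, (a, b), ⟨⟨?_, ?_⟩, ?_, ?_⟩, rfl⟩ <;> simp only [] <;>
      linarith [hn.1.1, hn.1.2, hn.2.1, hn.2.2]
  · rintro ⟨n, hn⟩
    exact core_subset_Qo χ (by positivity) hn

/-- images of closed sets under `w` are Borel -/
lemma measurableSet_image {w : Z → ℝ} {χ : Chart Z} (hc : ContinuousOn w χ.Qo)
    (ho : ∀ x, x ∉ χ.Qo → w x = 0) {U : Set Z} (hU : IsClosed U) : MeasurableSet (w '' U) := by
  have h1 : U = (⋃ n : ℕ, (U ∩ χ.core (1 / ((n : ℝ) + 2)))) ∪ (U \ χ.Qo) := by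
    rw [← inter_iUnion, ← Qo_eq_iUnion, inter_union_diff]
  rw [h1, image_union, image_iUnion]
  refine MeasurableSet.union (MeasurableSet.iUnion fun n => ?_) ?_
  · have h2 : IsCompact (U ∩ χ.core (1 / ((n : ℝ) + 2))) := by
      rw [inter_comm]; exact (core_isCompact χ _).inter_right hU
    refine (h2.image_of_continuousOn (hc.mono ?_)).measurableSet
    exact inter_subset_right.trans (core_subset_Qo χ (by positivity))
  · have h2 : (w '' (U \ χ.Qo)).Subsingleton := by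
      rintro _ ⟨x, hx, rfl⟩ _ ⟨y, hy, rfl⟩
      rw [ho x hx.2, ho y hy.2]
    exact h2.measurableSet

lemma zc_measurable (T : Tiles S) (χ : Chart Z) (w : Z → ℝ) (s : ℝ) (i : ℕ) :
    Measurable (fun t => zc T χ w s i t) := by
  classical
  refine measurable_card_filter ((S.sph i).filter (fun h => (T.U h ∩ χ.core s).Nonempty))
    (fun h => closure (w '' (T.U h ∩ χ.Qo))) (fun h _ => isClosed_closure.measurableSet)
    (ZC T χ w s i) (fun t h => ?_)
  rw [mem_ZC, Finset.mem_filter, Setup.mem_sph, and_assoc]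

lemma VC_measurable (T : Tiles S) (χ : Chart Z) (w : Z → ℝ) (s : ℝ) (C i : ℕ) (g : G) :
    Measurable (fun t => ((VC T χ w s C i g t).card : ℝ)) := by
  classical
  refine measurable_card_filter ((S.sph i).filter (fun h => (T.U h ∩ χ.core s).Nonempty ∧
    (i : ℝ) / 2 - C ≤ S.gp h g))
    (fun h => closure (w '' (T.U h ∩ χ.Qo))) (fun h _ => isClosed_closure.measurableSet)
    (VC T χ w s C i g) (fun t h => ?_)
  rw [mem_VC, mem_ZC, Finset.mem_filter, Setup.mem_sph]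
  tauto

lemma zc_nonneg (T : Tiles S) (χ : Chart Z) (w : Z → ℝ) (s : ℝ) (i : ℕ) (t : ℝ) :
    0 ≤ zc T χ w s i t := by
  rw [zc_eq]; exact Nat.cast_nonneg _

lemma zc_le (T : Tiles S) (χ : Chart Z) (w : Z → ℝ) (s : ℝ) (i : ℕ) (t : ℝ) :
    zc T χ w s i t ≤ Real.exp (S.v * i) := by
  classical
  rw [zc_eq]
  refine le_trans ?_ (M6_Loc.card_bal_le S i)
  have : (ZC T χ w s i t).card ≤ (S.bal i).card := by
    refine Finset.card_le_card fun f' hf' => ?_
    exact (M6_Loc.mem_bal S).2 (mem_ZC.1 hf').1.le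
  exact_mod_cast this

lemma core_mono (χ : Chart Z) {s s' : ℝ} (h : s' ≤ s) : χ.core s ⊆ χ.core s' := by
  refine image_mono (Set.prod_mono ?_ ?_) <;>
  · intro x hx
    exact ⟨by linarith [hx.1], by linarith [hx.2]⟩

lemma zc_mono (T : Tiles S) (χ : Chart Z) (w : Z → ℝ) {s s' : ℝ} (h : s' ≤ s) (i : ℕ) (t : ℝ) :
    zc T χ w s i t ≤ zc T χ w s' i t := by
  rw [zc_eq, zc_eq]
  have : (ZC T χ w s i t).card ≤ (ZC T χ w s' i t).card := by
    refine Finset.card_le_card fun f' hf' => ?_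
    rw [mem_ZC] at hf' ⊢
    exact ⟨hf'.1, hf'.2.1.mono (inter_subset_inter_right _ (core_mono χ h)), hf'.2.2⟩
  exact_mod_cast this

lemma card_VC_le (T : Tiles S) (χ : Chart Z) (w : Z → ℝ) (s : ℝ) (C i : ℕ) (g : G) (t : ℝ) :
    ((VC T χ w s C i g t).card : ℝ) ≤ zc T χ w s i t := by
  rw [zc_eq]
  have : (VC T χ w s C i g t).card ≤ (ZC T χ w s i t).card :=
    Finset.card_le_card fun f' hf' => (mem_VC.1 hf').1
  exact_mod_cast this

lemma sum_VC_le (T : Tiles S) (χ : Chart Z) (s : ℝ) (C : ℕ) : ∃ C1 : ℝ, 0 < C1 ∧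
    ∀ (w : Z → ℝ) (i j : ℕ) (t : ℝ) (Γ : Finset G), Γ ⊆ S.sph j →
      ∑ g ∈ Γ, ((VC T χ w s C i g t).card : ℝ) ≤
        C1 * Real.exp (S.v * ((j : ℝ) - (i : ℝ) / 2)) * zc T χ w s i t := by
  classical
  obtain ⟨C0, hC0, hcnt⟩ := M6_Loc.card_gp_ge S
  refine ⟨C0 * Real.exp (S.v * C), by positivity, fun w i j t Γ hΓ => ?_⟩
  have h1 : ∑ g ∈ Γ, (VC T χ w s C i g t).card =
      ∑ f' ∈ ZC T χ w s i t, (Γ.filter fun g => (i : ℝ) / 2 - C ≤ S.gp f' g).card := by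
    simp only [VC, Finset.card_filter]
    exact Finset.sum_comm
  have h2 : ∀ f' ∈ ZC T χ w s i t,
      ((Γ.filter fun g => (i : ℝ) / 2 - C ≤ S.gp f' g).card : ℝ) ≤
        C0 * Real.exp (S.v * C) * Real.exp (S.v * ((j : ℝ) - (i : ℝ) / 2)) := by
    intro f' hf'
    have hf1 := (mem_ZC.1 hf').1
    have h3 := hcnt j ((i : ℝ) / 2 - C) f'
      (Γ.filter fun g => (i : ℝ) / 2 - C ≤ S.gp f' g)
      (by
        rw [hf1]
        have : (0 : ℝ) ≤ i := Nat.cast_nonneg i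
        have : (0 : ℝ) ≤ C := Nat.cast_nonneg C
        linarith)
      (by
        intro g hg
        rw [Finset.mem_filter] at hg
        exact ⟨Setup.mem_sph.1 (hΓ hg.1), hg.2⟩)
    refine h3.trans (le_of_eq ?_)
    rw [mul_assoc, ← Real.exp_add]
    congr 2
    ring
  have h3 : (∑ g ∈ Γ, ((VC T χ w s C i g t).card : ℝ)) =
      ∑ f' ∈ ZC T χ w s i t,
        ((Γ.filter fun g => (i : ℝ) / 2 - C ≤ S.gp f' g).card : ℝ) := by
    exact_mod_cast h1
  rw [h3, zc_eq]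
  calc _ ≤ ∑ f' ∈ ZC T χ w s i t,
          C0 * Real.exp (S.v * C) * Real.exp (S.v * ((j : ℝ) - (i : ℝ) / 2)) :=
        Finset.sum_le_sum h2
    _ = _ := by
        rw [Finset.sum_const, nsmul_eq_mul]
        ring

/-! ### one stage -/

lemma card_quot_lt (Γ : Finset G) (I0 : ℕ) (g : G) [DecidablePred fun g2 : G => S.len (g * g2⁻¹) < I0] :
    (Γ.filter fun g2 => S.len (g * g2⁻¹) < I0).card ≤ (S.bal I0).card := by
  refine Finset.card_le_card_of_injOn (fun g2 => g * g2⁻¹) ?_ ?_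
  · intro g2 hg2
    have := (Finset.mem_filter.1 hg2).2
    exact (M6_Loc.mem_bal S).2 this.le
  · intro a _ b _ hab
    exact inv_injective (mul_left_cancel hab)

lemma vis_isCompact {w : Z → ℝ} {O D : Set Z} {g : G} (hw : ContinuousOn w O)
    (hD : IsCompact D) (S : Setup G Z) (h : ∀ y ∈ D, g • y ∈ O) : IsCompact (vis w D g) := by
  have h1 : vis w D g = w '' ((fun y => g • y) '' D) := by
    ext t
    simp only [vis, mem_setOf_eq, mem_image, exists_exists_and_eq_and]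
  rw [h1]
  refine (hD.image (S.cont g)).image_of_continuousOn (hw.mono ?_)
  rintro _ ⟨y, hy, rfl⟩
  exact h y hy

lemma D_subset (ψ : Chart Z) : ψ.D 1 ⊆ closure ((ψ.E 2)ᶜ) := by
  refine Subset.trans ?_ subset_closure
  rw [Chart.E, compl_compl]
  exact image_mono (Metric.closedBall_subset_ball (by norm_num))

lemma D_isCompact (ψ : Chart Z) (r : ℝ) : IsCompact (ψ.D r) :=
  (isCompact_closedBall _ _).image ψ.emb.continuous

theorem stage_exists [CompactSpace Z] {T : Tiles S} (P : Rec T) (Λ : Lim P) (h5 : M5Out P Λ)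
    {s s' : ℝ} (hs' : 0 < s') (hss : s' < s) :
    ∃ C1 : ℝ, ∃ i0 nL : ℕ, ∀ᶠ j : ℕ in atTop, Nonempty (Count.Stage ℝ G
      (volume.restrict (Icc (1 / 4 : ℝ) (3 / 4))) S.v C1 i0 j nL
      (zc T P.χ Λ.w s) (zc T P.χ Λ.w s')) := by
  classical
  have := P.fin
  set χ := P.χ with hχ
  set w := Λ.w with hw
  set K0 := χ.core s with hK0
  set K1 := χ.core s' with hK1
  set Tm := (χ.coreO (s' / 2))ᶜ with hTm
  have hδ := S.one_le_δ
  have hTcl : IsClosed Tm := (coreO_isOpen χ _).isClosed_compl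
  have hK1c : IsCompact K1 := core_isCompact χ _
  have hK1o : K1 ⊆ χ.coreO (s' / 2) := core_subset_coreO χ (by linarith)
  have hK1Q : K1 ⊆ χ.Qo := core_subset_Qo χ hs'
  have hoQ : χ.coreO (s' / 2) ⊆ χ.Qo := (coreO_subset_core χ _).trans (core_subset_Qo χ (by linarith))
  have hdisj : Disjoint K1 Tm := disjoint_compl_right.mono_left hK1o
  have hTT : χ.T ⊆ interior Tm := by
    have h1 : (χ.core (s' / 2))ᶜ ⊆ interior Tm :=
      interior_maximal (compl_subset_compl.2 (coreO_subset_core χ _))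
        (core_isCompact χ _).isClosed.isOpen_compl
    exact (compl_subset_compl.2 (core_subset_Qo χ (by linarith))).trans h1
  -- collars
  obtain ⟨e0, he0, hc0⟩ := exists_collar (core_isCompact χ s) (coreO_isOpen χ s')
    (core_subset_coreO χ hss)
  obtain ⟨e1, he1, hc1⟩ := exists_collar (core_isCompact χ s') (coreO_isOpen χ (s' / 2)) hK1o
  have hKK : K0 ⊆ K1 := core_mono χ hss.le
  have hcK : ∀ x ∈ K0, ∀ y, dist x y < e0 → y ∈ K1 := fun x hx y hxy =>
    coreO_subset_core χ _ (hc0 x hx y hxy)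
  have hcT : ∀ x ∈ K0, ∀ y ∈ Tm, e1 ≤ dist x y := by
    intro x hx y hy
    by_contra hlt
    exact hy (hc1 x (hKK hx) y (not_le.1 hlt))
  set R' : ℝ := max T.R (P.R1 + S.δ) with hR'
  obtain ⟨C, i0, hMF⟩ := M6_Loc.card_MF_le T he0 he1 hcK hcT R'
  obtain ⟨CL, iL, hloc⟩ := M6_Loc.location S T he0 he1 hcK hcT R'
  obtain ⟨J0, hJ0⟩ := exists_small S R' he0
  obtain ⟨J1, hJ1⟩ := exists_small S R' he1
  obtain ⟨C5, h5'⟩ := h5 K1 Tm hTcl hTT hK1c hK1Q hdisj
  obtain ⟨CV, hCV, hV⟩ := sum_VC_le T χ s' C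
  have hTR : T.R ≤ R' := le_max_left _ _
  have hPR : P.R1 + S.δ ≤ R' := le_max_right _ _
  -- tiles of high level meeting a core
  have htile0 : ∀ h : G, J0 ≤ S.len h → (T.U h ∩ K0).Nonempty → T.U h ⊆ K1 := by
    rintro h hh ⟨p, hp1, hp2⟩ y hy
    exact hcK p hp2 y (hJ0 h hh p (Sh_mono hTR h (T.sub h hp1)) y (Sh_mono hTR h (T.sub h hy)))
  have htile1 : ∀ h : G, J1 ≤ S.len h → (T.U h ∩ K1).Nonempty → T.U h ⊆ χ.Qo := by
    rintro h hh ⟨p, hp1, hp2⟩ y hy
    exact hoQ (hc1 p hp2 y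
      (hJ1 h hh p (Sh_mono hTR h (T.sub h hp1)) y (Sh_mono hTR h (T.sub h hy))))
  -- the groups
  let Γ : ℕ → P.ι → Finset G := fun j i => (S.sph j).filter (fun g => (T.U g ∩ K0).Nonempty ∧
    closure (((P.ψ i).E 2)ᶜ) ⊆ S.Gd P.R1 g)
  have hΓ : ∀ j i g, g ∈ Γ j i ↔ S.len g = j ∧ (T.U g ∩ K0).Nonempty ∧
      closure (((P.ψ i).E 2)ᶜ) ⊆ S.Gd P.R1 g := by
    intro j i g
    simp only [Γ, Finset.mem_filter, Setup.mem_sph]
  have hΓGJ : ∀ j i, Γ j i ⊆ M6_Loc.GJ S K0 R' j := by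
    intro j i g hg
    obtain ⟨h1, ⟨p, hp1, hp2⟩, -⟩ := (hΓ j i g).1 hg
    rw [M6_Loc.GJ, Finset.mem_filter]
    exact ⟨Setup.mem_sph.2 h1, p, hp2, Sh_mono hTR g (T.sub g hp1)⟩
  have hΓsmul : ∀ j i g, J0 ≤ j → g ∈ Γ j i → ∀ y ∈ closure (((P.ψ i).E 2)ᶜ), g • y ∈ K1 := by
    intro j i g hj hg y hy
    obtain ⟨h1, ⟨p, hp1, hp2⟩, h3⟩ := (hΓ j i g).1 hg
    exact hcK p hp2 _ (hJ0 g (by omega) p (Sh_mono hTR g (T.sub g hp1)) _
      (Sh_mono hPR g (smul_mem_Sh (h3 hy))))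
  have hΓloc : ∀ j i, ∀ g ∈ Γ j i, ∀ g2 ∈ Γ j i, iL ≤ S.len (g * g2⁻¹) →
      ∀ y ∈ Tm, (g * g2⁻¹) • y ∈ K1 := by
    intro j i g hg g2 hg2 hlen y hy
    obtain ⟨h1, ⟨p, hp1, hp2⟩, -⟩ := (hΓ j i g).1 hg
    obtain ⟨h1', ⟨p', hp1', hp2'⟩, -⟩ := (hΓ j i g2).1 hg2
    exact (hloc j g g2 h1 h1' ⟨p, hp2, Sh_mono hTR g (T.sub g hp1)⟩
      ⟨p', hp2', Sh_mono hTR g2 (T.sub g2 hp1')⟩ hlen y hy).1
  set B : ℝ := ((S.bal iL).card : ℝ) with hB
  set BV := ∑ i ∈ Finset.range J1, Real.exp (S.v * i) with hBV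
  have hBV0 : 0 ≤ BV := Finset.sum_nonneg (fun i _ => (Real.exp_pos _).le)
  have hB0 : 0 ≤ B := Nat.cast_nonneg _
  have hC0 : (0 : ℝ) ≤ C := Nat.cast_nonneg _
  have hCBV : 0 ≤ C * BV := mul_nonneg hC0 hBV0
  set C1 : ℝ := 1 + |C5| + B + C + C * BV + CV with hC1
  have hC1_one : 1 ≤ C1 := by linarith [abs_nonneg C5]
  have hC1_5 : C5 ≤ C1 := by linarith [le_abs_self C5]
  -- bound of mc
  have hmc : ∀ j i, ∀ g ∈ Γ j i, ∀ t : ℝ, (mc S w Tm (Γ j i) iL g t : ℝ) ≤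
      C1 + C1 * ∑ i ∈ Finset.Icc (max i0 J1) (2 * j), ((VC T χ w s' C i g t).card : ℝ) := by
    intro j i g hg t
    have h1 : mc S w Tm (Γ j i) iL g t ≤ (S.bal iL).card +
        (M6_Loc.MF S K0 Tm w R' i0 j g t).card := by
      have h2 : (Γ j i).filter (fun g2 => S.len (g * g2⁻¹) < iL ∨
          ∃ y ∈ Tm, w ((g * g2⁻¹) • y) = t) ⊆
          ((Γ j i).filter (fun g2 => S.len (g * g2⁻¹) < iL)) ∪
            (M6_Loc.MF S K0 Tm w R' i0 j g t) := by
        intro g2 hg2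
        rw [Finset.mem_filter] at hg2
        rw [Finset.mem_union]
        rcases hg2.2 with h3 | ⟨y, hy, h3⟩
        · exact Or.inl (Finset.mem_filter.2 ⟨hg2.1, h3⟩)
        · refine Or.inr ?_
          rw [M6_Loc.MF, Finset.mem_filter]
          exact ⟨hΓGJ j i hg2.1, Or.inr ⟨_, ⟨y, hy, rfl⟩, h3⟩⟩
      calc mc S w Tm (Γ j i) iL g t ≤ _ := Finset.card_le_card h2
        _ ≤ _ := Finset.card_union_le _ _
        _ ≤ _ := Nat.add_le_add_right (card_quot_lt (S := S) _ _ _) _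
    have h2 : (mc S w Tm (Γ j i) iL g t : ℝ) ≤ B +
        ((M6_Loc.MF S K0 Tm w R' i0 j g t).card : ℝ) := by
      rw [hB]; exact_mod_cast h1
    have h3 := hMF w j g t (hΓGJ j i hg)
    have h4 : ∑ i ∈ Finset.Icc i0 (2 * j), ((M6_Loc.VF T K1 w C i g t).card : ℝ) ≤
        BV + ∑ i ∈ Finset.Icc (max i0 J1) (2 * j), ((VC T χ w s' C i g t).card : ℝ) := by
      have h5 : ∑ i ∈ Finset.Icc i0 (2 * j), ((M6_Loc.VF T K1 w C i g t).card : ℝ) ≤
          ∑ i ∈ Finset.range J1 ∪ Finset.Icc (max i0 J1) (2 * j),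
            ((M6_Loc.VF T K1 w C i g t).card : ℝ) := by
        refine Finset.sum_le_sum_of_subset_of_nonneg ?_ (fun i _ _ => Nat.cast_nonneg _)
        intro i hi
        rw [Finset.mem_Icc] at hi
        rw [Finset.mem_union, Finset.mem_range, Finset.mem_Icc]
        omega
      refine h5.trans ?_
      have h6 : ∑ i ∈ Finset.range J1 ∪ Finset.Icc (max i0 J1) (2 * j),
            ((M6_Loc.VF T K1 w C i g t).card : ℝ) ≤
          ∑ i ∈ Finset.range J1, ((M6_Loc.VF T K1 w C i g t).card : ℝ) +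
          ∑ i ∈ Finset.Icc (max i0 J1) (2 * j), ((M6_Loc.VF T K1 w C i g t).card : ℝ) := by
        rw [← Finset.sum_union_inter]
        exact le_add_of_nonneg_right (Finset.sum_nonneg (fun i _ => Nat.cast_nonneg _))
      refine h6.trans (add_le_add ?_ ?_)
      · refine Finset.sum_le_sum (fun i _ => ?_)
        have h7 := M6_Loc.card_VF_le T K1 w C i g t
        have h8 := M6_Loc.card_ZF_le T K1 w i t
        have h9 : ((M6_Loc.VF T K1 w C i g t).card : ℝ) ≤ ((M6_Loc.ZF T K1 w i t).card : ℝ) := by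
          exact_mod_cast h7
        exact h9.trans h8
      · refine Finset.sum_le_sum (fun i hi => ?_)
        rw [Finset.mem_Icc] at hi
        have h7 : M6_Loc.VF T K1 w C i g t ⊆ VC T χ w s' C i g t := by
          intro f' hf'
          rw [M6_Loc.VF, Finset.mem_filter, M6_Loc.ZF, Finset.mem_filter, Setup.mem_sph] at hf'
          rw [mem_VC, mem_ZC]
          obtain ⟨⟨h8, h9, h10⟩, h11⟩ := hf'
          refine ⟨⟨h8, h9, subset_closure ?_⟩, h11⟩
          have h12 : T.U f' ⊆ χ.Qo := htile1 f' (by omega) h9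
          rwa [inter_eq_self_of_subset_left h12]
        exact_mod_cast Finset.card_le_card h7
    have h5 : 0 ≤ ∑ i ∈ Finset.Icc (max i0 J1) (2 * j), ((VC T χ w s' C i g t).card : ℝ) :=
      Finset.sum_nonneg (fun i _ => Nat.cast_nonneg _)
    have h6 : (C : ℝ) ≤ C1 := by linarith [abs_nonneg C5]
    nlinarith [mul_le_mul_of_nonneg_left h4 hC0, mul_le_mul_of_nonneg_right h6 h5, abs_nonneg C5]
  -- measurability
  have hDsub : ∀ i, (P.ψ i).D 1 ⊆ closure (((P.ψ i).E 2)ᶜ) := fun i => D_subset _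
  have hmA : ∀ j i, J0 ≤ j → ∀ g ∈ Γ j i, MeasurableSet (vis w ((P.ψ i).D 1) g) := by
    intro j i hj g hg
    exact (vis_isCompact Λ.cont (D_isCompact _ _) S
      (fun y hy => hK1Q (hΓsmul j i g hj hg y (hDsub i hy)))).measurableSet
  have hmm : ∀ j i, ∀ g ∈ Γ j i, Measurable (fun t : ℝ => (mc S w Tm (Γ j i) iL g t : ℝ)) := by
    intro j i g hg
    refine measurable_card_filter (Γ j i) (fun g2 => if S.len (g * g2⁻¹) < iL then univ else
      vis w Tm (g * g2⁻¹)) ?_ _ ?_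
    · intro g2 hg2
      by_cases hlt : S.len (g * g2⁻¹) < iL
      · simp only [hlt, if_true]; exact MeasurableSet.univ
      · simp only [hlt, if_false]
        exact (vis_isCompact Λ.cont hTcl.isCompact S
          (fun y hy => hK1Q (hΓloc j i g hg g2 hg2 (not_lt.1 hlt) y hy))).measurableSet
    · intro t g2
      rw [Finset.mem_filter]
      by_cases hlt : S.len (g * g2⁻¹) < iL
      · simp [hlt]
      · simp [hlt, vis]
  -- the stage
  let e := Fintype.equivFin P.ι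
  refine ⟨C1, max i0 J1, Fintype.card P.ι, ?_⟩
  filter_upwards [eventually_ge_atTop J0] with j hj
  refine ⟨{
    Gj := fun l => Γ j (e.symm l)
    A := fun l g => vis w ((P.ψ (e.symm l)).D 1) g
    m := fun l g t => (mc S w Tm (Γ j (e.symm l)) iL g t : ℝ)
    V := fun l i g t => ((VC T χ w s' C i g t).card : ℝ)
    measA := fun l g hg => hmA j _ hj g hg
    measm := fun l g hg => hmm j _ g hg
    measV := fun l i g hg => VC_measurable T χ w s' C i g
    m0 := fun l g hg t => Nat.cast_nonneg _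
    V0 := fun l i g hg t => Nat.cast_nonneg _
    card := ?_
    cover := ?_
    pack := ?_
    mb := fun l g hg t ht => hmc j _ g hg t
    Vb := ?_
    Vc := ?_ }⟩
  · intro l
    have h1 : ((Γ j (e.symm l)).card : ℝ) ≤ Real.exp (S.v * j) := by
      refine le_trans ?_ (M6_Loc.card_bal_le S j)
      have : (Γ j (e.symm l)).card ≤ (S.bal j).card :=
        Finset.card_le_card fun g hg => (M6_Loc.mem_bal S).2 ((hΓ j _ g).1 hg).1.le
      exact_mod_cast this
    exact h1.trans (le_mul_of_one_le_left (Real.exp_pos _).le hC1_one)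
  · intro t
    rw [zc_eq]
    -- index of a tile
    have hidx : ∀ h ∈ ZC T χ w s j t, ∃ i : P.ι, h ∈ Γ j i ∧ t ∈ vis w ((P.ψ i).D 1) h := by
      intro h hh
      rw [mem_ZC] at hh
      obtain ⟨h1, h2, h3⟩ := hh
      have h4 : T.U h ⊆ K1 := htile0 h (by omega) h2
      rw [inter_eq_self_of_subset_left (h4.trans hK1Q)] at h3
      have h5 : IsCompact (w '' T.U h) :=
        (T.isClosed h).isCompact.image_of_continuousOn (Λ.cont.mono (h4.trans hK1Q))
      rw [h5.isClosed.closure_eq] at h3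
      obtain ⟨y, hy, hyt⟩ := h3
      have h6 : h⁻¹ • y ∈ S.Gd P.R0 h := by
        have h7 := inv_smul_mem_Gd (S := S) (T.sub h hy)
        have h8 := P.hR0
        simp only [Setup.Gd, mem_setOf_eq] at h7 ⊢
        linarith
      obtain ⟨i, hi1, hi2⟩ := P.fam h _ h6
      refine ⟨i, (hΓ j i h).2 ⟨h1, h2, hi2⟩, h⁻¹ • y, hi1 (Metric.mem_ball_self P.η_pos), ?_⟩
      rw [smul_inv_smul, hyt]
    have h1 : ((ZC T χ w s j t).card : ℝ) ≤ ∑ h ∈ ZC T χ w s j t, ∑ i : P.ι,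
        (if h ∈ Γ j i then (vis w ((P.ψ i).D 1) h).indicator (fun _ => (1 : ℝ)) t else 0) := by
      rw [Finset.card_eq_sum_ones]
      push_cast
      refine Finset.sum_le_sum (fun h hh => ?_)
      obtain ⟨i, hi1, hi2⟩ := hidx h hh
      refine le_trans ?_ (Finset.single_le_sum (f := fun i => if h ∈ Γ j i then
        (vis w ((P.ψ i).D 1) h).indicator (fun _ => (1 : ℝ)) t else 0) ?_ (Finset.mem_univ i))
      · simp only [hi1, if_true, indicator_of_mem hi2, le_refl]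
      · intro i' _
        split_ifs
        · exact indicator_nonneg (fun _ _ => zero_le_one) _
        · exact le_rfl
    refine h1.trans ?_
    rw [Finset.sum_comm]
    rw [Equiv.sum_comp e.symm (fun i => ∑ g ∈ Γ j i,
      (vis w ((P.ψ i).D 1) g).indicator (fun _ => (1 : ℝ)) t)]
    refine Finset.sum_le_sum (fun i _ => ?_)
    rw [← Finset.sum_filter]
    refine Finset.sum_le_sum_of_subset_of_nonneg ?_ ?_
    · intro h hh
      exact (Finset.mem_filter.1 hh).2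
    · intro _ _ _
      exact indicator_nonneg (fun _ _ => zero_le_one) _
  · intro l Θ hΘ M hM
    have hIcc : MeasurableSet (Icc (1 / 4 : ℝ) (3 / 4)) := measurableSet_Icc
    have h1 := h5' j (e.symm l) (Γ j (e.symm l)) iL
      (fun g hg => Setup.mem_sph.2 ((hΓ j _ g).1 hg).1)
      (fun g hg => ⟨hΓsmul j _ g hj hg, ((hΓ j _ g).1 hg).2.2⟩)
      (hΓloc j _) (Θ ∩ Icc (1 / 4 : ℝ) (3 / 4)) (hΘ.inter hIcc) inter_subset_right M hM
    rw [measureReal_restrict_apply' hIcc]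
    have h2 : ∀ g ∈ Γ j (e.symm l), (volume.restrict (Icc (1 / 4 : ℝ) (3 / 4))).real
        (Θ ∩ vis w ((P.ψ (e.symm l)).D 1) g ∩ {t | (mc S w Tm (Γ j (e.symm l)) iL g t : ℝ) ≤ M}) =
        volume.real (Θ ∩ Icc (1 / 4 : ℝ) (3 / 4) ∩ vis w ((P.ψ (e.symm l)).D 1) g ∩
          {t | (mc S w Tm (Γ j (e.symm l)) iL g t : ℝ) ≤ M}) := by
      intro g _
      rw [measureReal_restrict_apply' hIcc]
      congr 1
      ext t
      simp only [mem_inter_iff]
      tauto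
    rw [Finset.sum_congr rfl h2]
    refine h1.trans ?_
    have h3 : 0 ≤ (2 * M + 1) * volume.real (Θ ∩ Icc (1 / 4 : ℝ) (3 / 4)) := by positivity
    nlinarith
  · intro l i g hg t
    exact (card_VC_le T χ w s' C i g t).trans
      (le_mul_of_one_le_left (zc_nonneg T χ w s' i t) hC1_one)
  · intro l i _ t
    refine (hV w i j t (Γ j (e.symm l)) (fun g hg => Setup.mem_sph.2 ((hΓ j _ g).1 hg).1)).trans ?_
    have h1 : CV ≤ C1 := by linarith [abs_nonneg C5]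
    have h2 : 0 ≤ Real.exp (S.v * ((j : ℝ) - (i : ℝ) / 2)) * zc T χ w s' i t :=
      mul_nonneg (Real.exp_pos _).le (zc_nonneg T χ w s' i t)
    nlinarith

/-- **Step 7**: the packing inequality contradicts the level size. -/
theorem M7 {T : Tiles S} (Φ : Z ≃ₜ S2) (P : Rec T) (Λ : Lim P) (h5 : M5Out P Λ) : False := by
  have : CompactSpace S2 := isCompact_iff_compactSpace.1 (isCompact_sphere _ _)
  have : CompactSpace Z := Φ.symm.compactSpace
  have hpos : ∀ k : ℕ, 0 < Λ.s0 / 2 ^ k := fun k => div_pos Λ.s0_pos (by positivity)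
  have hlt : ∀ k : ℕ, Λ.s0 / 2 ^ (k + 1) < Λ.s0 / 2 ^ k := by
    intro k
    have h1 := hpos k
    have h2 : Λ.s0 / 2 ^ (k + 1) = Λ.s0 / 2 ^ k / 2 := by
      rw [pow_succ, div_div]
    rw [h2]
    linarith
  obtain ⟨c, hc, a, ha, hlow⟩ := Λ.low
  refine Count.counting (T := ℝ) (G := G) (μ := volume.restrict (Icc (1 / 4 : ℝ) (3 / 4))) ?_ S.v a
    ha (fun k i t => zc T P.χ Λ.w (Λ.s0 / 2 ^ k) i t) (fun k i => zc_measurable T P.χ Λ.w _ i)
    (fun k i t => zc_nonneg T P.χ Λ.w _ i t) (fun k i t => zc_mono T P.χ Λ.w (hlt k).le i t)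
    (fun k => ⟨1, fun i t => by rw [one_mul]; exact zc_le T P.χ Λ.w _ i t⟩) ⟨c, hc, ?_⟩
    (fun k => stage_exists P Λ h5 (hpos (k + 1)) (hlt k))
  · rw [measureReal_restrict_apply' measurableSet_Icc, univ_inter, Real.volume_real_Icc]
    norm_num
  · simpa using hlow

end Crest.Agent.R193.M7_Glue
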