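import Mathlib
import Crest.Agent.R193.M_Defs
import Crest.Agent.R193.M3_Level
import Crest.Agent.R193.M7_Glue
import Crest.Agent.R193.P_Comp
import Crest.Agent.R193.T_Comp
import Crest.Agent.R193.M1_Main

/-!
# R193, M2_Level (helper878): size of the level sets of the limit function (field `low` of `Lim`)
-/

set_option autoImplicit false

noncomputable section

open Set Filter Topology MeasureTheory

namespace Crest.Agent.R193.M2_Level

variable {G Z : Type} [Group G] [MetricSpace Z] [MulAction G Z] {S : Setup G Z}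

/-- a chain from `P` to `¬ P` has a step from `P` to `¬ P` -/
theorem exists_step {α : Type*} {r : α → α → Prop} {p : α → Prop} {a b : α}
    (h : Relation.ReflTransGen r a b) (ha : p a) (hb : ¬ p b) :
    ∃ x y, Relation.ReflTransGen r a x ∧ r x y ∧ p x ∧ ¬ p y := by
  induction h with
  | refl => exact absurd ha hb
  | @tail c d hac hcd ih =>
    by_cases hc : p c
    · exact ⟨c, d, hac, hcd, hc, hb⟩
    · exact ih hc

/-- the union of the sets reachable from `x` is preconnected -/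
theorem isPreconnected_reach {X ι : Type*} [TopologicalSpace X] {U : ι → Set X} {A : Set ι}
    (hU : ∀ a ∈ A, IsPreconnected (U a)) {x : ι} (hx : x ∈ A) :
    IsPreconnected (⋃ a ∈ {a | Relation.ReflTransGen
      (fun a b => a ∈ A ∧ b ∈ A ∧ (U a ∩ U b).Nonempty) x a}, U a) := by
  set r := fun a b => a ∈ A ∧ b ∈ A ∧ (U a ∩ U b).Nonempty with hr
  have hmem : ∀ a, Relation.ReflTransGen r x a → a ∈ A := by
    intro a ha
    rcases Relation.ReflTransGen.cases_tail ha with rfl | ⟨c, _, hc⟩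
    · exact hx
    · exact hc.2.1
  -- for each reachable `a` there is a preconnected subset containing `U x` and `U a`
  have key : ∀ a, Relation.ReflTransGen r x a → ∃ W, IsPreconnected W ∧ U x ⊆ W ∧ U a ⊆ W ∧
      W ⊆ ⋃ a ∈ {a | Relation.ReflTransGen r x a}, U a := by
    intro a ha
    induction ha with
    | refl =>
      exact ⟨U x, hU x hx, Subset.rfl, Subset.rfl, subset_biUnion_of_mem
        (u := fun a => U a) (show x ∈ {a | Relation.ReflTransGen r x a} from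
          Relation.ReflTransGen.refl)⟩
    | @tail c d hac hcd ih =>
      obtain ⟨W, hW, hxW, hcW, hWs⟩ := ih
      obtain ⟨y, hy1, hy2⟩ := hcd.2.2
      refine ⟨W ∪ U d, IsPreconnected.union y (hcW hy1) hy2 hW (hU d hcd.2.1),
        hxW.trans subset_union_left, subset_union_right, union_subset hWs ?_⟩
      exact subset_biUnion_of_mem (u := fun a => U a)
        (show d ∈ {a | Relation.ReflTransGen r x a} from hac.tail hcd)
  rcases (U x).eq_empty_or_nonempty with he | ⟨x0, hx0⟩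
  · have : (⋃ a ∈ {a | Relation.ReflTransGen r x a}, U a) = ∅ := by
      rw [eq_empty_iff_forall_notMem]
      intro y hy
      obtain ⟨a, ha, hya⟩ := mem_iUnion₂.1 hy
      rcases Relation.ReflTransGen.cases_head ha with rfl | ⟨c, hc, _⟩
      · rw [he] at hya; exact hya
      · obtain ⟨z, hz, _⟩ := hc.2.2
        rw [he] at hz; exact hz
    rw [this]
    exact isPreconnected_empty
  · refine isPreconnected_of_forall x0 ?_
    intro y hy
    obtain ⟨a, ha, hya⟩ := mem_iUnion₂.1 hy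
    obtain ⟨W, hW, hxW, haW, hWs⟩ := key a ha
    exact ⟨W, hWs, hxW hx0, haW hya, hW⟩

/-- the midline segment -/
def seg (χ : Chart Z) (a b : ℝ) : Set Z := χ.f '' (Icc a b ×ˢ {(1 / 2 : ℝ)})

theorem low_pointwise (T : Tiles S) (Φ : Z ≃ₜ S2) (P : Rec T) (l : Filter ℕ) [l.NeBot]
    (hl : l ≤ atTop) (hrec : P.recs ∈ l) (w : Z → ℝ) (cont : ContinuousOn w P.χ.Qo)
    (unif : ∀ K : Set Z, IsCompact K → K ⊆ P.χ.Qo → ∀ e > 0, ∀ᶠ n in l,
      ∀ h ∈ T.V P.χ n, ∀ y ∈ T.U h ∩ K, |P.u n h - w y| ≤ e)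
    {a b : ℝ} (ha : 0 < a) (hab : a < b) (hb : b < 1)
    (hwa : w (P.χ.f (a, 1 / 2)) < 1 / 4) (hwb : 3 / 4 < w (P.χ.f (b, 1 / 2))) :
    ∃ s0 > 0, s0 < 1 / 2 ∧ ∃ c > 0, ∀ i : ℕ, ∀ t ∈ Icc (1 / 4 : ℝ) (3 / 4),
      c * Real.exp (S.ε * i) ≤ zc T P.χ w s0 i t := by
  classical
  have hcompact : CompactSpace Z := Φ.symm.compactSpace
  have hpre : PreconnectedSpace Z := ⟨(T_Main.connectedSpace_of_homeo Φ).isPreconnected⟩
  set χ := P.χ with hχ
  set s0 : ℝ := min (min a (1 - b)) (1 / 2) / 2 with hs0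
  have hm1 : min (min a (1 - b)) (1 / 2) ≤ a := (min_le_left _ _).trans (min_le_left _ _)
  have hm2 : min (min a (1 - b)) (1 / 2) ≤ 1 - b := (min_le_left _ _).trans (min_le_right _ _)
  have hm3 : min (min a (1 - b)) (1 / 2) ≤ 1 / 2 := min_le_right _ _
  have hm4 : 0 < min (min a (1 - b)) (1 / 2) := by
    refine lt_min (lt_min ha (by linarith)) (by norm_num)
  have hs0pos : 0 < s0 := by positivity
  have hs0a : s0 < a := by rw [hs0]; linarith
  have hs0b : s0 < 1 - b := by rw [hs0]; linarith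
  have hs0h : s0 < 1 / 2 := by rw [hs0]; linarith
  -- the segment
  have hsegc : IsCompact (seg χ a b) :=
    (isCompact_Icc.prod isCompact_singleton).image χ.emb.continuous
  have hsegp : IsPreconnected (seg χ a b) :=
    (isPreconnected_Icc.prod isPreconnected_singleton).image _ χ.emb.continuous.continuousOn
  have hseg : seg χ a b ⊆ χ.coreO s0 := by
    refine image_mono ?_
    rintro ⟨x, y⟩ ⟨hx, hy⟩
    have hy' : y = 1 / 2 := hy
    have hx1 : a ≤ x := hx.1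
    have hx2 : x ≤ b := hx.2
    refine ⟨⟨?_, ?_⟩, ⟨?_, ?_⟩⟩ <;> simp only <;> linarith
  have hO : IsOpen (χ.coreO s0) := M7_Glue.coreO_isOpen χ s0
  have hcoreK : IsCompact (χ.core s0) := M7_Glue.core_isCompact χ s0
  have hclO : closure (χ.coreO s0) ⊆ χ.core s0 :=
    closure_minimal (M7_Glue.coreO_subset_core χ s0) hcoreK.isClosed
  -- distance from the segment to the frontier
  obtain ⟨d0, hd0, hd⟩ := M7_Glue.exists_collar hsegc hO hseg
  refine ⟨s0, hs0pos, hs0h, d0 * Real.exp (-S.ε * (T.R + S.δ)), by positivity, ?_⟩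
  intro i t ht
  -- collar of the core
  obtain ⟨d1, hd1, hdc⟩ := M7_Glue.exists_collar hcoreK (M7_Glue.coreO_isOpen χ (s0 / 2))
    (M7_Glue.core_subset_coreO χ (by linarith))
  -- gap at level `t`
  have hgap : ∀ h ∈ S.sph i, t ∉ w '' (T.U h ∩ χ.core s0) →
      ∃ e > 0, ∀ z ∈ T.U h ∩ χ.core s0, e ≤ |w z - t| := by
    intro h _ hnt
    have hK : IsCompact (T.U h ∩ χ.core s0) := hcoreK.inter_left (T.isClosed h)
    have hcw : ContinuousOn (fun z => |w z - t|) (T.U h ∩ χ.core s0) :=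
      ((cont.mono (inter_subset_right.trans (M7_Glue.core_subset_Qo χ hs0pos))).sub
        continuousOn_const).abs
    rcases (T.U h ∩ χ.core s0).eq_empty_or_nonempty with he | hne
    · exact ⟨1, one_pos, fun z hz => by rw [he] at hz; exact absurd hz (notMem_empty _)⟩
    · obtain ⟨z0, hz0, hmin⟩ := hK.exists_isMinOn hne hcw
      refine ⟨|w z0 - t|, ?_, fun z hz => hmin hz⟩
      refine abs_pos.2 (sub_ne_zero.2 ?_)
      intro heq
      exact hnt ⟨z0, hz0, heq⟩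
  obtain ⟨e0, he0, hgap0⟩ : ∃ e0 > 0, ∀ h ∈ S.sph i, t ∉ w '' (T.U h ∩ χ.core s0) →
      ∀ z ∈ T.U h ∩ χ.core s0, e0 ≤ |w z - t| := by
    choose! e he1 he2 using hgap
    set F := insert (1 : ℝ) (((S.sph i).filter
      (fun h => t ∉ w '' (T.U h ∩ χ.core s0))).image e) with hF
    have hne : F.Nonempty := ⟨1, Finset.mem_insert_self _ _⟩
    refine ⟨F.min' hne, ?_, ?_⟩
    · rw [gt_iff_lt, Finset.lt_min'_iff]
      intro y hy
      rcases Finset.mem_insert.1 hy with rfl | hy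
      · exact one_pos
      · obtain ⟨h, hh, rfl⟩ := Finset.mem_image.1 hy
        exact he1 h (Finset.mem_filter.1 hh).1 (Finset.mem_filter.1 hh).2
    · intro h hh hnt z hz
      refine (F.min'_le _ (Finset.mem_insert_of_mem (Finset.mem_image_of_mem _
        (Finset.mem_filter.2 ⟨hh, hnt⟩)))).trans (he2 h hh hnt z hz)
  -- choose the tolerance and the level
  set e : ℝ := min (e0 / 4) (min ((1 / 4 - w (χ.f (a, 1 / 2))) / 2)
    ((w (χ.f (b, 1 / 2)) - 3 / 4) / 2)) with he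
  have hepos : 0 < e := by
    refine lt_min (by positivity) (lt_min (by linarith) (by linarith))
  have he1 : e ≤ e0 / 4 := min_le_left _ _
  have he2 : e ≤ (1 / 4 - w (χ.f (a, 1 / 2))) / 2 := (min_le_right _ _).trans (min_le_left _ _)
  have he3 : e ≤ (w (χ.f (b, 1 / 2)) - 3 / 4) / 2 := (min_le_right _ _).trans (min_le_right _ _)
  obtain ⟨N, hN⟩ := M1x.tile_small T hd1
  have hev := unif (χ.core (s0 / 2)) (M7_Glue.core_isCompact χ _)
    (M7_Glue.core_subset_Qo χ (by linarith)) e hepos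
  obtain ⟨n, ⟨hunif, hnrec⟩, hnN⟩ := ((hev.and hrec).and (hl (eventually_ge_atTop N))).exists
  have hsmall := hN n hnN
  set u := P.u n with hu
  have hcore2 : χ.core s0 ⊆ χ.core (s0 / 2) := M7_Glue.core_mono χ (by linarith)
  have hQcore : χ.core (s0 / 2) ⊆ χ.Q :=
    (M7_Glue.core_subset_Qo χ (by linarith)).trans (M3_Level.Qo_sub_Q χ)
  have hVmem : ∀ h ∈ S.sph n, ∀ z ∈ T.U h, z ∈ χ.core (s0 / 2) → h ∈ T.V χ n := by
    intro h hh z hz hzc
    exact Tiles.mem_V.2 ⟨Setup.mem_sph.1 hh, z, hz, hQcore hzc⟩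
  -- end points of the segment
  have hpa : χ.f (a, 1 / 2) ∈ seg χ a b := ⟨(a, 1 / 2), ⟨⟨le_rfl, hab.le⟩, rfl⟩, rfl⟩
  have hpb : χ.f (b, 1 / 2) ∈ seg χ a b := ⟨(b, 1 / 2), ⟨⟨hab.le, le_rfl⟩, rfl⟩, rfl⟩
  have hsegcore : seg χ a b ⊆ χ.core (s0 / 2) :=
    hseg.trans ((M7_Glue.coreO_subset_core χ s0).trans hcore2)
  obtain ⟨h1, hh1, hph1⟩ := T_Comp.exists_mem T (χ.f (a, 1 / 2)) n
  obtain ⟨h2, hh2, hph2⟩ := T_Comp.exists_mem T (χ.f (b, 1 / 2)) n
  have hu1 : u h1 ≤ t := by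
    have := hunif h1 (hVmem h1 hh1 _ hph1 (hsegcore hpa)) _ ⟨hph1, hsegcore hpa⟩
    have h3 := (abs_le.1 this).2
    have h4 := ht.1
    linarith
  have hu2 : ¬ u h2 ≤ t := by
    have := hunif h2 (hVmem h2 hh2 _ hph2 (hsegcore hpb)) _ ⟨hph2, hsegcore hpb⟩
    have h3 := (abs_le.1 this).1
    have h4 := ht.2
    rw [not_le]
    linarith
  have hchain := T_Comp.chain_of_preconnected T (F := S.sph n) hsegp
    (by rw [T_Comp.un_sph]; exact subset_univ _) hh1 hh2 ⟨_, hph1, hpa⟩ ⟨_, hph2, hpb⟩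
  obtain ⟨x, y, _, hxy, hxt, hyt⟩ := exists_step (p := fun h => u h ≤ t) hchain hu1 hu2
  obtain ⟨hxF, hyF, p0, ⟨hp0x, hp0y⟩, hp0s⟩ := hxy
  have hxV : x ∈ T.V χ n := hVmem x hxF _ hp0x (hsegcore hp0s)
  have hyV : y ∈ T.V χ n := hVmem y hyF _ hp0y (hsegcore hp0s)
  have hxlev : x ∈ T.lev χ n u t :=
    ⟨hxV, y, hyV, ⟨p0, hp0x, hp0y⟩, Or.inl ⟨hxt, not_le.1 hyt⟩⟩
  -- the component of the level chain
  have ht0 : (0 : ℝ) ≤ t := by have := ht.1; linarith
  have ht1 : t < 1 := by have := ht.2; linarith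
  obtain ⟨h3, hc3, hh3, hT3⟩ := M3_Level.M3 T Φ P n hnrec t ht0 ht1 x hxlev
  set A : Set G := {c | Relation.ReflTransGen (fun a b => a ∈ T.lev χ n u t ∧
    b ∈ T.lev χ n u t ∧ (T.U a ∩ T.U b).Nonempty) x c} with hA
  have hAlev : A ⊆ T.lev χ n u t := by
    intro c hc
    rcases Relation.ReflTransGen.cases_tail hc with rfl | ⟨c', _, hc'⟩
    · exact hxlev
    · exact hc'.2.1
  have hAfin : A.Finite := (T.V χ n).finite_toSet.subset (fun c hc => (hAlev hc).1)
  set C : Set Z := ⋃ c ∈ A, T.U c with hC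
  have hCp : IsPreconnected C :=
    isPreconnected_reach (fun c _ => (T.isConnected c).isPreconnected) hxlev
  have hCc : IsCompact C := (hAfin.isClosed_biUnion (fun c _ => T.isClosed c)).isCompact
  have hxA : x ∈ A := Relation.ReflTransGen.refl
  have hp0C : p0 ∈ C := mem_biUnion hxA hp0x
  have hCT : ¬ C ⊆ χ.coreO s0 := by
    intro hsub
    obtain ⟨z, hz, hzT⟩ := hT3
    have hzC : z ∈ C := mem_biUnion (show h3 ∈ A from hc3) hz
    exact hzT (M7_Glue.core_subset_Qo χ hs0pos (M7_Glue.coreO_subset_core χ s0 (hsub hzC)))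
  obtain ⟨y0, hy0E, hy0f⟩ := P_Comp.boundary_bumping hCc hCp hO hp0C (hseg hp0s) hCT
  set E := connectedComponentIn (C ∩ closure (χ.coreO s0)) p0 with hE
  have hEsub : E ⊆ C ∩ closure (χ.coreO s0) := connectedComponentIn_subset _ _
  have hEp : IsPreconnected E := isPreconnected_connectedComponentIn
  have hp0E : p0 ∈ E := mem_connectedComponentIn ⟨hp0C, subset_closure (hseg hp0s)⟩
  have hEcore : E ⊆ χ.core s0 := fun z hz => hclO (hEsub hz).2
  -- distance
  have hdist : d0 ≤ dist p0 y0 := by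
    by_contra hlt
    rw [not_le] at hlt
    have : y0 ∈ χ.coreO s0 := hd p0 hp0s y0 hlt
    rw [hO.frontier_eq] at hy0f
    exact hy0f.2 this
  -- values of `w` on `E`
  have hwE : ∀ z ∈ E, |w z - t| ≤ 3 * e := by
    intro z hz
    obtain ⟨c, hcA, hzc⟩ := mem_iUnion₂.1 (hEsub hz).1
    have hclev := hAlev hcA
    obtain ⟨hcV, c', hc'V, ⟨q, hqc, hqc'⟩, hcc⟩ := hclev
    have hzcore : z ∈ χ.core s0 := hEcore hz
    have hcs : c ∈ S.sph n := Setup.mem_sph.2 (Tiles.mem_V.1 hcV).1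
    have hq : q ∈ χ.core (s0 / 2) :=
      M7_Glue.coreO_subset_core χ _ (hdc z hzcore q (hsmall c hcs z hzc q hqc))
    have e1 := abs_le.1 (hunif c hcV q ⟨hqc, hq⟩)
    have e2 := abs_le.1 (hunif c' hc'V q ⟨hqc', hq⟩)
    have e3 := abs_le.1 (hunif c hcV z ⟨hzc, hcore2 hzcore⟩)
    rw [abs_le]
    rcases hcc with ⟨h5, h6⟩ | ⟨h5, h6⟩ <;> constructor <;> linarith [e1.1, e1.2, e2.1, e2.2]
  -- counting
  set F := (S.sph i).filter (fun h => (T.U h ∩ E).Nonempty) with hF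
  have hEF : E ⊆ T.un F := by
    intro z hz
    obtain ⟨h, hh, hzh⟩ := T_Comp.exists_mem T z i
    exact (T_Comp.mem_un T).2 ⟨h, Finset.mem_filter.2 ⟨hh, z, hzh, hz⟩, hzh⟩
  have hcard := T_Comp.card_ge T (F := F) (n := i)
    (fun h hh => Setup.mem_sph.1 (Finset.mem_filter.1 hh).1) hEp hEF hp0E hy0E
  have hFZ : F ⊆ M7_Glue.ZC T χ w s0 i t := by
    intro h hh
    obtain ⟨hhi, z, hzh, hzE⟩ := Finset.mem_filter.1 hh
    rw [M7_Glue.mem_ZC]
    refine ⟨Setup.mem_sph.1 hhi, ⟨z, hzh, hEcore hzE⟩, ?_⟩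
    have hin : t ∈ w '' (T.U h ∩ χ.core s0) := by
      by_contra hnt
      have h6 := hgap0 h hhi hnt z ⟨hzh, hEcore hzE⟩
      have h7 := hwE z hzE
      linarith
    exact subset_closure (image_mono (inter_subset_inter_right _
      (M7_Glue.core_subset_Qo χ hs0pos)) hin)
  rw [M7_Glue.zc_eq]
  have hFle : (F.card : ℝ) ≤ ((M7_Glue.ZC T χ w s0 i t).card : ℝ) := by
    exact_mod_cast Finset.card_le_card hFZ
  refine le_trans ?_ (hcard.trans hFle)
  have h8 : 0 ≤ Real.exp (-S.ε * (T.R + S.δ)) * Real.exp (S.ε * i) := by positivity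
  nlinarith

/-- **Level size** (field `low` of `Lim`). -/
theorem low (T : Tiles S) (Φ : Z ≃ₜ S2) (P : Rec T) (l : Filter ℕ) [l.NeBot]
    (hl : l ≤ atTop) (hrec : P.recs ∈ l) (w : Z → ℝ) (cont : ContinuousOn w P.χ.Qo)
    (unif : ∀ K : Set Z, IsCompact K → K ⊆ P.χ.Qo → ∀ e > 0, ∀ᶠ n in l,
      ∀ h ∈ T.V P.χ n, ∀ y ∈ T.U h ∩ K, |P.u n h - w y| ≤ e)
    {a b : ℝ} (ha : 0 < a) (hab : a < b) (hb : b < 1)
    (hwa : w (P.χ.f (a, 1 / 2)) < 1 / 4) (hwb : 3 / 4 < w (P.χ.f (b, 1 / 2))) :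
    ∃ s0 > 0, s0 < 1 / 2 ∧ ∃ c > 0, ∃ a > 0, ∀ᶠ i : ℕ in atTop,
      c * Real.exp (a * i) ≤ ∫ t in Icc (1 / 4 : ℝ) (3 / 4), zc T P.χ w s0 i t := by
  obtain ⟨s0, hs0, hs1, c, hc, hlow⟩ := low_pointwise T Φ P l hl hrec w cont unif ha hab hb hwa hwb
  refine ⟨s0, hs0, hs1, c / 2, by positivity, S.ε, S.ε_pos, Eventually.of_forall fun i => ?_⟩
  have hint : IntegrableOn (fun t => zc T P.χ w s0 i t) (Icc (1 / 4 : ℝ) (3 / 4)) := by
    refine Measure.integrableOn_of_bounded (M := Real.exp (S.v * i)) (by simp)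
      (M7_Glue.zc_measurable T P.χ w s0 i).aestronglyMeasurable ?_
    refine Eventually.of_forall fun t => ?_
    rw [Real.norm_eq_abs, abs_of_nonneg (M7_Glue.zc_nonneg T P.χ w s0 i t)]
    exact M7_Glue.zc_le T P.χ w s0 i t
  have h1 : ∫ _ in Icc (1 / 4 : ℝ) (3 / 4), c * Real.exp (S.ε * i) ≤
      ∫ t in Icc (1 / 4 : ℝ) (3 / 4), zc T P.χ w s0 i t := by
    refine setIntegral_mono_on (integrableOn_const (by simp)) hint measurableSet_Icc ?_
    intro t ht
    exact hlow i t ht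
  rw [setIntegral_const] at h1
  refine le_trans (le_of_eq ?_) h1
  rw [Real.volume_real_Icc, smul_eq_mul]
  norm_num
  ring

end Crest.Agent.R193.M2_Level
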