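import Mathlib
import Crest.Agent.R193.Defs
import Crest.Agent.R193.Planar1

/-!
# R193, block M2 (helper818): the loop lemma

Finite families of closed connected tiles covering a connected space; a graph-connected family
`Σ` of tiles whose union separates `A` from `E`; a function `u` on the tiles that is harmonic at
the tiles missing `E` (or takes there a value also taken on `Σ`).  Then the oscillation of `u` over
the tiles meeting `A` is at most `3 ∑_{σ ∈ Σ} r σ`, where `r σ` bounds `|u h - u σ|` over the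
neighbours `h` of `σ`.
-/

set_option autoImplicit false

open Set Filter Topology

namespace Crest.Agent.R193.M2_Loop

open Crest.Agent.R193

section Graph

variable {ι : Type*}

/-- Along a graph-connected family the oscillation is at most the sum of the local oscillations. -/
theorem famConn_osc {X : Type*} [DecidableEq ι] {U : ι → Set X} {c : Finset ι}
    [TopologicalSpace X] (hc : Planar.FamConn U c) (u r : ι → ℝ) (hr0 : ∀ σ ∈ c, 0 ≤ r σ)
    (hr : ∀ σ ∈ c, ∀ τ ∈ c, (U σ ∩ U τ).Nonempty → |u τ - u σ| ≤ r σ) :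
    ∀ σ ∈ c, ∀ τ ∈ c, |u τ - u σ| ≤ ∑ k ∈ c, r k := by
  intro σ hσ
  set Fam : Finset (Finset ι) := c.powerset.filter
    (fun d => σ ∈ d ∧ ∀ τ ∈ d, |u τ - u σ| ≤ ∑ k ∈ d, r k) with hFam
  have hne : Fam.Nonempty := by
    refine ⟨{σ}, ?_⟩
    simp only [hFam, Finset.mem_filter, Finset.mem_powerset, Finset.singleton_subset_iff,
      Finset.mem_singleton, Finset.sum_singleton, forall_eq, sub_self, abs_zero]
    exact ⟨hσ, trivial, hr0 σ hσ⟩
  obtain ⟨d, hd, hmax⟩ := Finset.exists_max_image _ Finset.card hne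
  simp only [hFam, Finset.mem_filter, Finset.mem_powerset] at hd
  obtain ⟨hdc, hσd, hdo⟩ := hd
  by_cases hdeq : d = c
  · intro τ hτ
    have := hdo τ (hdeq ▸ hτ)
    rwa [hdeq] at this
  exfalso
  obtain ⟨h, hh, h', hh', hh'd, hadj⟩ := hc d hdc ⟨σ, hσd⟩ hdeq
  have hmem : insert h' d ∈ Fam := by
    simp only [hFam, Finset.mem_filter, Finset.mem_powerset]
    refine ⟨Finset.insert_subset hh' hdc, Finset.mem_insert_of_mem hσd, ?_⟩
    intro τ hτ
    rw [Finset.sum_insert hh'd]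
    have hr' : 0 ≤ r h' := hr0 h' hh'
    rcases Finset.mem_insert.1 hτ with rfl | hτ
    · have h1 : |u h - u τ| ≤ r τ := hr τ hh' h (hdc hh) (by rwa [inter_comm])
      have h2 := hdo h hh
      calc |u τ - u σ| = |(u τ - u h) + (u h - u σ)| := by ring_nf
        _ ≤ |u τ - u h| + |u h - u σ| := abs_add_le _ _
        _ ≤ r τ + ∑ k ∈ d, r k := by
            rw [abs_sub_comm (u τ)]
            exact add_le_add h1 h2
    · exact (hdo τ hτ).trans (by linarith)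
  have := hmax _ hmem
  rw [Finset.card_insert_of_notMem hh'd] at this
  omega

/-- Maximum principle. `C` finite set of vertices; every vertex of `C` is harmonic (with respect to
all its neighbours in `P`) or has value `≤ M`; neighbours in `P` outside `C` have values `≤ M`;
no nonempty subset of `C` is closed under taking neighbours. -/
theorem max_le [DecidableEq ι] (P C : Finset ι) (adj : ι → ι → Prop) [DecidableRel adj]
    (u : ι → ℝ) (M : ℝ)
    (hcl : ∀ C' ⊆ C, C'.Nonempty → ∃ h ∈ C', ∃ h' ∈ P, h' ∉ C' ∧ adj h h')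
    (hC : ∀ h ∈ C, (∑ h' ∈ P with adj h h', (u h' - u h) = 0) ∨ u h ≤ M)
    (hN : ∀ h ∈ C, ∀ h' ∈ P, adj h h' → h' ∉ C → u h' ≤ M) :
    ∀ h ∈ C, u h ≤ M := by
  intro h0 hh0
  by_contra hcon
  push Not at hcon
  obtain ⟨k, hk, hmax⟩ := Finset.exists_max_image C u ⟨h0, hh0⟩
  have hkM : M < u k := hcon.trans_le (hmax h0 hh0)
  set C' := C.filter (fun h => u h = u k) with hC'
  have hC'C : C' ⊆ C := Finset.filter_subset _ _
  obtain ⟨h, hh, h', hh'P, hh'C', hadj⟩ := hcl C' hC'C ⟨k, by simp [hC', hk]⟩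
  have hhC : h ∈ C := hC'C hh
  have hhk : u h = u k := (Finset.mem_filter.1 hh).2
  have hharm : ∑ h' ∈ P with adj h h', (u h' - u h) = 0 := by
    rcases hC h hhC with h1 | h1
    · exact h1
    · exact absurd h1 (by rw [hhk]; exact not_le.2 hkM)
  have hle : ∀ x ∈ P.filter (fun h' => adj h h'), u x - u h ≤ 0 := by
    intro x hx
    obtain ⟨hxP, hxa⟩ := Finset.mem_filter.1 hx
    by_cases hxC : x ∈ C
    · have := hmax x hxC
      linarith
    · have := hN h hhC x hxP hxa hxC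
      linarith
  have hz := (Finset.sum_eq_zero_iff_of_nonpos hle).1 hharm h' (Finset.mem_filter.2 ⟨hh'P, hadj⟩)
  have hval : u h' = u k := by linarith
  have hh'C : h' ∉ C := fun hc => hh'C' (Finset.mem_filter.2 ⟨hc, hval⟩)
  have := hN h hhC h' hh'P hadj hh'C
  linarith

theorem le_min [DecidableEq ι] (P C : Finset ι) (adj : ι → ι → Prop) [DecidableRel adj]
    (u : ι → ℝ) (m : ℝ)
    (hcl : ∀ C' ⊆ C, C'.Nonempty → ∃ h ∈ C', ∃ h' ∈ P, h' ∉ C' ∧ adj h h')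
    (hC : ∀ h ∈ C, (∑ h' ∈ P with adj h h', (u h' - u h) = 0) ∨ m ≤ u h)
    (hN : ∀ h ∈ C, ∀ h' ∈ P, adj h h' → h' ∉ C → m ≤ u h') :
    ∀ h ∈ C, m ≤ u h := by
  have := max_le P C adj (fun h => - u h) (-m) hcl ?_ ?_
  · intro h hh
    have := this h hh
    linarith
  · intro h hh
    rcases hC h hh with h1 | h1
    · left
      have : ∑ h' ∈ P with adj h h', (-u h' - -u h) = - ∑ h' ∈ P with adj h h', (u h' - u h) := by
        rw [← Finset.sum_neg_distrib]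
        exact Finset.sum_congr rfl fun x _ => by ring
      rw [this, h1, neg_zero]
    · right
      linarith
  · intro h hh h' hh' ha hc
    have := hN h hh h' hh' ha hc
    linarith

end Graph

section Loop

variable {ι X : Type*} [TopologicalSpace X]

open Classical in
/-- **Loop lemma.** -/
theorem loop_osc [PreconnectedSpace X] (U : ι → Set X) (P : Finset ι)
    (hcl : ∀ h ∈ P, IsClosed (U h)) (hpc : ∀ h ∈ P, IsPreconnected (U h))
    (hne : ∀ h ∈ P, (U h).Nonempty) (hcov : ⋃ h ∈ P, U h = univ)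
    (Sg : Finset ι) (hSP : Sg ⊆ P) (hSne : Sg.Nonempty) (hfam : Planar.FamConn U Sg)
    (A E : Set X)
    (hsep : ∀ c : Set X, IsPreconnected c → (c ∩ A).Nonempty → (c ∩ E).Nonempty →
      (c ∩ ⋃ σ ∈ Sg, U σ).Nonempty)
    (u r : ι → ℝ) (hr0 : ∀ σ ∈ Sg, 0 ≤ r σ)
    (hr : ∀ σ ∈ Sg, ∀ h ∈ P, (U σ ∩ U h).Nonempty → |u h - u σ| ≤ r σ)
    (hharm : ∀ h ∈ P, U h ∩ E = ∅ →
      (∑ h' ∈ P with (U h ∩ U h').Nonempty, (u h' - u h) = 0) ∨ (∃ σ ∈ Sg, u h = u σ)) :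
    ∀ h ∈ P, ∀ h' ∈ P, (U h ∩ A).Nonempty → (U h' ∩ A).Nonempty →
      |u h - u h'| ≤ 3 * ∑ σ ∈ Sg, r σ := by
  set K : Set X := ⋃ σ ∈ Sg, U σ with hK
  set NS : Finset ι := P.filter (fun h => (U h ∩ K).Nonempty) with hNS
  set C : Finset ι := P.filter (fun h => U h ∩ K = ∅ ∧
    ∃ S : Set X, IsPreconnected S ∧ S ∩ K = ∅ ∧ (S ∩ A).Nonempty ∧ (S ∩ U h).Nonempty) with hCdef
  have hsum0 : 0 ≤ ∑ σ ∈ Sg, r σ := Finset.sum_nonneg hr0
  -- elements of `Sg` belong to `NS`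
  have hSN : ∀ σ ∈ Sg, σ ∈ NS := by
    intro σ hσ
    refine Finset.mem_filter.2 ⟨hSP hσ, ?_⟩
    obtain ⟨x, hx⟩ := hne σ (hSP hσ)
    exact ⟨x, hx, mem_biUnion (by exact_mod_cast hσ) hx⟩
  -- the oscillation on `Sg`
  have hosc : ∀ σ ∈ Sg, ∀ τ ∈ Sg, |u τ - u σ| ≤ ∑ k ∈ Sg, r k :=
    famConn_osc hfam u r hr0 fun σ hσ τ hτ h => hr σ hσ τ (hSP hτ) h
  -- elements of `NS` are close to elements of `Sg`
  have hNnear : ∀ h ∈ NS, ∃ σ ∈ Sg, |u h - u σ| ≤ r σ := by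
    intro h hh
    obtain ⟨hhP, x, hx1, hx2⟩ := Finset.mem_filter.1 hh
    obtain ⟨σ, hσ, hxσ⟩ := mem_iUnion₂.1 hx2
    exact ⟨σ, hσ, hr σ hσ h hhP ⟨x, hxσ, hx1⟩⟩
  have hNosc : ∀ h ∈ NS, ∀ h' ∈ NS, |u h - u h'| ≤ 3 * ∑ k ∈ Sg, r k := by
    intro h hh h' hh'
    obtain ⟨σ, hσ, h1⟩ := hNnear h hh
    obtain ⟨τ, hτ, h2⟩ := hNnear h' hh'
    have h3 := hosc τ hτ σ hσ
    have h4 : r σ ≤ ∑ k ∈ Sg, r k := Finset.single_le_sum hr0 hσ
    have h5 : r τ ≤ ∑ k ∈ Sg, r k := Finset.single_le_sum hr0 hτ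
    rw [abs_le] at *
    constructor <;> linarith [h1.1, h1.2, h2.1, h2.2, h3.1, h3.2]
  have hNSne : NS.Nonempty := by
    obtain ⟨σ, hσ⟩ := hSne
    exact ⟨σ, hSN σ hσ⟩
  obtain ⟨hM, hhM, hMmax⟩ := Finset.exists_max_image NS u hNSne
  obtain ⟨hm, hhm, hmmin⟩ := Finset.exists_min_image NS u hNSne
  -- tiles of `C` miss `E`
  have hCE : ∀ h ∈ C, U h ∩ E = ∅ := by
    intro h hh
    obtain ⟨hhP, hhK, S, hS, hSK, hSA, hSU⟩ := Finset.mem_filter.1 hh
    by_contra hcon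
    have hcon' : (U h ∩ E).Nonempty := nonempty_iff_ne_empty.2 hcon
    obtain ⟨y, hy1, hy2⟩ := hSU
    have hconn : IsPreconnected (S ∪ U h) := hS.union y hy1 hy2 (hpc h hhP)
    obtain ⟨z, hz1, hz2⟩ := hsep (S ∪ U h) hconn (hSA.mono (by gcongr; exact subset_union_left))
      (hcon'.mono (by gcongr; exact subset_union_right))
    rcases hz1 with hz1 | hz1
    · exact (hSK ▸ (⟨hz1, hz2⟩ : z ∈ S ∩ K) : z ∈ (∅ : Set X))
    · exact (hhK ▸ (⟨hz1, hz2⟩ : z ∈ U h ∩ K) : z ∈ (∅ : Set X))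
  -- neighbours of `C` outside `C` are in `NS`
  have hCN : ∀ h ∈ C, ∀ h' ∈ P, (U h ∩ U h').Nonempty → h' ∉ C → h' ∈ NS := by
    intro h hh h' hh'P hadj hh'C
    obtain ⟨hhP, hhK, S, hS, hSK, hSA, hSU⟩ := Finset.mem_filter.1 hh
    refine Finset.mem_filter.2 ⟨hh'P, ?_⟩
    by_contra hcon
    rw [not_nonempty_iff_eq_empty] at hcon
    apply hh'C
    refine Finset.mem_filter.2 ⟨hh'P, hcon, S ∪ U h, ?_, ?_, ?_, ?_⟩
    · obtain ⟨y, hy1, hy2⟩ := hSU
      exact hS.union y hy1 hy2 (hpc h hhP)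
    · rw [union_inter_distrib_right, hSK, hhK, union_empty]
    · exact hSA.mono (by gcongr; exact subset_union_left)
    · exact hadj.mono (by gcongr; exact subset_union_right)
  -- connectivity
  have hcl' : ∀ C' ⊆ C, C'.Nonempty → ∃ h ∈ C', ∃ h' ∈ P, h' ∉ C' ∧ (U h ∩ U h').Nonempty := by
    intro C' hC' hC'ne
    by_contra hcon
    push Not at hcon
    set A1 : Set X := ⋃ h ∈ C', U h with hA1
    set A2 : Set X := ⋃ h ∈ P \ C', U h with hA2
    have hC'P : C' ⊆ P := hC'.trans (Finset.filter_subset _ _)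
    have h1 : IsClosed A1 := by
      apply Set.Finite.isClosed_biUnion C'.finite_toSet
      intro h hh
      exact hcl h (hC'P (by exact_mod_cast hh))
    have h2 : IsClosed A2 := by
      apply Set.Finite.isClosed_biUnion (P \ C').finite_toSet
      intro h hh
      exact hcl h (Finset.mem_sdiff.1 (by exact_mod_cast hh)).1
    have h12 : univ ⊆ A1 ∪ A2 := by
      rw [← hcov]
      intro x hx
      obtain ⟨h, hh, hxh⟩ := mem_iUnion₂.1 hx
      by_cases hhC : h ∈ C'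
      · left; exact mem_biUnion (by exact_mod_cast hhC) hxh
      · right; exact mem_iUnion₂.2 ⟨h, Finset.mem_sdiff.2 ⟨hh, hhC⟩, hxh⟩
    obtain ⟨h0, hh0⟩ := hC'ne
    obtain ⟨x0, hx0⟩ := hne h0 (hC'P hh0)
    obtain ⟨σ, hσ⟩ := hSne
    obtain ⟨x1, hx1⟩ := hne σ (hSP hσ)
    have hσC' : σ ∉ C' := by
      intro hc
      obtain ⟨-, hK', -⟩ := Finset.mem_filter.1 (hC' hc)
      have : x1 ∈ U σ ∩ K := ⟨hx1, mem_iUnion₂.2 ⟨σ, hσ, hx1⟩⟩
      rw [hK'] at this
      exact this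
    have hpre := (isPreconnected_closed_iff.1 (isPreconnected_univ (α := X))) A1 A2 h1 h2 h12
      ⟨x0, mem_univ _, mem_iUnion₂.2 ⟨h0, hh0, hx0⟩⟩
      ⟨x1, mem_univ _, mem_iUnion₂.2 ⟨σ, Finset.mem_sdiff.2 ⟨hSP hσ, hσC'⟩, hx1⟩⟩
    obtain ⟨x, -, hxa, hxb⟩ := hpre
    obtain ⟨h, hh, hxh⟩ := mem_iUnion₂.1 hxa
    obtain ⟨h', hh', hxh'⟩ := mem_iUnion₂.1 hxb
    obtain ⟨hh'P, hh'C⟩ := Finset.mem_sdiff.1 hh'
    have := hcon h hh h' hh'P hh'C
    exact (this ▸ (⟨hxh, hxh'⟩ : x ∈ U h ∩ U h') : x ∈ (∅ : Set X))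
  -- `u` is between min and max on `C`
  have hup : ∀ h ∈ C, u h ≤ u hM := by
    refine max_le P C (fun a b => (U a ∩ U b).Nonempty) u (u hM) hcl' ?_ ?_
    · intro h hh
      rcases hharm h (Finset.mem_filter.1 hh).1 (hCE h hh) with h1 | ⟨σ, hσ, h1⟩
      · exact Or.inl h1
      · right; rw [h1]; exact hMmax σ (hSN σ hσ)
    · intro h hh h' hh' ha hc
      exact hMmax h' (hCN h hh h' hh' ha hc)
  have hlo : ∀ h ∈ C, u hm ≤ u h := by
    refine le_min P C (fun a b => (U a ∩ U b).Nonempty) u (u hm) hcl' ?_ ?_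
    · intro h hh
      rcases hharm h (Finset.mem_filter.1 hh).1 (hCE h hh) with h1 | ⟨σ, hσ, h1⟩
      · exact Or.inl h1
      · right; rw [h1]; exact hmmin σ (hSN σ hσ)
    · intro h hh h' hh' ha hc
      exact hmmin h' (hCN h hh h' hh' ha hc)
  have hbd : ∀ h ∈ P, (U h ∩ A).Nonempty → u hm ≤ u h ∧ u h ≤ u hM := by
    intro h hh hA
    by_cases hhK : U h ∩ K = ∅
    · have hhC : h ∈ C := by
        refine Finset.mem_filter.2 ⟨hh, hhK, U h, hpc h hh, hhK, hA, ?_⟩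
        rw [inter_self]
        exact hne h hh
      exact ⟨hlo h hhC, hup h hhC⟩
    · have hhN : h ∈ NS := Finset.mem_filter.2 ⟨hh, nonempty_iff_ne_empty.2 hhK⟩
      exact ⟨hmmin h hhN, hMmax h hhN⟩
  intro h hh h' hh' hA hA'
  have h1 := hbd h hh hA
  have h2 := hbd h' hh' hA'
  have h3 := hNosc hM hhM hm hhm
  rw [abs_le] at *
  constructor <;> linarith [h1.1, h1.2, h2.1, h2.2, h3.1, h3.2]

end Loop

end Crest.Agent.R193.M2_Loop
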