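import Mathlib
import Crest.Agent.R193.Defs
import Crest.Agent.R193.M_Defs
import Crest.Agent.R193.CH_Chart
import Crest.Agent.R193.F_Sep3
import Crest.Agent.R193.T_Comp
import Crest.Agent.R193.D1_Loop

/-!
# R193, block M2 (helper818): rings around points

* `SChart`: chart with range the complement of a point; the complements of its squares are connected.
* `ring`: every small square of every chart contains a smaller square such that the pair satisfies
  `SepBound` at all large levels with the universal constant `C * L n`.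
* `nested`: nested sequences of rings.
* `loops`: connected separating tile families in a ring.
-/

set_option autoImplicit false

noncomputable section

open Set Filter Topology Metric

namespace Crest.Agent.R193.M2_Ring

open Crest.Agent.R193

section Plane

/-- complement of an open square -/
theorem isConnected_compl_ball {s : ℝ} (hs : 0 < s) :
    IsConnected ((ball (0 : ℝ × ℝ) s)ᶜ) := by
  have hrank : 1 < Module.rank ℝ (ℝ × ℝ) := by
    rw [rank_prod', Module.rank_self, one_add_one_eq_two]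
    exact_mod_cast one_lt_two
  have h1 : IsConnected (Ici s ×ˢ sphere (0 : ℝ × ℝ) 1) :=
    isConnected_Ici.prod (isConnected_sphere hrank 0 zero_le_one)
  have h2 := h1.image (fun q : ℝ × (ℝ × ℝ) => q.1 • q.2) (by fun_prop)
  convert h2 using 1
  ext p
  simp only [mem_compl_iff, mem_ball, dist_zero_right, not_lt, mem_image, mem_prod, mem_Ici,
    mem_sphere, Prod.exists]
  constructor
  · intro hp
    have hp0 : 0 < ‖p‖ := hs.trans_le hp
    refine ⟨‖p‖, (‖p‖⁻¹ • p).1, (‖p‖⁻¹ • p).2, ⟨hp, ?_⟩, ?_⟩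
    · show ‖‖p‖⁻¹ • p‖ = 1
      rw [norm_smul, norm_inv, norm_norm, inv_mul_cancel₀ hp0.ne']
    · show ‖p‖ • (‖p‖⁻¹ • p) = p
      rw [smul_smul, mul_inv_cancel₀ hp0.ne', one_smul]
  · rintro ⟨t, a, b, ⟨ht, hab⟩, rfl⟩
    rw [norm_smul, hab, mul_one, Real.norm_eq_abs]
    exact ht.trans (le_abs_self t)

end Plane

section Top

variable {Z : Type} [TopologicalSpace Z]

/-- For a chart whose range is the complement of one point, complements of squares are connected. -/
theorem isConnected_E [T2Space Z] [PreconnectedSpace Z] (φ : Chart Z) (p0 : Z)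
    (hr : range φ.f = {p0}ᶜ) {s : ℝ} (hs : 0 < s) : IsConnected (φ.E s) := by
  have h1 : IsConnected (φ.f '' (ball (0 : ℝ × ℝ) s)ᶜ) :=
    (isConnected_compl_ball hs).image _ φ.emb.continuous.continuousOn
  have hE : φ.E s = insert p0 (φ.f '' (ball (0 : ℝ × ℝ) s)ᶜ) := by
    ext z
    simp only [Chart.E, mem_compl_iff, mem_insert_iff]
    constructor
    · intro hz
      by_cases hzp : z = p0
      · exact Or.inl hzp
      · right
        have : z ∈ range φ.f := by rw [hr]; exact hzp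
        obtain ⟨q, rfl⟩ := this
        exact ⟨q, fun hq => hz ⟨q, hq, rfl⟩, rfl⟩
    · rintro (rfl | ⟨q, hq, rfl⟩) ⟨q', hq', he⟩
      · have : φ.f q' ∈ range φ.f := mem_range_self _
        rw [hr, he] at this
        exact this rfl
      · rw [φ.emb.injective he] at hq'
        exact hq hq'
  rw [hE]
  -- `p0` is in the closure
  have hcl : p0 ∈ closure (φ.f '' (ball (0 : ℝ × ℝ) s)ᶜ) := by
    by_contra hcon
    -- then `{p0}` is open
    have hopen : IsOpen ({p0} : Set Z) := by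
      have e : ({p0} : Set Z) = (closure (φ.f '' (ball (0 : ℝ × ℝ) s)ᶜ))ᶜ ∩
          (φ.f '' (closedBall (0 : ℝ × ℝ) s))ᶜ := by
        ext z
        simp only [mem_singleton_iff, mem_inter_iff, mem_compl_iff]
        constructor
        · rintro rfl
          refine ⟨hcon, ?_⟩
          rintro ⟨q, -, hq⟩
          have : φ.f q ∈ range φ.f := mem_range_self _
          rw [hr, hq] at this
          exact this rfl
        · rintro ⟨h3, h4⟩
          by_contra hz
          have : z ∈ range φ.f := by rw [hr]; exact hz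
          obtain ⟨q, rfl⟩ := this
          by_cases hq : q ∈ ball (0 : ℝ × ℝ) s
          · exact h4 ⟨q, ball_subset_closedBall hq, rfl⟩
          · exact h3 (subset_closure ⟨q, hq, rfl⟩)
      rw [e]
      exact isClosed_closure.isOpen_compl.inter
        (((isCompact_closedBall (0 : ℝ × ℝ) s).image φ.emb.continuous).isClosed.isOpen_compl)
    have hclopen : IsClopen ({p0} : Set Z) := ⟨isClosed_singleton, hopen⟩
    rcases isClopen_iff.1 hclopen with h | h
    · exact (singleton_ne_empty p0) h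
    · have : φ.f 0 ∈ ({p0} : Set Z) := by rw [h]; trivial
      have h' : φ.f 0 ∈ range φ.f := mem_range_self _
      rw [hr] at h'
      exact h' this
  exact h1.subset_closure (subset_insert _ _) (insert_subset hcl subset_closure)

theorem isConnected_D (φ : Chart Z) {s : ℝ} (hs : 0 ≤ s) : IsConnected (φ.D s) :=
  ((convex_closedBall (0 : ℝ × ℝ) s).isConnected ⟨0, by simp [hs]⟩).image _
    φ.emb.continuous.continuousOn

theorem D_mono (φ : Chart Z) {r s : ℝ} (h : r ≤ s) : φ.D r ⊆ φ.D s :=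
  image_mono (closedBall_subset_closedBall h)

theorem E_anti (φ : Chart Z) {r s : ℝ} (h : r ≤ s) : φ.E s ⊆ φ.E r :=
  compl_subset_compl.2 (image_mono (ball_subset_ball h))

/-- centred chart with range the complement of a point -/
theorem exists_schart (e : Z ≃ₜ S2) (x : Z) :
    ∃ (φ : Chart Z) (p0 : Z), range φ.f = {p0}ᶜ ∧ φ.f 0 = x := by
  obtain ⟨y, hy⟩ := CHx.exists_two_points e x
  obtain ⟨φ, h1, h2⟩ := CHx.exists_chart e y
  have : x ∈ range φ := by rw [h2]; exact hy.symm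
  obtain ⟨a, ha⟩ := this
  refine ⟨(⟨φ, h1⟩ : Chart Z).comp (Homeomorph.addRight a), y, ?_, ?_⟩
  · show range (φ ∘ _) = _
    rw [(Homeomorph.addRight a).surjective.range_comp, h2]
  · simp [ha]

end Top

section Ring

variable {G Z : Type} [Group G] [MetricSpace Z] [MulAction G Z] {S : Setup G Z} {T : Tiles S}

/-- **Rings.** With a universal constant `C`: inside every square `φ.D r` around the centre of a chart
there is a smaller square such that the pair satisfies `SepBound` with constant `C * L n` at all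
large levels `n`. -/
theorem ring [LocallyPathConnectedSpace Z] (P : Rec T) :
    ∃ C : ℝ, 0 < C ∧ ∀ (φ : Chart Z) (r : ℝ), 0 < r → ∃ r' : ℝ, 0 < r' ∧ r' < r ∧ ∃ n0 : ℕ,
      ∀ n, n0 ≤ n → SepBound T n (φ.D r') (φ.E r) (C * P.L n) := by
  have hR1 : (0 : ℝ) ≤ max P.R0 P.R1 := le_max_of_le_right P.R1_pos.le
  refine ⟨(F_Sep2.mult T (max P.R0 P.R1) : ℝ) ^ 2 + 1, by positivity, ?_⟩
  intro φ r hr
  set x : Z := φ.f 0 with hx
  have hO : IsOpen (φ.f '' ball (0 : ℝ × ℝ) r) := φ.emb.isOpenMap _ isOpen_ball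
  have hxO : x ∈ φ.f '' ball (0 : ℝ × ℝ) r := ⟨0, by simpa using hr, rfl⟩
  obtain ⟨e1, he1, hball⟩ := Metric.isOpen_iff.1 hO x hxO
  -- choose the level
  have hlim : Tendsto (fun m : ℕ => Real.exp (S.ε * (2 * max P.R0 P.R1 + 7 * S.δ - m)) *
      Real.exp (S.ε * S.δ)) atTop (𝓝 0) := by
    have h0 : Tendsto (fun m : ℕ => S.ε * (2 * max P.R0 P.R1 + 7 * S.δ - m)) atTop atBot := by
      apply Tendsto.const_mul_atBot S.ε_pos
      have : Tendsto (fun m : ℕ => (m : ℝ)) atTop atTop := tendsto_natCast_atTop_atTop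
      exact tendsto_atBot_add_const_left _ _ (tendsto_neg_atTop_atBot.comp this)
    have := (Real.tendsto_exp_atBot.comp h0).mul_const (Real.exp (S.ε * S.δ))
    simpa using this
  obtain ⟨m, hm⟩ := ((tendsto_order.1 hlim).2 e1 he1).exists
  obtain ⟨g, hgm, hgs⟩ := S.ray x m
  have hy : g⁻¹ • x ∈ S.Gd P.R0 g := by
    have h1 := F_Sep1.smul_self_le S x g⁻¹
    rw [inv_inv, S.len_inv, hgm] at h1
    have h2 := P.hR0
    have h3 := S.one_le_δ
    have h4 := T.R_pos
    show S.s (g⁻¹ • x) g⁻¹ ≤ P.R0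
    linarith
  obtain ⟨i, hi1, hi2⟩ := P.fam g (g⁻¹ • x) hy
  have hi2' : closure ((P.ψ i).E 2)ᶜ ⊆ S.Gd (max P.R0 P.R1) g :=
    hi2.trans (T_Comp.Gd_mono S (le_max_right _ _) g)
  have hy' : g⁻¹ • x ∈ S.Gd (max P.R0 P.R1) g := T_Comp.Gd_mono S (le_max_left _ _) g hy
  -- the outer set
  have hE : φ.E r ⊆ (fun z => g • z) '' (P.ψ i).E 2 := by
    intro z' hz'
    refine ⟨g⁻¹ • z', ?_, by simp⟩
    by_contra hcon
    have hz : g⁻¹ • z' ∈ closure ((P.ψ i).E 2)ᶜ := subset_closure hcon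
    have hd := F_Sep1.dist_smul_le S (hi2' hz) hy'
    rw [smul_inv_smul, smul_inv_smul, hgm] at hd
    have hd2 := F_Sep1.dist_le_exp_delta S (g⁻¹ • z') (g⁻¹ • x)
    have hd3 : dist z' x < e1 := by
      refine lt_of_le_of_lt (hd.trans ?_) hm
      gcongr
    exact hz' (hball hd3)
  -- the inner set
  have hcont : Continuous (fun p : ℝ × ℝ => g⁻¹ • φ.f p) :=
    (S.cont g⁻¹).comp φ.emb.continuous
  have hnhds : (fun p : ℝ × ℝ => g⁻¹ • φ.f p) ⁻¹' ball (g⁻¹ • x) P.η ∈ 𝓝 (0 : ℝ × ℝ) :=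
    hcont.continuousAt.preimage_mem_nhds (ball_mem_nhds _ P.η_pos)
  obtain ⟨r1, hr1, hr1s⟩ := Metric.nhds_basis_closedBall.mem_iff.1 hnhds
  have hD : φ.D (min r1 (r / 2)) ⊆ (fun z => g • z) '' (P.ψ i).D 1 := by
    rintro _ ⟨p, hp, rfl⟩
    refine ⟨g⁻¹ • φ.f p, hi1 (hr1s (closedBall_subset_closedBall (min_le_left _ _) hp)), by simp⟩
  refine ⟨min r1 (r / 2), by positivity, by
    refine lt_of_le_of_lt (min_le_right _ _) (by linarith), m, ?_⟩
  intro n hn
  have h1 := P.sep i (n - m) n (Nat.sub_le _ _)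
  have h2 := F_Sep2.sepBound_smul T (k := g) hR1 (F_Sep3.isClosed_E (P.ψ i) 2)
    (F_Sep3.disjoint_D_E (P.ψ i) (by norm_num)) hi2' (by linarith [P.one_le n]) h1
  rw [hgm, Nat.sub_add_cancel hn] at h2
  refine F_Sep2.SepBound.mono h2 hD hE ?_
  have := P.one_le n
  nlinarith [sq_nonneg (F_Sep2.mult T (max P.R0 P.R1) : ℝ)]

/-- Nested rings around the centre of a chart. -/
theorem nested [LocallyPathConnectedSpace Z] (P : Rec T) :
    ∃ C : ℝ, 0 < C ∧ ∀ (φ : Chart Z) (s0 : ℝ), 0 < s0 → ∀ I : ℕ, ∃ s r r' : ℕ → ℝ,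
      s 0 = s0 ∧ (∀ k, 0 < s k) ∧ (∀ k, s (k + 1) < r' k ∧ r' k < r k ∧ r k < s k) ∧
      ∃ n0 : ℕ, ∀ n, n0 ≤ n → ∀ k < I, SepBound T n (φ.D (r' k)) (φ.E (r k)) (C * P.L n) := by
  obtain ⟨C, hC, hring⟩ := ring P
  refine ⟨C, hC, ?_⟩
  intro φ s0 hs0 I
  have hring' : ∀ r : {r : ℝ // 0 < r}, ∃ r' : {r : ℝ // 0 < r}, (r' : ℝ) < r ∧ ∃ n0 : ℕ,
      ∀ n, n0 ≤ n → SepBound T n (φ.D r') (φ.E r) (C * P.L n) := by
    rintro ⟨r, hr⟩
    obtain ⟨r', h1, h2, h3⟩ := hring φ r hr
    exact ⟨⟨r', h1⟩, h2, h3⟩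
  choose F hF n1 hn1 using hring'
  let half : {r : ℝ // 0 < r} → {r : ℝ // 0 < r} := fun r => ⟨(r : ℝ) / 2, half_pos r.2⟩
  let s : ℕ → {r : ℝ // 0 < r} := fun k => Nat.rec ⟨s0, hs0⟩ (fun _ a => half (F (half a))) k
  refine ⟨fun k => Subtype.val (s k), fun k => Subtype.val (half (s k)),
    fun k => Subtype.val (F (half (s k))), rfl, fun k => (s k).2, ?_, ?_⟩
  · intro k
    refine ⟨?_, hF _, ?_⟩
    · show ((F (half (s k)) : ℝ)) / 2 < _
      exact half_lt_self (F (half (s k))).2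
    · exact half_lt_self (s k).2
  · refine ⟨(Finset.range I).sup fun k => n1 (half (s k)), ?_⟩
    intro n hn k hk
    apply hn1
    exact (Finset.le_sup (f := fun k => n1 (half (s k))) (Finset.mem_range.2 hk)).trans hn

/-- Tiles of high level meeting a compact set are contained in a given neighbourhood of it. -/
theorem small {K O : Set Z} (hK : IsCompact K) (hO : IsOpen O) (hKO : K ⊆ O) :
    ∃ n0 : ℕ, ∀ n, n0 ≤ n → ∀ h ∈ S.sph n, (T.U h ∩ K).Nonempty → T.U h ⊆ O := by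
  obtain ⟨e, he, hth⟩ := hK.exists_thickening_subset_open hO hKO
  have hlim : Tendsto (fun m : ℕ => Real.exp (-S.ε * ((m : ℝ) - T.R - S.δ))) atTop (𝓝 0) := by
    apply Real.tendsto_exp_atBot.comp
    have h1 : Tendsto (fun m : ℕ => (m : ℝ) - T.R - S.δ) atTop atTop :=
      tendsto_atTop_add_const_right _ _ (tendsto_atTop_add_const_right _ _
        tendsto_natCast_atTop_atTop)
    have h2 := h1.const_mul_atTop_of_neg (r := -S.ε) (by linarith [S.ε_pos])
    exact h2
  obtain ⟨n0, hn0⟩ := eventually_atTop.1 ((tendsto_order.1 hlim).2 e he)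
  refine ⟨n0, fun n hn h hh hne z hz => hth ?_⟩
  obtain ⟨y, hy1, hy2⟩ := hne
  rw [Setup.mem_sph] at hh
  have h1 := T_Comp.dist_le_of_Sh S (T.sub h hz) (T.sub h hy1)
  rw [hh] at h1
  exact Metric.mem_thickening_iff.2 ⟨y, hy2, h1.trans_lt (hn0 n hn)⟩

open Classical in
/-- tiles of level `n` inside the ring between `φ.D a` and `φ.E b` -/
def ringTiles (T : Tiles S) (φ : Chart Z) (n : ℕ) (a b : ℝ) : Finset G :=
  (S.sph n).filter (fun h => Disjoint (T.U h) (φ.D a) ∧ Disjoint (T.U h) (φ.E b))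

theorem mem_ringTiles {φ : Chart Z} {n : ℕ} {a b : ℝ} {h : G} :
    h ∈ ringTiles T φ n a b ↔ h ∈ S.sph n ∧ Disjoint (T.U h) (φ.D a) ∧ Disjoint (T.U h) (φ.E b) := by
  classical
  simp [ringTiles]

/-- **Connected separating families of tiles in a ring.** -/
theorem loops [LocallyPathConnectedSpace Z] [PreconnectedSpace Z] (hX : Planar.Splits Z)
    (φ : Chart Z) (p0 : Z) (hr0 : range φ.f = {p0}ᶜ) {a r' r b : ℝ} (ha : 0 < a) (har : a < r')
    (hrr : r' < r) (hrb : r < b) :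
    ∃ n0 : ℕ, ∀ n, n0 ≤ n → ∀ L : ℝ, SepBound T n (φ.D r') (φ.E r) L →
      ∀ ρ : G → ℝ, (∀ h, 0 ≤ ρ h) → ∃ B : Finset G, B ⊆ ringTiles T φ n a b ∧ B.Nonempty ∧
        Planar.FamConn T.U B ∧ Separates (T.un B) (φ.D a) (φ.E b) ∧
        (∑ h ∈ B, ρ h) ^ 2 ≤ L * ∑ h ∈ ringTiles T φ n a b, ρ h ^ 2 := by
  classical
  set K : Set Z := φ.f '' (closedBall (0 : ℝ × ℝ) r \ ball 0 r') with hK
  set O : Set Z := φ.f '' (ball (0 : ℝ × ℝ) b \ closedBall 0 a) with hO
  have hKc : IsCompact K :=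
    (((isCompact_closedBall (0 : ℝ × ℝ) r).diff isOpen_ball).image φ.emb.continuous)
  have hOo : IsOpen O := φ.emb.isOpenMap _ (isOpen_ball.sdiff isClosed_closedBall)
  have hKO : K ⊆ O := by
    apply image_mono
    rintro p ⟨h1, h2⟩
    refine ⟨closedBall_subset_ball hrb h1, fun h3 => h2 ?_⟩
    exact closedBall_subset_ball har h3
  have hclos : closure (φ.D r' ∪ φ.E r)ᶜ ⊆ K := by
    apply closure_minimal _ hKc.isClosed
    intro z hz
    rw [compl_union] at hz
    obtain ⟨h1, h2⟩ := hz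
    have h3 : z ∈ φ.f '' ball (0 : ℝ × ℝ) r := not_not.1 h2
    obtain ⟨p, hp, rfl⟩ := h3
    exact ⟨p, ⟨ball_subset_closedBall hp, fun h4 => h1 ⟨p, ball_subset_closedBall h4, rfl⟩⟩, rfl⟩
  obtain ⟨n0, hn0⟩ := small (T := T) hKc hOo hKO
  refine ⟨n0, ?_⟩
  intro n hn L hsep ρ hρ
  set R := ringTiles T φ n a b with hR
  have hin : ∀ h ∈ S.sph n, (T.U h ∩ closure (φ.D r' ∪ φ.E r)ᶜ).Nonempty → h ∈ R := by
    intro h hh hne
    have h1 := hn0 n hn h hh (hne.mono (inter_subset_inter_right _ hclos))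
    rw [hR, mem_ringTiles]
    refine ⟨hh, ?_, ?_⟩
    · rw [Set.disjoint_left]
      intro z hz
      obtain ⟨p, ⟨-, hp⟩, rfl⟩ := h1 hz
      rintro ⟨q, hq, he⟩
      rw [φ.emb.injective he] at hq
      exact hp hq
    · rw [Set.disjoint_left]
      intro z hz
      obtain ⟨p, ⟨hp, -⟩, rfl⟩ := h1 hz
      intro h2
      exact h2 ⟨p, hp, rfl⟩
  obtain ⟨A, hA, hAs, hAb⟩ := hsep (fun h => if h ∈ R then ρ h else 0)
    (fun h => by split_ifs; exacts [hρ h, le_rfl])
  have hs1 : Separates (⋃ h ∈ A.filter (fun h => h ∈ R), T.U h) (φ.D r') (φ.E r) := by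
    refine D1_Loop.separates_filter T.U T.isClosed ?_ (F_Sep3.isClosed_E φ r)
      (F_Sep3.disjoint_D_E φ hrr) A _ ?_ hAs
    · exact ((isCompact_closedBall (0 : ℝ × ℝ) r').image φ.emb.continuous).isClosed
    · intro h hh hne
      exact Finset.mem_filter.2 ⟨hh, hin h (hA hh) hne⟩
  have hs2 : Separates (⋃ h ∈ A.filter (fun h => h ∈ R), T.U h) (φ.D a) (φ.E b) := by
    intro c hc h1 h2
    exact hs1 c hc (h1.mono (inter_subset_inter_right _ (D_mono φ har.le)))
      (h2.mono (inter_subset_inter_right _ (E_anti φ hrb.le)))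
  obtain ⟨B, hBA, hBs, hBf, hBn⟩ := D1_Loop.exists_famConn hX T.U T.isClosed
    (isConnected_D φ ha.le) (isConnected_E φ p0 hr0 (ha.trans (har.trans (hrr.trans hrb))))
    (A.filter (fun h => h ∈ R)) hs2
    (fun h hh => (mem_ringTiles.1 (Finset.mem_filter.1 hh).2).2.1)
    (fun h hh => (mem_ringTiles.1 (Finset.mem_filter.1 hh).2).2.2)
  refine ⟨B, fun h hh => (Finset.mem_filter.1 (hBA hh)).2, hBn, hBf, hBs, ?_⟩
  have e1 : ∑ h ∈ B, ρ h ≤ ∑ h ∈ A, (if h ∈ R then ρ h else 0) := by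
    calc ∑ h ∈ B, ρ h = ∑ h ∈ B, (if h ∈ R then ρ h else 0) := by
          refine Finset.sum_congr rfl fun h hh => ?_
          rw [if_pos (Finset.mem_filter.1 (hBA hh)).2]
      _ ≤ _ := by
          refine Finset.sum_le_sum_of_subset_of_nonneg
            (fun h hh => (Finset.mem_filter.1 (hBA hh)).1) ?_
          intro h _ _
          split_ifs
          exacts [hρ h, le_rfl]
  have e2 : ∑ h ∈ S.sph n, (if h ∈ R then ρ h else 0) ^ 2 = ∑ h ∈ R, ρ h ^ 2 := by
    have : ∀ h ∈ S.sph n, (if h ∈ R then ρ h else 0) ^ 2 = if h ∈ R then ρ h ^ 2 else 0 := by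
      intro h _
      split_ifs
      · rfl
      · norm_num
    rw [Finset.sum_congr rfl this, ← Finset.sum_filter]
    congr 1
    ext h
    simp only [Finset.mem_filter]
    constructor
    · exact fun h1 => h1.2
    · exact fun h1 => ⟨(mem_ringTiles.1 h1).1, h1⟩
  calc (∑ h ∈ B, ρ h) ^ 2 ≤ (∑ h ∈ A, (if h ∈ R then ρ h else 0)) ^ 2 := by
        apply pow_le_pow_left₀ (Finset.sum_nonneg fun h _ => hρ h) e1
    _ ≤ _ := hAb
    _ = _ := by rw [e2]

end Ring

end Crest.Agent.R193.M2_Ring
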