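import Mathlib
import Crest.Agent.R193.Defs
import Crest.Agent.R193.M_Defs
import Crest.Agent.R193.M2_Loop
import Crest.Agent.R193.M2_Ring
import Crest.Agent.R193.FG1e
import Crest.Agent.R193.Planar4

/-!
# R193, block M2 (helper818): equicontinuity of the discrete potentials
-/

set_option autoImplicit false

noncomputable section

open Set Filter Topology Metric

namespace Crest.Agent.R193.M2_Equi

open Crest.Agent.R193 M2_Ring

variable {G Z : Type} [Group G] [MetricSpace Z] [MulAction G Z] {S : Setup G Z} {T : Tiles S}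

open Classical in
/-- local variation of `v` at the tile `h` -/
def vr (T : Tiles S) (n : ℕ) (v : G → ℝ) (h : G) : ℝ :=
  ∑ k ∈ (S.sph n).filter (fun k => (T.U h ∩ T.U k).Nonempty), |v k - v h|

theorem vr_nonneg (n : ℕ) (v : G → ℝ) (h : G) : 0 ≤ vr T n v h :=
  Finset.sum_nonneg fun _ _ => abs_nonneg _

open Classical in
/-- `v` is harmonic at `h` with respect to all tiles of level `n` -/
def Hm (T : Tiles S) (n : ℕ) (v : G → ℝ) (h : G) : Prop :=
  ∑ k ∈ (S.sph n).filter (fun k => (T.U h ∩ T.U k).Nonempty), (v k - v h) = 0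

open Classical in
/-- **Oscillation through `I` nested rings.** -/
theorem osc_rings [PreconnectedSpace Z] (φ : Chart Z) (n I : ℕ) (hI : 0 < I) (s : ℕ → ℝ)
    (hs : Antitone s) (v : G → ℝ) (L F : ℝ) (hL : 0 ≤ L) (Γc : Prop)
    (hΓ : Γc → ∃ Γ : Set Z, IsPreconnected Γ ∧ φ.f 0 ∈ Γ ∧ (Γ ∩ φ.E (s 0)).Nonempty ∧
      ∀ h ∈ S.sph n, (T.U h ∩ Γ).Nonempty → v h = 0)
    (hspos : ∀ k, 0 < s k)
    (hH : ∀ h ∈ S.sph n, Disjoint (T.U h) (φ.E (s 0)) → Hm T n v h ∨ (v h = 0 ∧ Γc))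
    (hF : ∑ h ∈ (S.sph n).filter (fun h => Disjoint (T.U h) (φ.E (s 0))), vr T n v h ^ 2 ≤ F)
    (hl : ∀ k < I, ∃ B : Finset G, B ⊆ ringTiles T φ n (s (k + 1)) (s k) ∧ B.Nonempty ∧
        Planar.FamConn T.U B ∧ Separates (T.un B) (φ.D (s (k + 1))) (φ.E (s k)) ∧
        (∑ h ∈ B, vr T n v h) ^ 2 ≤ L * ∑ h ∈ ringTiles T φ n (s (k + 1)) (s k), vr T n v h ^ 2) :
    ∀ h ∈ S.sph n, ∀ h' ∈ S.sph n, (T.U h ∩ φ.D (s I)).Nonempty → (T.U h' ∩ φ.D (s I)).Nonempty →
      (v h - v h') ^ 2 ≤ 9 * (L * (F / I)) := by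
  -- pigeonhole
  have hpig : ∃ k < I, ∑ h ∈ ringTiles T φ n (s (k + 1)) (s k), vr T n v h ^ 2 ≤ F / I := by
    by_contra hcon
    push Not at hcon
    have h1 : ∑ k ∈ Finset.range I, (F / I) <
        ∑ k ∈ Finset.range I, ∑ h ∈ ringTiles T φ n (s (k + 1)) (s k), vr T n v h ^ 2 := by
      apply Finset.sum_lt_sum_of_nonempty
      · exact ⟨0, Finset.mem_range.2 hI⟩
      · intro k hk
        exact hcon k (Finset.mem_range.1 hk)
    rw [Finset.sum_const, Finset.card_range, nsmul_eq_mul, mul_div_cancel₀ _ (by positivity)] at h1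
    have hdisj : Set.PairwiseDisjoint (Finset.range I : Set ℕ)
        (fun k => ringTiles T φ n (s (k + 1)) (s k)) := by
      have key : ∀ k l : ℕ, k < l → ∀ h, h ∈ ringTiles T φ n (s (k + 1)) (s k) →
          h ∉ ringTiles T φ n (s (l + 1)) (s l) := by
        intro k l hkl h h1 h2
        rw [mem_ringTiles] at h1 h2
        obtain ⟨z, hz⟩ := (T.isConnected h).nonempty
        have h3 := Set.disjoint_left.1 h2.2.2 hz
        have h4 := Set.disjoint_left.1 h1.2.1 hz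
        simp only [Chart.E, mem_compl_iff, not_not] at h3
        obtain ⟨p, hp, rfl⟩ := h3
        exact h4 ⟨p, ball_subset_closedBall (ball_subset_ball (hs hkl) hp), rfl⟩
      intro k _ l _ hkl
      rw [Function.onFun, Finset.disjoint_left]
      intro h h1 h2
      rcases lt_or_gt_of_ne hkl with h3 | h3
      · exact key k l h3 h h1 h2
      · exact key l k h3 h h2 h1
    rw [← Finset.sum_biUnion hdisj] at h1
    have h2 : ∑ h ∈ (Finset.range I).biUnion (fun k => ringTiles T φ n (s (k + 1)) (s k)),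
        vr T n v h ^ 2 ≤
        ∑ h ∈ (S.sph n).filter (fun h => Disjoint (T.U h) (φ.E (s 0))), vr T n v h ^ 2 := by
      apply Finset.sum_le_sum_of_subset_of_nonneg
      · intro h hh
        obtain ⟨k, -, hk⟩ := Finset.mem_biUnion.1 hh
        rw [mem_ringTiles] at hk
        refine Finset.mem_filter.2 ⟨hk.1, hk.2.2.mono_right ?_⟩
        exact E_anti φ (hs (Nat.zero_le k))
      · intro _ _ _
        positivity
    linarith
  obtain ⟨k, hkI, hk⟩ := hpig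
  obtain ⟨B, hBR, hBn, hBf, hBs, hBb⟩ := hl k hkI
  have hBP : B ⊆ S.sph n := fun h hh => (mem_ringTiles.1 (hBR hh)).1
  have hcov : ⋃ h ∈ S.sph n, T.U h = univ := T_Comp.un_sph T n
  have hmain := M2_Loop.loop_osc T.U (S.sph n) (fun h _ => T.isClosed h)
    (fun h _ => (T.isConnected h).isPreconnected) (fun h _ => (T.isConnected h).nonempty) hcov
    B hBP hBn hBf (φ.D (s (k + 1))) (φ.E (s k)) hBs v (vr T n v) (fun σ _ => vr_nonneg n v σ) ?_ ?_
  · intro h hh h' hh' h1 h2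
    have hsub : φ.D (s I) ⊆ φ.D (s (k + 1)) := D_mono φ (hs hkI)
    have h3 := hmain h hh h' hh' (h1.mono (inter_subset_inter_right _ hsub))
      (h2.mono (inter_subset_inter_right _ hsub))
    have h4 : 0 ≤ ∑ σ ∈ B, vr T n v σ := Finset.sum_nonneg fun σ _ => vr_nonneg n v σ
    calc (v h - v h') ^ 2 = |v h - v h'| ^ 2 := (sq_abs _).symm
      _ ≤ (3 * ∑ σ ∈ B, vr T n v σ) ^ 2 := pow_le_pow_left₀ (abs_nonneg _) h3 2
      _ = 9 * (∑ σ ∈ B, vr T n v σ) ^ 2 := by ring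
      _ ≤ 9 * (L * (F / I)) := by
          have := hBb.trans (mul_le_mul_of_nonneg_left hk hL)
          linarith
  · intro σ hσ h hh hne
    unfold vr
    exact Finset.single_le_sum (f := fun k => |v k - v σ|) (fun _ _ => abs_nonneg _)
      (Finset.mem_filter.2 ⟨hh, hne⟩)
  · intro h hh hhE
    have hd : Disjoint (T.U h) (φ.E (s 0)) := by
      rw [← disjoint_iff_inter_eq_empty] at hhE
      exact hhE.mono_right (E_anti φ (hs (Nat.zero_le k)))
    rcases hH h hh hd with h1 | ⟨h1, h2⟩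
    · left
      exact h1
    · right
      obtain ⟨Γ, hΓ1, hΓ2, hΓ3, hΓ4⟩ := hΓ h2
      have h3 : (Γ ∩ φ.D (s (k + 1))).Nonempty :=
        ⟨φ.f 0, hΓ2, ⟨0, by simpa using (hspos (k + 1)).le, rfl⟩⟩
      obtain ⟨z, hz1, hz2⟩ := hBs Γ hΓ1 h3
        (hΓ3.mono (inter_subset_inter_right _ (E_anti φ (hs (Nat.zero_le k)))))
      simp only [Tiles.un, mem_iUnion, exists_prop] at hz2
      obtain ⟨σ, hσ, hzσ⟩ := hz2
      exact ⟨σ, hσ, by rw [h1, hΓ4 σ (hBP hσ) ⟨z, hzσ, hz1⟩]⟩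

/-- valence constant -/
def val (T : Tiles S) : ℕ := T_Comp.Nb S (2 * T.R + 2 * S.δ)

theorem degree_le (χ : Chart Z) (n : ℕ) (a : T.V χ n) :
    {w | (T.gr χ n).Adj a w}.ncard ≤ val T := by
  classical
  have h1 : {w | (T.gr χ n).Adj a w}.ncard =
      (Finset.univ.filter (fun w => (T.gr χ n).Adj a w)).card := by
    rw [Set.ncard_eq_toFinset_card']
    congr 1
    ext w; simp
  rw [h1, ← Finset.card_map (Function.Embedding.subtype _)]
  apply T_Comp.card_adj_le T (a : G)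
  intro h hh
  rw [Finset.mem_map] at hh
  obtain ⟨w, hw, rfl⟩ := hh
  have ha := (Tiles.mem_V.1 a.2).1
  have hw' := (Tiles.mem_V.1 w.2).1
  refine ⟨by rw [ha]; exact hw', ((Finset.mem_filter.1 hw).2).2⟩

open Classical in
theorem sum_V {χ : Chart Z} {n : ℕ} (h : G) (hh : h ∈ T.V χ n) (f : G → ℝ) (hf : f h = 0) :
    ∑ k ∈ (T.V χ n).filter (fun k => (T.U h ∩ T.U k).Nonempty), f k =
      ∑ w : T.V χ n, if (T.gr χ n).Adj ⟨h, hh⟩ w then f w else 0 := by
  rw [Finset.sum_filter, ← Finset.sum_coe_sort (T.V χ n)]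
  refine Finset.sum_congr rfl fun w _ => ?_
  by_cases hw : (w : G) = h
  · have : ¬ (T.gr χ n).Adj ⟨h, hh⟩ w := by
      rintro ⟨h1, -⟩
      exact h1 (Subtype.ext hw.symm)
    rw [if_neg this, hw, hf, ite_self]
  · have : (T.gr χ n).Adj ⟨h, hh⟩ w ↔ (T.U h ∩ T.U (w : G)).Nonempty := by
      constructor
      · exact fun h1 => h1.2
      · exact fun h1 => ⟨fun h2 => hw (by rw [← h2]), h1⟩
    simp only [this]

theorem left_sub_Q (χ : Chart Z) : χ.left ⊆ χ.Q := by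
  apply image_mono
  rintro ⟨a, b⟩ ⟨ha, hb⟩
  have : a = 0 := ha
  subst this
  exact ⟨⟨le_rfl, zero_le_one⟩, hb⟩

theorem right_sub_Q (χ : Chart Z) : χ.right ⊆ χ.Q := by
  apply image_mono
  rintro ⟨a, b⟩ ⟨ha, hb⟩
  have : a = 1 := ha
  subst this
  exact ⟨⟨zero_le_one, le_rfl⟩, hb⟩

theorem Qo_sub_Q (χ : Chart Z) : χ.Qo ⊆ χ.Q :=
  image_mono (prod_mono Ioo_subset_Icc_self Ioo_subset_Icc_self)

theorem Qo_disj_left (χ : Chart Z) : Disjoint χ.Qo χ.left := by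
  rw [Set.disjoint_left]
  rintro _ ⟨p, ⟨hp, -⟩, rfl⟩ ⟨q, ⟨hq, -⟩, he⟩
  rw [χ.emb.injective he] at hq
  have : p.1 = 0 := hq
  rw [this] at hp
  exact lt_irrefl _ hp.1

theorem Qo_disj_right (χ : Chart Z) : Disjoint χ.Qo χ.right := by
  rw [Set.disjoint_left]
  rintro _ ⟨p, ⟨hp, -⟩, rfl⟩ ⟨q, ⟨hq, -⟩, he⟩
  rw [χ.emb.injective he] at hq
  have : p.1 = 1 := hq
  rw [this] at hp
  exact lt_irrefl _ hp.2

open Classical in
/-- **Local estimate.** `O` is an open set containing all tiles of level `n` meeting the outer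
square `φ.f '' ball 0 (s 0)`; in `O` every tile is either inside `Qo` or has `v = 0`; `v = ± u + c`
on `V`, `v = 0` off `V`. -/
theorem local_osc [PreconnectedSpace Z] {χ : Chart Z} {n : ℕ} {u : G → ℝ}
    (hsol : FG.Sol (T.gr χ n) (T.Lt χ n) (T.Rt χ n) (fun h => u (h : G)))
    (φ : Chart Z) (I : ℕ) (hI : 0 < I) (s : ℕ → ℝ)
    (hs : Antitone s) (hspos : ∀ k, 0 < s k) (v : G → ℝ) (L F : ℝ) (hL : 0 ≤ L)
    (hen : FG.en (T.gr χ n) (fun h => u (h : G)) ≤ F)
    (Γc : Prop)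
    (hΓ : Γc → ∃ Γ : Set Z, IsPreconnected Γ ∧ φ.f 0 ∈ Γ ∧ (Γ ∩ φ.E (s 0)).Nonempty ∧
      ∀ h ∈ S.sph n, (T.U h ∩ Γ).Nonempty → v h = 0)
    (c : ℝ) (σ : ℝ) (hσ : |σ| = 1) (hv : ∀ h ∈ T.V χ n, v h = c + σ * u h)
    (hv0 : ∀ h ∈ S.sph n, h ∉ T.V χ n → v h = 0)
    (O : Set Z) (hO : ∀ h ∈ S.sph n, (T.U h ∩ (φ.E (s 0))ᶜ).Nonempty → T.U h ⊆ O)
    (ha : ∀ h ∈ S.sph n, T.U h ⊆ O → T.U h ⊆ χ.Qo ∨ (v h = 0 ∧ Γc))
    (hl : ∀ k < I, ∀ ρ : G → ℝ, (∀ h, 0 ≤ ρ h) → ∃ B : Finset G,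
        B ⊆ ringTiles T φ n (s (k + 1)) (s k) ∧ B.Nonempty ∧
        Planar.FamConn T.U B ∧ Separates (T.un B) (φ.D (s (k + 1))) (φ.E (s k)) ∧
        (∑ h ∈ B, ρ h) ^ 2 ≤ L * ∑ h ∈ ringTiles T φ n (s (k + 1)) (s k), ρ h ^ 2) :
    ∀ h ∈ S.sph n, ∀ h' ∈ S.sph n, (T.U h ∩ φ.D (s I)).Nonempty → (T.U h' ∩ φ.D (s I)).Nonempty →
      (v h - v h') ^ 2 ≤ 9 * (L * ((2 * val T * F) / I)) := by
  have hVsub : T.V χ n ⊆ S.sph n := by
    intro h hh
    rw [Setup.mem_sph]; exact (Tiles.mem_V.1 hh).1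
  have hQoV : ∀ h ∈ S.sph n, (T.U h ∩ χ.Qo).Nonempty → h ∈ T.V χ n := by
    intro h hh hne
    rw [Tiles.mem_V]
    exact ⟨Setup.mem_sph.1 hh, hne.mono (inter_subset_inter_right _ (Qo_sub_Q χ))⟩
  -- tiles inside
  have hin : ∀ h ∈ S.sph n, Disjoint (T.U h) (φ.E (s 0)) → T.U h ⊆ O := by
    intro h hh hd
    obtain ⟨z, hz⟩ := (T.isConnected h).nonempty
    exact hO h hh ⟨z, hz, Set.disjoint_left.1 hd hz⟩
  have hnbin : ∀ h ∈ S.sph n, Disjoint (T.U h) (φ.E (s 0)) → ∀ k ∈ S.sph n,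
      (T.U h ∩ T.U k).Nonempty → T.U k ⊆ O := by
    intro h hh hd k hk hne
    obtain ⟨z, hz1, hz2⟩ := hne
    exact hO k hk ⟨z, hz2, Set.disjoint_left.1 hd hz1⟩
  -- neighbours of a tile inside `Qo`
  have hnbV : ∀ h, T.U h ⊆ χ.Qo → ∀ k ∈ S.sph n, (T.U h ∩ T.U k).Nonempty → k ∈ T.V χ n := by
    intro h hh k hk hne
    obtain ⟨z, hz1, hz2⟩ := hne
    exact hQoV k hk ⟨z, hz2, hh hz1⟩
  refine osc_rings φ n I hI s hs v L (2 * val T * F) hL Γc hΓ hspos ?_ ?_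
    (fun k hk => hl k hk (vr T n v) (vr_nonneg n v))
  · -- harmonicity
    intro h hh hd
    rcases ha h hh (hin h hh hd) with h1 | h1
    · left
      have hhV : h ∈ T.V χ n := by
        obtain ⟨z, hz⟩ := (T.isConnected h).nonempty
        exact hQoV h hh ⟨z, hz, h1 hz⟩
      have e1 : (S.sph n).filter (fun k => (T.U h ∩ T.U k).Nonempty) =
          (T.V χ n).filter (fun k => (T.U h ∩ T.U k).Nonempty) := by
        ext k
        simp only [Finset.mem_filter]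
        constructor
        · rintro ⟨h2, h3⟩
          exact ⟨hnbV h h1 k h2 h3, h3⟩
        · rintro ⟨h2, h3⟩
          exact ⟨hVsub h2, h3⟩
      have h2 : FG.lap (T.gr χ n) (fun h => u (h : G)) ⟨h, hhV⟩ = 0 := by
        apply hsol.harm
        · rintro ⟨z, hz1, hz2⟩
          exact Set.disjoint_left.1 (Qo_disj_left χ) (h1 hz1) hz2
        · rintro ⟨z, hz1, hz2⟩
          exact Set.disjoint_left.1 (Qo_disj_right χ) (h1 hz1) hz2
      rw [FG.lap_def] at h2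
      rw [Hm, e1]
      have e2 : ∑ k ∈ (T.V χ n).filter (fun k => (T.U h ∩ T.U k).Nonempty), (v k - v h) =
          σ * ∑ k ∈ (T.V χ n).filter (fun k => (T.U h ∩ T.U k).Nonempty), (u k - u h) := by
        rw [Finset.mul_sum]
        refine Finset.sum_congr rfl fun k hk => ?_
        rw [hv k (Finset.mem_filter.1 hk).1, hv h hhV]
        ring
      rw [e2, sum_V h hhV (fun k => u k - u h) (by ring)]
      rw [h2, mul_zero]
    · exact Or.inr h1
  · -- energy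
    have hgr := FG.sum_grad_sq_le (T.gr χ n) (fun h => u (h : G)) (val T) (degree_le χ n)
    have hΔ : (0 : ℝ) ≤ 2 * val T := by positivity
    refine le_trans ?_ (mul_le_mul_of_nonneg_left hen hΔ)
    refine le_trans ?_ hgr
    -- pointwise bound
    have hpt : ∀ h ∈ (S.sph n).filter (fun h => Disjoint (T.U h) (φ.E (s 0))),
        vr T n v h ^ 2 ≤ (if hh : h ∈ T.V χ n then
          FG.grad (T.gr χ n) (fun h => u (h : G)) ⟨h, hh⟩ else 0) ^ 2 := by
      intro h hh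
      obtain ⟨hhS, hd⟩ := Finset.mem_filter.1 hh
      have hhO := hin h hhS hd
      by_cases hhV : h ∈ T.V χ n
      · rw [dif_pos hhV]
        apply pow_le_pow_left₀ (vr_nonneg n v h)
        have e1 : vr T n v h ≤
            ∑ k ∈ (T.V χ n).filter (fun k => (T.U h ∩ T.U k).Nonempty), |v k - v h| := by
          unfold vr
          apply le_of_eq
          symm
          apply Finset.sum_subset
          · exact Finset.filter_subset_filter _ hVsub
          · intro k hk hk'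
            obtain ⟨hk1, hk2⟩ := Finset.mem_filter.1 hk
            have hkV : k ∉ T.V χ n := fun h2 => hk' (Finset.mem_filter.2 ⟨h2, hk2⟩)
            rcases ha h hhS hhO with h1 | h1
            · exact absurd (hnbV h h1 k hk1 hk2) hkV
            · rw [h1.1, hv0 k hk1 hkV, sub_self, abs_zero]
        refine e1.trans (le_of_eq ?_)
        rw [FG.grad_def, sum_V h hhV (fun k => |v k - v h|) (by simp)]
        refine Finset.sum_congr rfl fun w _ => ?_
        split_ifs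
        · rw [hv w w.2, hv h hhV]
          have : c + σ * u w - (c + σ * u h) = σ * (u w - u h) := by ring
          rw [this, abs_mul, hσ, one_mul, abs_sub_comm]
        · rfl
      · rw [dif_neg hhV]
        have e1 : vr T n v h = 0 := by
          unfold vr
          apply Finset.sum_eq_zero
          intro k hk
          obtain ⟨hk1, hk2⟩ := Finset.mem_filter.1 hk
          rw [hv0 h hhS hhV, sub_zero]
          by_cases hkV : k ∈ T.V χ n
          · rcases ha k hk1 (hnbin h hhS hd k hk1 hk2) with h1 | h1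
            · obtain ⟨z, hz1, hz2⟩ := hk2
              exact absurd (hQoV h hhS ⟨z, hz1, h1 hz2⟩) hhV
            · rw [h1.1, abs_zero]
          · rw [hv0 k hk1 hkV, abs_zero]
        rw [e1]
    refine (Finset.sum_le_sum hpt).trans ?_
    calc _ ≤ ∑ h ∈ S.sph n, (if hh : h ∈ T.V χ n then
          FG.grad (T.gr χ n) (fun h => u (h : G)) ⟨h, hh⟩ else 0) ^ 2 := by
          apply Finset.sum_le_sum_of_subset_of_nonneg (Finset.filter_subset _ _)
          intro _ _ _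
          positivity
      _ = ∑ h ∈ T.V χ n, (if hh : h ∈ T.V χ n then
          FG.grad (T.gr χ n) (fun h => u (h : G)) ⟨h, hh⟩ else 0) ^ 2 := by
          symm
          apply Finset.sum_subset hVsub
          intro h _ hh
          rw [dif_neg hh]; norm_num
      _ = ∑ x : T.V χ n, FG.grad (T.gr χ n) (fun h => u (h : G)) x ^ 2 := by
          rw [← Finset.sum_coe_sort (T.V χ n)]
          refine Finset.sum_congr rfl fun x _ => ?_
          rw [dif_pos x.2]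
      _ ≤ _ := le_rfl

/-- the closed rectangle without its top and bottom sides -/
def Qs (χ : Chart Z) : Set Z := χ.f '' (Icc (0 : ℝ) 1 ×ˢ Ioo (0 : ℝ) 1)

/-- A connected set close to a point of the left (`c = 0`) or right (`c = 1`) side, meeting `Q` but
not the line of this side, is inside `Qo`. -/
theorem sub_Qo_of_side (χ : Chart Z) {c b ε0 : ℝ} (hc : c = 0 ∨ c = 1) (h1 : ε0 ≤ b)
    (h2 : ε0 ≤ 1 - b) (h3 : ε0 ≤ 1) {U : Set Z} (hU : IsPreconnected U)
    (hUO : U ⊆ χ.f '' ball ((c, b) : ℝ × ℝ) ε0) (hUQ : (U ∩ χ.Q).Nonempty)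
    (hUl : Disjoint U (χ.f '' ({c} ×ˢ Icc (0 : ℝ) 1))) : U ⊆ χ.Qo := by
  set W : Set (ℝ × ℝ) := χ.f ⁻¹' U with hW
  have hWU : χ.f '' W = U := by
    rw [hW, image_preimage_eq_inter_range]
    apply inter_eq_left.2
    exact hUO.trans (image_subset_range _ _)
  have hWc : IsPreconnected W := by
    rw [← hWU] at hU
    exact χ.emb.isInducing.isPreconnected_image.1 hU
  have hWb : ∀ p ∈ W, |p.1 - c| < ε0 ∧ |p.2 - b| < ε0 := by
    intro p hp
    obtain ⟨q, hq, he⟩ := hUO (show χ.f p ∈ U from hp)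
    rw [χ.emb.injective he] at hq
    rw [mem_ball, Prod.dist_eq, max_lt_iff, Real.dist_eq, Real.dist_eq] at hq
    exact hq
  have hJ : IsPreconnected (Prod.fst '' W) := hWc.image _ continuous_fst.continuousOn
  have hJc : c ∉ Prod.fst '' W := by
    rintro ⟨p, hp, hpc⟩
    have h4 := (hWb p hp).2
    rw [abs_lt] at h4
    apply Set.disjoint_left.1 hUl (show χ.f p ∈ U from hp)
    exact ⟨p, ⟨hpc, by constructor <;> linarith [h4.1, h4.2]⟩, rfl⟩
  obtain ⟨z, hz1, q, hq, rfl⟩ := hUQ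
  have hqW : q ∈ W := hz1
  have hqJ : q.1 ∈ Prod.fst '' W := ⟨q, hqW, rfl⟩
  have hqc : q.1 ≠ c := fun h => hJc (h ▸ hqJ)
  have hord := hJ.ordConnected
  have key : ∀ p ∈ W, 0 < p.1 ∧ p.1 < 1 := by
    intro p hp
    have hpJ : p.1 ∈ Prod.fst '' W := ⟨p, hp, rfl⟩
    have h4 := (hWb p hp).1
    rw [abs_lt] at h4
    rcases hc with rfl | rfl
    · have hq0 : 0 < q.1 := lt_of_le_of_ne hq.1.1 (Ne.symm hqc)
      refine ⟨?_, by linarith [h4.2]⟩
      by_contra hcon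
      push Not at hcon
      exact hJc (hord.out hpJ hqJ ⟨hcon, hq0.le⟩)
    · have hq0 : q.1 < 1 := lt_of_le_of_ne hq.1.2 hqc
      refine ⟨by linarith [h4.1], ?_⟩
      by_contra hcon
      push Not at hcon
      exact hJc (hord.out hqJ hpJ ⟨hq0.le, hcon⟩)
  rw [← hWU]
  apply image_mono
  intro p hp
  have h4 := (hWb p hp).2
  rw [abs_lt] at h4
  exact ⟨key p hp, by constructor <;> linarith [h4.1, h4.2]⟩

theorem isPreconnected_side (χ : Chart Z) (c : ℝ) :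
    IsPreconnected (χ.f '' ({c} ×ˢ Icc (0 : ℝ) 1)) :=
  (isPreconnected_singleton.prod isPreconnected_Icc).image _ χ.emb.continuous.continuousOn

theorem preconnectedSpace_of_homeo (Φ : Z ≃ₜ S2) : PreconnectedSpace Z := by
  have h1 : ConnectedSpace Planar.S2 := Planar.S2_connected
  have h2 : PreconnectedSpace Planar.S2 := h1.toPreconnectedSpace
  have h3 : Continuous (Φ.symm : Planar.S2 → Z) := Φ.symm.continuous
  exact Φ.symm.surjective.denseRange.preconnectedSpace h3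

open Classical in
/-- equicontinuity, abstract form: `O` a neighbourhood of `x`, `v` modification of `u`. -/
theorem equi_aux (Φ : Z ≃ₜ S2) (P : Rec T) :
    ∃ C : ℝ, 0 < C ∧ ∀ (x : Z) (O : Set Z), IsOpen O → x ∈ O → ∀ (Γc : Prop) (Γ : Set Z),
      (Γc → IsPreconnected Γ ∧ x ∈ Γ ∧ ¬ (Γ ⊆ O)) → ∀ (c σ : ℝ), |σ| = 1 →
      (∀ n ∈ P.recs, ∀ v : G → ℝ, (∀ h ∈ T.V P.χ n, v h = c + σ * P.u n h) →
        (∀ h ∈ S.sph n, h ∉ T.V P.χ n → v h = 0) →
        (Γc → ∀ h ∈ S.sph n, (T.U h ∩ Γ).Nonempty → v h = 0) ∧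
        (∀ h ∈ S.sph n, T.U h ⊆ O → T.U h ⊆ P.χ.Qo ∨ (v h = 0 ∧ Γc))) →
      ∀ I : ℕ, 0 < I → ∃ N ∈ 𝓝 x, ∃ n0 : ℕ, ∀ n, n0 ≤ n → n ∈ P.recs → ∀ h ∈ T.V P.χ n,
        ∀ h' ∈ T.V P.χ n, (T.U h ∩ N).Nonempty → (T.U h' ∩ N).Nonempty →
          (P.u n h - P.u n h') ^ 2 ≤ C / I := by
  have hLP : LocallyPathConnectedSpace Z := F_Sep3.locallyPathConnectedSpace_of_homeo Φ
  have hPC : PreconnectedSpace Z := preconnectedSpace_of_homeo Φ
  have hX : Planar.Splits Z := Planar.Splits.of_homeo Planar.splits_S2 Φ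
  obtain ⟨C, hC, hnest⟩ := nested P
  refine ⟨9 * (C * (2 * val T * P.C)) + 1, by have := P.C_pos; positivity, ?_⟩
  intro x O hO hxO Γc Γ hΓ c σ hσ hyp I hI
  obtain ⟨φ, p0, hrange, hφ0⟩ := exists_schart Φ x
  -- first radius
  have hnh : φ.f ⁻¹' O ∈ 𝓝 (0 : ℝ × ℝ) := by
    apply φ.emb.continuous.continuousAt.preimage_mem_nhds
    rw [hφ0]
    exact hO.mem_nhds hxO
  obtain ⟨s0, hs0, hs0O⟩ := Metric.nhds_basis_closedBall.mem_iff.1 hnh
  obtain ⟨s, r, r', hs_0, hspos, hsr, n1, hn1⟩ := hnest φ s0 hs0 I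
  have hanti : Antitone s := by
    apply antitone_nat_of_succ_le
    intro k
    have := hsr k
    linarith [this.1, this.2.1, this.2.2]
  set K : Set Z := φ.f '' closedBall (0 : ℝ × ℝ) s0 with hK
  have hKc : IsCompact K := (isCompact_closedBall _ _).image φ.emb.continuous
  have hKO : K ⊆ O := by
    rintro _ ⟨p, hp, rfl⟩
    exact hs0O hp
  obtain ⟨n2, hn2⟩ := small (T := T) hKc hO hKO
  have hloops : ∀ k : ℕ, ∃ n3 : ℕ, ∀ n, n3 ≤ n → ∀ L : ℝ, SepBound T n (φ.D (r' k)) (φ.E (r k)) L →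
      ∀ ρ : G → ℝ, (∀ h, 0 ≤ ρ h) → ∃ B : Finset G, B ⊆ ringTiles T φ n (s (k + 1)) (s k) ∧
        B.Nonempty ∧ Planar.FamConn T.U B ∧ Separates (T.un B) (φ.D (s (k + 1))) (φ.E (s k)) ∧
        (∑ h ∈ B, ρ h) ^ 2 ≤ L * ∑ h ∈ ringTiles T φ n (s (k + 1)) (s k), ρ h ^ 2 :=
    fun k => loops hX φ p0 hrange (hspos (k + 1)) (hsr k).1 (hsr k).2.1 (hsr k).2.2
  choose n3 hn3 using hloops
  refine ⟨φ.f '' ball (0 : ℝ × ℝ) (s I), ?_, max n1 (max n2 ((Finset.range I).sup n3)), ?_⟩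
  · apply (φ.emb.isOpenMap _ isOpen_ball).mem_nhds
    exact ⟨0, by simpa using hspos I, hφ0⟩
  intro n hn hrec h hh h' hh' hN hN'
  have hnn1 : n1 ≤ n := (le_max_left _ _).trans hn
  have hnn2 : n2 ≤ n := ((le_max_left _ _).trans (le_max_right _ _)).trans hn
  have hnn3 : ∀ k < I, n3 k ≤ n := by
    intro k hk
    have h1 : n3 k ≤ (Finset.range I).sup n3 := Finset.le_sup (Finset.mem_range.2 hk)
    exact h1.trans (((le_max_right _ _).trans (le_max_right _ _)).trans hn)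
  let v : G → ℝ := fun k => if k ∈ T.V P.χ n then c + σ * P.u n k else 0
  have hv : ∀ h ∈ T.V P.χ n, v h = c + σ * P.u n h := fun k hk => if_pos hk
  have hv0 : ∀ h ∈ S.sph n, h ∉ T.V P.χ n → v h = 0 := fun k _ hk => if_neg hk
  obtain ⟨hy1, hy2⟩ := hyp n hrec v hv hv0
  have hLn : 0 < P.L n := lt_of_lt_of_le one_pos (P.one_le n)
  have hVs : ∀ h ∈ T.V P.χ n, h ∈ S.sph n := fun k hk => Setup.mem_sph.2 (Tiles.mem_V.1 hk).1
  have hDs : φ.f '' ball (0 : ℝ × ℝ) (s I) ⊆ φ.D (s I) := image_mono ball_subset_closedBall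
  have hmain := local_osc (P.sol n hrec) φ I hI s hanti hspos v (C * P.L n) (P.C / P.L n)
    (by positivity) (P.en_le n hrec) Γc ?_ c σ hσ hv hv0 O ?_ hy2
    (fun k hk => hn3 k n (hnn3 k hk) _ (hn1 n hnn1 k hk)) h (hVs h hh) h' (hVs h' hh')
    (hN.mono (inter_subset_inter_right _ hDs)) (hN'.mono (inter_subset_inter_right _ hDs))
  · rw [hv h hh, hv h' hh'] at hmain
    have e1 : (c + σ * P.u n h - (c + σ * P.u n h')) ^ 2 = (P.u n h - P.u n h') ^ 2 := by
      have h1 : σ ^ 2 = 1 := by rw [← sq_abs, hσ]; norm_num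
      have h2 : (c + σ * P.u n h - (c + σ * P.u n h')) ^ 2 =
        σ ^ 2 * (P.u n h - P.u n h') ^ 2 := by ring
      rw [h2, h1, one_mul]
    rw [e1] at hmain
    refine hmain.trans ?_
    have e2 : 9 * (C * P.L n * (2 * (val T : ℝ) * (P.C / P.L n) / I)) =
        9 * (C * (2 * val T * P.C)) / I := by
      field_simp
    rw [e2]
    gcongr
    linarith
  · intro hc
    obtain ⟨h1, h2, h3⟩ := hΓ hc
    refine ⟨Γ, h1, hφ0 ▸ h2, ?_, hy1 hc⟩
    obtain ⟨z, hz1, hz2⟩ := not_subset.1 h3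
    refine ⟨z, hz1, ?_⟩
    intro h4
    rw [hs_0] at h4
    exact hz2 (hKO ((image_mono ball_subset_closedBall) h4))
  · intro k hk hne
    apply hn2 n hnn2 k hk
    apply hne.mono
    apply inter_subset_inter_right
    rw [hs_0]
    intro z hz
    exact (image_mono ball_subset_closedBall) (not_not.1 hz)

/-- **Equicontinuity** on `Qs`. -/
theorem equi (Φ : Z ≃ₜ S2) (P : Rec T) (x : Z) (hx : x ∈ Qs P.χ) (e : ℝ) (he : 0 < e) :
    ∃ N ∈ 𝓝 x, ∃ n0 : ℕ, ∀ n, n0 ≤ n → n ∈ P.recs → ∀ h ∈ T.V P.χ n, ∀ h' ∈ T.V P.χ n,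
      (T.U h ∩ N).Nonempty → (T.U h' ∩ N).Nonempty → |P.u n h - P.u n h'| ≤ e := by
  obtain ⟨C, hC, haux⟩ := equi_aux Φ P
  obtain ⟨I, hI⟩ := exists_nat_gt (C / e ^ 2)
  have hIpos : (0 : ℝ) < I := lt_of_le_of_lt (by positivity) hI
  have hI0 : 0 < I := by exact_mod_cast hIpos
  have hCI : C / I ≤ e ^ 2 := by
    rw [div_lt_iff₀ (by positivity)] at hI
    rw [div_le_iff₀ hIpos]
    linarith
  suffices h : ∃ N ∈ 𝓝 x, ∃ n0 : ℕ, ∀ n, n0 ≤ n → n ∈ P.recs → ∀ h ∈ T.V P.χ n,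
        ∀ h' ∈ T.V P.χ n, (T.U h ∩ N).Nonempty → (T.U h' ∩ N).Nonempty →
          (P.u n h - P.u n h') ^ 2 ≤ C / I by
    obtain ⟨N, hN, n0, h1⟩ := h
    refine ⟨N, hN, n0, fun n hn hr h hh h' hh' a b => ?_⟩
    exact abs_le_of_sq_le_sq ((h1 n hn hr h hh h' hh' a b).trans hCI) he.le
  obtain ⟨⟨a, b⟩, ⟨ha, hb⟩, rfl⟩ := hx
  have ha : 0 ≤ a ∧ a ≤ 1 := ha
  have hb : 0 < b ∧ b < 1 := hb
  set ε0 : ℝ := min b (1 - b) with hε0
  have hε0pos : 0 < ε0 := lt_min hb.1 (by linarith [hb.2])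
  have hε1 : ε0 ≤ b := min_le_left _ _
  have hε2 : ε0 ≤ 1 - b := min_le_right _ _
  rcases eq_or_lt_of_le ha.1 with h0 | h0
  · -- left side
    subst h0
    refine haux (P.χ.f (0, b)) (P.χ.f '' ball ((0, b) : ℝ × ℝ) ε0) (P.χ.emb.isOpenMap _ isOpen_ball)
      ⟨(0, b), mem_ball_self hε0pos, rfl⟩ True P.χ.left ?_ 0 1 (by simp) ?_ I hI0
    · intro _
      refine ⟨isPreconnected_side P.χ 0, ⟨(0, b), ⟨rfl, hb.1.le, hb.2.le⟩, rfl⟩, ?_⟩
      intro hcon
      have h1 : P.χ.f (0, 0) ∈ P.χ.left := ⟨(0, 0), ⟨rfl, le_rfl, zero_le_one⟩, rfl⟩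
      obtain ⟨q, hq, hqe⟩ := hcon h1
      rw [P.χ.emb.injective hqe, mem_ball, Prod.dist_eq, max_lt_iff, Real.dist_eq, Real.dist_eq] at hq
      have h2 : |(0 : ℝ) - b| < ε0 := hq.2
      rw [zero_sub, abs_neg, abs_of_pos hb.1] at h2
      linarith
    · intro n hn v hv hv0
      have hl : ∀ h ∈ S.sph n, (T.U h ∩ P.χ.left).Nonempty → v h = 0 := by
        intro h hh hne
        have hV : h ∈ T.V P.χ n :=
          Tiles.mem_V.2 ⟨Setup.mem_sph.1 hh, hne.mono (inter_subset_inter_right _ (left_sub_Q _))⟩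
        have h1 := (P.sol n hn).bc.1 ⟨h, hV⟩ hne
        rw [hv h hV, zero_add, one_mul]
        exact h1
      refine ⟨fun _ => hl, ?_⟩
      intro h hh hO
      by_cases h1 : (T.U h ∩ P.χ.Q).Nonempty
      · by_cases h2 : (T.U h ∩ P.χ.left).Nonempty
        · exact Or.inr ⟨hl h hh h2, trivial⟩
        · left
          rw [not_nonempty_iff_eq_empty, ← disjoint_iff_inter_eq_empty] at h2
          exact sub_Qo_of_side P.χ (Or.inl rfl) hε1 hε2 (by linarith [hb.2])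
            (T.isConnected h).isPreconnected hO h1 h2
      · right
        refine ⟨hv0 h hh ?_, trivial⟩
        intro h2
        exact h1 (Tiles.mem_V.1 h2).2
  rcases eq_or_lt_of_le ha.2 with h1 | h1
  · -- right side
    subst h1
    refine haux (P.χ.f (1, b)) (P.χ.f '' ball ((1, b) : ℝ × ℝ) ε0) (P.χ.emb.isOpenMap _ isOpen_ball)
      ⟨(1, b), mem_ball_self hε0pos, rfl⟩ True P.χ.right ?_ 1 (-1) (by simp) ?_ I hI0
    · intro _
      refine ⟨isPreconnected_side P.χ 1, ⟨(1, b), ⟨rfl, hb.1.le, hb.2.le⟩, rfl⟩, ?_⟩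
      intro hcon
      have h1 : P.χ.f (1, 0) ∈ P.χ.right := ⟨(1, 0), ⟨rfl, le_rfl, zero_le_one⟩, rfl⟩
      obtain ⟨q, hq, hqe⟩ := hcon h1
      rw [P.χ.emb.injective hqe, mem_ball, Prod.dist_eq, max_lt_iff, Real.dist_eq, Real.dist_eq] at hq
      have h2 : |(0 : ℝ) - b| < ε0 := hq.2
      rw [zero_sub, abs_neg, abs_of_pos hb.1] at h2
      linarith
    · intro n hn v hv hv0
      have hl : ∀ h ∈ S.sph n, (T.U h ∩ P.χ.right).Nonempty → v h = 0 := by
        intro h hh hne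
        have hV : h ∈ T.V P.χ n :=
          Tiles.mem_V.2 ⟨Setup.mem_sph.1 hh, hne.mono (inter_subset_inter_right _ (right_sub_Q _))⟩
        have h1 := (P.sol n hn).bc.2 ⟨h, hV⟩ hne
        have h1' : P.u n h = 1 := h1
        rw [hv h hV, h1']
        ring
      refine ⟨fun _ => hl, ?_⟩
      intro h hh hO
      by_cases h1 : (T.U h ∩ P.χ.Q).Nonempty
      · by_cases h2 : (T.U h ∩ P.χ.right).Nonempty
        · exact Or.inr ⟨hl h hh h2, trivial⟩
        · left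
          rw [not_nonempty_iff_eq_empty, ← disjoint_iff_inter_eq_empty] at h2
          exact sub_Qo_of_side P.χ (Or.inr rfl) hε1 hε2 (by linarith [hb.2])
            (T.isConnected h).isPreconnected hO h1 h2
      · right
        refine ⟨hv0 h hh ?_, trivial⟩
        intro h2
        exact h1 (Tiles.mem_V.1 h2).2
  · -- interior
    refine haux (P.χ.f (a, b)) P.χ.Qo (P.χ.emb.isOpenMap _ (isOpen_Ioo.prod isOpen_Ioo))
      ⟨(a, b), ⟨⟨h0, h1⟩, hb⟩, rfl⟩ False ∅ (fun h => h.elim) 0 1 (by simp) ?_ I hI0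
    intro n hn v hv hv0
    refine ⟨fun h => h.elim, ?_⟩
    intro h hh hO
    exact Or.inl hO

end Crest.Agent.R193.M2_Equi
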