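import Mathlib
import Crest.Agent.R193.Defs
import Crest.Agent.R193.M_Defs
import Crest.Agent.R193.M2_Equi

/-!
# R193, block M2 (helper818): the limit function
-/

set_option autoImplicit false

noncomputable section

open Set Filter Topology Metric

namespace Crest.Agent.R193.M2_Lim

open Crest.Agent.R193 M2_Ring M2_Equi

variable {G Z : Type} [Group G] [MetricSpace Z] [MulAction G Z] {S : Setup G Z} {T : Tiles S}

/-- an ultrafilter on the levels along which everything happens -/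
theorem exists_ultra (P : Rec T) : ∃ l : Ultrafilter ℕ, (l : Filter ℕ) ≤ atTop ∧
    P.recs ∈ (l : Filter ℕ) ∧ Tendsto P.L l atTop := by
  have h := fun k : ℕ => P.unbdd (k : ℝ) k
  choose m hm1 hm2 hm3 using h
  have hmt : Tendsto m atTop atTop := tendsto_atTop_mono hm2 tendsto_id
  set F : Filter ℕ := map m atTop with hF
  have hFne : F.NeBot := inferInstance
  refine ⟨Ultrafilter.of F, (Ultrafilter.of_le F).trans hmt, ?_, ?_⟩
  · apply Ultrafilter.of_le F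
    rw [hF, mem_map]
    exact Eventually.of_forall hm1
  · refine Tendsto.mono_left ?_ (Ultrafilter.of_le F)
    rw [hF, tendsto_map'_iff]
    exact tendsto_atTop_mono hm3 tendsto_natCast_atTop_atTop

/-- a tile of level `n` containing `y` -/
def tl (T : Tiles S) (n : ℕ) (y : Z) : G := (T_Comp.exists_mem T y n).choose

theorem tl_mem (n : ℕ) (y : Z) : tl T n y ∈ S.sph n ∧ y ∈ T.U (tl T n y) :=
  (T_Comp.exists_mem T y n).choose_spec

theorem tl_V {χ : Chart Z} (n : ℕ) {y : Z} (hy : y ∈ χ.Q) : tl T n y ∈ T.V χ n := by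
  rw [Tiles.mem_V]
  exact ⟨Setup.mem_sph.1 (tl_mem n y).1, ⟨y, (tl_mem n y).2, hy⟩⟩

theorem Qs_sub_Q (χ : Chart Z) : Qs χ ⊆ χ.Q :=
  image_mono (prod_mono Subset.rfl Ioo_subset_Icc_self)

theorem u_mem {P : Rec T} {n : ℕ} (hn : n ∈ P.recs) {h : G} (hh : h ∈ T.V P.χ n) :
    P.u n h ∈ Icc (0 : ℝ) 1 := by
  have := (P.sol n hn).nonneg_le_one ⟨h, hh⟩
  exact this

/-- the pointwise limits -/
theorem exists_pt (P : Rec T) (l : Ultrafilter ℕ) (hrec : P.recs ∈ (l : Filter ℕ)) (y : Z)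
    (hy : y ∈ Qs P.χ) : ∃ c ∈ Icc (0 : ℝ) 1, Tendsto (fun n => P.u n (tl T n y)) l (𝓝 c) := by
  have hmem : Icc (0 : ℝ) 1 ∈ l.map (fun n => P.u n (tl T n y)) := by
    rw [Ultrafilter.mem_map]
    refine mem_of_superset hrec ?_
    intro n hn
    exact u_mem hn (tl_V n (Qs_sub_Q _ hy))
  obtain ⟨c, hc1, hc2⟩ := isCompact_Icc.ultrafilter_le_nhds' _ hmem
  exact ⟨c, hc1, hc2⟩

open Classical in
/-- **The limit function** on the rectangle without top and bottom sides. -/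
theorem exists_limit (Φ : Z ≃ₜ S2) (P : Rec T) : ∃ (l : Ultrafilter ℕ) (w : Z → ℝ),
    (l : Filter ℕ) ≤ atTop ∧ P.recs ∈ (l : Filter ℕ) ∧ Tendsto P.L l atTop ∧
    (∀ x, 0 ≤ w x ∧ w x ≤ 1) ∧ ContinuousOn w (Qs P.χ) ∧
    (∀ b ∈ Ioo (0 : ℝ) 1, w (P.χ.f (0, b)) = 0) ∧ (∀ b ∈ Ioo (0 : ℝ) 1, w (P.χ.f (1, b)) = 1) ∧
    ∀ K : Set Z, IsCompact K → K ⊆ Qs P.χ → ∀ e > 0, ∀ᶠ n in (l : Filter ℕ),
      ∀ h ∈ T.V P.χ n, ∀ y ∈ T.U h ∩ K, |P.u n h - w y| ≤ e := by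
  obtain ⟨l, hl1, hl2, hl3⟩ := exists_ultra P
  choose! c hc1 hc2 using exists_pt P l hl2
  set w : Z → ℝ := fun y => if y ∈ Qs P.χ then c y else 0 with hw
  have hwc : ∀ y ∈ Qs P.χ, Tendsto (fun n => P.u n (tl T n y)) l (𝓝 (w y)) := by
    intro y hy
    have : w y = c y := if_pos hy
    rw [this]
    exact hc2 y hy
  -- closeness of nearby values
  have hclose : ∀ y ∈ Qs P.χ, ∀ e > 0, ∃ N ∈ 𝓝 y, (∀ z ∈ N ∩ Qs P.χ, |w z - w y| ≤ e) ∧
      ∃ n0 : ℕ, ∀ n, n0 ≤ n → n ∈ P.recs → ∀ h ∈ T.V P.χ n, ∀ h' ∈ T.V P.χ n,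
      (T.U h ∩ N).Nonempty → (T.U h' ∩ N).Nonempty → |P.u n h - P.u n h'| ≤ e := by
    intro y hy e he
    obtain ⟨N, hN, n0, h0⟩ := equi Φ P y hy e he
    refine ⟨N, hN, ?_, n0, h0⟩
    intro z hz
    have h1 : Tendsto (fun n => |P.u n (tl T n z) - P.u n (tl T n y)|) l (𝓝 |w z - w y|) :=
      ((hwc z hz.2).sub (hwc y hy)).abs
    refine le_of_tendsto h1 ?_
    have h2 : ∀ᶠ n in (l : Filter ℕ), n0 ≤ n := hl1 (eventually_ge_atTop n0)
    filter_upwards [h2, hl2] with n hn hr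
    exact h0 n hn hr _ (tl_V n (Qs_sub_Q _ hz.2)) _ (tl_V n (Qs_sub_Q _ hy))
      ⟨z, (tl_mem n z).2, hz.1⟩ ⟨y, (tl_mem n y).2, mem_of_mem_nhds hN⟩
  refine ⟨l, w, hl1, hl2, hl3, ?_, ?_, ?_, ?_, ?_⟩
  · intro x
    by_cases hx : x ∈ Qs P.χ
    · have : w x = c x := if_pos hx
      rw [this]
      exact hc1 x hx
    · have : w x = 0 := if_neg hx
      rw [this]
      exact ⟨le_rfl, zero_le_one⟩
  · intro y hy
    rw [ContinuousWithinAt, Metric.tendsto_nhds]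
    intro e he
    obtain ⟨N, hN, h1, -⟩ := hclose y hy (e / 2) (half_pos he)
    have h2 : ∀ᶠ z in 𝓝[Qs P.χ] y, z ∈ N ∩ Qs P.χ :=
      (eventually_nhdsWithin_of_eventually_nhds hN).and self_mem_nhdsWithin
    filter_upwards [h2] with z hz
    rw [Real.dist_eq]
    exact (h1 z hz).trans_lt (half_lt_self he)
  · intro b hb
    have hy : P.χ.f (0, b) ∈ Qs P.χ := ⟨(0, b), ⟨⟨le_rfl, zero_le_one⟩, hb⟩, rfl⟩
    refine tendsto_nhds_unique (hwc _ hy) ?_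
    refine tendsto_const_nhds.congr' ?_
    filter_upwards [hl2] with n hn
    have h1 := (P.sol n hn).bc.1 ⟨tl T n (P.χ.f (0, b)), tl_V n (Qs_sub_Q _ hy)⟩
      ⟨_, (tl_mem n _).2, ⟨(0, b), ⟨rfl, hb.1.le, hb.2.le⟩, rfl⟩⟩
    exact h1.symm
  · intro b hb
    have hy : P.χ.f (1, b) ∈ Qs P.χ := ⟨(1, b), ⟨⟨zero_le_one, le_rfl⟩, hb⟩, rfl⟩
    refine tendsto_nhds_unique (hwc _ hy) ?_
    refine tendsto_const_nhds.congr' ?_
    filter_upwards [hl2] with n hn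
    have h1 := (P.sol n hn).bc.2 ⟨tl T n (P.χ.f (1, b)), tl_V n (Qs_sub_Q _ hy)⟩
      ⟨_, (tl_mem n _).2, ⟨(1, b), ⟨rfl, hb.1.le, hb.2.le⟩, rfl⟩⟩
    exact h1.symm
  · intro K hK hKQ e he
    have hcl := fun y : Z => fun hy : y ∈ Qs P.χ => hclose y hy (e / 3) (by positivity)
    choose! N hN hN1 n0 hn0 using hcl
    obtain ⟨t, htK, hcov⟩ := hK.elim_nhds_subcover N (fun y hy => hN y (hKQ hy))
    have hev : ∀ᶠ n in (l : Filter ℕ), ∀ y ∈ t, |P.u n (tl T n y) - w y| ≤ e / 3 ∧ n0 y ≤ n := by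
      rw [Filter.eventually_all_finset]
      intro y hy
      have h1 : ∀ᶠ n in (l : Filter ℕ), |P.u n (tl T n y) - w y| ≤ e / 3 := by
        have h2 := (Metric.tendsto_nhds.1 (hwc y (hKQ (htK y hy)))) (e / 3) (by positivity)
        filter_upwards [h2] with n hn
        rw [Real.dist_eq] at hn
        exact hn.le
      exact h1.and (hl1 (eventually_ge_atTop (n0 y)))
    filter_upwards [hev, hl2] with n hn hr
    intro h hh z hz
    obtain ⟨y, hy, hzy⟩ := mem_iUnion₂.1 (hcov hz.2)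
    have hyQ := hKQ (htK y hy)
    have h1 := hn0 y hyQ n (hn y hy).2 hr h hh (tl T n y) (tl_V n (Qs_sub_Q _ hyQ))
      ⟨z, hz.1, hzy⟩ ⟨y, (tl_mem n y).2, mem_of_mem_nhds (hN y hyQ)⟩
    have h2 := (hn y hy).1
    have h3 := hN1 y hyQ z ⟨hzy, hKQ hz.2⟩
    rw [abs_le] at h1 h2 h3 ⊢
    constructor <;> linarith [h1.1, h1.2, h2.1, h2.2, h3.1, h3.2]

end Crest.Agent.R193.M2_Lim
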