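import Mathlib
import Crest.Agent.R193.Defs
import Crest.Agent.R193.M_Defs
import Crest.Agent.R193.M2_Lim
import Crest.Agent.R193.M2_Level

/-!
# R193, block M2: records produce a limit function (`Lim`)

From `M2_Lim.exists_limit` (helper818) and `M2_Level.low` (helper878).
-/

set_option autoImplicit false

noncomputable section

open Set Filter Topology MeasureTheory

namespace Crest.Agent.R193.M2_Main

open Crest.Agent.R193 M2_Equi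

variable {G Z : Type} [Group G] [MetricSpace Z] [MulAction G Z] {S : Setup G Z} {T : Tiles S}

theorem mid_mem_Qs (χ : Chart Z) {a : ℝ} (ha : a ∈ Icc (0 : ℝ) 1) : χ.f (a, 1 / 2) ∈ Qs χ :=
  ⟨(a, 1 / 2), ⟨ha, by norm_num, by norm_num⟩, rfl⟩

theorem M2 (Φ : Z ≃ₜ S2) (P : Rec T) : Nonempty (Lim P) := by
  classical
  obtain ⟨l, w, hl1, hl2, hl3, hrng, hcont, hleft, hright, hunif⟩ := M2_Lim.exists_limit Φ P
  have hsub : P.χ.Qo ⊆ Qs P.χ := image_mono (prod_mono Ioo_subset_Icc_self Subset.rfl)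
  -- two points on the midline
  have hf : ContinuousOn (fun a : ℝ => w (P.χ.f (a, 1 / 2))) (Icc 0 1) := by
    refine hcont.comp ?_ (fun a ha => mid_mem_Qs P.χ ha)
    exact (P.χ.emb.continuous.comp (by fun_prop)).continuousOn
  have hf0 : w (P.χ.f (0, 1 / 2)) = 0 := hleft _ ⟨by norm_num, by norm_num⟩
  have hf1 : w (P.χ.f (1, 1 / 2)) = 1 := hright _ ⟨by norm_num, by norm_num⟩
  have hex0 : ∃ a ∈ Ioo (0 : ℝ) (1 / 2), w (P.χ.f (a, 1 / 2)) < 1 / 4 := by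
    have h0 : ContinuousWithinAt (fun a : ℝ => w (P.χ.f (a, 1 / 2))) (Icc 0 1) 0 :=
      hf 0 ⟨le_rfl, zero_le_one⟩
    have h1 : ∀ᶠ a in 𝓝[Icc 0 1] (0 : ℝ), w (P.χ.f (a, 1 / 2)) < 1 / 4 := by
      refine h0.eventually_lt_const ?_
      show w (P.χ.f (0, 1 / 2)) < 1 / 4
      rw [hf0]; norm_num
    have h2 : ∀ᶠ a in 𝓝[>] (0 : ℝ), w (P.χ.f (a, 1 / 2)) < 1 / 4 := by
      have h3 : 𝓝[>] (0 : ℝ) ≤ 𝓝[Icc 0 1] (0 : ℝ) := by
        rw [← nhdsWithin_Ioo_eq_nhdsGT (zero_lt_one (α := ℝ))]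
        exact nhdsWithin_mono _ Ioo_subset_Icc_self
      exact h3 h1
    have h4 : ∀ᶠ a in 𝓝[>] (0 : ℝ), a ∈ Ioo (0 : ℝ) (1 / 2) :=
      Ioo_mem_nhdsGT (by norm_num)
    obtain ⟨a, ha⟩ := (h2.and h4).exists
    exact ⟨a, ha.2, ha.1⟩
  have hex1 : ∃ b ∈ Ioo (1 / 2 : ℝ) 1, 3 / 4 < w (P.χ.f (b, 1 / 2)) := by
    have h0 : ContinuousWithinAt (fun a : ℝ => w (P.χ.f (a, 1 / 2))) (Icc 0 1) 1 :=
      hf 1 ⟨zero_le_one, le_rfl⟩
    have h1 : ∀ᶠ a in 𝓝[Icc 0 1] (1 : ℝ), 3 / 4 < w (P.χ.f (a, 1 / 2)) := by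
      refine h0.eventually_const_lt ?_
      show 3 / 4 < w (P.χ.f (1, 1 / 2))
      rw [hf1]; norm_num
    have h2 : ∀ᶠ a in 𝓝[<] (1 : ℝ), 3 / 4 < w (P.χ.f (a, 1 / 2)) := by
      have h3 : 𝓝[<] (1 : ℝ) ≤ 𝓝[Icc 0 1] (1 : ℝ) := by
        rw [← nhdsWithin_Ioo_eq_nhdsLT (zero_lt_one (α := ℝ))]
        exact nhdsWithin_mono _ Ioo_subset_Icc_self
      exact h3 h1
    have h4 : ∀ᶠ a in 𝓝[<] (1 : ℝ), a ∈ Ioo (1 / 2 : ℝ) 1 :=
      Ioo_mem_nhdsLT (by norm_num)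
    obtain ⟨a, ha⟩ := (h2.and h4).exists
    exact ⟨a, ha.2, ha.1⟩
  obtain ⟨a, ha, hwa⟩ := hex0
  obtain ⟨b, hb, hwb⟩ := hex1
  -- the limit function, extended by zero
  set w' : Z → ℝ := P.χ.Qo.indicator w with hw'
  have hw'eq : ∀ x ∈ P.χ.Qo, w' x = w x := fun x hx => indicator_of_mem hx w
  have hmid : ∀ a ∈ Ioo (0 : ℝ) 1, P.χ.f (a, 1 / 2) ∈ P.χ.Qo := fun a ha =>
    ⟨(a, 1 / 2), ⟨ha, by norm_num, by norm_num⟩, rfl⟩
  have hcont' : ContinuousOn w' P.χ.Qo := (hcont.mono hsub).congr hw'eq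
  have hunif' : ∀ K : Set Z, IsCompact K → K ⊆ P.χ.Qo → ∀ e > 0, ∀ᶠ n in (l : Filter ℕ),
      ∀ h ∈ T.V P.χ n, ∀ y ∈ T.U h ∩ K, |P.u n h - w' y| ≤ e := by
    intro K hK hKQ e he
    filter_upwards [hunif K hK (hKQ.trans hsub) e he] with n hn h hh y hy
    rw [hw'eq y (hKQ hy.2)]
    exact hn h hh y hy
  obtain ⟨s0, hs0, hs1, hlow⟩ := M2_Level.low T Φ P (l : Filter ℕ) hl1 hl2 w' hcont' hunif'
    (a := a) (b := b) ha.1 (ha.2.trans hb.1) hb.2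
    (by rw [hw'eq _ (hmid a ⟨ha.1, by linarith [ha.2]⟩)]; exact hwa)
    (by rw [hw'eq _ (hmid b ⟨by linarith [hb.1], hb.2⟩)]; exact hwb)
  refine ⟨{ l := (l : Filter ℕ), ne := inferInstance, le := hl1, recs := hl2, tend := hl3,
            w := w', rng := ?_, cont := hcont', off := ?_, unif := hunif',
            s0 := s0, s0_pos := hs0, s0_lt := hs1, low := hlow }⟩
  · intro x
    by_cases hx : x ∈ P.χ.Qo
    · rw [hw'eq x hx]; exact hrng x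
    · rw [hw', indicator_of_notMem hx]; exact ⟨le_rfl, zero_le_one⟩
  · intro x hx
    rw [hw', indicator_of_notMem hx]

theorem M2_main (T : Tiles S) (Φ : Z ≃ₜ S2) : ∀ P : Rec T, Nonempty (Lim P) := fun P => M2 Φ P

end Crest.Agent.R193.M2_Main
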