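import Mathlib
import Crest.Agent.R193.Dual
import Crest.Agent.R193.F_Sep2
import Crest.Agent.R193.T_Comp

/-!
# R193, M5_Dual (helper878): the dual measure of a standard annulus at one level
-/

set_option autoImplicit false

noncomputable section

open Set Filter Topology
open scoped Classical

namespace Crest.Agent.R193.M5_Dual

variable {G Z : Type} [Group G] [MetricSpace Z] [MulAction G Z] {S : Setup G Z}

/-- tiles meeting the closure of `Eᶜ` suffice to separate -/
theorem separates_filter [LocallyPathConnectedSpace Z] (T : Tiles S) {D E : Set Z}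
    (hE : IsClosed E) (hDE : Disjoint D E) {A : Finset G} (h : Separates (T.un A) D E) :
    Separates (⋃ k ∈ A.filter (fun k => (T.U k ∩ closure Eᶜ).Nonempty), T.U k) D E := by
  have h1 := F_Sep2.separates_inter_closure (T_Comp.isClosed_un T A) hE hDE h
  intro c hc hD hE'
  obtain ⟨x, hxc, hx1, hx2⟩ := h1 c hc hD hE'
  obtain ⟨k, hk, hxk⟩ := (T_Comp.mem_un T).1 hx1
  exact ⟨x, hxc, mem_iUnion₂.2 ⟨k, Finset.mem_filter.2 ⟨hk, x, hxk, hx2⟩, hxk⟩⟩

theorem exists_mu [LocallyPathConnectedSpace Z] (T : Tiles S) {m : ℕ} {D E : Set Z} {L : ℝ}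
    (hL : 0 < L) (hE : IsClosed E) (hDE : Disjoint D E) (h : SepBound T m D E L) :
    ∃ μ : G → ℝ, (∀ h, 0 ≤ μ h) ∧
      ∑ h ∈ (S.sph m).filter (fun h => (T.U h ∩ closure Eᶜ).Nonempty), μ h ^ 2 ≤ L ∧
      ∀ S' : Finset G, S' ⊆ (S.sph m).filter (fun h => (T.U h ∩ closure Eᶜ).Nonempty) →
        (∀ A ⊆ (S.sph m).filter (fun h => (T.U h ∩ closure Eᶜ).Nonempty),
          Separates (⋃ h ∈ A, T.U h) D E → ∃ h ∈ A, h ∈ S') →
        1 ≤ ∑ h' ∈ S', μ h' := by
  set X := (S.sph m).filter (fun h => (T.U h ∩ closure Eᶜ).Nonempty) with hX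
  set SS : Finset (Finset G) := X.powerset.filter
    (fun A => Separates (⋃ h ∈ A, T.U h) D E) with hSS
  have hmX : ∀ k, k ∈ X ↔ k ∈ S.sph m ∧ (T.U k ∩ closure Eᶜ).Nonempty := fun k => by
    rw [hX, Finset.mem_filter]
  -- from a separating family at level `m`
  have key : ∀ A : Finset G, A ⊆ S.sph m → Separates (T.un A) D E →
      A.filter (fun k => (T.U k ∩ closure Eᶜ).Nonempty) ∈ SS := by
    intro A hA hsep
    refine Finset.mem_filter.2 ⟨Finset.mem_powerset.2 ?_, separates_filter T hE hDE hsep⟩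
    exact Finset.filter_subset_filter _ hA
  have hne : SS.Nonempty := by
    obtain ⟨A, hA, hsep, _⟩ := h (fun _ => 0) (fun _ => le_rfl)
    exact ⟨_, key A hA hsep⟩
  have hsub : ∀ s ∈ SS, s ⊆ X := fun s hs => Finset.mem_powerset.1 (Finset.mem_filter.1 hs).1
  obtain ⟨w, hw0, _, hw1, hw2⟩ := Dual.exists_prob X SS hne hsub (1 / L) (by positivity) (by
    intro ρ hρ hadm
    obtain ⟨A, hA, hsep, hle⟩ := h (fun k => if k ∈ X then ρ k else 0)
      (fun k => by split_ifs; exacts [hρ k, le_rfl])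
    have h1 := hadm _ (key A hA hsep)
    have h2 : ∑ k ∈ A.filter (fun k => (T.U k ∩ closure Eᶜ).Nonempty), ρ k ≤
        ∑ k ∈ A, if k ∈ X then ρ k else 0 := by
      rw [Finset.sum_filter]
      refine Finset.sum_le_sum fun k hk => ?_
      by_cases hk2 : (T.U k ∩ closure Eᶜ).Nonempty
      · have : k ∈ X := (hmX k).2 ⟨hA hk, hk2⟩
        rw [if_pos hk2, if_pos this]
      · rw [if_neg hk2]
        split_ifs
        exacts [hρ k, le_rfl]
    have h3 : ∑ k ∈ S.sph m, (if k ∈ X then ρ k else 0) ^ 2 = ∑ k ∈ X, ρ k ^ 2 := by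
      have h5 : ∑ k ∈ X, ρ k ^ 2 = ∑ k ∈ S.sph m, if (T.U k ∩ closure Eᶜ).Nonempty then
          ρ k ^ 2 else 0 := by rw [hX, Finset.sum_filter]
      rw [h5]
      refine Finset.sum_congr rfl fun k hk => ?_
      by_cases hk2 : (T.U k ∩ closure Eᶜ).Nonempty
      · rw [if_pos ((hmX k).2 ⟨hk, hk2⟩), if_pos hk2]
      · rw [if_neg (fun h => hk2 ((hmX k).1 h).2), if_neg hk2]
        simp
    rw [h3] at hle
    have h4 : (1 : ℝ) ≤ (∑ k ∈ A, if k ∈ X then ρ k else 0) ^ 2 := by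
      have := h1.trans h2
      nlinarith
    rw [div_le_iff₀ hL]
    nlinarith)
  refine ⟨Dual.pm SS w, fun k => Dual.pm_nonneg hw0 k, ?_, ?_⟩
  · simpa using hw2
  · intro S' hS' hmeet
    refine Dual.one_le_of_meets SS w hw0 hw1 S' ?_
    intro s hs
    exact hmeet s (hsub s hs) (Finset.mem_filter.1 hs).2

end Crest.Agent.R193.M5_Dual
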