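import Mathlib
import Crest.Agent.R193.Defs
import Crest.Agent.R193.T_Main
import Crest.Agent.R193.T_Comp

/-!
# R193 block M5: the counting inputs (N1), (N2), (K) of the packing inequality

All statements are for arbitrary finsets `A` satisfying pointwise conditions (so that no
decidability instance matters).
-/

set_option autoImplicit false
set_option linter.style.haveILetI false
set_option linter.deprecated false

noncomputable section

open Set Filter Topology MeasureTheory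

namespace Crest.Agent.R193.M5_Count

open Crest.Agent.R193 Crest.Agent.R193.T_Main Crest.Agent.R193.T_Comp

variable {G Z : Type} [Group G] [MetricSpace Z] [MulAction G Z] {S : Setup G Z} (T : Tiles S)

/-- a small tile meeting `Gd R g` is contained in `Gd (R + 2δ) g` -/
theorem tile_subset_Gd {R : ℝ} {g h' : G} (hm : R + T.R + 2 * S.δ < S.len h')
    (hne : (T.U h' ∩ S.Gd R g).Nonempty) : T.U h' ⊆ S.Gd (R + 2 * S.δ) g := by
  obtain ⟨y, hy, hyR⟩ := hne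
  intro x hx
  simp only [Setup.Gd, mem_setOf_eq] at hyR ⊢
  by_contra hcon
  push Not at hcon
  have h1 := T.sub h' hx
  have h2 := T.sub h' hy
  simp only [Setup.Sh, mem_setOf_eq] at h1 h2
  have hδ := S.one_le_δ
  have h3 := S.hyp_s2 x h' g⁻¹
  have h4 : R + 2 * S.δ < min (S.s x h') (S.s x g⁻¹) := lt_min (by linarith) hcon
  have h5 := S.hyp_s1 y h' g⁻¹
  have h6 : R + S.δ < min (S.s y h') (gpOf S.len h' g⁻¹) := lt_min (by linarith) (by linarith)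
  linarith

/-- the constant of (N1) -/
def N1c (T : Tiles S) (R : ℝ) : ℕ := Nb S (Kc T (R + 2 * S.δ))

/-- (N1): tiles `h` of level `|g| + |h'|` meeting `g • U h'` -/
theorem N1 {R : ℝ} {g h' : G} (hm : R + T.R + 2 * S.δ < S.len h')
    (hne : (T.U h' ∩ S.Gd R g).Nonempty) {A : Finset G}
    (hA : ∀ h ∈ A, S.len h = S.len g + S.len h' ∧ ∃ x ∈ T.U h', g • x ∈ T.U h) :
    A.card ≤ N1c T R := by
  apply card_comp_le T (R := R + 2 * S.δ) (g := g) (h' := h')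
  intro h hh
  obtain ⟨h1, x, hx, hgx⟩ := hA h hh
  exact ⟨h1, x, tile_subset_Gd T hm hne hx, hgx, hx⟩

/-- the constant of (N2) -/
def N2c (T : Tiles S) (R : ℝ) : ℕ :=
  Nb S (2 * (|R + 2 * S.δ| + T.R + 2 * S.δ) + 2 * S.δ) * Nb S (Kc T (R + 2 * S.δ))

/-- (N2): total number of pairs `(g, h')`, `|g| = j`, `|h'| = m`, `U h'` meeting `Gd R g`, such that
`g • U h'` meets the tile `h` of level `j + m` -/
theorem N2 {R : ℝ} {j m : ℕ} (hm : R + T.R + 2 * S.δ < m) {h : G} (hh : S.len h = j + m)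
    {Γ : Finset G} (hΓ : ∀ g ∈ Γ, S.len g = j) {A : G → Finset G}
    (hA : ∀ g ∈ Γ, ∀ h' ∈ A g, S.len h' = m ∧ (T.U h' ∩ S.Gd R g).Nonempty ∧
      ∃ x ∈ T.U h', g • x ∈ T.U h) :
    ∑ g ∈ Γ, (A g).card ≤ N2c T R := by
  classical
  set Γ' := Γ.filter (fun g => (A g).Nonempty) with hΓ'
  have h1 : ∑ g ∈ Γ, (A g).card = ∑ g ∈ Γ', (A g).card := by
    rw [hΓ', Finset.sum_filter]
    apply Finset.sum_congr rfl
    intro g _
    by_cases hne : (A g).Nonempty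
    · rw [if_pos hne]
    · rw [if_neg hne]
      rw [Finset.not_nonempty_iff_eq_empty] at hne
      rw [hne, Finset.card_empty]
  rw [h1]
  have h2 : Γ'.card ≤ Nb S (2 * (|R + 2 * S.δ| + T.R + 2 * S.δ) + 2 * S.δ) := by
    apply card_overlap_tile_le T (R := R + 2 * S.δ) (j := j) (h := h) (by omega)
    intro g hg
    rw [hΓ', Finset.mem_filter] at hg
    obtain ⟨hg1, h', hh'⟩ := hg
    obtain ⟨e1, e2, x, hx, hgx⟩ := hA g hg1 h' hh'
    refine ⟨hΓ g hg1, x, tile_subset_Gd T ?_ e2 hx, hgx⟩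
    rw [e1]
    exact hm
  have h3 : ∀ g ∈ Γ', (A g).card ≤ Nb S (Kc T (R + 2 * S.δ)) := by
    intro g hg
    rw [hΓ', Finset.mem_filter] at hg
    apply card_comp_le' T (R := R + 2 * S.δ) (g := g) (h := h)
    intro h' hh'
    obtain ⟨e1, e2, x, hx, hgx⟩ := hA g hg.1 h' hh'
    refine ⟨by rw [hh, hΓ g hg.1, e1], x, tile_subset_Gd T ?_ e2 hx, hgx, hx⟩
    rw [e1]
    exact hm
  calc ∑ g ∈ Γ', (A g).card ≤ ∑ _g ∈ Γ', Nb S (Kc T (R + 2 * S.δ)) := Finset.sum_le_sum h3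
    _ = Γ'.card * Nb S (Kc T (R + 2 * S.δ)) := by rw [Finset.sum_const, smul_eq_mul]
    _ ≤ N2c T R := Nat.mul_le_mul_right _ h2

/-- (K): for a fixed `f`, tiles `h` of level `n` meeting `f • U k` -/
theorem K1 {f k : G} {A : Finset G}
    (hA : ∀ h ∈ A, S.len h = S.len k ∧ ∃ x ∈ T.U k, f • x ∈ T.U h) :
    A.card ≤ Nb S (5 * S.len f + 2 * T.R + 4 * S.δ) := by
  apply card_fixed_le T (g := f) (h' := k)
  intro h hh
  obtain ⟨h1, x, hx, hfx⟩ := hA h hh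
  exact ⟨h1, x, hfx, hx⟩

/-- (K'): for a fixed `f`, tiles `k` of level `n` such that `f • U k` meets `U h` -/
theorem K2 {f h : G} {A : Finset G}
    (hA : ∀ k ∈ A, S.len h = S.len k ∧ ∃ x ∈ T.U k, f • x ∈ T.U h) :
    A.card ≤ Nb S (5 * S.len f + 2 * T.R + 4 * S.δ) := by
  apply card_fixed_le' T (g := f) (h := h)
  intro k hk
  obtain ⟨h1, x, hx, hfx⟩ := hA k hk
  exact ⟨h1, x, hfx, hx⟩

/-! ### existential forms -/

theorem exists_N1 (R : ℝ) : ∃ N : ℕ, ∀ (g h' : G) (n : ℕ), n = S.len g + S.len h' →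
    R + T.R + 2 * S.δ < S.len h' → (T.U h' ∩ S.Gd R g).Nonempty → ∀ A : Finset G, A ⊆ S.sph n →
    (∀ h ∈ A, ∃ x ∈ T.U h', g • x ∈ T.U h) → A.card ≤ N := by
  refine ⟨N1c T R, ?_⟩
  intro g h' n hn hm hne A hAs hA
  apply N1 T hm hne
  intro h hh
  exact ⟨by rw [(T_Comp.mem_sph S).mp (hAs hh), hn], hA h hh⟩

theorem exists_N2 (R : ℝ) : ∃ N : ℕ, ∀ (j m n : ℕ), n = j + m → R + T.R + 2 * S.δ < m →
    ∀ Γ : Finset G, Γ ⊆ S.sph j → ∀ h ∈ S.sph n, ∀ A : G → Finset G,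
    (∀ g ∈ Γ, A g ⊆ S.sph m) → (∀ g ∈ Γ, ∀ h' ∈ A g, (T.U h' ∩ S.Gd R g).Nonempty ∧
      ∃ x ∈ T.U h', g • x ∈ T.U h) → ∑ g ∈ Γ, (A g).card ≤ N := by
  refine ⟨N2c T R, ?_⟩
  intro j m n hn hm Γ hΓ h hh A hAs hA
  apply N2 T hm (h := h) (by rw [(T_Comp.mem_sph S).mp hh, hn])
    (fun g hg => (T_Comp.mem_sph S).mp (hΓ hg))
  intro g hg h' hh'
  obtain ⟨h1, h2⟩ := hA g hg h' hh'
  exact ⟨(T_Comp.mem_sph S).mp (hAs g hg hh'), h1, h2⟩

theorem exists_K (f : G) : ∃ N : ℕ, ∀ n : ℕ, ∀ h ∈ S.sph n, ∀ A : Finset G, A ⊆ S.sph n →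
    ((∀ k ∈ A, ∃ x ∈ T.U k, f • x ∈ T.U h) ∨ (∀ k ∈ A, ∃ x ∈ T.U h, f • x ∈ T.U k)) →
    A.card ≤ N := by
  refine ⟨Nb S (5 * S.len f + 2 * T.R + 4 * S.δ), ?_⟩
  intro n h hh A hAs hA
  have hlen : ∀ k ∈ A, S.len h = S.len k := fun k hk => by
    rw [(T_Comp.mem_sph S).mp hh, (T_Comp.mem_sph S).mp (hAs hk)]
  rcases hA with hA | hA
  · exact K2 T (fun k hk => ⟨hlen k hk, hA k hk⟩)
  · exact K1 T (fun k hk => ⟨(hlen k hk).symm, hA k hk⟩)

end Crest.Agent.R193.M5_Count
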