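import Mathlib

/-!
# R193, block M4 (helper578): chain-connected finite families

`Chained r A` : no nonempty proper subfamily of the finite family `A` is closed under `r`.
-/

set_option autoImplicit false

open MeasureTheory Set

namespace Crest.Agent.R193.M4

/-- `A` is chain-connected for the relation `r`: the only nonempty `r`-closed subfamily is `A`. -/
def Chained {ι : Type*} (r : ι → ι → Prop) (A : Finset ι) : Prop :=
  ∀ c : Finset ι, c ⊆ A → c.Nonempty → (∀ h ∈ c, ∀ h' ∈ A, r h h' → h' ∈ c) → c = A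

section chain
variable {ι : Type*} {r : ι → ι → Prop} {A : Finset ι}

/-- Edge across a cut. -/
theorem Chained.exists_edge (hA : Chained r A) (P : ι → Prop) {a b : ι} (ha : a ∈ A) (hb : b ∈ A)
    (hPa : P a) (hPb : ¬ P b) : ∃ h ∈ A, ∃ h' ∈ A, r h h' ∧ P h ∧ ¬ P h' := by
  classical
  by_contra hcon
  push Not at hcon
  have h1 : A.filter P = A := by
    refine hA _ (Finset.filter_subset _ _) ⟨a, Finset.mem_filter.2 ⟨ha, hPa⟩⟩ ?_
    intro h hh h' hh' hr
    rw [Finset.mem_filter] at hh ⊢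
    exact ⟨hh', hcon h hh.1 h' hh' hr hh.2⟩
  have h2 : b ∈ A.filter P := by rw [h1]; exact hb
  exact hPb (Finset.mem_filter.1 h2).2

/-- Total variation bound on a chain-connected family. -/
theorem Chained.var_le (hA : Chained r A) (val w : ι → ℝ)
    (h : ∀ a ∈ A, ∀ b ∈ A, r a b → |val a - val b| ≤ w a + w b)
    (hw : ∀ a ∈ A, 0 ≤ w a)
    {a b : ι} (ha : a ∈ A) (hb : b ∈ A) :
    val b - val a ≤ 2 * ∑ c ∈ A, w c := by
  have hsum : 0 ≤ ∑ c ∈ A, w c := Finset.sum_nonneg hw
  by_cases hab : val a < val b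
  swap
  · linarith
  have hsub : Ioo (val a) (val b) ⊆ ⋃ c ∈ A, Icc (val c - w c) (val c + w c) := by
    intro s hs
    obtain ⟨x, hx, y, hy, hr, h1, h2⟩ := hA.exists_edge (fun c => val c ≤ s) ha hb hs.1.le
      (not_le.2 hs.2)
    have h2 := not_le.1 h2
    have h3 := h x hx y hy hr
    rw [abs_le] at h3
    simp only [mem_iUnion, mem_Icc, exists_prop]
    by_cases h4 : s ≤ val x + w x
    · exact ⟨x, hx, by linarith [hw x hx], h4⟩
    · refine ⟨y, hy, ?_, by linarith [hw y hy]⟩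
      push Not at h4
      linarith
  have h1 : volume (Ioo (val a) (val b)) ≤ ∑ c ∈ A, volume (Icc (val c - w c) (val c + w c)) :=
    (measure_mono hsub).trans (measure_biUnion_finset_le _ _)
  simp only [Real.volume_Ioo, Real.volume_Icc] at h1
  rw [← ENNReal.ofReal_sum_of_nonneg (fun c hc => by linarith [hw c hc])] at h1
  have h2 := (ENNReal.ofReal_le_ofReal_iff (Finset.sum_nonneg
    (fun c hc => by linarith [hw c hc]))).1 h1
  have h3 : ∑ c ∈ A, (val c + w c - (val c - w c)) = 2 * ∑ c ∈ A, w c := by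
    rw [Finset.mul_sum]
    exact Finset.sum_congr rfl (fun c _ => by ring)
  linarith

theorem Chained.abs_sub_le (hA : Chained r A) (val w : ι → ℝ)
    (h : ∀ a ∈ A, ∀ b ∈ A, r a b → |val a - val b| ≤ w a + w b)
    (hw : ∀ a ∈ A, 0 ≤ w a)
    {a b : ι} (ha : a ∈ A) (hb : b ∈ A) :
    |val a - val b| ≤ 2 * ∑ c ∈ A, w c := by
  rw [abs_le]
  have h1 := hA.var_le val w h hw ha hb
  have h2 := hA.var_le val w h hw hb ha
  constructor <;> linarith

open Relation in
/-- the chain component of `a` in `A` -/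
noncomputable def comp (r : ι → ι → Prop) (A : Finset ι) (a : ι) : Finset ι :=
  open Classical in A.filter (fun b => ReflTransGen (fun i j => r i j ∧ i ∈ A ∧ j ∈ A) a b)

open Relation

theorem mem_comp {a b : ι} : b ∈ comp r A a ↔
    b ∈ A ∧ ReflTransGen (fun i j => r i j ∧ i ∈ A ∧ j ∈ A) a b := by
  classical
  unfold comp
  rw [Finset.mem_filter]

theorem comp_subset (a : ι) : comp r A a ⊆ A := fun _ hb => (mem_comp.1 hb).1

theorem self_mem_comp {a : ι} (ha : a ∈ A) : a ∈ comp r A a :=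
  mem_comp.2 ⟨ha, ReflTransGen.refl⟩

theorem comp_closed (a : ι) : ∀ h ∈ comp r A a, ∀ h' ∈ A, r h h' → h' ∈ comp r A a := by
  intro h hh h' hh' hr
  rw [mem_comp] at hh ⊢
  exact ⟨hh', hh.2.tail ⟨hr, hh.1, hh'⟩⟩

theorem comp_chained (hr : ∀ i j, r i j → r j i) (a : ι) :
    Chained r (comp r A a) := by
  intro c hc ⟨i, hi⟩ hcl
  refine Finset.Subset.antisymm hc ?_
  intro j hj
  have hia := mem_comp.1 (hc hi)
  have hja := mem_comp.1 hj
  have hsymm : ∀ x y : ι, ReflTransGen (fun i j => r i j ∧ i ∈ A ∧ j ∈ A) x y →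
      ReflTransGen (fun i j => r i j ∧ i ∈ A ∧ j ∈ A) y x := by
    intro x y hxy
    induction hxy with
    | refl => exact ReflTransGen.refl
    | tail h1 h2 ih => exact ReflTransGen.head ⟨hr _ _ h2.1, h2.2.2, h2.2.1⟩ ih
  have hij : ReflTransGen (fun i j => r i j ∧ i ∈ A ∧ j ∈ A) i j :=
    (hsymm _ _ hia.2).trans hja.2
  have key : ∀ k, ReflTransGen (fun i j => r i j ∧ i ∈ A ∧ j ∈ A) i k → k ∈ c := by
    intro k hk
    induction hk with
    | refl => exact hi
    | tail h1 h2 ih =>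
      refine hcl _ ih _ ?_ h2.1
      exact comp_closed a _ (hc ih) _ h2.2.2 h2.1
  exact key j hij

/-- A chain-connected family satisfies the `ReflTransGen` form of connectedness. -/
theorem Chained.reflTransGen (hA : Chained r A) {i j : ι} (hi : i ∈ A) (hj : j ∈ A) :
    ReflTransGen (fun i j => r i j ∧ i ∈ A) i j := by
  have h1 : comp r A i = A :=
    hA _ (comp_subset i) ⟨i, self_mem_comp hi⟩ (comp_closed i)
  have h2 : j ∈ comp r A i := by rw [h1]; exact hj
  exact ReflTransGen.mono (fun a b hab => ⟨hab.1, hab.2.1⟩) _ _ (mem_comp.1 h2).2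

end chain

section top
variable {ι Z : Type*} [TopologicalSpace Z] {U : ι → Set Z}

/-- two tiles touch -/
def Touch (U : ι → Set Z) (h h' : ι) : Prop := (U h ∩ U h').Nonempty

omit [TopologicalSpace Z] in
theorem Touch.symm {h h' : ι} (H : Touch U h h') : Touch U h' h := by
  unfold Touch at *
  rwa [inter_comm]

/-- The tiles of a finite closed cover of a preconnected set `A` that meet `A` form a chain-connected
family. -/
theorem star_chained (hU : ∀ h, IsClosed (U h)) {A : Set Z} (hA : IsPreconnected A)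
    (S : Finset ι) (hcov : A ⊆ ⋃ k ∈ S, U k) (hS : ∀ k ∈ S, (U k ∩ A).Nonempty) :
    Chained (Touch U) S := by
  classical
  intro c hc ⟨i, hi⟩ hcl
  by_contra hne
  have hss : ∃ j ∈ S, j ∉ c := by
    by_contra hcon
    push Not at hcon
    exact hne (Finset.Subset.antisymm hc hcon)
  obtain ⟨j, hjS, hjc⟩ := hss
  have hF1 : IsClosed (⋃ k ∈ c, U k) := isClosed_biUnion_finset (fun k _ => hU k)
  have hF2 : IsClosed (⋃ k ∈ S \ c, U k) := isClosed_biUnion_finset (fun k _ => hU k)
  have h1 := isPreconnected_closed_iff.1 hA _ _ hF1 hF2 ?_ ?_ ?_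
  · obtain ⟨z, hzA, hz1, hz2⟩ := h1
    simp only [mem_iUnion, exists_prop] at hz1 hz2
    obtain ⟨k, hk, hzk⟩ := hz1
    obtain ⟨k', hk', hzk'⟩ := hz2
    rw [Finset.mem_sdiff] at hk'
    exact hk'.2 (hcl k hk k' hk'.1 ⟨z, hzk, hzk'⟩)
  · intro z hz
    obtain ⟨k, hk, hzk⟩ := by simpa using hcov hz
    by_cases hkc : k ∈ c
    · exact Or.inl (by simp only [mem_iUnion, exists_prop]; exact ⟨k, hkc, hzk⟩)
    · refine Or.inr ?_
      simp only [mem_iUnion, exists_prop]
      exact ⟨k, Finset.mem_sdiff.2 ⟨hk, hkc⟩, hzk⟩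
  · obtain ⟨z, hz1, hz2⟩ := hS i (hc hi)
    refine ⟨z, hz2, ?_⟩
    simp only [mem_iUnion, exists_prop]
    exact ⟨i, hi, hz1⟩
  · obtain ⟨z, hz1, hz2⟩ := hS j hjS
    refine ⟨z, hz2, ?_⟩
    simp only [mem_iUnion, exists_prop]
    exact ⟨j, Finset.mem_sdiff.2 ⟨hjS, hjc⟩, hz1⟩

/-- The union of a chain-connected family of preconnected sets is preconnected. -/
theorem Chained.isPreconnected {c : Finset ι} (hc : Chained (Touch U) c)
    (hU : ∀ h ∈ c, IsPreconnected (U h)) : IsPreconnected (⋃ k ∈ c, U k) := by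
  refine IsPreconnected.biUnion_of_reflTransGen (t := (c : Set ι)) (s := U) (fun i hi => hU i hi) ?_
  intro i hi j hj
  exact hc.reflTransGen hi hj

end top

end Crest.Agent.R193.M4
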