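import Mathlib
import Crest.Agent.R193.M4_Chain

/-!
# R193, block M5 (helper578): the packing inequality on one level, abstract form
-/

set_option autoImplicit false

open MeasureTheory Set

namespace Crest.Agent.R193.M4

section
variable {G Z : Type*}

open Classical in
/-- level chain: the tiles of `V` having a neighbour in `V` on the other side of `t` -/
noncomputable def leaf (U : G → Set Z) (V : Finset G) (u : G → ℝ) (t : ℝ) : Finset G :=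
  V.filter (fun h => ∃ h' ∈ V, Touch U h h' ∧ ((u h ≤ t ∧ t < u h') ∨ (u h' ≤ t ∧ t < u h)))

variable {U : G → Set Z} {V : Finset G} {u : G → ℝ}

theorem mem_leaf {h : G} {t : ℝ} : h ∈ leaf U V u t ↔ h ∈ V ∧ ∃ h' ∈ V, Touch U h h' ∧
    ((u h ≤ t ∧ t < u h') ∨ (u h' ≤ t ∧ t < u h)) := by
  classical
  unfold leaf
  rw [Finset.mem_filter]

theorem leaf_subset (t : ℝ) : leaf U V u t ⊆ V := fun _ h => (mem_leaf.1 h).1

theorem setOf_mem_leaf (h : G) : {t : ℝ | h ∈ leaf U V u t} =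
    ⋃ h' ∈ V, {t | h ∈ V ∧ Touch U h h'} ∩ (Ico (u h) (u h') ∪ Ico (u h') (u h)) := by
  ext t
  simp only [mem_ofPred_eq, mem_leaf, mem_iUnion, mem_inter_iff, mem_union, mem_Ico, exists_prop]
  constructor
  · rintro ⟨h1, h', h2, h3, h4⟩
    exact ⟨h', h2, ⟨h1, h3⟩, h4⟩
  · rintro ⟨h', h2, ⟨h1, h3⟩, h4⟩
    exact ⟨h1, h', h2, h3, h4⟩

theorem measurableSet_leaf (h : G) : MeasurableSet {t : ℝ | h ∈ leaf U V u t} := by
  rw [setOf_mem_leaf]
  refine Finset.measurableSet_biUnion V (fun h' _ => ?_)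
  exact (MeasurableSet.const _).inter (measurableSet_Ico.union measurableSet_Ico)

variable [Group G] [MulAction G Z]

/-- the leaf `g⁻¹ λ_t` touches the tile `h'` -/
def tch (U : G → Set Z) (V : Finset G) (u : G → ℝ) (g : G) (t : ℝ) (h' : G) : Prop :=
  ∃ h ∈ leaf U V u t, ∃ x ∈ U h', g • x ∈ U h

theorem setOf_tch (g h' : G) : {t : ℝ | tch U V u g t h'} =
    ⋃ h ∈ V, {t | ∃ x ∈ U h', g • x ∈ U h} ∩ {t | h ∈ leaf U V u t} := by
  ext t
  simp only [tch, mem_ofPred_eq, mem_iUnion, mem_inter_iff, exists_prop]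
  constructor
  · rintro ⟨h, h1, h2⟩
    exact ⟨h, leaf_subset t h1, h2, h1⟩
  · rintro ⟨h, _, h2, h1⟩
    exact ⟨h, h1, h2⟩

theorem measurableSet_tch (g h' : G) : MeasurableSet {t : ℝ | tch U V u g t h'} := by
  rw [setOf_tch]
  exact Finset.measurableSet_biUnion V
    (fun h _ => (MeasurableSet.const _).inter (measurableSet_leaf h))

open Classical in
/-- **Packing inequality on one level.** -/
theorem packing_level (I P : Finset G) (μ : G → ℝ)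
    (Θ : Set ℝ) (Θg : G → Set ℝ) (K N1 N2 : ℝ) (Φ : ℝ) (hK0 : 0 ≤ K) (hN10 : 0 ≤ N1) (hN20 : 0 ≤ N2)
    (hΘ : volume Θ ≠ ⊤) (hsub : ∀ g ∈ I, Θg g ⊆ Θ) (hmeas : ∀ g ∈ I, MeasurableSet (Θg g))
    (hadm : ∀ g ∈ I, ∀ t ∈ Θg g, 1 ≤ ∑ h' ∈ P with tch U V u g t h', μ h')
    (htour : ∀ h' ∈ P, ((I.filter (fun g => ∃ t ∈ Θg g, tch U V u g t h')).card : ℝ) ≤ K)
    (hN1 : ∀ g ∈ I, ∀ h' ∈ P, ((V.filter (fun h => ∃ x ∈ U h', g • x ∈ U h)).card : ℝ) ≤ N1)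
    (hN2 : ∀ h ∈ V, ((∑ g ∈ I, (P.filter (fun h' => ∃ x ∈ U h', g • x ∈ U h)).card : ℕ) : ℝ) ≤ N2)
    (hΦ : ∑ h ∈ V, (volume.real (Θ ∩ {t | h ∈ leaf U V u t})) ^ 2 ≤ Φ) :
    (∑ g ∈ I, volume.real (Θg g)) ^ 2 ≤ (∑ h' ∈ P, μ h' ^ 2) * (K * (N1 * (N2 * Φ))) := by
  set α : G → ℝ := fun h => volume.real (Θ ∩ {t | h ∈ leaf U V u t}) with hα
  set ω : G → G → ℝ := fun g h' => volume.real (Θg g ∩ {t | tch U V u g t h'}) with hω
  have hα0 : ∀ h, 0 ≤ α h := fun h => measureReal_nonneg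
  have hω0 : ∀ g h, 0 ≤ ω g h := fun g h => measureReal_nonneg
  have hfin : ∀ g ∈ I, volume (Θg g) ≠ ⊤ := fun g hg => measure_ne_top_of_subset (hsub g hg) hΘ
  -- Step A
  have hA : ∀ g ∈ I, volume.real (Θg g) ≤ ∑ h' ∈ P, μ h' * ω g h' := by
    intro g hg
    have h1 : volume.real (Θg g) = ∫ _ in Θg g, (1 : ℝ) := by
      rw [setIntegral_const, smul_eq_mul, mul_one]
    have h2 : ∀ h' ∈ P, μ h' * ω g h' =
        ∫ t in Θg g, μ h' * ({t | tch U V u g t h'}.indicator (fun _ => (1 : ℝ)) t) := by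
      intro h' _
      rw [integral_const_mul, setIntegral_indicator (measurableSet_tch g h'), setIntegral_const,
        smul_eq_mul, mul_one]
    have hint : ∀ h' ∈ P, Integrable (fun t => μ h' *
        ({t | tch U V u g t h'}.indicator (fun _ => (1 : ℝ)) t)) (volume.restrict (Θg g)) := by
      intro h' _
      refine Integrable.const_mul ?_ _
      refine IntegrableOn.integrable ?_
      refine Integrable.indicator ?_ (measurableSet_tch g h')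
      exact integrableOn_const (hfin g hg)
    rw [h1, Finset.sum_congr rfl h2, ← integral_finsetSum _ hint]
    refine setIntegral_mono_on (integrableOn_const (hfin g hg))
      (integrable_finsetSum _ hint) (hmeas g hg) ?_
    intro t ht
    refine (hadm g hg t ht).trans (le_of_eq ?_)
    rw [Finset.sum_filter]
    refine Finset.sum_congr rfl (fun h' _ => ?_)
    by_cases h3 : tch U V u g t h'
    · simp [Set.indicator, h3]
    · simp [Set.indicator, h3]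
  -- Step C
  have hC : ∀ h' ∈ P, (∑ g ∈ I, ω g h') ^ 2 ≤ K * ∑ g ∈ I, ω g h' ^ 2 := by
    intro h' hh'
    set F := I.filter (fun g => ∃ t ∈ Θg g, tch U V u g t h') with hF
    have h1 : ∑ g ∈ I, ω g h' = ∑ g ∈ F, ω g h' := by
      rw [hF, Finset.sum_filter]
      refine Finset.sum_congr rfl (fun g _ => ?_)
      split_ifs with h2
      · rfl
      · have h3 : Θg g ∩ {t | tch U V u g t h'} = ∅ := by
          rw [Set.eq_empty_iff_forall_notMem]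
          rintro t ⟨ht1, ht2⟩
          exact h2 ⟨t, ht1, ht2⟩
        simp only [hω, h3, measureReal_empty]
    have h2 : (∑ g ∈ F, ω g h') ^ 2 ≤ (F.card : ℝ) * ∑ g ∈ F, ω g h' ^ 2 :=
      sq_sum_le_card_mul_sum_sq
    have h3 : ∑ g ∈ F, ω g h' ^ 2 ≤ ∑ g ∈ I, ω g h' ^ 2 :=
      Finset.sum_le_sum_of_subset_of_nonneg (Finset.filter_subset _ _) (fun _ _ _ => sq_nonneg _)
    have h4 : 0 ≤ ∑ g ∈ F, ω g h' ^ 2 := Finset.sum_nonneg (fun _ _ => sq_nonneg _)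
    rw [h1]
    calc (∑ g ∈ F, ω g h') ^ 2 ≤ (F.card : ℝ) * ∑ g ∈ F, ω g h' ^ 2 := h2
      _ ≤ K * ∑ g ∈ F, ω g h' ^ 2 := mul_le_mul_of_nonneg_right (htour h' hh') h4
      _ ≤ K * ∑ g ∈ I, ω g h' ^ 2 := mul_le_mul_of_nonneg_left h3 hK0
  -- Step D
  have hD : ∀ g ∈ I, ∀ h' ∈ P,
      ω g h' ^ 2 ≤ N1 * ∑ h ∈ V with (∃ x ∈ U h', g • x ∈ U h), α h ^ 2 := by
    intro g hg h' hh'
    have h1 : ω g h' ≤ ∑ h ∈ V with (∃ x ∈ U h', g • x ∈ U h), α h := by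
      have h2 : Θg g ∩ {t | tch U V u g t h'} ⊆
          ⋃ h ∈ V.filter (fun h => ∃ x ∈ U h', g • x ∈ U h), (Θ ∩ {t | h ∈ leaf U V u t}) := by
        rintro t ⟨ht1, h, hh, x, hx, hgx⟩
        simp only [mem_iUnion, exists_prop]
        exact ⟨h, Finset.mem_filter.2 ⟨leaf_subset t hh, x, hx, hgx⟩, hsub g hg ht1, hh⟩
      refine (measureReal_mono h2 ?_).trans (measureReal_biUnion_finset_le _ _)
      refine ne_top_of_le_ne_top hΘ (measure_mono ?_)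
      intro t ht
      simp only [mem_iUnion, exists_prop] at ht
      obtain ⟨h, _, ht2⟩ := ht
      exact ht2.1
    have h3 : (∑ h ∈ V with (∃ x ∈ U h', g • x ∈ U h), α h) ^ 2 ≤
        ((V.filter (fun h => ∃ x ∈ U h', g • x ∈ U h)).card : ℝ) *
        ∑ h ∈ V with (∃ x ∈ U h', g • x ∈ U h), α h ^ 2 := sq_sum_le_card_mul_sum_sq
    calc ω g h' ^ 2 ≤ (∑ h ∈ V with (∃ x ∈ U h', g • x ∈ U h), α h) ^ 2 :=
          pow_le_pow_left₀ (hω0 g h') h1 2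
      _ ≤ _ := h3
      _ ≤ _ := mul_le_mul_of_nonneg_right (hN1 g hg h' hh')
          (Finset.sum_nonneg (fun _ _ => sq_nonneg _))
  -- Step E
  have hE : ∑ h' ∈ P, (∑ g ∈ I, ω g h') ^ 2 ≤ K * (N1 * (N2 * Φ)) := by
    have h1 : ∑ g ∈ I, ∑ h' ∈ P, ∑ h ∈ V with (∃ x ∈ U h', g • x ∈ U h), α h ^ 2 ≤
        N2 * ∑ h ∈ V, α h ^ 2 := by
      have h2 : ∑ g ∈ I, ∑ h' ∈ P, ∑ h ∈ V with (∃ x ∈ U h', g • x ∈ U h), α h ^ 2 =
          ∑ h ∈ V, ((∑ g ∈ I, (P.filter (fun h' => ∃ x ∈ U h', g • x ∈ U h)).card : ℕ) : ℝ)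
            * α h ^ 2 := by
        have h3 : ∀ g ∈ I, ∑ h' ∈ P, ∑ h ∈ V with (∃ x ∈ U h', g • x ∈ U h), α h ^ 2 =
            ∑ h ∈ V, ((P.filter (fun h' => ∃ x ∈ U h', g • x ∈ U h)).card : ℝ) * α h ^ 2 := by
          intro g _
          have h4 : ∀ h' ∈ P, ∑ h ∈ V with (∃ x ∈ U h', g • x ∈ U h), α h ^ 2 =
              ∑ h ∈ V, if (∃ x ∈ U h', g • x ∈ U h) then α h ^ 2 else 0 :=
            fun h' _ => Finset.sum_filter _ _
          rw [Finset.sum_congr rfl h4, Finset.sum_comm]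
          refine Finset.sum_congr rfl (fun h _ => ?_)
          rw [← Finset.sum_filter, Finset.sum_const, nsmul_eq_mul]
        rw [Finset.sum_congr rfl h3, Finset.sum_comm]
        refine Finset.sum_congr rfl (fun h _ => ?_)
        rw [← Finset.sum_mul, Nat.cast_sum]
      rw [h2, Finset.mul_sum]
      exact Finset.sum_le_sum (fun h hh => mul_le_mul_of_nonneg_right (hN2 h hh) (sq_nonneg _))
    have h5 : 0 ≤ N2 * ∑ h ∈ V, α h ^ 2 := le_trans (Finset.sum_nonneg (fun _ _ =>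
      Finset.sum_nonneg (fun _ _ => Finset.sum_nonneg (fun _ _ => sq_nonneg _)))) h1
    have h6 : N2 * ∑ h ∈ V, α h ^ 2 ≤ N2 * Φ := mul_le_mul_of_nonneg_left hΦ hN20
    calc ∑ h' ∈ P, (∑ g ∈ I, ω g h') ^ 2 ≤ ∑ h' ∈ P, K * ∑ g ∈ I, ω g h' ^ 2 :=
          Finset.sum_le_sum hC
      _ = K * ∑ g ∈ I, ∑ h' ∈ P, ω g h' ^ 2 := by rw [← Finset.mul_sum, Finset.sum_comm]
      _ ≤ K * ∑ g ∈ I, ∑ h' ∈ P, N1 * ∑ h ∈ V with (∃ x ∈ U h', g • x ∈ U h), α h ^ 2 :=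
          mul_le_mul_of_nonneg_left
            (Finset.sum_le_sum fun g hg => Finset.sum_le_sum fun h' hh' => hD g hg h' hh') hK0
      _ = K * (N1 * ∑ g ∈ I, ∑ h' ∈ P, ∑ h ∈ V with (∃ x ∈ U h', g • x ∈ U h), α h ^ 2) := by
          simp_rw [← Finset.mul_sum]
      _ ≤ K * (N1 * (N2 * ∑ h ∈ V, α h ^ 2)) :=
          mul_le_mul_of_nonneg_left (mul_le_mul_of_nonneg_left h1 hN10) hK0
      _ ≤ K * (N1 * (N2 * Φ)) :=
          mul_le_mul_of_nonneg_left (mul_le_mul_of_nonneg_left h6 hN10) hK0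
  have hB : ∑ g ∈ I, volume.real (Θg g) ≤ ∑ h' ∈ P, μ h' * ∑ g ∈ I, ω g h' := by
    calc ∑ g ∈ I, volume.real (Θg g) ≤ ∑ g ∈ I, ∑ h' ∈ P, μ h' * ω g h' := Finset.sum_le_sum hA
      _ = ∑ h' ∈ P, μ h' * ∑ g ∈ I, ω g h' := by
          rw [Finset.sum_comm]
          exact Finset.sum_congr rfl (fun h' _ => (Finset.mul_sum _ _ _).symm)
  have hS0 : 0 ≤ ∑ g ∈ I, volume.real (Θg g) := Finset.sum_nonneg (fun _ _ => measureReal_nonneg)
  calc (∑ g ∈ I, volume.real (Θg g)) ^ 2 ≤ (∑ h' ∈ P, μ h' * ∑ g ∈ I, ω g h') ^ 2 :=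
        pow_le_pow_left₀ hS0 hB 2
    _ ≤ (∑ h' ∈ P, μ h' ^ 2) * ∑ h' ∈ P, (∑ g ∈ I, ω g h') ^ 2 :=
        Finset.sum_mul_sq_le_sq_mul_sq _ _ _
    _ ≤ (∑ h' ∈ P, μ h' ^ 2) * (K * (N1 * (N2 * Φ))) :=
        mul_le_mul_of_nonneg_left hE (Finset.sum_nonneg (fun _ _ => sq_nonneg _))

end

end Crest.Agent.R193.M4
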