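import Mathlib
import Crest.Agent.R193.M4_Chain
import Crest.Agent.R193.M4_Pack

/-!
# R193, block M4 (helper578): following a leaf of `w_g` with `w_{g₂}` (area zero + dichotomy)
-/

set_option autoImplicit false

open MeasureTheory Set

namespace Crest.Agent.R193.M4

section
variable {G Z : Type*} [Group G] [TopologicalSpace Z] [MulAction G Z]
variable (U : G → Set Z) (V : Finset G) (u : G → ℝ) (T : Set Z)

open Classical in
/-- tiles `k` of `V` meeting `f⁻¹ U_h` -/
noncomputable def star (f h : G) : Finset G := V.filter (fun k => ∃ x ∈ U k, f • x ∈ U h)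

open Classical in
/-- total variation of `u` at the tile `k` -/
noncomputable def dlt (k : G) : ℝ := ∑ k' ∈ V with Touch U k k', |u k - u k'|

/-- the tile `U_h` does not meet `f T` -/
def Off (f h : G) : Prop := ∀ x : Z, f • x ∈ U h → x ∉ T

open Classical in
/-- bound for the oscillation of `u ∘ f⁻¹` on the tile `h` (`0` if the tile meets `f T`) -/
noncomputable def osf (f h : G) : ℝ :=
  if Off U T f h then 2 * ∑ k ∈ star U V f h, dlt U V u k else 0

/-- total variation of `u ∘ f⁻¹` along the level chain of level `t` off `f T` -/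
noncomputable def tvar (f : G) (t : ℝ) : ℝ := ∑ h ∈ leaf U V u t, osf U V u T f h

variable {U V u T}

omit [TopologicalSpace Z] in
theorem mem_star {f h k : G} : k ∈ star U V f h ↔ k ∈ V ∧ ∃ x ∈ U k, f • x ∈ U h := by
  classical
  unfold star
  rw [Finset.mem_filter]

omit [Group G] [TopologicalSpace Z] [MulAction G Z] in
theorem dlt_nonneg (k : G) : 0 ≤ dlt U V u k := Finset.sum_nonneg (fun _ _ => abs_nonneg _)

omit [TopologicalSpace Z] in
theorem osf_nonneg (f h : G) : 0 ≤ osf U V u T f h := by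
  unfold osf
  split_ifs
  · exact mul_nonneg (by norm_num) (Finset.sum_nonneg (fun k _ => dlt_nonneg k))
  · exact le_rfl

omit [Group G] [TopologicalSpace Z] [MulAction G Z] in
theorem abs_sub_le_dlt {k k' : G} (hk' : k' ∈ V) (h : Touch U k k') :
    |u k - u k'| ≤ dlt U V u k := by
  classical
  unfold dlt
  exact Finset.single_le_sum (f := fun k' => |u k - u k'|) (fun _ _ => abs_nonneg _)
    (Finset.mem_filter.2 ⟨hk', h⟩)

/-- Oscillation of `u` on the star of a tile off `f T`. -/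
theorem star_osc (hc : ∀ g : G, Continuous (fun x : Z => g • x)) (hU : ∀ h, IsClosed (U h))
    (hUp : ∀ h, IsPreconnected (U h)) (hV : ∀ z ∉ T, ∃ k ∈ V, z ∈ U k)
    {f h : G} (hoff : Off U T f h) {k k' : G} (hk : k ∈ star U V f h) (hk' : k' ∈ star U V f h) :
    |u k - u k'| ≤ osf U V u T f h := by
  have h1 : IsPreconnected ((fun x : Z => f⁻¹ • x) '' U h) :=
    (hUp h).image _ (hc f⁻¹).continuousOn
  have hmem : ∀ x : Z, x ∈ (fun x : Z => f⁻¹ • x) '' U h ↔ f • x ∈ U h := by
    intro x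
    constructor
    · rintro ⟨y, hy, rfl⟩
      simpa using hy
    · intro hx
      exact ⟨f • x, hx, by simp⟩
  have h2 : Chained (Touch U) (star U V f h) := by
    refine star_chained hU h1 _ ?_ ?_
    · intro x hx
      have hx' := (hmem x).1 hx
      obtain ⟨k, hk, hxk⟩ := hV x (hoff x hx')
      simp only [mem_iUnion, exists_prop]
      exact ⟨k, mem_star.2 ⟨hk, x, hxk, hx'⟩, hxk⟩
    · intro k hk
      obtain ⟨_, x, hx, hx'⟩ := mem_star.1 hk
      exact ⟨x, hx, (hmem x).2 hx'⟩
  have h3 := h2.abs_sub_le u (fun k => dlt U V u k) ?_ (fun k _ => dlt_nonneg k) hk hk'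
  · unfold osf
    rw [if_pos hoff]
    exact h3
  · intro a _ b hb hab
    have := abs_sub_le_dlt (u := u) (mem_star.1 hb).1 hab
    linarith [dlt_nonneg (U := U) (V := V) (u := u) b]

/-- **Following a leaf.**  If no tile of the level chain `λ_t` meets `f T`, the value of `u ∘ f⁻¹` at a
tile of the chain is almost taken at `f⁻¹ T`. -/
theorem follow (hc : ∀ g : G, Continuous (fun x : Z => g • x)) (hU : ∀ h, IsClosed (U h))
    (hUp : ∀ h, IsConnected (U h)) (hV : ∀ z ∉ T, ∃ k ∈ V, z ∈ U k)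
    {f : G} {t : ℝ} (hoff : ∀ h ∈ leaf U V u t, Off U T f h)
    (hT : ∀ c : Finset G, c ⊆ leaf U V u t → c.Nonempty →
      (∀ h ∈ c, ∀ h' ∈ leaf U V u t, Touch U h h' → h' ∈ c) → ∃ h ∈ c, (U h ∩ T).Nonempty)
    {h : G} (hh : h ∈ leaf U V u t) {k : G} (hk : k ∈ star U V f h) :
    ∃ z : Z, f • z ∈ T ∧ ∃ k' ∈ V, z ∈ U k' ∧ |u k - u k'| ≤ 4 * tvar U V u T f t := by
  classical
  set A := leaf U V u t with hA
  set c := comp (Touch U) A h with hcdef
  have hcA : c ⊆ A := comp_subset h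
  have hcc : Chained (Touch U) c := comp_chained (fun i j H => Touch.symm H) h
  have hstar : ∀ a ∈ A, ∃ k, k ∈ star U V f a := by
    intro a ha
    obtain ⟨x, hx⟩ := (hUp a).nonempty
    have hx' : f • (f⁻¹ • x) ∈ U a := by simpa using hx
    obtain ⟨k, hk, hxk⟩ := hV _ (hoff a ha _ hx')
    exact ⟨k, mem_star.2 ⟨hk, _, hxk, hx'⟩⟩
  choose! κ hκ using hstar
  have hosc : ∀ a ∈ A, ∀ k ∈ star U V f a, ∀ k' ∈ star U V f a,
      |u k - u k'| ≤ osf U V u T f a := fun a ha k hk k' hk' =>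
    star_osc hc hU (fun h => (hUp h).isPreconnected) hV (hoff a ha) hk hk'
  have hsum : ∑ a ∈ c, osf U V u T f a ≤ tvar U V u T f t :=
    Finset.sum_le_sum_of_subset_of_nonneg hcA (fun a _ _ => osf_nonneg f a)
  have hle : ∀ a ∈ A, osf U V u T f a ≤ tvar U V u T f t := fun a ha =>
    Finset.single_le_sum (f := fun a => osf U V u T f a) (fun a _ => osf_nonneg f a) ha
  obtain ⟨h', hh', z, hz, hzT⟩ := hT c hcA ⟨h, self_mem_comp hh⟩ (comp_closed h)
  have hvar := hcc.abs_sub_le (fun a => u (κ a)) (fun a => osf U V u T f a) ?_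
    (fun a _ => osf_nonneg f a) (self_mem_comp hh) hh'
  · have hz' : f • (f⁻¹ • z) ∈ U h' := by simpa using hz
    obtain ⟨k', hk', hzk'⟩ := hV _ (hoff h' (hcA hh') _ hz')
    refine ⟨f⁻¹ • z, by simpa using hzT, k', hk', hzk', ?_⟩
    have h1 := hosc h hh k hk (κ h) (hκ h hh)
    have h2 := hosc h' (hcA hh') (κ h') (hκ h' (hcA hh')) k' (mem_star.2 ⟨hk', _, hzk', hz'⟩)
    have h3 := hle h hh
    have h4 := hle h' (hcA hh')
    have h5 := abs_sub_le (u k) (u (κ h)) (u k')
    have h6 := abs_sub_le (u (κ h)) (u (κ h')) (u k')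
    linarith
  · intro a ha b hb ⟨x, hxa, hxb⟩
    have hx' : f • (f⁻¹ • x) ∈ U a := by simpa using hxa
    have hx'' : f • (f⁻¹ • x) ∈ U b := by simpa using hxb
    obtain ⟨k, hk, hxk⟩ := hV _ (hoff a (hcA ha) _ hx')
    have h1 := hosc a (hcA ha) (κ a) (hκ a (hcA ha)) k (mem_star.2 ⟨hk, _, hxk, hx'⟩)
    have h2 := hosc b (hcA hb) k (mem_star.2 ⟨hk, _, hxk, hx''⟩) (κ b) (hκ b (hcA hb))
    have h3 := abs_sub_le (u (κ a)) (u k) (u (κ b))
    linarith

end

/-! ### area zero -/
section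
variable {G Z : Type*} [Group G] [MulAction G Z]
variable {U : G → Set Z} {V : Finset G} {u : G → ℝ} {T : Set Z}

theorem measurable_tvar (f : G) : Measurable (fun t => tvar U V u T f t) := by
  classical
  have h1 : (fun t => tvar U V u T f t) = fun t => ∑ h ∈ V,
      ({t | h ∈ leaf U V u t}.indicator (fun _ => osf U V u T f h) t) := by
    funext t
    unfold tvar
    rw [← Finset.sum_filter_add_sum_filter_not V (fun h => h ∈ leaf U V u t)]
    have h2 : V.filter (fun h => h ∈ leaf U V u t) = leaf U V u t := by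
      ext h
      rw [Finset.mem_filter]
      exact ⟨fun h => h.2, fun h => ⟨leaf_subset t h, h⟩⟩
    rw [h2]
    have h3 : ∑ h ∈ V with h ∉ leaf U V u t,
        ({t | h ∈ leaf U V u t}.indicator (fun _ => osf U V u T f h) t) = 0 := by
      refine Finset.sum_eq_zero (fun h hh => ?_)
      exact Set.indicator_of_notMem (s := {t | h ∈ leaf U V u t}) (Finset.mem_filter.1 hh).2 _
    rw [h3, add_zero]
    refine Finset.sum_congr rfl (fun h hh => ?_)
    exact (Set.indicator_of_mem (s := {t | h ∈ leaf U V u t}) (a := t) hh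
      (fun _ => osf U V u T f h)).symm
  rw [h1]
  exact Finset.measurable_sum V (fun h _ => measurable_const.indicator (measurableSet_leaf h))

omit [Group G] [MulAction G Z] in
theorem volume_leaf_le (h : G) : volume {t : ℝ | h ∈ leaf U V u t} ≤ ENNReal.ofReal (dlt U V u h) := by
  classical
  have h1 : {t : ℝ | h ∈ leaf U V u t} ⊆
      ⋃ h' ∈ V.filter (fun h' => Touch U h h'), Icc (min (u h) (u h')) (max (u h) (u h')) := by
    intro t ht
    obtain ⟨h1, h', h2, h3, h4⟩ := mem_leaf.1 ht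
    simp only [mem_iUnion, exists_prop]
    refine ⟨h', Finset.mem_filter.2 ⟨h2, h3⟩, ?_⟩
    rcases h4 with h4 | h4
    · exact ⟨(min_le_left _ _).trans h4.1, h4.2.le.trans (le_max_right _ _)⟩
    · exact ⟨(min_le_right _ _).trans h4.1, h4.2.le.trans (le_max_left _ _)⟩
  refine (measure_mono h1).trans ((measure_biUnion_finset_le _ _).trans ?_)
  unfold dlt
  rw [ENNReal.ofReal_sum_of_nonneg (fun _ _ => abs_nonneg _)]
  refine Finset.sum_le_sum (fun h' _ => ?_)
  rw [Real.volume_Icc, max_sub_min_eq_abs, abs_sub_comm]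

/-- integral of the total variation along the level chains (`ENNReal` form) -/
theorem lintegral_tvar_le (f : G) : ∫⁻ t, ENNReal.ofReal (tvar U V u T f t) ≤
    ENNReal.ofReal (∑ h ∈ V, dlt U V u h * osf U V u T f h) := by
  classical
  have h1 : ∀ t, ENNReal.ofReal (tvar U V u T f t) = ∑ h ∈ V,
      ({t | h ∈ leaf U V u t}.indicator (fun _ => ENNReal.ofReal (osf U V u T f h)) t) := by
    intro t
    unfold tvar
    rw [ENNReal.ofReal_sum_of_nonneg (fun h _ => osf_nonneg f h),
      ← Finset.sum_filter_add_sum_filter_not V (fun h => h ∈ leaf U V u t)]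
    have h2 : V.filter (fun h => h ∈ leaf U V u t) = leaf U V u t := by
      ext h
      rw [Finset.mem_filter]
      exact ⟨fun h => h.2, fun h => ⟨leaf_subset t h, h⟩⟩
    rw [h2]
    have h3 : ∑ h ∈ V with h ∉ leaf U V u t,
        ({t | h ∈ leaf U V u t}.indicator (fun _ => ENNReal.ofReal (osf U V u T f h)) t) = 0 := by
      refine Finset.sum_eq_zero (fun h hh => ?_)
      exact Set.indicator_of_notMem (s := {t | h ∈ leaf U V u t}) (Finset.mem_filter.1 hh).2 _
    rw [h3, add_zero]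
    refine Finset.sum_congr rfl (fun h hh => ?_)
    exact (Set.indicator_of_mem (s := {t | h ∈ leaf U V u t}) (a := t) hh
      (fun _ => ENNReal.ofReal (osf U V u T f h))).symm
  simp_rw [h1]
  rw [lintegral_finsetSum _ (fun h _ => measurable_const.indicator (measurableSet_leaf h)),
    ENNReal.ofReal_sum_of_nonneg (fun h _ => mul_nonneg (dlt_nonneg h) (osf_nonneg f h))]
  refine Finset.sum_le_sum (fun h _ => ?_)
  rw [lintegral_indicator_const (measurableSet_leaf h), ENNReal.ofReal_mul (dlt_nonneg h), mul_comm]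
  exact mul_le_mul_left (volume_leaf_le h) _

open Classical in
/-- fixed-`j` comparability gives the area-zero estimate -/
theorem sum_dlt_osf_le (f : G) (K : ℝ)
    (hK1 : ∀ h ∈ V, ((star U V f h).card : ℝ) ≤ K)
    (hK2 : ∀ k ∈ V, ((V.filter (fun h => k ∈ star U V f h)).card : ℝ) ≤ K) :
    ∑ h ∈ V, dlt U V u h * osf U V u T f h ≤ 2 * K * ∑ h ∈ V, dlt U V u h ^ 2 := by
  have h0 : ∀ h, osf U V u T f h ≤ 2 * ∑ k ∈ star U V f h, dlt U V u k := by
    intro h
    unfold osf
    split_ifs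
    · exact le_rfl
    · exact mul_nonneg (by norm_num) (Finset.sum_nonneg (fun k _ => dlt_nonneg k))
  have h1 : ∑ h ∈ V, dlt U V u h * osf U V u T f h ≤
      ∑ h ∈ V, ∑ k ∈ star U V f h, (dlt U V u h ^ 2 + dlt U V u k ^ 2) := by
    refine Finset.sum_le_sum (fun h _ => ?_)
    calc dlt U V u h * osf U V u T f h ≤ dlt U V u h * (2 * ∑ k ∈ star U V f h, dlt U V u k) :=
          mul_le_mul_of_nonneg_left (h0 h) (dlt_nonneg h)
      _ = ∑ k ∈ star U V f h, 2 * dlt U V u h * dlt U V u k := by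
          rw [← Finset.mul_sum]; ring
      _ ≤ _ := Finset.sum_le_sum (fun k _ => two_mul_le_add_sq _ _)
  refine h1.trans ?_
  simp_rw [Finset.sum_add_distrib]
  have h2 : ∑ h ∈ V, ∑ _ ∈ star U V f h, dlt U V u h ^ 2 ≤ K * ∑ h ∈ V, dlt U V u h ^ 2 := by
    rw [Finset.mul_sum]
    refine Finset.sum_le_sum (fun h hh => ?_)
    rw [Finset.sum_const, nsmul_eq_mul]
    exact mul_le_mul_of_nonneg_right (hK1 h hh) (sq_nonneg _)
  have h3 : ∑ h ∈ V, ∑ k ∈ star U V f h, dlt U V u k ^ 2 ≤ K * ∑ h ∈ V, dlt U V u h ^ 2 := by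
    have h4 : ∀ h ∈ V, ∑ k ∈ star U V f h, dlt U V u k ^ 2 =
        ∑ k ∈ V, if k ∈ star U V f h then dlt U V u k ^ 2 else 0 := by
      intro h _
      rw [← Finset.sum_filter]
      refine Finset.sum_congr ?_ (fun _ _ => rfl)
      ext k
      rw [Finset.mem_filter]
      exact ⟨fun hk => ⟨(mem_star.1 hk).1, hk⟩, fun hk => hk.2⟩
    rw [Finset.sum_congr rfl h4, Finset.sum_comm, Finset.mul_sum]
    refine Finset.sum_le_sum (fun k hk => ?_)
    rw [← Finset.sum_filter, Finset.sum_const, nsmul_eq_mul]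
    exact mul_le_mul_of_nonneg_right (hK2 k hk) (sq_nonneg _)
  linarith

open Classical in
/-- **Area zero.**  The levels along which `u ∘ f⁻¹` varies by more than `η` have small measure. -/
theorem volume_exc_le (f : G) (K D η : ℝ) (hK0 : 0 ≤ K) (hη : 0 < η)
    (hK1 : ∀ h ∈ V, ((star U V f h).card : ℝ) ≤ K)
    (hK2 : ∀ k ∈ V, ((V.filter (fun h => k ∈ star U V f h)).card : ℝ) ≤ K)
    (hD : ∑ h ∈ V, dlt U V u h ^ 2 ≤ D) :
    volume {t : ℝ | η ≤ tvar U V u T f t} ≤ ENNReal.ofReal (2 * K * D / η) := by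
  have h1 := mul_meas_ge_le_lintegral (μ := volume)
    (f := fun t => ENNReal.ofReal (tvar U V u T f t)) (measurable_tvar f).ennreal_ofReal
    (ENNReal.ofReal η)
  have h2 := sum_dlt_osf_le (T := T) (u := u) f K hK1 hK2
  have h3 : ENNReal.ofReal η * volume {t : ℝ | η ≤ tvar U V u T f t} ≤
      ENNReal.ofReal (2 * K * D) := by
    have h4 : {t : ℝ | η ≤ tvar U V u T f t} ⊆
        {t | ENNReal.ofReal η ≤ ENNReal.ofReal (tvar U V u T f t)} :=
      fun t ht => ENNReal.ofReal_le_ofReal ht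
    refine (mul_le_mul_right (measure_mono h4) _).trans (h1.trans ((lintegral_tvar_le f).trans ?_))
    refine ENNReal.ofReal_le_ofReal (h2.trans ?_)
    exact mul_le_mul_of_nonneg_left hD (by positivity)
  rw [ENNReal.ofReal_div_of_pos hη]
  rw [ENNReal.le_div_iff_mul_le (Or.inl (by simpa using hη)) (Or.inl ENNReal.ofReal_ne_top)]
  rwa [mul_comm]

end

end Crest.Agent.R193.M4
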