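import Mathlib
import Crest.Agent.R193.M_Defs
import Crest.Agent.R193.FG1c
import Crest.Agent.R193.FG1e
import Crest.Agent.R193.T_Comp
import Crest.Agent.R193.M4_Dich

/-!
# R193, block M5 (helper578): energy estimates for the leaves of a discrete harmonic function
-/

set_option autoImplicit false

open MeasureTheory Set

namespace Crest.Agent.R193.M5E

open Crest.Agent.R193 Crest.Agent.R193.M4

variable {G Z : Type} [Group G] [MetricSpace Z] [MulAction G Z] {S : Setup G Z}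

/-- degree bound of the tile graph -/
noncomputable def Dg (T : Tiles S) : ℕ := T_Comp.Nb S (2 * T.R + 2 * S.δ)

theorem ncard_adj_le (T : Tiles S) (χ : Chart Z) (n : ℕ) (v : T.V χ n) :
    {w | (T.gr χ n).Adj v w}.ncard ≤ Dg T := by
  classical
  have h1 : {w | (T.gr χ n).Adj v w}.ncard =
      (Finset.univ.filter (fun w => (T.gr χ n).Adj v w)).card := by
    rw [Set.ncard_eq_toFinset_card']
    congr 1
    ext w; simp
  rw [h1, ← Finset.card_map (Function.Embedding.subtype _)]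
  refine T_Comp.card_adj_le T (v : G) ?_
  intro h hh
  rw [Finset.mem_map] at hh
  obtain ⟨a, ha, rfl⟩ := hh
  rw [Finset.mem_filter] at ha
  refine ⟨?_, ha.2.2⟩
  have h2 := (Tiles.mem_V.1 a.2).1
  have h3 := (Tiles.mem_V.1 v.2).1
  simp only [Function.Embedding.coe_subtype]
  rw [h2, h3]

theorem mem_leaf_iff (T : Tiles S) (χ : Chart Z) (n : ℕ) (u : G → ℝ) (t : ℝ) (v : T.V χ n) :
    (v : G) ∈ leaf T.U (T.V χ n) u t ↔ v ∈ FG.lev (T.gr χ n) (fun h => u (h : G)) t := by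
  rw [mem_leaf]
  constructor
  · rintro ⟨_, h', hh', htouch, h4⟩
    refine ⟨⟨h', hh'⟩, ⟨?_, htouch⟩, h4⟩
    intro he
    rw [he] at h4
    rcases h4 with h4 | h4
    · exact absurd h4.2 (not_lt.2 h4.1)
    · exact absurd h4.2 (not_lt.2 h4.1)
  · rintro ⟨w, hw, h4⟩
    exact ⟨v.2, w, w.2, hw.2, h4⟩

theorem mem_leaf_iff_lev (T : Tiles S) (χ : Chart Z) (n : ℕ) (u : G → ℝ) (t : ℝ) (h : G) :
    h ∈ leaf T.U (T.V χ n) u t ↔ h ∈ T.lev χ n u t := by
  rw [mem_leaf]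
  rfl

/-- energy inequality for the leaves -/
theorem sum_leaf_sq_le (T : Tiles S) (χ : Chart Z) (n : ℕ) (u : G → ℝ)
    (h : FG.Sol (T.gr χ n) (T.Lt χ n) (T.Rt χ n) (fun h => u (h : G)))
    {Θ : Set ℝ} (hΘ : MeasurableSet Θ) (hΘ1 : Θ ⊆ Set.Ico 0 1) :
    ∑ h ∈ T.V χ n, (volume.real (Θ ∩ {t | h ∈ leaf T.U (T.V χ n) u t})) ^ 2 ≤
      2 * Dg T * FG.en (T.gr χ n) (fun h => u (h : G)) * volume.real Θ := by
  refine le_trans (le_of_eq ?_) (h.sum_lev_sq_le hΘ hΘ1 (Dg T) (ncard_adj_le T χ n))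
  rw [← Finset.sum_coe_sort (T.V χ n)]
  refine Finset.sum_congr rfl (fun v _ => ?_)
  congr 2
  ext t
  simp only [mem_inter_iff, mem_ofPred_eq, mem_leaf_iff]

theorem dlt_eq_grad (T : Tiles S) (χ : Chart Z) (n : ℕ) (u : G → ℝ) (v : T.V χ n) :
    dlt T.U (T.V χ n) u v = FG.grad (T.gr χ n) (fun h => u (h : G)) v := by
  classical
  rw [dlt, FG.grad_def, Finset.sum_filter, ← Finset.sum_coe_sort (T.V χ n)]
  refine Finset.sum_congr rfl (fun w _ => ?_)
  by_cases h1 : (T.gr χ n).Adj v w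
  · rw [if_pos h1, if_pos (show Touch T.U (v : G) (w : G) from h1.2)]
  · rw [if_neg h1]
    split_ifs with h2
    · by_cases h3 : v = w
      · rw [h3, sub_self, abs_zero]
      · exact absurd ⟨h3, h2⟩ h1
    · rfl

theorem sum_dlt_sq_le (T : Tiles S) (χ : Chart Z) (n : ℕ) (u : G → ℝ) :
    ∑ h ∈ T.V χ n, dlt T.U (T.V χ n) u h ^ 2 ≤
      2 * Dg T * FG.en (T.gr χ n) (fun h => u (h : G)) := by
  refine le_trans (le_of_eq ?_) (FG.sum_grad_sq_le _ _ (Dg T) (ncard_adj_le T χ n))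
  rw [← Finset.sum_coe_sort (T.V χ n)]
  exact Finset.sum_congr rfl (fun v _ => by rw [dlt_eq_grad])

end Crest.Agent.R193.M5E
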