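import Mathlib

/-!
# R193, block FG3: tournament count, abstract packing inequality, Courant-Lebesgue selection
(helper246). Pure finite combinatorics / measure theory.
-/

set_option autoImplicit false

namespace Crest.Agent.R193.Pack

open Finset MeasureTheory

/-- **Tournament count.** If for all distinct `a, b ∈ A` one has `P a b` or `P b a`, and every
`a ∈ A` has at most `M` many `b ∈ A` (`b ≠ a`) with `P a b`, then `#A ≤ 2 M + 1`. -/
theorem tournament {α : Type*} (A : Finset α) (P : α → α → Prop) (M : ℝ) (hM0 : 0 ≤ M)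
    (hP : ∀ a ∈ A, ∀ b ∈ A, a ≠ b → P a b ∨ P b a)
    (hM : ∀ a ∈ A, ∀ B : Finset α, B ⊆ A → (∀ b ∈ B, P a b) → (B.card : ℝ) ≤ M) :
    (A.card : ℝ) ≤ 2 * M + 1 := by
  classical
  rcases A.eq_empty_or_nonempty with rfl | hne
  · simp only [Finset.card_empty, Nat.cast_zero]; linarith
  -- ordered pairs
  have h1 : A.offDiag ⊆ (A ×ˢ A).filter (fun p => P p.1 p.2) ∪ (A ×ˢ A).filter (fun p => P p.2 p.1) := by
    intro p hp
    rw [Finset.mem_offDiag] at hp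
    rcases hP p.1 hp.1 p.2 hp.2.1 hp.2.2 with h | h
    · exact Finset.mem_union_left _ (by simp [hp.1, hp.2.1, h])
    · exact Finset.mem_union_right _ (by simp [hp.1, hp.2.1, h])
  have h2 : ((A ×ˢ A).filter (fun p => P p.1 p.2)).card = ∑ a ∈ A, (A.filter fun b => P a b).card := by
    rw [Finset.card_filter, Finset.sum_product]
    refine Finset.sum_congr rfl fun a _ => ?_
    rw [Finset.card_filter]
  have h3 : ((A ×ˢ A).filter (fun p => P p.2 p.1)).card = ∑ a ∈ A, (A.filter fun b => P a b).card := by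
    rw [Finset.card_filter, Finset.sum_product_right]
    refine Finset.sum_congr rfl fun a _ => ?_
    rw [Finset.card_filter]
  have h4 : (A.offDiag.card : ℝ) ≤ 2 * ∑ a ∈ A, ((A.filter fun b => P a b).card : ℝ) := by
    have := (Finset.card_le_card h1).trans (Finset.card_union_le _ _)
    rw [h2, h3] at this
    have h' : (A.offDiag.card : ℝ) ≤ ((∑ a ∈ A, (A.filter fun b => P a b).card
      + ∑ a ∈ A, (A.filter fun b => P a b).card : ℕ) : ℝ) := by exact_mod_cast this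
    push_cast at h'
    linarith
  have h5 : ∑ a ∈ A, ((A.filter fun b => P a b).card : ℝ) ≤ A.card * M := by
    calc _ ≤ ∑ a ∈ A, M := Finset.sum_le_sum fun a ha =>
          hM a ha _ (Finset.filter_subset _ _) fun b hb => (Finset.mem_filter.1 hb).2
      _ = _ := by simp
  have h6 : (A.offDiag.card : ℝ) = A.card * (A.card - 1) := by
    rw [Finset.offDiag_card, Nat.cast_sub (Nat.le_mul_self _)]
    push_cast; ring
  have h7 : (0 : ℝ) < A.card := by exact_mod_cast hne.card_pos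
  have h8 : (A.card : ℝ) * (A.card - 1) ≤ A.card * (2 * M) := by rw [← h6]; linarith
  have := le_of_mul_le_mul_left h8 h7
  linarith

/-- `(∑_{g∈Γ} x g)² ≤ #{g : x g ≠ 0} * ∑ x²`. -/
theorem sq_sum_le_card_mul {ι : Type*} (Γ : Finset ι) (x : ι → ℝ) [DecidablePred fun g => x g ≠ 0] :
    (∑ g ∈ Γ, x g) ^ 2 ≤ ((Γ.filter fun g => x g ≠ 0).card : ℝ) * ∑ g ∈ Γ, x g ^ 2 := by
  rw [← Finset.sum_filter_ne_zero (s := Γ) (f := x)]
  have h1 := Finset.sum_mul_sq_le_sq_mul_sq (Γ.filter fun g => x g ≠ 0) (fun _ => (1 : ℝ)) x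
  simp only [one_mul, one_pow, Finset.sum_const, nsmul_eq_mul, mul_one] at h1
  refine h1.trans (mul_le_mul_of_nonneg_left ?_ (by positivity))
  exact Finset.sum_le_sum_of_subset_of_nonneg (Finset.filter_subset _ _) fun g _ _ => sq_nonneg _

/-- **Abstract packing inequality (step 5 of Part M).**
`Γ` = group elements of level `j`, `X` = tiles of level `m`, `Θ g` = selected levels,
`W g h` = levels `t` whose leaf `(g,t)` touches the tile `h`, `μ` = dual measure. -/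
theorem packing {ι H T : Type*} [MeasurableSpace T] (P : Measure T) [IsFiniteMeasure P]
    (Γ : Finset ι) (X : Finset H) (Θ : ι → Set T) (W : ι → H → Set T)
    (hΘ : ∀ g ∈ Γ, MeasurableSet (Θ g)) (hW : ∀ g ∈ Γ, ∀ h ∈ X, MeasurableSet (W g h))
    (μ : H → ℝ) (L K B : ℝ) (hL : ∑ h ∈ X, μ h ^ 2 ≤ L) (hK : 0 ≤ K)
    (hcross : ∀ g ∈ Γ, ∀ t ∈ Θ g, 1 ≤ ∑ h ∈ X, (W g h).indicator (fun _ => μ h) t)
    (hmult : ∀ h ∈ X, ∀ A : Finset ι, A ⊆ Γ → (∀ g ∈ A, P.real (Θ g ∩ W g h) ≠ 0) →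
      (A.card : ℝ) ≤ K)
    (hB : ∑ g ∈ Γ, ∑ h ∈ X, (P.real (Θ g ∩ W g h)) ^ 2 ≤ B) :
    (∑ g ∈ Γ, P.real (Θ g)) ^ 2 ≤ L * K * B := by
  classical
  set ω : ι → H → ℝ := fun g h => P.real (Θ g ∩ W g h) with hω
  have hω0 : ∀ g h, 0 ≤ ω g h := fun g h => measureReal_nonneg
  -- step 1
  have h1 : ∀ g ∈ Γ, P.real (Θ g) ≤ ∑ h ∈ X, μ h * ω g h := by
    intro g hg
    have e1 : ∀ h ∈ X, ∫ t in Θ g, (W g h).indicator (fun _ => μ h) t ∂P = μ h * ω g h := by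
      intro h hh
      rw [integral_indicator (hW g hg h hh), Measure.restrict_restrict (hW g hg h hh),
        setIntegral_const, smul_eq_mul, Set.inter_comm, mul_comm]
    have hint : ∀ h ∈ X, IntegrableOn (fun t => (W g h).indicator (fun _ => μ h) t) (Θ g) P := by
      intro h hh
      exact ((integrable_const (μ h)).indicator (hW g hg h hh)).integrableOn
    calc P.real (Θ g) = ∫ t in Θ g, (1:ℝ) ∂P := by simp
      _ ≤ ∫ t in Θ g, ∑ h ∈ X, (W g h).indicator (fun _ => μ h) t ∂P := by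
          refine setIntegral_mono_on (integrable_const _).integrableOn ?_ (hΘ g hg) (hcross g hg)
          exact integrable_finsetSum _ hint
      _ = ∑ h ∈ X, ∫ t in Θ g, (W g h).indicator (fun _ => μ h) t ∂P :=
          integral_finsetSum _ hint
      _ = _ := Finset.sum_congr rfl e1
  have h2 : ∑ g ∈ Γ, P.real (Θ g) ≤ ∑ h ∈ X, μ h * ∑ g ∈ Γ, ω g h := by
    refine (Finset.sum_le_sum h1).trans (le_of_eq ?_)
    rw [Finset.sum_comm]
    exact Finset.sum_congr rfl fun h _ => by rw [Finset.mul_sum]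
  have h0 : 0 ≤ ∑ g ∈ Γ, P.real (Θ g) := Finset.sum_nonneg fun g _ => measureReal_nonneg
  have h3 : ∀ h ∈ X, (∑ g ∈ Γ, ω g h) ^ 2 ≤ K * ∑ g ∈ Γ, ω g h ^ 2 := by
    intro h hh
    refine (sq_sum_le_card_mul Γ (fun g => ω g h)).trans ?_
    refine mul_le_mul_of_nonneg_right ?_ (Finset.sum_nonneg fun g _ => sq_nonneg _)
    exact hmult h hh _ (Finset.filter_subset _ _) fun g hg => (Finset.mem_filter.1 hg).2
  calc (∑ g ∈ Γ, P.real (Θ g)) ^ 2 ≤ (∑ h ∈ X, μ h * ∑ g ∈ Γ, ω g h) ^ 2 :=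
        pow_le_pow_left₀ h0 h2 2
    _ ≤ (∑ h ∈ X, μ h ^ 2) * ∑ h ∈ X, (∑ g ∈ Γ, ω g h) ^ 2 :=
        Finset.sum_mul_sq_le_sq_mul_sq _ _ _
    _ ≤ L * ∑ h ∈ X, (∑ g ∈ Γ, ω g h) ^ 2 :=
        mul_le_mul_of_nonneg_right hL (Finset.sum_nonneg fun h _ => sq_nonneg _)
    _ ≤ L * (K * B) := by
        refine mul_le_mul_of_nonneg_left ?_
          ((Finset.sum_nonneg fun h _ => sq_nonneg _).trans hL)
        calc ∑ h ∈ X, (∑ g ∈ Γ, ω g h) ^ 2 ≤ ∑ h ∈ X, K * ∑ g ∈ Γ, ω g h ^ 2 :=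
              Finset.sum_le_sum h3
          _ = K * ∑ g ∈ Γ, ∑ h ∈ X, ω g h ^ 2 := by
              rw [← Finset.mul_sum, Finset.sum_comm]
          _ ≤ K * B := mul_le_mul_of_nonneg_left hB hK
    _ = L * K * B := by ring

/-- **Packing with the tournament bound.** `J g g2 t` : "the level `t` of `g` hits the pole disc of
`g2`" (i.e. `t ∈ J_{g,g2}`). -/
theorem packing_tournament {ι H T : Type*} [MeasurableSpace T] (P : Measure T) [IsFiniteMeasure P]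
    (Γ : Finset ι) (X : Finset H) (Θ : ι → Set T) (W : ι → H → Set T)
    (hΘ : ∀ g ∈ Γ, MeasurableSet (Θ g)) (hW : ∀ g ∈ Γ, ∀ h ∈ X, MeasurableSet (W g h))
    (J : ι → ι → T → Prop)
    (μ : H → ℝ) (L M B : ℝ) (hL : ∑ h ∈ X, μ h ^ 2 ≤ L) (hM0 : 0 ≤ M)
    (hcross : ∀ g ∈ Γ, ∀ t ∈ Θ g, 1 ≤ ∑ h ∈ X, (W g h).indicator (fun _ => μ h) t)
    (hdich : ∀ h ∈ X, ∀ g ∈ Γ, ∀ g2 ∈ Γ, g ≠ g2 → ∀ t ∈ Θ g ∩ W g h, ∀ t2 ∈ Θ g2 ∩ W g2 h,
      J g g2 t ∨ J g2 g t2)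
    (hcount : ∀ g ∈ Γ, ∀ t ∈ Θ g, ∀ A : Finset ι, A ⊆ Γ → (∀ g2 ∈ A, J g g2 t) → (A.card : ℝ) ≤ M)
    (hB : ∑ g ∈ Γ, ∑ h ∈ X, (P.real (Θ g ∩ W g h)) ^ 2 ≤ B) :
    (∑ g ∈ Γ, P.real (Θ g)) ^ 2 ≤ L * (2 * M + 1) * B := by
  classical
  refine packing P Γ X Θ W hΘ hW μ L (2 * M + 1) B hL (by linarith) hcross ?_ hB
  intro h hh A hA hne
  have hex : ∀ g ∈ A, ∃ t, t ∈ Θ g ∩ W g h := by
    intro g hg
    by_contra hcon
    push Not at hcon
    apply hne g hg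
    have : Θ g ∩ W g h = ∅ := Set.eq_empty_iff_forall_notMem.2 hcon
    rw [this]; simp
  rcases A.eq_empty_or_nonempty with rfl | ⟨a0, ha0⟩
  · simp only [Finset.card_empty, Nat.cast_zero]; linarith
  have : Nonempty T := ⟨(hex a0 ha0).choose⟩
  choose! t ht using hex
  refine tournament A (fun g g2 => J g g2 (t g)) M hM0 ?_ ?_
  · intro a ha b hb hab
    exact hdich h hh a (hA ha) b (hA hb) hab (t a) (ht a ha) (t b) (ht b hb)
  · intro a ha B' hB' hJ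
    exact hcount a (hA ha) (t a) (ht a ha).1 B' (hB'.trans hA) hJ

/-- **Courant-Lebesgue selection.** `X i` (`i < I`) finite vertex sets ("annuli") with overlap at
most `K`, `S i` a finite family of subsets of `X i` ("separating sets") whose modulus is at least
`c`. If `∑ ρ² ≤ E` then some `s ∈ S i` has `ρ(s)² ≤ K E / (c I)`. -/
theorem courant_lebesgue {V : Type*} [DecidableEq V] (I : ℕ) (hI : 0 < I)
    (Y : Finset V) (X : ℕ → Finset V) (hXY : ∀ i < I, X i ⊆ Y) (S : ℕ → Finset (Finset V))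
    (K c E : ℝ) (hK : 0 ≤ K) (hc : 0 < c)
    (hover : ∀ v ∈ Y, (((Finset.range I).filter fun i => v ∈ X i).card : ℝ) ≤ K)
    (hmod : ∀ i < I, ∀ ρ : V → ℝ, (∀ v, 0 ≤ ρ v) → (∀ s ∈ S i, 1 ≤ ∑ v ∈ s, ρ v) →
      c ≤ ∑ v ∈ X i, ρ v ^ 2)
    (ρ : V → ℝ) (hρ : ∀ v, 0 ≤ ρ v) (hE : ∑ v ∈ Y, ρ v ^ 2 ≤ E) :
    ∃ i < I, ∃ s ∈ S i, (∑ v ∈ s, ρ v) ^ 2 ≤ K * E / (c * I) := by
  have hIpos : (0 : ℝ) < I := by exact_mod_cast hI
  -- some annulus has small energy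
  have h1 : ∑ i ∈ Finset.range I, ∑ v ∈ X i, ρ v ^ 2 ≤ K * E := by
    have e : ∀ i ∈ Finset.range I, ∑ v ∈ X i, ρ v ^ 2
        = ∑ v ∈ Y, if v ∈ X i then ρ v ^ 2 else 0 := by
      intro i hi
      rw [← Finset.sum_filter]
      refine Finset.sum_congr ?_ fun _ _ => rfl
      ext v; simp only [Finset.mem_filter]
      exact ⟨fun h => ⟨hXY i (Finset.mem_range.1 hi) h, h⟩, fun h => h.2⟩
    rw [Finset.sum_congr rfl e, Finset.sum_comm]
    have e2 : ∀ v ∈ Y, (∑ i ∈ Finset.range I, if v ∈ X i then ρ v ^ 2 else 0) ≤ K * ρ v ^ 2 := by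
      intro v hv
      rw [← Finset.sum_filter, Finset.sum_const, nsmul_eq_mul]
      exact mul_le_mul_of_nonneg_right (hover v hv) (sq_nonneg _)
    calc _ ≤ ∑ v ∈ Y, K * ρ v ^ 2 := Finset.sum_le_sum e2
      _ = K * ∑ v ∈ Y, ρ v ^ 2 := by rw [Finset.mul_sum]
      _ ≤ K * E := mul_le_mul_of_nonneg_left hE hK
  obtain ⟨i, hi, hEi⟩ : ∃ i ∈ Finset.range I, ∑ v ∈ X i, ρ v ^ 2 ≤ K * E / I := by
    by_contra hcon
    push Not at hcon
    have : ∑ i ∈ Finset.range I, K * E / I < ∑ i ∈ Finset.range I, ∑ v ∈ X i, ρ v ^ 2 :=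
      Finset.sum_lt_sum_of_nonempty ⟨0, Finset.mem_range.2 hI⟩ hcon
    rw [Finset.sum_const, Finset.card_range, nsmul_eq_mul, mul_div_cancel₀ _ hIpos.ne'] at this
    linarith
  refine ⟨i, Finset.mem_range.1 hi, ?_⟩
  by_contra hcon
  push Not at hcon
  have hEi0 : 0 ≤ ∑ v ∈ X i, ρ v ^ 2 := Finset.sum_nonneg fun v _ => sq_nonneg _
  have hB0 : 0 ≤ K * E / (c * I) := by
    have : K * E / (c * I) = (K * E / I) / c := by field_simp
    rw [this]; exact div_nonneg (hEi0.trans hEi) hc.le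
  rcases (S i).eq_empty_or_nonempty with hSe | hSne
  · have := hmod i (Finset.mem_range.1 hi) (fun _ => 0) (fun _ => le_rfl) (by
      intro s hs; rw [hSe] at hs; exact absurd hs (Finset.notMem_empty _))
    simp at this
    linarith
  obtain ⟨s0, hs0, hmin⟩ := Finset.exists_min_image (S i) (fun s => ∑ v ∈ s, ρ v) hSne
  set l : ℝ := ∑ v ∈ s0, ρ v with hl
  have hl0 : 0 ≤ l := Finset.sum_nonneg fun v _ => hρ v
  have hl2 : K * E / (c * I) < l ^ 2 := hcon s0 hs0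
  have hlpos : 0 < l := by
    rcases hl0.eq_or_lt with h | h
    · rw [← h] at hl2; norm_num at hl2; linarith
    · exact h
  have hadm := hmod i (Finset.mem_range.1 hi) (fun v => ρ v / l) (fun v => div_nonneg (hρ v) hl0) (by
    intro s hs
    rw [← Finset.sum_div, le_div_iff₀ hlpos, one_mul]
    exact hmin s hs)
  have e3 : ∑ v ∈ X i, (ρ v / l) ^ 2 = (∑ v ∈ X i, ρ v ^ 2) / l ^ 2 := by
    rw [Finset.sum_div]; exact Finset.sum_congr rfl fun v _ => by rw [div_pow]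
  rw [e3, le_div_iff₀ (by positivity)] at hadm
  have h4 : c * l ^ 2 ≤ K * E / I := hadm.trans hEi
  have h5 : l ^ 2 ≤ K * E / (c * I) := by
    rw [le_div_iff₀ (by positivity)]
    rw [le_div_iff₀ hIpos] at h4
    linarith
  linarith

/-- Single-annulus form: `m ≤ modulus`, energy `≤ E` gives `s ∈ S` with `ρ(s)² ≤ E / m`. -/
theorem exists_short {V : Type*} [DecidableEq V] (X : Finset V) (S : Finset (Finset V))
    (c E : ℝ) (hc : 0 < c)
    (hmod : ∀ ρ : V → ℝ, (∀ v, 0 ≤ ρ v) → (∀ s ∈ S, 1 ≤ ∑ v ∈ s, ρ v) → c ≤ ∑ v ∈ X, ρ v ^ 2)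
    (ρ : V → ℝ) (hρ : ∀ v, 0 ≤ ρ v) (hE : ∑ v ∈ X, ρ v ^ 2 ≤ E) :
    ∃ s ∈ S, (∑ v ∈ s, ρ v) ^ 2 ≤ E / c := by
  obtain ⟨i, _, s, hs, h⟩ := courant_lebesgue 1 one_pos X (fun _ => X) (fun _ _ => subset_rfl)
    (fun _ => S) 1 c E zero_le_one hc (by
      intro v _
      have : ((Finset.range 1).filter fun _ => v ∈ X).card ≤ (Finset.range 1).card :=
        Finset.card_filter_le _ _
      simpa using (by exact_mod_cast this : (((Finset.range 1).filter fun _ => v ∈ X).card : ℝ) ≤ 1))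
    (fun _ _ => hmod) ρ hρ hE
  refine ⟨s, hs, h.trans (le_of_eq ?_)⟩
  simp

end Crest.Agent.R193.Pack
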