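import Mathlib
import Crest.Agent.R193.M4_Dich
import Crest.Agent.R193.Pack

/-!
# R193, block M5 (helper578): the packing inequality at one level with a limit function
-/

set_option autoImplicit false

open MeasureTheory Set

namespace Crest.Agent.R193.M5

open Crest.Agent.R193.M4

section
variable {G Z : Type*} [Group G] [TopologicalSpace Z] [MulAction G Z]

/-- All the data and approximation properties at one level (tile radius small, `u ≈ w` up to `e`). -/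
structure Lev (U : G → Set Z) (V : Finset G) (u : G → ℝ) (w : Z → ℝ) (T Tm K1 K2 : Set Z)
    (Γ P : Finset G) (near : G → Prop) (Bin Bout : Set Z) (e : ℝ) : Prop where
  e_pos : 0 < e
  hc : ∀ g : G, Continuous (fun x : Z => g • x)
  hU : ∀ h, IsClosed (U h)
  hUp : ∀ h, IsConnected (U h)
  hV : ∀ z ∉ T, ∃ k ∈ V, z ∈ U k
  hTm : T ⊆ Tm
  hclose : ∀ k ∈ V, ∀ z ∈ U k, z ∈ K2 → |u k - w z| ≤ e
  hsm : ∀ k ∈ V, (U k ∩ K1).Nonempty → U k ⊆ K2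
  hfar : ∀ g ∈ Γ, ∀ g2 ∈ Γ, ¬ near (g * g2⁻¹) → ∀ z ∈ Tm, (g * g2⁻¹) • z ∈ K1
  hnear : ∀ g ∈ Γ, ∀ g2 ∈ Γ, near (g * g2⁻¹) → near (g2 * g⁻¹)
  hPK : ∀ g ∈ Γ, ∀ h' ∈ P, ∀ x ∈ U h', g • x ∈ K1
  hUC : ∀ g ∈ Γ, ∀ h' ∈ P, ∀ x ∈ U h', ∀ y ∈ U h', |w (g • x) - w (g • y)| ≤ e
  hBin : IsPreconnected Bin
  hBinK : ∀ g ∈ Γ, ∀ x ∈ Bin, g • x ∈ K1
  hBinT : ∀ g ∈ Γ, ∀ x ∈ Bin, g • x ∉ T
  hBout : ∀ g ∈ Γ, ∀ z ∈ T, g⁻¹ • z ∈ Bout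

variable {U : G → Set Z} {V : Finset G} {u : G → ℝ} {w : Z → ℝ} {T Tm K1 K2 : Set Z}
  {Γ P : Finset G} {near : G → Prop} {Bin Bout : Set Z} {e : ℝ}

/-- level components reach `T` -/
def Reach (U : G → Set Z) (V : Finset G) (u : G → ℝ) (T : Set Z) (t : ℝ) : Prop :=
  ∀ c : Finset G, c ⊆ leaf U V u t → c.Nonempty →
    (∀ h ∈ c, ∀ h' ∈ leaf U V u t, Touch U h h' → h' ∈ c) → ∃ h ∈ c, (U h ∩ T).Nonempty

theorem Lev.abs_sub_le (L : Lev U V u w T Tm K1 K2 Γ P near Bin Bout e) {k : G} {t : ℝ}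
    (hk : k ∈ leaf U V u t) (hK : (U k ∩ K1).Nonempty) : |u k - t| ≤ 2 * e := by
  obtain ⟨h1, k', h2, ⟨z, hz1, hz2⟩, h4⟩ := mem_leaf.1 hk
  have hz : z ∈ K2 := L.hsm k h1 hK hz1
  have a1 := L.hclose k h1 z hz1 hz
  have a2 := L.hclose k' h2 z hz2 hz
  rw [abs_le] at a1 a2 ⊢
  rcases h4 with h4 | h4
  · constructor <;> linarith [h4.1, h4.2, a1.1, a1.2, a2.1, a2.2]
  · constructor <;> linarith [h4.1, h4.2, a1.1, a1.2, a2.1, a2.2]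

/-- the leaf avoids `f T` when `t` is not close to `w (f Tm)` -/
theorem Lev.off (L : Lev U V u w T Tm K1 K2 Γ P near Bin Bout e) {g g2 : G} (hg : g ∈ Γ)
    (hg2 : g2 ∈ Γ) (hn : ¬ near (g * g2⁻¹)) {t : ℝ}
    (ht : ∀ z ∈ Tm, 3 * e < |w ((g * g2⁻¹) • z) - t|) :
    ∀ h ∈ leaf U V u t, Off U T (g * g2⁻¹) h := by
  intro h hh x hx hxT
  have hxm := L.hTm hxT
  have h1 : (g * g2⁻¹) • x ∈ K1 := L.hfar g hg g2 hg2 hn x hxm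
  have h2 := L.abs_sub_le hh ⟨_, hx, h1⟩
  have h3 := L.hclose h (leaf_subset t hh) _ hx (L.hsm h (leaf_subset t hh) ⟨_, hx, h1⟩ hx)
  have h4 := ht x hxm
  have h5 := _root_.abs_sub_le (w ((g * g2⁻¹) • x)) (u h) t
  rw [abs_sub_comm] at h3
  linarith

/-- **Dichotomy.** -/
theorem Lev.dichotomy (L : Lev U V u w T Tm K1 K2 Γ P near Bin Bout e) {g g2 : G} (hg : g ∈ Γ)
    (hg2 : g2 ∈ Γ) (hn : ¬ near (g * g2⁻¹)) {t t2 : ℝ} (hR : Reach U V u T t)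
    (ht : ∀ z ∈ Tm, 3 * e < |w ((g * g2⁻¹) • z) - t|) (hvar : tvar U V u T (g * g2⁻¹) t ≤ e)
    {h' : G} (hh' : h' ∈ P) (h1 : tch U V u g t h') (h2 : tch U V u g2 t2 h') :
    ∃ z ∈ Tm, |w ((g2 * g⁻¹) • z) - t2| ≤ 10 * e := by
  have hinv : (g * g2⁻¹)⁻¹ = g2 * g⁻¹ := by group
  have hn2 : ¬ near (g2 * g⁻¹) := by
    intro h
    exact hn (L.hnear g2 hg2 g hg h)
  have hoff := L.off hg hg2 hn ht
  obtain ⟨h, hh, x, hx, hgx⟩ := h1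
  have e1 : (g * g2⁻¹) • (g2 • x) = g • x := by rw [smul_smul]; congr 1; group
  have hx1 : (g * g2⁻¹) • (g2 • x) ∈ U h := by rw [e1]; exact hgx
  obtain ⟨k1, hk1, hxk1⟩ := L.hV _ (hoff h hh _ hx1)
  have hst : k1 ∈ M4.star U V (g * g2⁻¹) h := mem_star.2 ⟨hk1, _, hxk1, hx1⟩
  obtain ⟨z, hzT, k', hk', hzk', hle⟩ := follow L.hc L.hU L.hUp L.hV hoff hR hh hst
  have e2 : (g2 * g⁻¹) • ((g * g2⁻¹) • z) = z := by rw [smul_smul]; simp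
  refine ⟨(g * g2⁻¹) • z, L.hTm hzT, ?_⟩
  rw [e2]
  have hzK1 : z ∈ K1 := by
    have := L.hfar g2 hg2 g hg hn2 _ (L.hTm hzT)
    rwa [e2] at this
  have b1 := L.hclose k' hk' z hzk' (L.hsm k' hk' ⟨z, hzk', hzK1⟩ hzk')
  obtain ⟨k, hk, y, hy, hgy⟩ := h2
  have hyK := L.hPK g2 hg2 h' hh' y hy
  have hxK := L.hPK g2 hg2 h' hh' x hx
  have b2 := L.abs_sub_le hk ⟨_, hgy, hyK⟩
  have hkV := leaf_subset t2 hk
  have b3 := L.hclose k hkV _ hgy (L.hsm k hkV ⟨_, hgy, hyK⟩ hgy)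
  have b4 := L.hUC g2 hg2 h' hh' x hx y hy
  have b5 := L.hclose k1 hk1 _ hxk1 (L.hsm k1 hk1 ⟨_, hxk1, hxK⟩ hxk1)
  rw [abs_le] at *
  constructor <;> linarith [b1.1, b1.2, b2.1, b2.2, b3.1, b3.2, b4.1, b4.2, b5.1, b5.2, hle.1, hle.2]

/-- levels strictly inside `w (g Bin)` have a leaf tile meeting `g Bin` -/
theorem Lev.exists_leaf (L : Lev U V u w T Tm K1 K2 Γ P near Bin Bout e) {g : G} (hg : g ∈ Γ)
    {t : ℝ} {x y : Z} (hx : x ∈ Bin) (hy : y ∈ Bin) (h1 : w (g • x) + e < t)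
    (h2 : t < w (g • y) - e) : ∃ h ∈ leaf U V u t, ∃ x ∈ Bin, g • x ∈ U h := by
  classical
  set Sg := V.filter (fun k => ∃ x ∈ Bin, g • x ∈ U k) with hSg
  have himg : IsPreconnected ((fun x : Z => g • x) '' Bin) := L.hBin.image _ (L.hc g).continuousOn
  have hch : Chained (Touch U) Sg := by
    refine star_chained L.hU himg _ ?_ ?_
    · rintro _ ⟨x, hx, rfl⟩
      obtain ⟨k, hk, hxk⟩ := L.hV _ (L.hBinT g hg x hx)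
      simp only [mem_iUnion, exists_prop]
      exact ⟨k, Finset.mem_filter.2 ⟨hk, x, hx, hxk⟩, hxk⟩
    · intro k hk
      obtain ⟨_, x, hx, hxk⟩ := Finset.mem_filter.1 hk
      exact ⟨_, hxk, x, hx, rfl⟩
  have hmem : ∀ x ∈ Bin, ∃ k ∈ Sg, g • x ∈ U k ∧ |u k - w (g • x)| ≤ e := by
    intro x hx
    obtain ⟨k, hk, hxk⟩ := L.hV _ (L.hBinT g hg x hx)
    exact ⟨k, Finset.mem_filter.2 ⟨hk, x, hx, hxk⟩, hxk, L.hclose k hk _ hxk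
      (L.hsm k hk ⟨_, hxk, L.hBinK g hg x hx⟩ hxk)⟩
  obtain ⟨a, ha, _, ha2⟩ := hmem x hx
  obtain ⟨b, hb, _, hb2⟩ := hmem y hy
  rw [abs_le] at ha2 hb2
  obtain ⟨h, hh, h', hh', htouch, h3, h4⟩ := hch.exists_edge (fun k => u k ≤ t) ha hb
    (by linarith [ha2.2]) (by rw [not_le]; linarith [hb2.1])
  obtain ⟨hhV, x, hx, hxh⟩ := Finset.mem_filter.1 hh
  exact ⟨h, mem_leaf.2 ⟨hhV, h', (Finset.mem_filter.1 hh').1, htouch, Or.inl ⟨h3, not_le.1 h4⟩⟩,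
    x, hx, hxh⟩

/-- a leaf meeting `g Bin` touches every separating family -/
theorem Lev.touch_sep (L : Lev U V u w T Tm K1 K2 Γ P near Bin Bout e) {g : G} (hg : g ∈ Γ)
    {t : ℝ} (hR : Reach U V u T t) (h0 : ∃ h ∈ leaf U V u t, ∃ x ∈ Bin, g • x ∈ U h)
    (A : Finset G)
    (hA : ∀ c : Set Z, IsPreconnected c → (c ∩ Bin).Nonempty → (c ∩ Bout).Nonempty →
      (c ∩ ⋃ h ∈ A, U h).Nonempty) :
    ∃ h' ∈ A, tch U V u g t h' := by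
  obtain ⟨h, hh, x, hx, hgx⟩ := h0
  set c := comp (Touch U) (leaf U V u t) h with hc
  have hcc : Chained (Touch U) c := comp_chained (fun i j H => Touch.symm H) h
  obtain ⟨h1, hh1, z, hz, hzT⟩ := hR c (comp_subset h) ⟨h, self_mem_comp hh⟩ (comp_closed h)
  have hpre : IsPreconnected (⋃ k ∈ c, U k) :=
    hcc.isPreconnected (fun h _ => (L.hUp h).isPreconnected)
  have himg : IsPreconnected ((fun x : Z => g⁻¹ • x) '' ⋃ k ∈ c, U k) :=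
    hpre.image _ (L.hc g⁻¹).continuousOn
  obtain ⟨y, ⟨p, hp, hpy⟩, hyA⟩ := hA _ himg
    ⟨x, ⟨g • x, by simp only [mem_iUnion, exists_prop]; exact ⟨h, self_mem_comp hh, hgx⟩,
      by simp⟩, hx⟩
    ⟨g⁻¹ • z, ⟨z, by simp only [mem_iUnion, exists_prop]; exact ⟨h1, hh1, hz⟩, rfl⟩,
      L.hBout g hg z hzT⟩
  simp only [mem_iUnion, exists_prop] at hp hyA
  obtain ⟨k, hk, hpk⟩ := hp
  obtain ⟨h', hh', hyh'⟩ := hyA
  refine ⟨h', hh', k, comp_subset h hk, y, hyh', ?_⟩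
  have : g • y = p := by rw [← hpy]; simp
  rw [this]
  exact hpk

open Classical in
/-- number of `g2 ∈ Γ` with `t ∈ J_{g,g2}` -/
noncomputable def mcount (w : Z → ℝ) (Tm : Set Z) (Γ : Finset G) (near : G → Prop) (g : G) (t : ℝ) :
    ℝ :=
  ((Γ.filter (fun g2 => near (g * g2⁻¹) ∨ ∃ z ∈ Tm, w ((g * g2⁻¹) • z) = t)).card : ℝ)

open Classical in
/-- **Packing at one level.**  `Ex` is the exceptional set of levels. -/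
theorem Lev.packing (L : Lev U V u w T Tm K1 K2 Γ P near Bin Bout e)
    (μ : G → ℝ) (Θ : Set ℝ) (Θg : G → Set ℝ) (M N1 N2 : ℝ) (Φ : ℝ) (hM0 : 0 ≤ M)
    (hN10 : 0 ≤ N1) (hN20 : 0 ≤ N2)
    (hΘ : volume Θ ≠ ⊤) (hsub : ∀ g ∈ Γ, Θg g ⊆ Θ) (hmeas : ∀ g ∈ Γ, MeasurableSet (Θg g))
    (hR : ∀ t ∈ Θ, Reach U V u T t)
    (hM : ∀ g ∈ Γ, ∀ t ∈ Θg g, mcount w Tm Γ near g t ≤ M)
    (hin : ∀ g ∈ Γ, ∀ t ∈ Θg g, (∃ x ∈ Bin, w (g • x) + e < t) ∧ ∃ y ∈ Bin, t < w (g • y) - e)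
    (hex1 : ∀ g ∈ Γ, ∀ g2 ∈ Γ, ¬ near (g * g2⁻¹) → ∀ g' ∈ Γ, ∀ t ∈ Θg g',
      tvar U V u T (g * g2⁻¹) t ≤ e)
    (hex2 : ∀ g ∈ Γ, ∀ g2 ∈ Γ, ¬ near (g * g2⁻¹) → ∀ g' ∈ Γ, ∀ t ∈ Θg g',
      (∃ z ∈ Tm, |w ((g * g2⁻¹) • z) - t| ≤ 10 * e) → ∃ z ∈ Tm, w ((g * g2⁻¹) • z) = t)
    (hadm : ∀ S' : Finset G, S' ⊆ P → (∀ A ⊆ P, (∀ c : Set Z, IsPreconnected c →
      (c ∩ Bin).Nonempty → (c ∩ Bout).Nonempty → (c ∩ ⋃ h ∈ A, U h).Nonempty) →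
      ∃ h ∈ A, h ∈ S') → 1 ≤ ∑ h' ∈ S', μ h')
    (hN1 : ∀ g ∈ Γ, ∀ h' ∈ P, ((V.filter (fun h => ∃ x ∈ U h', g • x ∈ U h)).card : ℝ) ≤ N1)
    (hN2 : ∀ h ∈ V, ((∑ g ∈ Γ, (P.filter (fun h' => ∃ x ∈ U h', g • x ∈ U h)).card : ℕ) : ℝ) ≤ N2)
    (hΦ : ∑ h ∈ V, (volume.real (Θ ∩ {t | h ∈ leaf U V u t})) ^ 2 ≤ Φ) :
    (∑ g ∈ Γ, volume.real (Θg g)) ^ 2 ≤
      (∑ h' ∈ P, μ h' ^ 2) * ((2 * M + 1) * (N1 * (N2 * Φ))) := by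
  refine packing_level Γ P μ Θ Θg (2 * M + 1) N1 N2 Φ (by linarith) hN10 hN20 hΘ hsub hmeas
    ?_ ?_ hN1 hN2 hΦ
  · intro g hg t ht
    refine hadm _ (Finset.filter_subset _ _) ?_
    intro A hAP hA
    obtain ⟨⟨x, hx, hx1⟩, y, hy, hy1⟩ := hin g hg t ht
    obtain ⟨h', hh', h2⟩ := L.touch_sep hg (hR t (hsub g hg ht))
      (L.exists_leaf hg hx hy hx1 hy1) A hA
    exact ⟨h', hh', Finset.mem_filter.2 ⟨hAP hh', h2⟩⟩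
  · intro h' hh'
    have hsel : ∀ g ∈ Γ.filter (fun g => ∃ t ∈ Θg g, tch U V u g t h'),
        ∃ t, t ∈ Θg g ∧ tch U V u g t h' := fun g hg => (Finset.mem_filter.1 hg).2
    choose! τ hτ using hsel
    refine Crest.Agent.R193.Pack.tournament _
      (fun g g2 => near (g * g2⁻¹) ∨ ∃ z ∈ Tm, w ((g * g2⁻¹) • z) = τ g) M hM0 ?_ ?_
    · intro g hg g2 hg2 _
      have hgΓ := (Finset.mem_filter.1 hg).1
      have hg2Γ := (Finset.mem_filter.1 hg2).1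
      obtain ⟨hτ1, hτ2⟩ := hτ g hg
      obtain ⟨hτ3, hτ4⟩ := hτ g2 hg2
      by_cases hn : near (g * g2⁻¹)
      · exact Or.inl (Or.inl hn)
      by_cases ht : ∃ z ∈ Tm, |w ((g * g2⁻¹) • z) - τ g| ≤ 10 * e
      · exact Or.inl (Or.inr (hex2 g hgΓ g2 hg2Γ hn g hgΓ _ hτ1 ht))
      · push Not at ht
        have hn2 : ¬ near (g2 * g⁻¹) := fun h => hn (L.hnear g2 hg2Γ g hgΓ h)
        have h3 := L.dichotomy hgΓ hg2Γ hn (hR _ (hsub g hgΓ hτ1))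
          (fun z hz => lt_of_le_of_lt (by linarith [L.e_pos]) (ht z hz))
          (hex1 g hgΓ g2 hg2Γ hn g hgΓ _ hτ1) hh' hτ2 hτ4
        exact Or.inr (Or.inr (hex2 g2 hg2Γ g hgΓ hn2 g2 hg2Γ _ hτ3 h3))
    · intro g hg B hB hBP
      have hgΓ := (Finset.mem_filter.1 hg).1
      obtain ⟨hτ1, _⟩ := hτ g hg
      refine le_trans ?_ (hM g hgΓ _ hτ1)
      unfold mcount
      have : B ⊆ Γ.filter (fun g2 => near (g * g2⁻¹) ∨ ∃ z ∈ Tm, w ((g * g2⁻¹) • z) = τ g) := by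
        intro b hb
        exact Finset.mem_filter.2 ⟨(Finset.mem_filter.1 (hB hb)).1, hBP b hb⟩
      exact_mod_cast Finset.card_le_card this

end

end Crest.Agent.R193.M5
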