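import Mathlib
import Crest.Agent.R193.M_Defs
import Crest.Agent.R193.M3_Level
import Crest.Agent.R193.M5_Energy
import Crest.Agent.R193.M5_Count
import Crest.Agent.R193.M5_Level

/-!
# R193, block M5 (helper578): the approximation properties hold eventually along the records
-/

set_option autoImplicit false

open MeasureTheory Set Filter Topology

namespace Crest.Agent.R193.M5

open Crest.Agent.R193 Crest.Agent.R193.M4 Crest.Agent.R193.M5E

variable {G Z : Type} [Group G] [MetricSpace Z] [MulAction G Z] {S : Setup G Z}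

theorem ev_tile (T : Tiles S) {r : ℝ} (hr : 0 < r) :
    ∀ᶠ n : ℕ in atTop, ∀ h ∈ S.sph n, ∀ x ∈ T.U h, ∀ y ∈ T.U h, dist x y < r := by
  have h2 : Tendsto (fun n : ℕ => -S.ε * ((n : ℝ) - T.R - S.δ)) atTop atBot := by
    refine Tendsto.const_mul_atTop_of_neg (by linarith [S.ε_pos]) ?_
    exact tendsto_atTop_add_const_right _ _
      (tendsto_atTop_add_const_right _ _ tendsto_natCast_atTop_atTop)
  have h1 : Tendsto (fun n : ℕ => Real.exp (-S.ε * ((n : ℝ) - T.R - S.δ))) atTop (𝓝 0) :=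
    Real.tendsto_exp_atBot.comp h2
  filter_upwards [h1.eventually (gt_mem_nhds hr)] with n hn h hh x hx y hy
  have h3 := T_Comp.dist_le_of_mem T hx hy
  rw [(T_Comp.mem_sph S).1 hh] at h3
  exact lt_of_le_of_lt h3 hn

open Classical in
/-- the tiles of level `m` meeting the closed region `closure (E 2)ᶜ` of the pair `i` -/
noncomputable def Pm {T : Tiles S} (P : Rec T) (i : P.ι) (m : ℕ) : Finset G :=
  (S.sph m).filter (fun h => (T.U h ∩ closure ((P.ψ i).E 2)ᶜ).Nonempty)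

theorem mem_Pm {T : Tiles S} {P : Rec T} {i : P.ι} {m : ℕ} {h : G} :
    h ∈ Pm P i m ↔ S.len h = m ∧ (T.U h ∩ closure ((P.ψ i).E 2)ᶜ).Nonempty := by
  classical
  unfold Pm
  rw [Finset.mem_filter, T_Comp.mem_sph]

theorem D_subset (ψ : Chart Z) : ψ.D 1 ⊆ (ψ.E 2)ᶜ := by
  rintro _ ⟨p, hp, rfl⟩
  simp only [Chart.E, compl_compl]
  refine ⟨p, ?_, rfl⟩
  rw [Metric.mem_ball]
  rw [Metric.mem_closedBall] at hp
  linarith

theorem isPreconnected_D (ψ : Chart Z) (r : ℝ) : IsPreconnected (ψ.D r) :=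
  (convex_closedBall (0 : ℝ × ℝ) r).isPreconnected.image _ ψ.emb.continuous.continuousOn

theorem isClosed_D (ψ : Chart Z) (r : ℝ) : IsClosed (ψ.D r) :=
  ((isCompact_closedBall (0 : ℝ × ℝ) r).image ψ.emb.continuous).isClosed

theorem isCompact_D (ψ : Chart Z) (r : ℝ) : IsCompact (ψ.D r) :=
  (isCompact_closedBall (0 : ℝ × ℝ) r).image ψ.emb.continuous

theorem D_nonempty (ψ : Chart Z) : (ψ.D 1).Nonempty :=
  ⟨ψ.f 0, 0, by simp, rfl⟩

theorem isClosed_E (ψ : Chart Z) (r : ℝ) : IsClosed (ψ.E r) :=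
  (ψ.emb.isOpenMap _ Metric.isOpen_ball).isClosed_compl

theorem disjoint_DE (ψ : Chart Z) : Disjoint (ψ.D 1) (ψ.E 2) :=
  disjoint_left.2 (fun _ hx hx2 => D_subset ψ hx hx2)

/-- `Reach` from `M3`. -/
theorem reach_of_M3 (T : Tiles S) (Φ : Z ≃ₜ S2) (P : Rec T) {n : ℕ} (hn : n ∈ P.recs) {t : ℝ}
    (ht0 : 0 ≤ t) (ht1 : t < 1) : Reach T.U (T.V P.χ n) (P.u n) P.χ.T t := by
  intro c hc hne hcl
  obtain ⟨h, hh⟩ := hne
  have hlev : ∀ a, a ∈ leaf T.U (T.V P.χ n) (P.u n) t ↔ a ∈ T.lev P.χ n (P.u n) t :=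
    fun a => mem_leaf_iff_lev T P.χ n (P.u n) t a
  obtain ⟨h1, hh1, hrel, hT⟩ := M3_Level.M3_adj T Φ P hn ht0 ht1 ((hlev h).1 (hc hh))
  have key : ∀ k, Relation.ReflTransGen
      (fun a b => T.adj a b ∧ b ∈ T.lev P.χ n (P.u n) t) h k → k ∈ c := by
    intro k hk
    induction hk with
    | refl => exact hh
    | tail _ h2 ih => exact hcl _ ih _ ((hlev _).2 h2.2) h2.1
  exact ⟨h1, key h1 hrel, hT⟩

/-- The approximation properties hold eventually. -/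
theorem eventually_lev (T : Tiles S) (Φ : Z ≃ₜ S2) (P : Rec T) (Λ : Lim P) {K1 Tm : Set Z}
    (hTm : P.χ.T ⊆ Tm) (hK1 : IsCompact K1)
    (hK1Q : K1 ⊆ P.χ.Qo) (hdisj : Disjoint K1 Tm) (j : ℕ) (i : P.ι) (Γ : Finset G) (I0 : ℕ)
    (hE : ∀ g ∈ Γ, ∀ y ∈ closure (((P.ψ i).E 2)ᶜ), g • y ∈ K1)
    (hfar : ∀ g ∈ Γ, ∀ g2 ∈ Γ, I0 ≤ S.len (g * g2⁻¹) → ∀ y ∈ Tm, (g * g2⁻¹) • y ∈ K1)
    {e : ℝ} (he : 0 < e) :
    ∃ K1' K2 : Set Z, ∀ᶠ n in Λ.l, Lev T.U (T.V P.χ n) (P.u n) Λ.w P.χ.T Tm K1' K2 Γ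
      (Pm P i (n - j)) (fun f => S.len f < I0) ((P.ψ i).D 1) ((P.ψ i).E 2) e := by
  have hcs : CompactSpace Z := Φ.symm.compactSpace
  obtain ⟨d, hd, hdQ⟩ := hK1.exists_cthickening_subset_open (M3_Level.isOpen_Qo P.χ) hK1Q
  set K1' := Metric.cthickening (d / 2) K1 with hK1'
  set K2 := Metric.cthickening d K1 with hK2
  have hK11' : K1 ⊆ K1' := Metric.self_subset_cthickening _
  have hK1'2 : K1' ⊆ K2 := Metric.cthickening_mono (by linarith) _
  have hK2c : IsCompact K2 := Metric.isClosed_cthickening.isCompact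
  have huc := hK2c.uniformContinuousOn_of_continuous (Λ.cont.mono hdQ)
  rw [Metric.uniformContinuousOn_iff] at huc
  obtain ⟨r, hr, hwr⟩ := huc e he
  refine ⟨K1', K2, ?_⟩
  have ev1 : ∀ᶠ n in Λ.l, ∀ h ∈ T.V P.χ n, ∀ y ∈ T.U h ∩ K2, |P.u n h - Λ.w y| ≤ e :=
    Λ.unif K2 hK2c hdQ e he
  have ev2 : ∀ᶠ n in Λ.l, ∀ h ∈ S.sph n, ∀ x ∈ T.U h, ∀ y ∈ T.U h, dist x y < d / 2 :=
    (ev_tile T (half_pos hd)).filter_mono Λ.le
  have ev3 : ∀ᶠ n in Λ.l, ∀ g ∈ Γ, ∀ h' ∈ S.sph (n - j), ∀ x ∈ T.U h', ∀ y ∈ T.U h',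
      dist (g • x) (g • y) < min (d / 2) r := by
    rw [Filter.eventually_all_finset]
    intro g _
    have hg := CompactSpace.uniformContinuous_of_continuous (S.cont g)
    rw [Metric.uniformContinuous_iff] at hg
    obtain ⟨r', hr', hgr'⟩ := hg (min (d / 2) r) (lt_min (half_pos hd) hr)
    have : ∀ᶠ n : ℕ in atTop, ∀ h' ∈ S.sph (n - j), ∀ x ∈ T.U h', ∀ y ∈ T.U h', dist x y < r' :=
      (tendsto_sub_atTop_nat j).eventually (ev_tile T hr')
    filter_upwards [this.filter_mono Λ.le] with n hn h' hh' x hx y hy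
    exact hgr' (hn h' hh' x hx y hy)
  filter_upwards [ev1, ev2, ev3] with n hn1 hn2 hn3
  have hnotT : ∀ x ∈ K1, x ∉ P.χ.T := fun x hx hxT =>
    disjoint_left.1 hdisj hx (hTm hxT)
  refine ⟨he, S.cont, T.isClosed, T.isConnected, ?_, hTm, ?_, ?_, ?_, ?_, ?_, ?_,
    isPreconnected_D _ _, ?_, ?_, ?_⟩
  · intro z hz
    obtain ⟨k, hk, hzk⟩ := T_Comp.exists_mem T z n
    refine ⟨k, Tiles.mem_V.2 ⟨(T_Comp.mem_sph S).1 hk, z, hzk, ?_⟩, hzk⟩
    have : z ∈ P.χ.Qo := by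
      by_contra hcon
      exact hz hcon
    exact M3_Level.Qo_sub_Q _ this
  · intro k hk z hz hzK
    exact hn1 k hk z ⟨hz, hzK⟩
  · intro k hk ⟨y, hy, hyK⟩ x hx
    have hks : k ∈ S.sph n := (T_Comp.mem_sph S).2 (Tiles.mem_V.1 hk).1
    have hxy := hn2 k hks x hx y hy
    have h1 : x ∈ Metric.cthickening (d / 2) K1' :=
      Metric.mem_cthickening_of_dist_le x y _ _ hyK hxy.le
    have h2 := Metric.cthickening_cthickening_subset (half_pos hd).le (half_pos hd).le K1 h1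
    rwa [add_halves] at h2
  · intro g hg g2 hg2 hn z hz
    exact hK11' (hfar g hg g2 hg2 (not_lt.1 hn) z hz)
  · intro g _ g2 _ hn
    have h1 : g2 * g⁻¹ = (g * g2⁻¹)⁻¹ := by group
    rw [h1, S.len_inv]
    exact hn
  · intro g hg h' hh' x hx
    obtain ⟨hlen, y, hy, hyE⟩ := mem_Pm.1 hh'
    have h1 := hn3 g hg h' ((T_Comp.mem_sph S).2 hlen) x hx y hy
    exact Metric.mem_cthickening_of_dist_le _ (g • y) _ _ (hE g hg y hyE)
      (h1.le.trans (min_le_left _ _))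
  · intro g hg h' hh' x hx y hy
    obtain ⟨hlen, z, hz, hzE⟩ := mem_Pm.1 hh'
    have hs := (T_Comp.mem_sph S).2 hlen
    have hxz := hn3 g hg h' hs x hx z hz
    have hyz := hn3 g hg h' hs y hy z hz
    have hx2 : g • x ∈ K2 := hK1'2 (Metric.mem_cthickening_of_dist_le _ (g • z) _ _
      (hE g hg z hzE) (hxz.le.trans (min_le_left _ _)))
    have hy2 : g • y ∈ K2 := hK1'2 (Metric.mem_cthickening_of_dist_le _ (g • z) _ _
      (hE g hg z hzE) (hyz.le.trans (min_le_left _ _)))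
    have h1 := hwr _ hx2 _ hy2 ((hn3 g hg h' hs x hx y hy).trans_le (min_le_right _ _))
    rw [Real.dist_eq] at h1
    exact h1.le
  · intro g hg x hx
    exact hK11' (hE g hg x (subset_closure (D_subset _ hx)))
  · intro g hg x hx
    exact hnotT _ (hE g hg x (subset_closure (D_subset _ hx)))
  · intro g hg z hz
    by_contra hcon
    have h1 := hE g hg (g⁻¹ • z) (subset_closure hcon)
    rw [smul_inv_smul] at h1
    exact hnotT _ h1 hz

end Crest.Agent.R193.M5
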