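import Mathlib
import Crest.Agent.R193.M_Defs
import Crest.Agent.R193.M5_Ev
import Crest.Agent.R193.M5_Dual
import Crest.Agent.R193.F_Sep3

/-!
# R193, block M5 (helper578): the packing inequality (*)
-/

set_option autoImplicit false

open MeasureTheory Set Filter Topology

namespace Crest.Agent.R193.M5

open Crest.Agent.R193 Crest.Agent.R193.M4 Crest.Agent.R193.M5E

/-! ### measure lemmas -/

theorem volume_cth (J : Set ℝ) (hJ : IsCompact J) {τ : ℝ} (hτ : 0 < τ) :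
    ∀ᶠ e in 𝓝[>] (0 : ℝ), volume (Metric.cthickening (10 * e) J \ J) ≤ ENNReal.ofReal τ := by
  have hfin : volume J ≠ ⊤ := hJ.measure_lt_top.ne
  have h1 : Tendsto (fun r => volume (Metric.cthickening r J)) (𝓝 0) (𝓝 (volume J)) :=
    tendsto_measure_cthickening_of_isClosed ⟨1, one_pos, hJ.cthickening.measure_lt_top.ne⟩
      hJ.isClosed
  have h2 : Tendsto (fun e : ℝ => 10 * e) (𝓝[>] 0) (𝓝 0) := by
    have h3 : Tendsto (fun e : ℝ => 10 * e) (𝓝 0) (𝓝 (10 * 0)) := tendsto_id.const_mul 10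
    rw [mul_zero] at h3
    exact h3.mono_left nhdsWithin_le_nhds
  have h4 := h1.comp h2
  have h5 : volume J < volume J + ENNReal.ofReal τ :=
    ENNReal.lt_add_right hfin (by simpa using hτ)
  filter_upwards [h4.eventually (gt_mem_nhds h5)] with e he
  rw [measure_sdiff (Metric.self_subset_cthickening J) hJ.measurableSet.nullMeasurableSet hfin]
  rw [tsub_le_iff_left]
  exact he.le

theorem volume_biUnion_le {ι : Type*} (s : Finset ι) (B : ι → Set ℝ) (τ : ENNReal)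
    (h : ∀ i ∈ s, volume (B i) ≤ τ) : volume (⋃ i ∈ s, B i) ≤ s.card * τ := by
  refine (measure_biUnion_finset_le _ _).trans ((Finset.sum_le_sum h).trans (le_of_eq ?_))
  rw [Finset.sum_const, nsmul_eq_mul]

theorem endpoints {A : Set ℝ} (hA : IsCompact A) (hne : A.Nonempty) :
    ∃ a b : ℝ, ∀ e : ℝ, ∀ t ∈ A, t ∉ Icc a (a + e) → t ∉ Icc (b - e) b →
      (∃ x ∈ A, x + e < t) ∧ ∃ y ∈ A, t < y - e := by
  obtain ⟨a, ha⟩ := hA.exists_isLeast hne
  obtain ⟨b, hb⟩ := hA.exists_isGreatest hne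
  refine ⟨a, b, ?_⟩
  intro e t ht h1 h2
  constructor
  · refine ⟨a, ha.1, ?_⟩
    by_contra hcon
    exact h1 ⟨ha.2 ht, not_lt.1 hcon⟩
  · refine ⟨b, hb.1, ?_⟩
    by_contra hcon
    exact h2 ⟨not_lt.1 hcon, hb.2 ht⟩

theorem sq_le_of_key {X R c : ℝ} (hX : 0 ≤ X) (hc : 0 ≤ c)
    (key : ∀ τ : ℝ, 0 < τ → ∃ y : ℝ, 0 ≤ y ∧ y ^ 2 ≤ R ∧ X ≤ y + c * τ) : X ^ 2 ≤ R := by
  have hR0 : 0 ≤ R := by
    obtain ⟨y, _, hy, _⟩ := key 1 one_pos
    exact (sq_nonneg y).trans hy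
  have hle : X ≤ Real.sqrt R := by
    refine le_of_forall_pos_le_add (fun ε hε => ?_)
    have hK : 0 < c + 1 := by linarith
    obtain ⟨y, _, hy2, hy3⟩ := key (ε / (c + 1)) (div_pos hε hK)
    have h1 : y ≤ Real.sqrt R := Real.le_sqrt_of_sq_le hy2
    have h2 : c * (ε / (c + 1)) ≤ ε := by
      rw [mul_div_assoc', div_le_iff₀ hK]
      nlinarith
    linarith
  calc X ^ 2 ≤ (Real.sqrt R) ^ 2 := pow_le_pow_left₀ hX hle 2
    _ = _ := Real.sq_sqrt hR0

section mc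
variable {G Z : Type*} [Group G] [MulAction G Z]

theorem measurable_mcount (w : Z → ℝ) (Tm : Set Z) (Γ : Finset G) (near : G → Prop) (g : G)
    (h : ∀ g2 ∈ Γ, ¬ near (g * g2⁻¹) → MeasurableSet {t | ∃ z ∈ Tm, w ((g * g2⁻¹) • z) = t}) :
    Measurable (fun t => mcount w Tm Γ near g t) := by
  classical
  have h1 : (fun t => mcount w Tm Γ near g t) = fun t => ∑ g2 ∈ Γ,
      (if near (g * g2⁻¹) then (1 : ℝ) else
        {t | ∃ z ∈ Tm, w ((g * g2⁻¹) • z) = t}.indicator (fun _ => (1 : ℝ)) t) := by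
    funext t
    unfold mcount
    rw [Finset.card_filter]
    push_cast
    refine Finset.sum_congr rfl (fun g2 _ => ?_)
    by_cases h2 : near (g * g2⁻¹)
    · simp [h2]
    · by_cases h3 : ∃ z ∈ Tm, w ((g * g2⁻¹) • z) = t
      · rw [if_pos (Or.inr h3), if_neg h2, Set.indicator_of_mem
          (s := {t | ∃ z ∈ Tm, w ((g * g2⁻¹) • z) = t}) (a := t) h3 (fun _ => (1 : ℝ))]
      · rw [if_neg (not_or.2 ⟨h2, h3⟩), if_neg h2, Set.indicator_of_notMem
          (s := {t | ∃ z ∈ Tm, w ((g * g2⁻¹) • z) = t}) (a := t) h3 (fun _ => (1 : ℝ))]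
  rw [h1]
  refine Finset.measurable_sum Γ (fun g2 hg2 => ?_)
  by_cases h2 : near (g * g2⁻¹)
  · simp only [h2, if_true]
    exact measurable_const
  · simp only [h2, if_false]
    exact measurable_const.indicator (h g2 hg2 h2)

end mc

variable {G Z : Type} [Group G] [MetricSpace Z] [MulAction G Z] {S : Setup G Z}

/-- the constant of the packing inequality -/
noncomputable def C1 (T : Tiles S) (P : Rec T) : ℝ :=
  (M5_Count.N1c T P.R1 : ℝ) * ((M5_Count.N2c T P.R1 : ℝ) * (2 * Dg T * P.C))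

set_option maxHeartbeats 1600000 in
open Classical in
/-- **Packing inequality (*)**, limit form. -/
theorem packing (T : Tiles S) (Φ : Z ≃ₜ S2) (P : Rec T) (Λ : Lim P) {K1 Tm : Set Z}
    (hTmc : IsClosed Tm) (hTm : P.χ.T ⊆ Tm) (hK1 : IsCompact K1) (hK1Q : K1 ⊆ P.χ.Qo)
    (hdisj : Disjoint K1 Tm) (j : ℕ) (i : P.ι) (Γ : Finset G) (I0 : ℕ) (hΓ : ∀ g ∈ Γ, S.len g = j)
    (hE : ∀ g ∈ Γ, ∀ y ∈ closure (((P.ψ i).E 2)ᶜ), g • y ∈ K1)
    (hEG : ∀ g ∈ Γ, closure (((P.ψ i).E 2)ᶜ) ⊆ S.Gd P.R1 g)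
    (hfar : ∀ g ∈ Γ, ∀ g2 ∈ Γ, I0 ≤ S.len (g * g2⁻¹) → ∀ y ∈ Tm, (g * g2⁻¹) • y ∈ K1)
    {Θ : Set ℝ} (hΘ : MeasurableSet Θ) (hΘ1 : Θ ⊆ Icc (1 / 4 : ℝ) (3 / 4)) {M : ℝ} (hM : 0 ≤ M) :
    (∑ g ∈ Γ, volume.real (Θ ∩ {t | ∃ y ∈ (P.ψ i).D 1, Λ.w (g • y) = t} ∩
      {t | mcount Λ.w Tm Γ (fun f => S.len f < I0) g t ≤ M})) ^ 2 ≤
      C1 T P * (2 * M + 1) * volume.real Θ := by
  have hcs : CompactSpace Z := Φ.symm.compactSpace
  have hLP : LocallyPathConnectedSpace Z := F_Sep3.locallyPathConnectedSpace_of_homeo Φ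
  have hne := Λ.ne
  have hΘfin : volume Θ ≠ ⊤ := ne_top_of_le_ne_top (by simp) (measure_mono hΘ1)
  have hΘ01 : Θ ⊆ Ico 0 1 := fun t ht => ⟨by linarith [(hΘ1 ht).1], by linarith [(hΘ1 ht).2]⟩
  set w := Λ.w with hw
  set near : G → Prop := fun f => S.len f < I0 with hnear
  set far : G × G → Prop := fun p => ¬ near (p.1 * p.2⁻¹) with hfardef
  -- compactness of the level sets involved
  set J : G × G → Set ℝ := fun p => {t | ∃ z ∈ Tm, w ((p.1 * p.2⁻¹) • z) = t} with hJ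
  set A : G → Set ℝ := fun g => {t | ∃ y ∈ (P.ψ i).D 1, w (g • y) = t} with hA
  have hJc : ∀ p ∈ Γ ×ˢ Γ, far p → IsCompact (J p) := by
    intro p hp hfp
    rw [Finset.mem_product] at hp
    have h1 : J p = (fun z => w ((p.1 * p.2⁻¹) • z)) '' Tm := rfl
    rw [h1]
    refine hTmc.isCompact.image_of_continuousOn ?_
    refine (Λ.cont).comp (S.cont _).continuousOn ?_
    intro z hz
    exact hK1Q (hfar p.1 hp.1 p.2 hp.2 (not_lt.1 hfp) z hz)
  have hAc : ∀ g ∈ Γ, IsCompact (A g) := by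
    intro g hg
    have h1 : A g = (fun z => w (g • z)) '' (P.ψ i).D 1 := rfl
    rw [h1]
    refine (isCompact_D _ _).image_of_continuousOn ?_
    refine (Λ.cont).comp (S.cont _).continuousOn ?_
    intro z hz
    exact hK1Q (hE g hg z (subset_closure (D_subset _ hz)))
  have hAne : ∀ g, (A g).Nonempty := by
    intro g
    obtain ⟨y, hy⟩ := D_nonempty (P.ψ i)
    exact ⟨_, y, hy, rfl⟩
  have hend : ∀ g ∈ Γ, ∃ ab : ℝ × ℝ, ∀ e : ℝ, ∀ t ∈ A g, t ∉ Icc ab.1 (ab.1 + e) →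
      t ∉ Icc (ab.2 - e) ab.2 → (∃ x ∈ A g, x + e < t) ∧ ∃ y ∈ A g, t < y - e := by
    intro g hg
    obtain ⟨a, b, h⟩ := endpoints (hAc g hg) (hAne g)
    exact ⟨(a, b), h⟩
  choose! ab hab using hend
  -- the sets in question
  set Ω : G → Set ℝ := fun g => Θ ∩ A g ∩ {t | mcount w Tm Γ near g t ≤ M} with hΩ
  have hΩm : ∀ g ∈ Γ, MeasurableSet (Ω g) := by
    intro g hg
    refine (hΘ.inter (hAc g hg).measurableSet).inter ?_
    refine measurableSet_le (measurable_mcount w Tm Γ near g ?_) measurable_const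
    intro g2 hg2 hn
    exact (hJc (g, g2) (Finset.mem_product.2 ⟨hg, hg2⟩) hn).measurableSet
  have hΩΘ : ∀ g, Ω g ⊆ Θ := fun g t ht => ht.1.1
  -- the key approximation statement
  have key : ∀ τ : ℝ, 0 < τ → ∃ y : ℝ, 0 ≤ y ∧ y ^ 2 ≤ C1 T P * (2 * M + 1) * volume.real Θ ∧
      ∑ g ∈ Γ, volume.real (Ω g) ≤ y + Γ.card * (((Γ ×ˢ Γ).card + Γ.card) * (2 * τ)) := by
    intro τ hτ
    -- choice of `e`
    have ev1 : ∀ᶠ e in 𝓝[>] (0 : ℝ), ∀ p ∈ Γ ×ˢ Γ, far p →
        volume (Metric.cthickening (10 * e) (J p) \ J p) ≤ ENNReal.ofReal τ := by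
      rw [Filter.eventually_all_finset]
      intro p hp
      by_cases hfp : far p
      · filter_upwards [volume_cth (J p) (hJc p hp hfp) hτ] with e he _
        exact he
      · exact Eventually.of_forall (fun e h => absurd h hfp)
    have ev2 : ∀ᶠ e in 𝓝[>] (0 : ℝ), e ≤ τ :=
      (Iic_mem_nhds hτ |> fun h => mem_nhdsWithin_of_mem_nhds h)
    have ev3 : ∀ᶠ e in 𝓝[>] (0 : ℝ), 0 < e := self_mem_nhdsWithin
    obtain ⟨e, he1, he2, he0⟩ := (ev1.and (ev2.and ev3)).exists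
    obtain ⟨K1', K2, hLev⟩ := eventually_lev T Φ P Λ hTm hK1 hK1Q hdisj j i Γ I0 hE hfar he0
    -- constants for fixed pairs
    have hK : ∀ f : G, ∃ N : ℕ, ∀ n : ℕ, ∀ h ∈ S.sph n, ∀ A : Finset G, A ⊆ S.sph n →
        ((∀ k ∈ A, ∃ x ∈ T.U k, f • x ∈ T.U h) ∨ (∀ k ∈ A, ∃ x ∈ T.U h, f • x ∈ T.U k)) →
        A.card ≤ N := fun f => M5_Count.exists_K T f
    choose Kf hKf using hK
    have ev4 : ∀ᶠ n in Λ.l, ∀ p ∈ Γ ×ˢ Γ,
        2 * (Kf (p.1 * p.2⁻¹) : ℝ) * (2 * Dg T * (P.C / P.L n)) / e ≤ τ := by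
      rw [Filter.eventually_all_finset]
      intro p _
      have h1 : Tendsto (fun n => 2 * (Kf (p.1 * p.2⁻¹) : ℝ) * (2 * Dg T * (P.C / P.L n)) / e)
          Λ.l (𝓝 (2 * (Kf (p.1 * p.2⁻¹) : ℝ) * (2 * Dg T * 0) / e)) := by
        refine Tendsto.div_const (Tendsto.const_mul _ (Tendsto.const_mul _ ?_)) _
        exact Tendsto.const_div_atTop Λ.tend _
      rw [mul_zero, mul_zero, zero_div] at h1
      exact (h1.eventually (gt_mem_nhds hτ)).mono (fun n hn => hn.le)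
    have ev5 : ∀ᶠ n in Λ.l, P.R1 + T.R + 2 * S.δ < ((n - j : ℕ) : ℝ) ∧ j ≤ n := by
      have h1 : Tendsto (fun n : ℕ => ((n - j : ℕ) : ℝ)) atTop atTop :=
        tendsto_natCast_atTop_atTop.comp (tendsto_sub_atTop_nat j)
      exact ((h1.eventually (eventually_gt_atTop _)).and (eventually_ge_atTop j)).filter_mono Λ.le
    obtain ⟨n, hL, hn4, ⟨hn5, hjn⟩, hnr⟩ := (hLev.and (ev4.and (ev5.and Λ.recs))).exists
    set u := P.u n with hu
    set V := T.V P.χ n with hV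
    set Pn := Pm P i (n - j) with hPn
    have hLpos : 0 < P.L n := lt_of_lt_of_le one_pos (P.one_le n)
    have hen : FG.en (T.gr P.χ n) (fun h => u (h : G)) ≤ P.C / P.L n := P.en_le n hnr
    -- exceptional sets
    set B : G × G → Set ℝ := fun p => if far p then
      {t | e ≤ tvar T.U V u P.χ.T (p.1 * p.2⁻¹) t} ∪ (Metric.cthickening (10 * e) (J p) \ J p)
      else ∅ with hB
    set C : G → Set ℝ := fun g => Icc (ab g).1 ((ab g).1 + e) ∪ Icc ((ab g).2 - e) (ab g).2 with hC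
    set BAD : Set ℝ := (⋃ p ∈ Γ ×ˢ Γ, B p) ∪ ⋃ g ∈ Γ, C g with hBAD
    have hBm : ∀ p ∈ Γ ×ˢ Γ, MeasurableSet (B p) := by
      intro p hp
      simp only [hB]
      split_ifs with h
      · refine (measurableSet_le measurable_const (measurable_tvar _)).union ?_
        exact Metric.isClosed_cthickening.measurableSet.diff (hJc p hp h).measurableSet
      · exact MeasurableSet.empty
    have hBADm : MeasurableSet BAD :=
      (Finset.measurableSet_biUnion _ hBm).union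
        (Finset.measurableSet_biUnion _ (fun g _ => measurableSet_Icc.union measurableSet_Icc))
    have hVsph : V ⊆ S.sph n := fun h hh => (T_Comp.mem_sph S).2 (Tiles.mem_V.1 hh).1
    have hτ2 : ENNReal.ofReal τ + ENNReal.ofReal τ = ENNReal.ofReal (2 * τ) := by
      rw [← ENNReal.ofReal_add hτ.le hτ.le]; congr 1; ring
    have hBv : ∀ p ∈ Γ ×ˢ Γ, volume (B p) ≤ ENNReal.ofReal (2 * τ) := by
      intro p hp
      simp only [hB]
      split_ifs with h
      · refine (measure_union_le _ _).trans ?_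
        rw [← hτ2]
        refine add_le_add ?_ (he1 p hp h)
        have h1 := volume_exc_le (U := T.U) (V := V) (u := u) (T := P.χ.T) (p.1 * p.2⁻¹)
          (Kf (p.1 * p.2⁻¹) : ℝ) (2 * Dg T * (P.C / P.L n)) e (Nat.cast_nonneg _) he0 ?_ ?_ ?_
        · exact h1.trans (ENNReal.ofReal_le_ofReal (hn4 p hp))
        · intro h hh
          have := hKf (p.1 * p.2⁻¹) n h (hVsph hh) (M4.star T.U V (p.1 * p.2⁻¹) h)
            (fun k hk => hVsph (mem_star.1 hk).1) (Or.inl (fun k hk => (mem_star.1 hk).2))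
          exact_mod_cast this
        · intro k hk
          have := hKf (p.1 * p.2⁻¹) n k (hVsph hk)
            (V.filter (fun h => k ∈ M4.star T.U V (p.1 * p.2⁻¹) h))
            (fun h hh => hVsph (Finset.mem_filter.1 hh).1)
            (Or.inr (fun h hh => (mem_star.1 (Finset.mem_filter.1 hh).2).2))
          exact_mod_cast this
        · refine (sum_dlt_sq_le T P.χ n u).trans ?_
          exact mul_le_mul_of_nonneg_left hen (by positivity)
      · simp
    have hCv : ∀ g ∈ Γ, volume (C g) ≤ ENNReal.ofReal (2 * τ) := by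
      intro g _
      refine (measure_union_le _ _).trans ?_
      rw [Real.volume_Icc, Real.volume_Icc, ← hτ2]
      exact add_le_add (ENNReal.ofReal_le_ofReal (by linarith))
        (ENNReal.ofReal_le_ofReal (by linarith))
    have hBADv : volume BAD ≤ ENNReal.ofReal (((Γ ×ˢ Γ).card + Γ.card) * (2 * τ)) := by
      refine (measure_union_le _ _).trans ((add_le_add (volume_biUnion_le _ _ _ hBv)
        (volume_biUnion_le _ _ _ hCv)).trans (le_of_eq ?_))
      rw [← add_mul, ENNReal.ofReal_mul (p := ((Γ ×ˢ Γ).card : ℝ) + Γ.card) (by positivity),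
        ENNReal.ofReal_add (Nat.cast_nonneg _) (Nat.cast_nonneg _),
        ENNReal.ofReal_natCast, ENNReal.ofReal_natCast]
    have hBADr : volume.real BAD ≤ ((Γ ×ˢ Γ).card + Γ.card) * (2 * τ) :=
      ENNReal.toReal_le_of_le_ofReal (by positivity) hBADv
    -- the good part
    set Θg : G → Set ℝ := fun g => Ω g \ BAD with hΘg
    obtain ⟨μ, hμ0, hμ2, hμ1⟩ := M5_Dual.exists_mu T hLpos (isClosed_E (P.ψ i) 2)
      (disjoint_DE (P.ψ i)) (P.sep i (n - j) n (Nat.sub_le n j))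
    have hPneq : Pn = (S.sph (n - j)).filter
        (fun h => (T.U h ∩ closure ((P.ψ i).E 2)ᶜ).Nonempty) := by
      rw [hPn]; unfold Pm; congr
    rw [← hPneq] at hμ2 hμ1
    have hJmem : ∀ g ∈ Γ, ∀ g2 ∈ Γ, ¬ near (g * g2⁻¹) → ∀ t, t ∉ BAD →
        ¬ (e ≤ tvar T.U V u P.χ.T (g * g2⁻¹) t) ∧
        ((∃ z ∈ Tm, |w ((g * g2⁻¹) • z) - t| ≤ 10 * e) → ∃ z ∈ Tm, w ((g * g2⁻¹) • z) = t) := by
      intro g hg g2 hg2 hn t ht
      have hp : (g, g2) ∈ Γ ×ˢ Γ := Finset.mem_product.2 ⟨hg, hg2⟩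
      have hfp : far (g, g2) := hn
      have ht2 : t ∉ B (g, g2) := fun h => ht (Or.inl (by
        simp only [mem_iUnion, exists_prop]
        exact ⟨(g, g2), hp, h⟩))
      simp only [hB, if_pos hfp] at ht2
      constructor
      · exact fun h => ht2 (Or.inl h)
      · rintro ⟨z, hz, hle⟩
        by_contra hcon
        refine ht2 (Or.inr ⟨?_, hcon⟩)
        refine Metric.mem_cthickening_of_dist_le t (w ((g * g2⁻¹) • z)) _ _ ⟨z, hz, rfl⟩ ?_
        rw [Real.dist_eq, abs_sub_comm]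
        exact hle
    have hpack := hL.packing μ Θ Θg M (M5_Count.N1c T P.R1) (M5_Count.N2c T P.R1)
      (2 * Dg T * (P.C / P.L n) * volume.real Θ) hM (Nat.cast_nonneg _) (Nat.cast_nonneg _) hΘfin
      (fun g _ t ht => hΩΘ g ht.1) (fun g hg => (hΩm g hg).diff hBADm)
      (fun t ht => reach_of_M3 T Φ P hnr (hΘ01 ht).1 (hΘ01 ht).2)
      (fun g _ t ht => ht.1.2) ?_ ?_ ?_ ?_ ?_ ?_ ?_
    · refine ⟨∑ g ∈ Γ, volume.real (Θg g), Finset.sum_nonneg (fun _ _ => measureReal_nonneg),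
        ?_, ?_⟩
      · refine hpack.trans ?_
        have hfac : (0 : ℝ) ≤ (2 * M + 1) * ((M5_Count.N1c T P.R1 : ℝ) *
            ((M5_Count.N2c T P.R1 : ℝ) * (2 * Dg T * (P.C / P.L n) * volume.real Θ))) := by
          have h1 := P.C_pos
          have h2 : 0 ≤ volume.real Θ := measureReal_nonneg
          positivity
        refine (mul_le_mul_of_nonneg_right hμ2 hfac).trans (le_of_eq ?_)
        unfold C1
        field_simp
      · have h1 : ∀ g ∈ Γ, volume.real (Ω g) ≤ volume.real (Θg g) +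
            ((Γ ×ˢ Γ).card + Γ.card) * (2 * τ) := by
          intro g hg
          have h2 : Ω g ⊆ Θg g ∪ BAD := by
            intro t ht
            by_cases h3 : t ∈ BAD
            · exact Or.inr h3
            · exact Or.inl ⟨ht, h3⟩
          have hfin2 : volume (Θg g ∪ BAD) ≠ ⊤ := by
            refine ne_top_of_le_ne_top ?_ (measure_union_le _ _)
            refine ENNReal.add_ne_top.2 ⟨?_, ?_⟩
            · exact ne_top_of_le_ne_top hΘfin (measure_mono (fun t ht => hΩΘ g ht.1))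
            · exact ne_top_of_le_ne_top ENNReal.ofReal_ne_top hBADv
          exact (measureReal_mono h2 hfin2).trans ((measureReal_union_le _ _).trans
            (by linarith))
        refine (Finset.sum_le_sum h1).trans (le_of_eq ?_)
        rw [Finset.sum_add_distrib, Finset.sum_const, nsmul_eq_mul]
    · -- hin
      intro g hg t ht
      have htA : t ∈ A g := ht.1.1.2
      have htC : t ∉ C g := fun h => ht.2 (Or.inr (by
        simp only [mem_iUnion, exists_prop]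
        exact ⟨g, hg, h⟩))
      obtain ⟨⟨x, ⟨x', hx', rfl⟩, hx⟩, y, ⟨y', hy', rfl⟩, hy⟩ := hab g hg e t htA
        (fun h => htC (Or.inl h)) (fun h => htC (Or.inr h))
      exact ⟨⟨x', hx', hx⟩, y', hy', hy⟩
    · -- hex1
      intro g hg g2 hg2 hn g' _ t ht
      exact (not_le.1 (hJmem g hg g2 hg2 hn t ht.2).1).le
    · -- hex2
      intro g hg g2 hg2 hn g' _ t ht
      exact (hJmem g hg g2 hg2 hn t ht.2).2
    · -- hadm
      intro S' hS' hsep
      exact hμ1 S' hS' hsep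
    · -- hN1
      intro g hg h' hh'
      obtain ⟨hlen, x, hx, hxE⟩ := mem_Pm.1 hh'
      have h1 := M5_Count.N1 T (R := P.R1) (g := g) (h' := h') (by rw [hlen]; exact hn5)
        ⟨x, hx, hEG g hg hxE⟩ (A := V.filter (fun h => ∃ x ∈ T.U h', g • x ∈ T.U h)) ?_
      · exact_mod_cast h1
      · intro h hh
        obtain ⟨hhV, hh2⟩ := Finset.mem_filter.1 hh
        refine ⟨?_, hh2⟩
        rw [(Tiles.mem_V.1 hhV).1, hΓ g hg, hlen]
        omega
    · -- hN2
      intro h hh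
      have h1 := M5_Count.N2 T (R := P.R1) (j := j) (m := n - j) hn5 (h := h)
        (by rw [(Tiles.mem_V.1 hh).1]; omega) (Γ := Γ) hΓ
        (A := fun g => Pn.filter (fun h' => ∃ x ∈ T.U h', g • x ∈ T.U h)) ?_
      · exact_mod_cast h1
      · intro g hg h' hh'
        obtain ⟨h2, h3⟩ := Finset.mem_filter.1 hh'
        obtain ⟨hlen, x, hx, hxE⟩ := mem_Pm.1 h2
        exact ⟨hlen, ⟨x, hx, hEG g hg hxE⟩, h3⟩
    · -- hΦ
      refine (sum_leaf_sq_le T P.χ n u (P.sol n hnr) hΘ hΘ01).trans ?_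
      refine mul_le_mul_of_nonneg_right ?_ measureReal_nonneg
      exact mul_le_mul_of_nonneg_left hen (by positivity)
  -- let `τ → 0`
  have hX0 : 0 ≤ ∑ g ∈ Γ, volume.real (Ω g) := Finset.sum_nonneg (fun _ _ => measureReal_nonneg)
  refine sq_le_of_key (c := Γ.card * (((Γ ×ˢ Γ).card + Γ.card) * 2)) hX0 (by positivity) ?_
  intro τ hτ
  obtain ⟨y, hy0, hy2, hy3⟩ := key τ hτ
  refine ⟨y, hy0, hy2, hy3.trans (le_of_eq ?_)⟩
  ring

end Crest.Agent.R193.M5
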