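import Mathlib
import Crest.Agent.R193.M5_Main
import Crest.Agent.R193.M7_Glue

/-!
# R193, block M5 (helper578): the packing inequality in the form consumed by `M7_Glue`
-/

set_option autoImplicit false

open MeasureTheory Set Filter Topology

namespace Crest.Agent.R193.M5

open Crest.Agent.R193

variable {G Z : Type} [Group G] [MetricSpace Z] [MulAction G Z] {S : Setup G Z}

/-- **M5.** -/
theorem m5out {T : Tiles S} (Φ : Z ≃ₜ S2) (P : Rec T) (Λ : Lim P) : M7_Glue.M5Out P Λ := by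
  intro K1 Tm hTmc hTm hK1 hK1Q hdisj
  refine ⟨C1 T P, ?_⟩
  intro j i Γ I0 hΓ hE hfar Θ hΘ hΘ1 M hM
  have h := packing T Φ P Λ hTmc (hTm.trans interior_subset) hK1 hK1Q hdisj j i Γ I0
    (fun g hg => (T_Comp.mem_sph S).1 (hΓ hg)) (fun g hg => (hE g hg).1)
    (fun g hg => (hE g hg).2) hfar hΘ hΘ1 hM
  have hmc : ∀ g t, mcount Λ.w Tm Γ (fun f => S.len f < I0) g t =
      (M7_Glue.mc S Λ.w Tm Γ I0 g t : ℝ) := by
    intro g t
    unfold mcount M7_Glue.mc
    norm_cast
    congr
  simp only [hmc] at h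
  exact h

end Crest.Agent.R193.M5
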