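import Mathlib
import Crest.Agent.R193.M1_Main

/-!
# R193 M1 (helper260): record levels
-/

set_option autoImplicit false

open Set Filter Topology Metric

namespace Crest.Agent.R193.M1x

open Crest.Agent.R193 Crest.Agent.R193.CHx

variable {G Z : Type} [Group G] [MetricSpace Z] [MulAction G Z]

lemma SepBound.mono_const {S : Setup G Z} {T : Tiles S} {n : ℕ} {D E : Set Z} {L L' : ℝ}
    (h : SepBound T n D E L) (hL : L ≤ L') : SepBound T n D E L' := by
  intro ρ hρ
  obtain ⟨A, h1, h2, h3⟩ := h ρ hρ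
  refine ⟨A, h1, h2, h3.trans ?_⟩
  have : 0 ≤ ∑ h ∈ S.sph n, (ρ h) ^ 2 := Finset.sum_nonneg fun _ _ => sq_nonneg _
  gcongr

lemma sum_biUnion_le {ι : Type} [DecidableEq G] (s : Finset ι) (A : ι → Finset G) (f : G → ℝ)
    (hf : ∀ h, 0 ≤ f h) : ∑ h ∈ s.biUnion A, f h ≤ ∑ j ∈ s, ∑ h ∈ A j, f h := by
  classical
  induction s using Finset.induction_on with
  | empty => simp
  | insert a s ha ih =>
    rw [Finset.biUnion_insert, Finset.sum_insert ha]
    have h1 := Finset.sum_union_inter (s₁ := A a) (s₂ := s.biUnion A) (f := f)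
    have h2 : 0 ≤ ∑ h ∈ A a ∩ s.biUnion A, f h := Finset.sum_nonneg fun h _ => hf h
    linarith

/-- the trivial bound -/
lemma sepBound_card {S : Setup G Z} (T : Tiles S) (n : ℕ) (D E : Set Z) :
    SepBound T n D E ((S.sph n).card) := by
  intro ρ _
  exact ⟨S.sph n, Finset.Subset.refl _, separates_sph T n D E, sq_sum_le_card_mul_sum_sq⟩

/-- the set of admissible constants is closed -/
lemma sepBound_of_forall_gt {S : Setup G Z} {T : Tiles S} {n : ℕ} {D E : Set Z} {L : ℝ}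
    (h : ∀ L' > L, SepBound T n D E L') : SepBound T n D E L := by
  classical
  intro ρ hρ
  set s : ℝ := ∑ h ∈ S.sph n, (ρ h) ^ 2 with hs
  have hs0 : 0 ≤ s := Finset.sum_nonneg fun _ _ => sq_nonneg _
  set F : Finset (Finset G) := (S.sph n).powerset.filter fun A => Separates (T.un A) D E with hF
  have hFne : F.Nonempty := ⟨S.sph n, by simp [hF, separates_sph]⟩
  obtain ⟨A, hA, hmin⟩ := F.exists_min_image (fun A => (∑ h ∈ A, ρ h) ^ 2) hFne
  simp only [hF, Finset.mem_filter, Finset.mem_powerset] at hA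
  refine ⟨A, hA.1, hA.2, ?_⟩
  refine le_of_forall_pos_lt_add fun ε hε => ?_
  obtain ⟨B, hB1, hB2, hB3⟩ := h (L + ε / (2 * (s + 1))) (by
    have : 0 < ε / (2 * (s + 1)) := by positivity
    linarith) ρ hρ
  have h1 := hmin B (by simp only [hF, Finset.mem_filter, Finset.mem_powerset]; exact ⟨hB1, hB2⟩)
  have h2 : ε / (2 * (s + 1)) * s ≤ ε / 2 := by
    rw [div_mul_eq_mul_div, div_le_div_iff₀ (by positivity) (by norm_num)]
    nlinarith
  calc (∑ h ∈ A, ρ h) ^ 2 ≤ (∑ h ∈ B, ρ h) ^ 2 := h1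
    _ ≤ (L + ε / (2 * (s + 1))) * s := hB3
    _ = L * s + ε / (2 * (s + 1)) * s := by ring
    _ < L * s + ε := by linarith

/-- **Record levels.** If the separating moduli of the family `ψ` degenerate, there are a sequence of
constants `L n → ∞`, good up to level `n`, and one rectangle `χ` with infinitely many record levels at
which the left-right modulus of `χ` is at most `32 / L`. -/
theorem exists_records (S : Setup G Z) (T : Tiles S) (Φ : Z ≃ₜ S2) {m : ℕ} (ψ : Fin m → Chart Z)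
    (h : ¬ ∃ L : ℝ, ∀ (i : Fin m) (n : ℕ), SepBound T n ((ψ i).D 1) ((ψ i).E 2) L) :
    ∃ (L : ℕ → ℝ) (χ : Chart Z) (φ : ℕ → ℕ), Monotone L ∧ Tendsto L atTop atTop ∧ (∀ n, 1 ≤ L n) ∧
      (∀ (i : Fin m) (n : ℕ), ∀ k ≤ n, SepBound T k ((ψ i).D 1) ((ψ i).E 2) (L n)) ∧
      StrictMono φ ∧ (∃ (i : Fin m) (j : Fin 4), χ = (ψ i).comp (rect j)) ∧
      ∀ k, ∃ ρ : G → ℝ, (∀ h, 0 ≤ ρ h) ∧ LRadm T (φ k) χ ρ ∧
        ∑ h ∈ S.sph (φ k), (ρ h) ^ 2 ≤ 32 / L (φ k) := by
  classical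
  -- the sets of good constants
  set GC : ℕ → Set ℝ := fun n => {L : ℝ | 1 ≤ L ∧ ∀ (i : Fin m), ∀ k ≤ n,
    SepBound T k ((ψ i).D 1) ((ψ i).E 2) L} with hGC
  have hbdd : ∀ n, BddBelow (GC n) := fun n => ⟨1, fun L hL => hL.1⟩
  have hne : ∀ n, (GC n).Nonempty := by
    intro n
    refine ⟨1 + ∑ k ∈ Finset.range (n + 1), ((S.sph k).card : ℝ), ?_, ?_⟩
    · have : (0 : ℝ) ≤ ∑ k ∈ Finset.range (n + 1), ((S.sph k).card : ℝ) :=
        Finset.sum_nonneg fun _ _ => Nat.cast_nonneg _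
      linarith
    · intro i k hk
      refine SepBound.mono_const (sepBound_card T k _ _) ?_
      have : ((S.sph k).card : ℝ) ≤ ∑ k ∈ Finset.range (n + 1), ((S.sph k).card : ℝ) :=
        Finset.single_le_sum (f := fun k => ((S.sph k).card : ℝ)) (fun _ _ => Nat.cast_nonneg _)
          (Finset.mem_range.mpr (by omega))
      linarith
  set L : ℕ → ℝ := fun n => sInf (GC n) with hL
  have hLmem : ∀ n, L n ∈ GC n := by
    intro n
    refine ⟨le_csInf (hne n) fun b hb => hb.1, fun i k hk => ?_⟩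
    refine sepBound_of_forall_gt fun L' hL' => ?_
    obtain ⟨b, hb, hbL⟩ := exists_lt_of_csInf_lt (hne n) hL'
    exact SepBound.mono_const (hb.2 i k hk) hbL.le
  have hmono : Monotone L := by
    intro a b hab
    exact csInf_le_csInf (hbdd a) (hne b) fun x hx => ⟨hx.1, fun i k hk => hx.2 i k (hk.trans hab)⟩
  have hunb : ∀ C : ℝ, ∃ n, C < L n := by
    intro C
    by_contra hcon
    push Not at hcon
    exact h ⟨C, fun i n => SepBound.mono_const ((hLmem n).2 i n le_rfl) (hcon n)⟩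
  have htend : Tendsto L atTop atTop := by
    rw [tendsto_atTop_atTop]
    intro C
    obtain ⟨n, hn⟩ := hunb C
    exact ⟨n, fun a ha => hn.le.trans (hmono ha)⟩
  -- gluing thresholds
  choose N hN using fun i : Fin m => gluing T Φ (ψ i)
  -- record levels
  have hrec : ∀ N0 : ℕ, ∃ k > N0, ∃ (i : Fin m) (L' : ℝ), L k / 2 ≤ L' ∧
      ¬ SepBound T k ((ψ i).D 1) ((ψ i).E 2) L' := by
    intro N0
    obtain ⟨n, hn⟩ := hunb (2 * L N0)
    have h1 : 1 ≤ L N0 := (hLmem N0).1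
    have h2 : L n / 2 < L n := by linarith
    have h3 : L n / 2 ∉ GC n := fun hmem => by
      have := csInf_le (hbdd n) hmem
      have h4 : L n = sInf (GC n) := rfl
      linarith
    have h5 : ∃ (i : Fin m) (k : ℕ), k ≤ n ∧ ¬ SepBound T k ((ψ i).D 1) ((ψ i).E 2) (L n / 2) := by
      by_contra hcon
      push Not at hcon
      exact h3 ⟨by linarith, fun i k hk => hcon i k hk⟩
    obtain ⟨i, k, hk, hkS⟩ := h5
    refine ⟨k, ?_, i, L n / 2, by have := hmono hk; linarith, hkS⟩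
    by_contra hle
    push Not at hle
    exact hkS (SepBound.mono_const ((hLmem N0).2 i k hle) (by linarith))
  -- admissible weights
  have hadm : ∀ N0 : ℕ, ∃ k > N0, ∃ (i : Fin m) (j : Fin 4), ∃ ρ : G → ℝ, (∀ h, 0 ≤ ρ h) ∧
      LRadm T k ((ψ i).comp (rect j)) ρ ∧ ∑ h ∈ S.sph k, (ρ h) ^ 2 ≤ 32 / L k := by
    intro N0
    obtain ⟨k, hk, i, L', hL', hS⟩ := hrec (N0 + ∑ i, N i)
    have hkN : N i ≤ k := by
      have : N i ≤ ∑ i, N i := Finset.single_le_sum (fun _ _ => Nat.zero_le _) (Finset.mem_univ i)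
      omega
    refine ⟨k, by omega, i, ?_⟩
    have hLk : 1 ≤ L k := (hLmem k).1
    have hL'p : 0 < L' := by linarith
    unfold SepBound at hS
    push Not at hS
    obtain ⟨ρ, hρ, hρS⟩ := hS
    set s : ℝ := ∑ h ∈ S.sph k, (ρ h) ^ 2 with hs
    have hs0 : 0 ≤ s := Finset.sum_nonneg fun _ _ => sq_nonneg _
    have hspos : 0 < s := by
      rcases hs0.eq_or_lt with h0 | h0
      · exfalso
        have h1 := hρS (S.sph k) (Finset.Subset.refl _) (separates_sph T k _ _)
        rw [← h0, mul_zero] at h1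
        have h2 : ∀ h ∈ S.sph k, ρ h = 0 := by
          intro h hh
          have h3 := (Finset.sum_eq_zero_iff_of_nonneg (fun _ _ => sq_nonneg _)).mp h0.symm h hh
          exact pow_eq_zero_iff (two_ne_zero) |>.mp h3
        rw [Finset.sum_eq_zero h2] at h1
        simp at h1
      · exact h0
    set c : ℝ := Real.sqrt (L' * s) with hc
    have hcpos : 0 < c := Real.sqrt_pos.mpr (by positivity)
    have hcsq : c ^ 2 = L' * s := Real.sq_sqrt (by positivity)
    by_contra hcon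
    push Not at hcon
    -- short crossings in all four rectangles
    have hshort : ∀ j : Fin 4, ∃ A : Finset G, Crossing T k ((ψ i).comp (rect j)) A ∧
        ∑ h ∈ A, ρ h < c / 4 := by
      intro j
      have h1 := hcon j (fun h => 4 / c * ρ h) (fun h => mul_nonneg (by positivity) (hρ h))
      by_contra h2
      push Not at h2
      have h3 : LRadm T k ((ψ i).comp (rect j)) (fun h => 4 / c * ρ h) := by
        intro A hA
        have h4 := h2 A hA
        rw [← Finset.mul_sum, div_mul_eq_mul_div, le_div_iff₀ hcpos]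
        linarith
      have h5 := h1 h3
      have h6 : ∑ h ∈ S.sph k, (4 / c * ρ h) ^ 2 = 16 / L' := by
        have : ∀ h ∈ S.sph k, (4 / c * ρ h) ^ 2 = 16 / c ^ 2 * ρ h ^ 2 := fun h _ => by ring
        rw [Finset.sum_congr rfl this, ← Finset.mul_sum, hcsq, ← hs]
        field_simp
      rw [h6] at h5
      have h7 : 16 / L' ≤ 32 / L k := by
        rw [div_le_div_iff₀ hL'p (by linarith)]
        linarith
      linarith
    choose A hA1 hA2 using hshort
    set B : Finset G := Finset.univ.biUnion A with hB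
    have hBsub : B ⊆ S.sph k := Finset.biUnion_subset.mpr fun j _ => (hA1 j).sub
    have hsep := hN i k hkN A hA1 B (fun j => Finset.subset_biUnion_of_mem A (Finset.mem_univ j))
    have h1 := hρS B hBsub hsep
    have h2 : ∑ h ∈ B, ρ h ≤ ∑ j : Fin 4, ∑ h ∈ A j, ρ h := by
      rw [hB]
      exact sum_biUnion_le _ A ρ hρ
    have h3 : ∑ j : Fin 4, ∑ h ∈ A j, ρ h < c := by
      rw [Fin.sum_univ_four]
      have := hA2 0; have := hA2 1; have := hA2 2; have := hA2 3
      linarith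
    have h4 : 0 ≤ ∑ h ∈ B, ρ h := Finset.sum_nonneg fun h _ => hρ h
    have h5 : (∑ h ∈ B, ρ h) ^ 2 ≤ c ^ 2 := by
      have : ∑ h ∈ B, ρ h ≤ c := by linarith
      gcongr
    rw [hcsq] at h5
    linarith
  -- pigeonhole
  have hfreq : ∃ p : Fin m × Fin 4, ∃ᶠ k in atTop, ∃ ρ : G → ℝ, (∀ h, 0 ≤ ρ h) ∧
      LRadm T k ((ψ p.1).comp (rect p.2)) ρ ∧ ∑ h ∈ S.sph k, (ρ h) ^ 2 ≤ 32 / L k := by
    by_contra hcon
    push Not at hcon
    have h1 : ∀ᶠ k in atTop, ∀ p : Fin m × Fin 4, ¬ ∃ ρ : G → ℝ, (∀ h, 0 ≤ ρ h) ∧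
      LRadm T k ((ψ p.1).comp (rect p.2)) ρ ∧ ∑ h ∈ S.sph k, (ρ h) ^ 2 ≤ 32 / L k := by
      rw [eventually_all]
      intro p
      have := hcon p
      rw [Filter.eventually_atTop] at *
      obtain ⟨a, ha⟩ := this
      refine ⟨a, fun b hb hex => ?_⟩
      obtain ⟨ρ, h1, h2, h3⟩ := hex
      have := ha b hb ρ h1 h2
      linarith
    obtain ⟨a, ha⟩ := eventually_atTop.mp h1
    obtain ⟨k, hk, i, j, ρ, hρ⟩ := hadm a
    exact ha k (by omega) (i, j) ⟨ρ, hρ⟩
  obtain ⟨p, hp⟩ := hfreq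
  obtain ⟨φ, hφ, hφp⟩ := extraction_of_frequently_atTop hp
  exact ⟨L, (ψ p.1).comp (rect p.2), φ, hmono, htend, fun n => (hLmem n).1,
    fun i n k hk => (hLmem n).2 i k hk, hφ, ⟨p.1, p.2, rfl⟩, hφp⟩

end Crest.Agent.R193.M1x
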