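import Mathlib
import Crest.Agent.R193.M_Defs
import Crest.Agent.R193.M1_Records
import Crest.Agent.R193.T_Comp
import Crest.Agent.R193.FG1d

/-!
# R193 M1 (helper260): from degenerating moduli to `Rec T`
-/

set_option autoImplicit false

open Set Filter Topology Metric

namespace Crest.Agent.R193.M1_Rec

open Crest.Agent.R193 Crest.Agent.R193.CHx Crest.Agent.R193.M1x

variable {G Z : Type} [Group G] [MetricSpace Z] [MulAction G Z]

lemma Q_preconnected (χ : Chart Z) : IsPreconnected χ.Q :=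
  (isPreconnected_Icc.prod isPreconnected_Icc).image _ χ.emb.continuous.continuousOn

/-- the graph of the tiles meeting `Q` is connected -/
theorem reachable {S : Setup G Z} (T : Tiles S) (χ : Chart Z) (n : ℕ) (v w : T.V χ n) :
    (T.gr χ n).Reachable v w := by
  have hcov : χ.Q ⊆ T.un (T.V χ n) := by
    intro x hx
    have h1 : x ∈ T.un (S.sph n) := by rw [M1x.un_sph]; trivial
    obtain ⟨h, hh, hxh⟩ := mem_iUnion₂.mp h1
    exact mem_biUnion (x := h) (by
      show h ∈ (T.V χ n : Set G)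
      exact_mod_cast Tiles.mem_V.mpr ⟨M1x.mem_sph.mp (by exact_mod_cast hh), x, hxh, hx⟩) hxh
  have h1 := T_Comp.chain_of_preconnected T (Q_preconnected χ) hcov v.2 w.2
    (Tiles.mem_V.mp v.2).2 (Tiles.mem_V.mp w.2).2
  have key : ∀ a b : G, Relation.ReflTransGen
      (fun a b => a ∈ T.V χ n ∧ b ∈ T.V χ n ∧ (T.U a ∩ T.U b ∩ χ.Q).Nonempty) a b →
      ∀ (ha : a ∈ T.V χ n) (hb : b ∈ T.V χ n), (T.gr χ n).Reachable ⟨a, ha⟩ ⟨b, hb⟩ := by
    intro a b hab
    induction hab with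
    | refl => intro ha hb; exact SimpleGraph.Reachable.refl _
    | @tail b c _ hbc ih =>
      intro ha hc
      refine (ih ha hbc.1).trans ?_
      by_cases hbc' : b = c
      · subst hbc'; exact SimpleGraph.Reachable.refl _
      · refine SimpleGraph.Adj.reachable ⟨fun h => hbc' (congrArg Subtype.val h), ?_⟩
        obtain ⟨x, hx, _⟩ := hbc.2.2
        exact ⟨x, hx⟩
  exact key v w h1 v.2 w.2

/-- walks give preconnected unions of tiles -/
theorem walk_preconnected {S : Setup G Z} (T : Tiles S) (χ : Chart Z) (n : ℕ) {v w : T.V χ n}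
    (p : (T.gr χ n).Walk v w) : IsPreconnected (⋃ h ∈ p.support, T.U (h : G)) := by
  induction p with
  | nil => simpa using (T.isConnected _).isPreconnected
  | cons hadj p ih =>
    rename_i a b c
    rw [SimpleGraph.Walk.support_cons]
    have h1 : (⋃ h ∈ a :: p.support, T.U (h : G)) = T.U (a : G) ∪ ⋃ h ∈ p.support, T.U (h : G) := by
      ext x; simp
    rw [h1]
    obtain ⟨x, hxa, hxb⟩ := hadj.2
    exact (T.isConnected _).isPreconnected.union x hxa
      (mem_biUnion (x := b) p.start_mem_support hxb) ih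

open Classical in
/-- walks from the left to the right are crossings -/
theorem crossing_of_walk {S : Setup G Z} (T : Tiles S) (χ : Chart Z) (n : ℕ) {v w : T.V χ n}
    (hv : v ∈ T.Lt χ n) (hw : w ∈ T.Rt χ n) (p : (T.gr χ n).Walk v w) :
    Crossing T n χ (p.support.toFinset.map (Function.Embedding.subtype _)) where
  sub := by
    intro h hh
    obtain ⟨a, _, rfl⟩ := Finset.mem_map.mp hh
    exact M1x.mem_sph.mpr (Tiles.mem_V.mp a.2).1
  meets := by
    intro h hh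
    obtain ⟨a, _, rfl⟩ := Finset.mem_map.mp hh
    exact (Tiles.mem_V.mp a.2).2
  conn := by
    have h1 := walk_preconnected T χ n p
    have h2 : T.un (p.support.toFinset.map (Function.Embedding.subtype _)) =
        ⋃ h ∈ p.support, T.U (h : G) := by
      ext x
      simp [Tiles.un]
    rw [h2]; exact h1
  left := ⟨v, Finset.mem_map.mpr ⟨v, List.mem_toFinset.mpr p.start_mem_support, rfl⟩, hv⟩
  right := ⟨w, Finset.mem_map.mpr ⟨w, List.mem_toFinset.mpr p.end_mem_support, rfl⟩, hw⟩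

/-- left and right tiles are different for large levels -/
theorem disjoint_left_right {S : Setup G Z} (T : Tiles S) (χ : Chart Z) :
    ∃ N : ℕ, ∀ n ≥ N, Disjoint (T.Lt χ n) (T.Rt χ n) := by
  obtain ⟨η, hη, hclose⟩ := exists_close χ
    (isCompact_singleton.prod isCompact_Icc : IsCompact (({(0 : ℝ)} : Set ℝ) ×ˢ Icc (0 : ℝ) 1))
    (by norm_num : (0 : ℝ) < 1)
  obtain ⟨N, hN⟩ := tile_small T hη
  refine ⟨N, fun n hn => disjoint_left.mpr ?_⟩
  rintro ⟨h, hh⟩ ⟨x, hx, hxl⟩ ⟨y, hy, hyr⟩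
  obtain ⟨p, hp, rfl⟩ := hxl
  obtain ⟨q, hq, rfl⟩ := hyr
  have h1 := hN n hn h (M1x.mem_sph.mpr (Tiles.mem_V.mp hh).1) _ hy _ hx
  obtain ⟨x', hx', hd⟩ := hclose p hp _ h1
  have h2 : x' = q := χ.emb.injective hx'
  subst h2
  have h3 : p.1 = 0 := hp.1
  have h4 : x'.1 = 1 := hq.1
  rw [Prod.dist_eq] at hd
  have h5 := (le_max_left (dist x'.1 p.1) (dist x'.2 p.2)).trans_lt hd
  rw [h3, h4, Real.dist_eq] at h5
  norm_num at h5

/-- degree bound -/
theorem degree_le {S : Setup G Z} (T : Tiles S) (χ : Chart Z) (n : ℕ) (v : T.V χ n) :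
    {w | (T.gr χ n).Adj v w}.ncard ≤ T_Comp.Nb S (2 * T.R + 2 * S.δ) := by
  classical
  rw [Set.ncard_eq_toFinset_card']
  rw [← Finset.card_map (Function.Embedding.subtype (fun x => x ∈ T.V χ n))]
  apply T_Comp.card_adj_le T (v : G)
  intro h hh
  obtain ⟨a, ha, rfl⟩ := Finset.mem_map.mp hh
  rw [Set.mem_toFinset] at ha
  exact ⟨by
    show S.len (a : G) = S.len (v : G)
    rw [(Tiles.mem_V.mp a.2).1, (Tiles.mem_V.mp v.2).1], ha.2⟩

/-- **M1.** -/
theorem M1 (S : Setup G Z) (T : Tiles S) (Φ : Z ≃ₜ S2) (ψ0 : Chart Z)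
    (h : ¬ ∃ L : ℝ, ∀ n : ℕ, SepBound T n (ψ0.D 1) (ψ0.E 2) L) : Nonempty (Rec T) := by
  classical
  have hcpt : CompactSpace Z := Φ.symm.compactSpace
  obtain ⟨m, ψ, η, R, hη, hfam⟩ := exists_family S Φ (T.R + 100 * S.δ) (r1 := 1) (r2 := 2)
    (by norm_num) (by norm_num)
  set ψ' : Fin (m + 1) → Chart Z := Fin.cons ψ0 ψ with hψ'
  have h' : ¬ ∃ L : ℝ, ∀ (i : Fin (m + 1)) (n : ℕ),
      SepBound T n ((ψ' i).D 1) ((ψ' i).E 2) L := by
    rintro ⟨L, hL⟩
    exact h ⟨L, fun n => hL 0 n⟩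
  obtain ⟨L, χ, φ, hmono, htend, hone, hsep, hφ, _, hρ⟩ := exists_records S T Φ ψ' h'
  obtain ⟨N, hN⟩ := disjoint_left_right T χ
  set Δ : ℕ := T_Comp.Nb S (2 * T.R + 2 * S.δ) with hΔ
  -- the potentials
  have hsol : ∀ n : ℕ, ∃ u : G → ℝ, Disjoint (T.Lt χ n) (T.Rt χ n) → (T.V χ n).Nonempty →
      (T.Lt χ n ∪ T.Rt χ n).Nonempty →
      FG.Sol (T.gr χ n) (T.Lt χ n) (T.Rt χ n) (fun h => u (h : G)) := by
    intro n
    by_cases hd : Disjoint (T.Lt χ n) (T.Rt χ n) ∧ (T.Lt χ n ∪ T.Rt χ n).Nonempty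
    · obtain ⟨hd, w, hw⟩ := hd
      obtain ⟨u, hu, _, _⟩ := FG.exists_sol (T.gr χ n) (T.Lt χ n) (T.Rt χ n) hd
        (fun v => ⟨w, hw, reachable T χ n v w⟩)
      refine ⟨fun g => if hg : g ∈ T.V χ n then u ⟨g, hg⟩ else 0, fun _ _ _ => ?_⟩
      have : (fun h : T.V χ n => (if hg : (h : G) ∈ T.V χ n then u ⟨(h : G), hg⟩ else 0)) = u := by
        funext h
        simp
      rw [this]; exact hu
    · exact ⟨fun _ => 0, fun h1 _ h2 => absurd ⟨h1, h2⟩ hd⟩
  choose u hu using hsol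
  have hLne : ∀ n, (T.Lt χ n).Nonempty := by
    intro n
    have h1 : χ.f (0, 0) ∈ T.un (S.sph n) := by rw [M1x.un_sph]; trivial
    obtain ⟨g, hg, hx⟩ := mem_iUnion₂.mp h1
    refine ⟨⟨g, Tiles.mem_V.mpr ⟨M1x.mem_sph.mp (by exact_mod_cast hg), χ.f (0, 0), hx,
      ⟨(0, 0), by simp, rfl⟩⟩⟩, χ.f (0, 0), hx, ⟨(0, 0), by simp, rfl⟩⟩
  have husol : ∀ n ≥ N, FG.Sol (T.gr χ n) (T.Lt χ n) (T.Rt χ n) (fun h => u n (h : G)) := by
    intro n hn
    obtain ⟨w, hw⟩ := hLne n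
    exact hu n (hN n hn) ⟨w, w.2⟩ ⟨w, Or.inl hw⟩
  refine ⟨{
    ι := Fin (m + 1)
    ψ := ψ'
    R0 := T.R + 100 * S.δ
    hR0 := le_rfl
    R1 := max R 1
    R1_pos := by positivity
    η := η
    η_pos := hη
    fam := ?_
    L := L
    one_le := hone
    mono := hmono
    sep := fun i k n hk => hsep i n k hk
    χ := χ
    C := 2 * Δ * 32 + 1
    C_pos := by positivity
    recs := {n | N ≤ n ∧ ∃ k, φ k = n}
    unbdd := ?_
    u := u
    disj := fun n hn => hN n hn.1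
    sol := fun n hn => husol n hn.1
    en_le := ?_ }⟩
  · intro g y hy
    obtain ⟨i, hi1, hi2⟩ := hfam g y hy
    refine ⟨Fin.succ i, ?_, ?_⟩
    · simp only [hψ', Fin.cons_succ]
      exact ball_subset_closedBall.trans (hi1.trans (image_mono ball_subset_closedBall))
    · simp only [hψ', Fin.cons_succ]
      have h1 : ((ψ i).E 2)ᶜ = (ψ i).f '' ball (0 : ℝ × ℝ) 2 := by
        simp [Chart.E]
      rw [h1]
      have h2 : closure ((ψ i).f '' ball (0 : ℝ × ℝ) 2) ⊆ (ψ i).f '' closedBall (0 : ℝ × ℝ) 2 :=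
        closure_minimal (image_mono ball_subset_closedBall)
          ((isCompact_closedBall (0 : ℝ × ℝ) 2).image (ψ i).emb.continuous).isClosed
      refine h2.trans (hi2.trans ?_)
      intro x hx
      have h3 : S.s x g⁻¹ ≤ R := hx
      exact h3.trans (le_max_left _ _)
  · intro B M
    obtain ⟨a, ha⟩ := (tendsto_atTop_atTop.mp htend) B
    set k := max (max M a) N with hk
    have h1 : k ≤ φ k := hφ.id_le k
    refine ⟨φ k, ⟨?_, k, rfl⟩, ?_, ha _ ?_⟩
    · exact (le_max_right _ _).trans h1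
    · exact ((le_max_left _ _).trans (le_max_left _ _)).trans h1
    · exact ((le_max_right _ _).trans (le_max_left _ _)).trans h1
  · rintro n ⟨hn, k, rfl⟩
    obtain ⟨ρ, hρ0, hadm, hsum⟩ := hρ k
    have h1 := (husol (φ k) hn).en_le_modulus (hN _ hn) (fun v => ρ (v : G)) (fun v => hρ0 _) Δ
      (fun v => degree_le T χ _ v) (by
        intro l hl r hr p
        have h2 := hadm _ (crossing_of_walk T χ _ hl hr p)
        rw [Finset.sum_map] at h2
        refine le_of_le_of_eq h2 (Finset.sum_congr ?_ (fun _ _ => rfl))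
        ext; simp)
    have h2 : ∑ v : T.V χ (φ k), ρ (v : G) ^ 2 ≤ ∑ h ∈ S.sph (φ k), ρ h ^ 2 := by
      rw [Finset.sum_coe_sort (T.V χ (φ k)) (fun h => ρ h ^ 2)]
      refine Finset.sum_le_sum_of_subset_of_nonneg ?_ (fun _ _ _ => sq_nonneg _)
      intro h hh
      exact M1x.mem_sph.mpr (Tiles.mem_V.mp hh).1
    have hLp : 0 < L (φ k) := by linarith [hone (φ k)]
    calc FG.en (T.gr χ (φ k)) (fun h => u (φ k) (h : G))
        ≤ 2 * Δ * ∑ v : T.V χ (φ k), ρ (v : G) ^ 2 := h1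
      _ ≤ 2 * Δ * (32 / L (φ k)) := by
          have := h2.trans hsum
          gcongr
      _ = (2 * Δ * 32) / L (φ k) := by ring
      _ ≤ (2 * Δ * 32 + 1) / L (φ k) := by
          gcongr
          linarith

end Crest.Agent.R193.M1_Rec
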