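import Mathlib
import Crest.Agent.R193.Defs
import Crest.Agent.R193.M_Defs
import Crest.Agent.R193.M1_Rec
import Crest.Agent.R193.M7_Glue

/-!
# R193, block M: assembly (helper635)

`M_main` from M2 (`Nonempty (Lim P)`) and M5 (`M5Out P Λ`); M1 and M7 are proved.
-/

set_option autoImplicit false

namespace Crest.Agent.R193.M_Asm

open Crest.Agent.R193

variable {G Z : Type} [Group G] [MetricSpace Z] [MulAction G Z]

theorem M_main_of (S : Setup G Z) (T : Tiles S) (Φ : Z ≃ₜ S2)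
    (h2 : ∀ P : Rec T, Nonempty (Lim P))
    (h5 : ∀ (P : Rec T) (Λ : Lim P), M7_Glue.M5Out P Λ) (ψ : Chart Z) :
    ∃ L : ℝ, ∀ n : ℕ, SepBound T n (ψ.D 1) (ψ.E 2) L := by
  by_contra h
  obtain ⟨P⟩ := M1_Rec.M1 S T Φ ψ h
  obtain ⟨Λ⟩ := h2 P
  exact M7_Glue.M7 Φ P Λ (h5 P Λ)

end Crest.Agent.R193.M_Asm
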