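import Mathlib
import Crest.Agent.R193.Defs
import Crest.Agent.R193.H_Main
import Crest.Agent.R193.T_Main
import Crest.Agent.R193.E_Main
import Crest.Agent.R193.K_Main
import Crest.Agent.R193.F_Main
import Crest.Agent.R193.M_Asm
import Crest.Agent.R193.M2_Main
import Crest.Agent.R193.M5_Out
import Crest.Agent.R193.D_Inputs
import Crest.Agent.R193.D56_Main
import Crest.Agent.R193.D_Chart8
import Crest.Agent.R193.D_Lim
import Crest.Agent.R193.D_WC2
import Crest.Agent.R193.D_HK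

/-!
# R193: final assembly (Cannon's conjecture, S0294)
-/

set_option autoImplicit false

noncomputable section

open Set Filter Topology MeasureTheory
open Crest.GroupTheory Crest.HyperbolicSpace

namespace Crest.Agent.R193.Final

open Crest.Agent.R193

/-- Theorem M -/
theorem M_main {G Z : Type} [Group G] [MetricSpace Z] [MulAction G Z] (S : Setup G Z)
    (T : Tiles S) (Φ : Z ≃ₜ S2) (ψ : Chart Z) :
    ∃ L : ℝ, ∀ n : ℕ, SepBound T n (ψ.D 1) (ψ.E 2) L :=
  M_Asm.M_main_of S T Φ (M2_Main.M2_main T Φ) (fun P Λ => M5.m5out Φ P Λ) ψ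

/-- zooming a chart gives a uniformisation -/
theorem chart_main {G Z : Type} [Group G] [MetricSpace Z] [MulAction G Z] (S : Setup G Z)
    (Q : DForm S) (Φ : Z ≃ₜ S2) : D_Spec.ChartMain Q := by
  intro hC1 hmax hL _ _ hX
  have : CompactSpace S2 := isCompact_iff_compactSpace.1 (isCompact_sphere _ _)
  have : CompactSpace Z := Φ.symm.compactSpace
  have : PreconnectedSpace Z := D_Inputs.preconnected Φ
  have : LocallyConnectedSpace Z := D_Spec.locallyConnected Φ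
  obtain ⟨X⟩ := hX
  obtain ⟨D⟩ := D_Chart.exists_ZD S Φ X
  have hz := D.zf hC1 hL hmax
  obtain ⟨Ψ, hΨ⟩ := D_Lim.limit hz
  refine ⟨Ψ, fun g => D_WC.weakConf hz (fun R => D_WC.Hk_cont D R) hΨ g (S.cont g) ?_⟩
  intro P hP hPh ψ hψ hs
  filter_upwards [D_HK.harm_k D hC1 g P hP hPh ψ hψ hs] with k hk hq
  exact hk fun q hq' => (hq q hq').2

/-- block D -/
theorem D_main {G Z : Type} [Group G] [MetricSpace Z] [MulAction G Z] (S : Setup G Z)
    (Q : DForm S) (Φ : Z ≃ₜ S2) :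
    ∃ F : Z ≃ₜ OnePoint ℂ, ∀ g : G, WeakConf (fun w => F (g • F.symm w)) :=
  D_Inputs.D_main_of S Q Φ (D56_Main.outPair S Q Φ) (chart_main S Q Φ)

/-- ASSEMBLY. -/
theorem final (G : Type) [Group G] (S : Finset G) (hS : Subgroup.closure (S : Set G) = ⊤)
    (hδ : ∃ δ : ℝ, 0 ≤ δ ∧ ∀ w x y z : G,
      min (gromovProduct (S : Set G) w x y) (gromovProduct (S : Set G) w y z) - δ ≤
        gromovProduct (S : Set G) w x z)
    (hB : Nonempty (CayleyBoundary (S : Set G) ≃ₜ Metric.sphere (0 : EuclideanSpace ℝ (Fin 3)) 1)) :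
    ∃ ρ : G →* isometryGroup3,
      (∀ K : Set UpperHalfSpace3, IsCompact K →
        Set.Finite {g : G | ∃ x ∈ K, (ρ g : Equiv.Perm UpperHalfSpace3) x ∈ K}) ∧
      (∃ K : Set UpperHalfSpace3, IsCompact K ∧
        ∀ x : UpperHalfSpace3, ∃ g : G, (ρ g : Equiv.Perm UpperHalfSpace3) x ∈ K) ∧
      Finite ρ.ker := by
  obtain ⟨Z, iM, iA, S0, ⟨Φ⟩⟩ := H_Main.H_main G S hS hδ hB
  obtain ⟨T⟩ := T_Main.T_main S0 Φ
  obtain ⟨Q⟩ := F_Main.F_main S0 T Φ (fun ψ => M_main S0 T Φ ψ)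
  obtain ⟨F, hF⟩ := D_main S0 Q Φ
  refine K_Main.K_main S0 F (fun g => ?_)
  let f : OnePoint ℂ ≃ₜ OnePoint ℂ := (F.symm.trans
    (⟨⟨fun x => g • x, fun x => g⁻¹ • x, fun x => by simp, fun x => by simp⟩,
      S0.cont g, S0.cont g⁻¹⟩ : Z ≃ₜ Z)).trans F
  exact E_Main.E_main f (hF g)

end Crest.Agent.R193.Final
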