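import Mathlib
import Crest.Prelude.Def_WordHyperbolic
import Crest.Prelude.Def_CayleyBoundary
import Crest.Agent.R193.HRay

/-! Row 193 (helper586): the action of `G` on the boundary. -/

set_option autoImplicit false

namespace Crest.Agent.R193.H

open Crest.GroupTheory Filter

variable {G : Type*} [Group G] {S : Set G} {δ : ℝ}

/-- standing hypotheses on the generating set -/
structure Std (S : Set G) (δ : ℝ) : Prop where
  gen : Subgroup.closure S = ⊤
  fin : ∀ n, {g : G | wordLength S g ≤ n}.Finite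
  nonneg : 0 ≤ δ
  hyp : Hyp S δ

theorem Std.of_finset (S : Finset G) (hS : Subgroup.closure (S : Set G) = ⊤) (δ : ℝ) (hδ : 0 ≤ δ)
    (h : ∀ w x y z : G,
      min (gromovProduct (S : Set G) w x y) (gromovProduct (S : Set G) w y z) - δ ≤
        gromovProduct (S : Set G) w x z) : Std (S : Set G) δ :=
  ⟨hS, finite_ball S hS, hδ, fun x y z => h 1 x y z⟩

/-- a ray from `1` following `g c` -/
noncomputable def tr (h : Std S δ) (g : G) (c : CayleyRay S) : CayleyRay S :=
  (exists_translate S h.gen h.fin h.nonneg h.hyp g c).choose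

theorem tr_gp (h : Std S δ) (g : G) (c : CayleyRay S) (k i : ℕ) (hi : k + wordLength S g ≤ i) :
    (k : ℝ) - δ ≤ gp S ((tr h g c).toFun k) (g * c.toFun i) :=
  (exists_translate S h.gen h.fin h.nonneg h.hyp g c).choose_spec k i hi

theorem tr_dist (h : Std S δ) (g : G) (c : CayleyRay S) (k : ℕ) :
    wordDist S ((tr h g c).toFun k) (g * c.toFun k) ≤ 3 * wordLength S g + 4 * δ :=
  translate_dist h.gen h.nonneg h.hyp (tr_gp h g c) k

theorem tr_asymp (h : Std S δ) (g : G) {c c' : CayleyRay S} (hc : c.IsAsymptotic c') :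
    (tr h g c).IsAsymptotic (tr h g c') := by
  obtain ⟨C, hC⟩ := hc
  refine ⟨(3 * wordLength S g + 4 * δ) + C + (3 * wordLength S g + 4 * δ), fun n => ?_⟩
  have h1 := dist_triangle' h.gen ((tr h g c).toFun n) (g * c.toFun n) ((tr h g c').toFun n)
  have h2 := dist_triangle' h.gen (g * c.toFun n) (g * c'.toFun n) ((tr h g c').toFun n)
  rw [dist_smul', dist_comm' h.gen (g * c'.toFun n) ((tr h g c').toFun n)] at h2
  have h3 := tr_dist h g c n
  have h4 := tr_dist h g c' n
  have h5 := hC n
  linarith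

/-- a bounded-distance criterion -/
theorem asymp_of_smul (h : Std S δ) (g : G) {c c' c₁ : CayleyRay S} {C C' : ℝ}
    (h1 : ∀ n, wordDist S (c'.toFun n) (g * c.toFun n) ≤ C)
    (h2 : ∀ n, wordDist S (c₁.toFun n) (g * c.toFun n) ≤ C') : c'.IsAsymptotic c₁ := by
  refine ⟨C + C', fun n => ?_⟩
  have h3 := dist_triangle' h.gen (c'.toFun n) (g * c.toFun n) (c₁.toFun n)
  rw [dist_comm' h.gen (g * c.toFun n) (c₁.toFun n)] at h3
  linarith [h1 n, h2 n]

/-- the action on the boundary -/
noncomputable def smulB (h : Std S δ) (g : G) : CayleyBoundary S → CayleyBoundary S :=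
  Quot.map (tr h g) (fun _ _ hc => tr_asymp h g hc)

theorem smulB_mk (h : Std S δ) (g : G) (c : CayleyRay S) :
    smulB h g (Quot.mk _ c) = Quot.mk _ (tr h g c) := rfl

theorem smulB_mk_eq (h : Std S δ) (g : G) (c c' : CayleyRay S) {C : ℝ}
    (hC : ∀ n, wordDist S (c'.toFun n) (g * c.toFun n) ≤ C) :
    smulB h g (Quot.mk _ c) = Quot.mk _ c' := by
  rw [smulB_mk]
  exact Quot.sound (asymp_of_smul h g (tr_dist h g c) hC)

/-- the action of `G` on its boundary -/
@[reducible] noncomputable def actB (h : Std S δ) : MulAction G (CayleyBoundary S) where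
  smul := smulB h
  one_smul := by
    rintro ⟨c⟩
    refine smulB_mk_eq h 1 c c (C := 0) fun n => ?_
    rw [one_mul, dist_self']
  mul_smul := by
    rintro g g' ⟨c⟩
    show smulB h (g * g') (Quot.mk _ c) = smulB h g (smulB h g' (Quot.mk _ c))
    rw [smulB_mk h g', smulB_mk h g]
    refine smulB_mk_eq h (g * g') c _
      (C := (3 * wordLength S g + 4 * δ) + (3 * wordLength S g' + 4 * δ)) fun n => ?_
    have h1 := dist_triangle' h.gen ((tr h g (tr h g' c)).toFun n) (g * (tr h g' c).toFun n)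
      (g * g' * c.toFun n)
    rw [mul_assoc g g', dist_smul'] at h1
    have h3 := tr_dist h g (tr h g' c) n
    have h4 := tr_dist h g' c n
    rw [mul_assoc g g']
    linarith

/-! ### boundary points as sequences of group elements -/

theorem gp_eq_half_int (hS : Subgroup.closure S = ⊤) (x y : G) : ∃ m : ℤ, gp S x y = (m : ℝ) / 2 := by
  refine ⟨(wordLength S x : ℤ) + wordLength S y - wordLength S (x⁻¹ * y), ?_⟩
  rw [gp_def hS]
  unfold wordDist
  push_cast
  ring

/-- monotone bounded sequences of half integers are eventually constant -/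
theorem eventually_const_of_half {f : ℕ → ℝ} (hf : Monotone f) (hh : ∀ n, ∃ m : ℤ, f n = (m : ℝ) / 2)
    {B : ℝ} (hB : ∀ n, f n ≤ B) : ∃ N, ∀ n, N ≤ n → f n = f N := by
  choose m hm using hh
  have hmono : Monotone m := by
    intro a b hab
    have := hf hab
    rw [hm, hm] at this
    have h2 : (m a : ℝ) ≤ m b := by linarith
    exact_mod_cast h2
  have hbd : ∀ n, m n ≤ ⌊2 * B⌋ := by
    intro n
    rw [Int.le_floor]
    have := hB n
    rw [hm] at this
    linarith
  -- greatest value
  obtain ⟨v, ⟨N, hN⟩, hv⟩ := Int.exists_greatest_of_bdd (P := fun z => ∃ n, m n = z)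
    ⟨⌊2 * B⌋, by rintro z ⟨n, rfl⟩; exact hbd n⟩ ⟨m 0, 0, rfl⟩
  refine ⟨N, fun n hn => ?_⟩
  have h1 := hmono hn
  have h2 := hv (m n) ⟨n, rfl⟩
  rw [hm n, hm N]
  have : m n = m N := by omega
  rw [this]

/-- a chosen representing ray -/
noncomputable def rep (ξ : CayleyBoundary S) : CayleyRay S := ξ.exists_rep.choose

theorem mk_rep (ξ : CayleyBoundary S) : Quot.mk _ (rep ξ) = ξ := ξ.exists_rep.choose_spec

/-- points of the compactification -/
abbrev Pt (S : Set G) := G ⊕ CayleyBoundary S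

/-- the sequence representing a point -/
noncomputable def seq : Pt S → ℕ → G
  | .inl g => fun _ => g
  | .inr ξ => (rep ξ).toFun

theorem seq_inl (g : G) (n : ℕ) : seq (Sum.inl g : Pt S) n = g := rfl
theorem seq_inr (ξ : CayleyBoundary S) (n : ℕ) : seq (Sum.inr ξ : Pt S) n = (rep ξ).toFun n := rfl

theorem gp_seq_mono (hS : Subgroup.closure S = ⊤) (a b : Pt S) :
    Monotone fun n => gp S (seq a n) (seq b n) := by
  intro m n h
  rcases a with a | a <;> rcases b with b | b
  · exact le_rfl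
  · have := gp_ray_mono hS (rep b) a h
    simp only [seq_inl, seq_inr]
    rw [gp_comm hS a, gp_comm hS a]
    exact this
  · exact gp_ray_mono hS (rep a) b h
  · exact gp_diag_mono hS (rep a) (rep b) h

/-- the pair is not a diagonal boundary pair -/
def Off (a b : Pt S) : Prop := ∀ ξ, ¬ (a = Sum.inr ξ ∧ b = Sum.inr ξ)

theorem gp_seq_tendsto (hS : Subgroup.closure S = ⊤) (a b : Pt S) (h : ¬ Off a b) (r : ℝ) :
    ∃ N, ∀ n, N ≤ n → r ≤ gp S (seq a n) (seq b n) := by
  unfold Off at h
  push Not at h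
  obtain ⟨ξ, rfl, rfl⟩ := h
  obtain ⟨N, hN⟩ := exists_nat_ge r
  refine ⟨N, fun n hn => ?_⟩
  simp only [seq_inr]
  rw [gp_self hS, ray_length hS]
  exact hN.trans (by exact_mod_cast hn)

theorem gp_seq_bdd (h : Std S δ) (a b : Pt S) (hab : Off a b) :
    ∃ B : ℝ, ∀ n, gp S (seq a n) (seq b n) ≤ B := by
  rcases a with a | a
  · exact ⟨wordLength S a, fun n => gp_le_left h.gen _ _⟩
  · rcases b with b | b
    · exact ⟨wordLength S b, fun n => gp_le_right h.gen _ _⟩
    · by_contra hcon
      push Not at hcon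
      have h1 : (rep a).IsAsymptotic (rep b) := by
        rw [asymp_iff_unbounded h.gen h.nonneg h.hyp]
        intro r
        obtain ⟨N, hN⟩ := hcon r
        exact ⟨N, hN.le⟩
      have h2 := (mk_eq_iff h.gen _ _).mpr h1
      rw [mk_rep, mk_rep] at h2
      exact hab a ⟨rfl, by rw [h2]⟩

theorem gp_seq_eventually (h : Std S δ) (a b : Pt S) (hab : Off a b) :
    ∃ v : ℝ, ∃ N, ∀ n, N ≤ n → gp S (seq a n) (seq b n) = v := by
  obtain ⟨B, hB⟩ := gp_seq_bdd h a b hab
  obtain ⟨N, hN⟩ := eventually_const_of_half (gp_seq_mono h.gen a b)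
    (fun n => gp_eq_half_int h.gen _ _) hB
  exact ⟨_, N, hN⟩

open Classical in
/-- the real valued product; junk value `0` on diagonal boundary pairs -/
noncomputable def pr (a b : Pt S) : ℝ :=
  if h : ∃ v : ℝ, ∃ N, ∀ n, N ≤ n → gp S (seq a n) (seq b n) = v then h.choose else 0

theorem pr_spec (h : Std S δ) (a b : Pt S) (hab : Off a b) :
    ∃ N, ∀ n, N ≤ n → gp S (seq a n) (seq b n) = pr a b := by
  unfold pr
  rw [dif_pos (gp_seq_eventually h a b hab)]
  exact (gp_seq_eventually h a b hab).choose_spec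

theorem pr_spec' (h : Std S δ) (a b : Pt S) (hab : Off a b) :
    ∀ᶠ n in atTop, gp S (seq a n) (seq b n) = pr a b := by
  obtain ⟨N, hN⟩ := pr_spec h a b hab
  exact eventually_atTop.mpr ⟨N, hN⟩

end Crest.Agent.R193.H
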