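import Mathlib

/-! Row 193 (helper586): a visual metric from a quasi-ultrametric product with values in `EReal`. -/

set_option autoImplicit false

noncomputable section

open Set Filter Topology
open scoped NNReal

namespace Crest.Agent.R193.H_Visual

variable {Z : Type*} {q : Z → Z → EReal}

/-- facts on a product -/
structure IsProd (q : Z → Z → EReal) (c : ℝ) : Prop where
  top_iff : ∀ x y, q x y = ⊤ ↔ x = y
  comm : ∀ x y, q x y = q y x
  nonneg : ∀ x y, 0 ≤ q x y
  c_nonneg : 0 ≤ c
  four : ∀ x y z, min (q x y) (q y z) ≤ q x z + (c : EReal)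

variable {c : ℝ}

theorem IsProd.coe_toReal (h : IsProd q c) {x y : Z} (hxy : x ≠ y) :
    (((q x y).toReal : ℝ) : EReal) = q x y := by
  refine EReal.coe_toReal (fun ht => hxy ((h.top_iff x y).mp ht)) ?_
  intro hb
  have := h.nonneg x y
  rw [hb] at this
  simp at this

theorem IsProd.toReal_nonneg (h : IsProd q c) (x y : Z) : 0 ≤ (q x y).toReal :=
  EReal.toReal_nonneg (h.nonneg x y)

theorem IsProd.four_real (h : IsProd q c) {x y z : Z} (hxy : x ≠ y) (hyz : y ≠ z) (hxz : x ≠ z) :
    min (q x y).toReal (q y z).toReal ≤ (q x z).toReal + c := by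
  have h1 := h.four x y z
  rw [← h.coe_toReal hxy, ← h.coe_toReal hyz, ← h.coe_toReal hxz, ← EReal.coe_add] at h1
  have h2 : min (((q x y).toReal : ℝ) : EReal) (((q y z).toReal : ℝ) : EReal) =
      ((min (q x y).toReal (q y z).toReal : ℝ) : EReal) := by
    rcases le_total (q x y).toReal (q y z).toReal with h3 | h3
    · rw [min_eq_left h3, min_eq_left (EReal.coe_le_coe h3)]
    · rw [min_eq_right h3, min_eq_right (EReal.coe_le_coe h3)]
  rw [h2] at h1
  exact_mod_cast h1

/-- visual parameter -/
def eps (c : ℝ) : ℝ := Real.log 2 / (2 * c + 1)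

theorem eps_pos (hc : 0 ≤ c) : 0 < eps c := by
  unfold eps
  have := Real.log_pos (by norm_num : (1 : ℝ) < 2)
  positivity

theorem log_two_div_eps (hc : 0 ≤ c) : Real.log 2 / eps c = 2 * c + 1 := by
  unfold eps
  have := Real.log_pos (by norm_num : (1 : ℝ) < 2)
  have h2 : (2 * c + 1) ≠ 0 := by positivity
  field_simp

theorem exp_eps (hc : 0 ≤ c) : Real.exp (eps c * c) ^ 2 ≤ 2 := by
  rw [← Real.exp_nat_mul]
  have h1 : ((2 : ℕ) : ℝ) * (eps c * c) ≤ Real.log 2 := by
    have h2 : eps c * (2 * c + 1) = Real.log 2 := by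
      unfold eps
      have h2 : (2 * c + 1) ≠ 0 := by positivity
      field_simp
    have h3 := eps_pos hc
    push_cast
    nlinarith
  calc Real.exp (((2 : ℕ) : ℝ) * (eps c * c)) ≤ Real.exp (Real.log 2) := Real.exp_le_exp.mpr h1
    _ = 2 := Real.exp_log (by norm_num)

open Classical in
/-- the quasi-metric -/
def D (q : Z → Z → EReal) (c : ℝ) (x y : Z) : ℝ≥0 :=
  if x = y then 0 else Real.toNNReal (Real.exp (-(eps c) * (q x y).toReal))

theorem D_self (x : Z) : D q c x x = 0 := if_pos rfl

theorem D_of_ne {x y : Z} (h : x ≠ y) : (D q c x y : ℝ) = Real.exp (-(eps c) * (q x y).toReal) := by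
  unfold D
  rw [if_neg h, Real.coe_toNNReal _ (Real.exp_pos _).le]

theorem D_comm (h : IsProd q c) (x y : Z) : D q c x y = D q c y x := by
  unfold D
  by_cases hxy : x = y
  · rw [if_pos hxy, if_pos hxy.symm]
  · rw [if_neg hxy, if_neg (fun e => hxy e.symm)]
    rw [h.comm]

theorem D_quasi (h : IsProd q c) (x y z : Z) :
    (D q c x z : ℝ) ≤ Real.exp (eps c * c) * max (D q c x y : ℝ) (D q c y z : ℝ) := by
  have hε := eps_pos h.c_nonneg
  have h1 : 1 ≤ Real.exp (eps c * c) := Real.one_le_exp (mul_nonneg hε.le h.c_nonneg)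
  have h0 : 0 ≤ max (D q c x y : ℝ) (D q c y z : ℝ) := le_max_of_le_left (NNReal.coe_nonneg _)
  have h0' : max (D q c x y : ℝ) (D q c y z : ℝ) ≤
      Real.exp (eps c * c) * max (D q c x y : ℝ) (D q c y z : ℝ) := le_mul_of_one_le_left h0 h1
  by_cases hxz : x = z
  · subst hxz
    rw [D_self]
    push_cast
    positivity
  by_cases hxy : x = y
  · subst hxy
    exact (le_max_right _ _).trans h0'
  by_cases hyz : y = z
  · subst hyz
    exact (le_max_left _ _).trans h0'
  rw [D_of_ne hxz, D_of_ne hxy, D_of_ne hyz]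
  have h4 := h.four_real hxy hyz hxz
  rcases le_total (q x y).toReal (q y z).toReal with h5 | h5
  · rw [min_eq_left h5] at h4
    refine le_trans ?_ (mul_le_mul_of_nonneg_left (le_max_left _ _) (Real.exp_pos _).le)
    rw [← Real.exp_add]
    refine Real.exp_le_exp.mpr ?_
    nlinarith
  · rw [min_eq_right h5] at h4
    refine le_trans ?_ (mul_le_mul_of_nonneg_left (le_max_right _ _) (Real.exp_pos _).le)
    rw [← Real.exp_add]
    refine Real.exp_le_exp.mpr ?_
    nlinarith

theorem D_quasi4 (h : IsProd q c) (x y z w : Z) :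
    D q c x w ≤ 2 * max (D q c x y) (max (D q c y z) (D q c z w)) := by
  rw [← NNReal.coe_le_coe]
  push_cast
  have hε := eps_pos h.c_nonneg
  set K := Real.exp (eps c * c) with hK
  have h1 : 1 ≤ K := Real.one_le_exp (mul_nonneg hε.le h.c_nonneg)
  have h2 : K ^ 2 ≤ 2 := exp_eps h.c_nonneg
  have e1 := D_quasi h x y w
  have e2 := D_quasi h y z w
  rw [← hK] at e1 e2
  set a : ℝ := (D q c x y : ℝ)
  set b : ℝ := (D q c y z : ℝ)
  set d : ℝ := (D q c z w : ℝ)
  have ha : 0 ≤ a := NNReal.coe_nonneg _
  have hm : 0 ≤ max a (max b d) := le_max_of_le_left ha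
  have e3 : max a (D q c y w : ℝ) ≤ K * max a (max b d) := by
    refine max_le ?_ (e2.trans ?_)
    · calc a ≤ max a (max b d) := le_max_left _ _
        _ ≤ K * max a (max b d) := le_mul_of_one_le_left hm h1
    · exact mul_le_mul_of_nonneg_left (le_max_right _ _) (by linarith)
  calc (D q c x w : ℝ) ≤ K * max a (D q c y w : ℝ) := e1
    _ ≤ K * (K * max a (max b d)) := mul_le_mul_of_nonneg_left e3 (by linarith)
    _ = K ^ 2 * max a (max b d) := by ring
    _ ≤ 2 * max a (max b d) := mul_le_mul_of_nonneg_right h2 hm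

theorem exists_visual [t : TopologicalSpace Z] (h : IsProd q c)
    (hb : ∀ (x : Z) (U : Set Z), U ∈ 𝓝 x ↔ ∃ R : ℝ, {y | (R : EReal) < q x y} ⊆ U) :
    ∃ m : MetricSpace Z, m.toUniformSpace.toTopologicalSpace = t ∧
      (∀ x y, x ≠ y → Real.exp (-(eps c) * (q x y).toReal) / 2 ≤ m.dist x y) ∧
      (∀ x y, x ≠ y → m.dist x y ≤ Real.exp (-(eps c) * (q x y).toReal)) := by
  have hε := eps_pos h.c_nonneg
  let m0 : PseudoMetricSpace Z := PseudoMetricSpace.ofPreNNDist (D q c) D_self (D_comm h)
  have hle : ∀ x y, m0.dist x y ≤ D q c x y :=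
    PseudoMetricSpace.dist_ofPreNNDist_le (D q c) D_self (D_comm h)
  have hge : ∀ x y, (D q c x y : ℝ) ≤ 2 * m0.dist x y :=
    PseudoMetricSpace.le_two_mul_dist_ofPreNNDist (D q c) D_self (D_comm h) (D_quasi4 h)
  let m1 : MetricSpace Z :=
    { m0 with
      eq_of_dist_eq_zero := by
        intro x y hxy
        by_contra hne
        have h1 := hge x y
        have h2 : m0.dist x y = 0 := hxy
        rw [h2, D_of_ne hne] at h1
        have := Real.exp_pos (-(eps c) * (q x y).toReal)
        linarith }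
  have htop : t = m1.toUniformSpace.toTopologicalSpace := by
    refine TopologicalSpace.ext_nhds fun x => ?_
    ext U
    rw [hb x U]
    rw [@Metric.mem_nhds_iff Z m1.toPseudoMetricSpace x U]
    constructor
    · rintro ⟨R, hR⟩
      refine ⟨Real.exp (-(eps c) * (max R 0)) / 2, by positivity, fun y hy => hR ?_⟩
      show (R : EReal) < q x y
      by_cases hxy : x = y
      · rw [(h.top_iff x y).mpr hxy]; exact EReal.coe_lt_top R
      · rw [← h.coe_toReal hxy]
        refine EReal.coe_lt_coe_iff.mpr (lt_of_le_of_lt (le_max_left R 0) ?_)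
        have h1 : m0.dist y x < Real.exp (-(eps c) * (max R 0)) / 2 := hy
        have h2 := hge y x
        rw [D_of_ne (fun e => hxy e.symm), h.comm] at h2
        have h3 : Real.exp (-(eps c) * (q x y).toReal) < Real.exp (-(eps c) * (max R 0)) := by
          linarith
        have h4 := Real.exp_lt_exp.mp h3
        by_contra h5
        push Not at h5
        nlinarith
    · rintro ⟨r, hr, hrU⟩
      obtain ⟨R, hR⟩ : ∃ R : ℝ, Real.exp (-(eps c) * R) < r := by
        refine ⟨(-Real.log r + 1) / eps c, ?_⟩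
        have : -(eps c) * ((-Real.log r + 1) / eps c) = Real.log r - 1 := by
          field_simp
          ring
        rw [this]
        calc Real.exp (Real.log r - 1) < Real.exp (Real.log r) := Real.exp_lt_exp.mpr (by linarith)
          _ = r := Real.exp_log hr
      refine ⟨R, fun y hy => hrU ?_⟩
      show m0.dist y x < r
      by_cases hxy : x = y
      · subst hxy
        rw [m0.dist_self]; exact hr
      · have h1 : (R : EReal) < q x y := hy
        rw [← h.coe_toReal hxy, EReal.coe_lt_coe_iff] at h1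
        have h2 := hle y x
        rw [D_of_ne (fun e => hxy e.symm), h.comm] at h2
        refine lt_of_le_of_lt h2 (lt_of_le_of_lt (Real.exp_le_exp.mpr ?_) hR)
        nlinarith
  refine ⟨m1.replaceTopology htop, rfl, fun x y hxy => ?_, fun x y hxy => ?_⟩
  · have h1 := hge x y
    rw [D_of_ne hxy] at h1
    show _ ≤ m0.dist x y
    linarith
  · have h1 := hle x y
    rw [D_of_ne hxy] at h1
    exact h1

end Crest.Agent.R193.H_Visual
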