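import Mathlib
import Crest.Prelude.Def_WordHyperbolic
import Crest.Prelude.Def_CayleyBoundary
import Crest.Agent.R193.HypBdry
import Crest.Agent.R193.H_Visual

/-! Row 193 (helper586): the metric fields of `Setup` from the visual metric. -/

set_option autoImplicit false

namespace Crest.Agent.R193.H_Fields

open Crest.GroupTheory Filter Topology
open Crest.Agent.R193.Hyp Crest.Agent.R193.H_Visual

variable {G : Type*} [Group G] {S : Set G} {δ : ℝ}

theorem isProd_zz (hH : IsHyp S δ) : IsProd (zz : CayleyBoundary S → CayleyBoundary S → EReal) δ where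
  top_iff := fun _ _ => zz_eq_top_iff hH
  comm := zz_comm hH
  nonneg := fun _ _ => P_nonneg hH _ _
  c_nonneg := hH.nonneg
  four := fun x y z => P_four hH (Sum.inr x) (Sum.inr y) (Sum.inr z)

/-- THE VISUAL METRIC on the boundary -/
theorem exists_metric (hH : IsHyp S δ) : ∃ (ε : ℝ) (_ : 0 < ε) (δ' : ℝ) (_ : 0 ≤ δ')
    (m : MetricSpace (CayleyBoundary S)),
    m.toUniformSpace.toTopologicalSpace = CayleyBoundary.instTopologicalSpace ∧
    (∀ (x y : CayleyBoundary S) (g : G),
      m.dist x y ≤ Real.exp (-ε * (min (zg x g) (zg y g) - δ'))) ∧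
    (∀ (x y : CayleyBoundary S) (g : G), x ≠ y →
      min (zg x g) (-Real.log (m.dist x y) / ε) - δ' ≤ zg y g) := by
  have hε := eps_pos hH.nonneg
  obtain ⟨m, hm, h1, h2⟩ := exists_visual (q := (zz : CayleyBoundary S → CayleyBoundary S → EReal))
    (isProd_zz hH) (fun x U => by
      constructor
      · intro hU
        obtain ⟨N, hN⟩ := (mem_nhds_iff_zz hH).mp hU
        exact ⟨N, fun y hy => hN y hy⟩
      · rintro ⟨R, hR⟩
        exact Filter.mem_of_superset (ball_mem_nhds hH x R) hR)
  refine ⟨eps δ, hε, δ + (2 * δ + 1), by linarith [hH.nonneg], m, hm, fun x y g => ?_,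
    fun x y g hxy => ?_⟩
  · by_cases hxy : x = y
    · subst hxy
      have : m.dist x x = 0 := m.dist_self x
      rw [this]
      exact (Real.exp_pos _).le
    · refine (h2 x y hxy).trans (Real.exp_le_exp.mpr ?_)
      have h3 := four_zgz hH x y g (R := min (zg x g) (zg y g)) (min_le_left _ _) (min_le_right _ _)
      rw [← (isProd_zz hH).coe_toReal hxy, EReal.coe_le_coe_iff] at h3
      have := hH.nonneg
      nlinarith
  · have hd := h1 x y hxy
    set Q := (zz x y).toReal with hQ
    have hcoe : ((Q : ℝ) : EReal) = zz x y := (isProd_zz hH).coe_toReal hxy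
    have h3 : -Real.log (m.dist x y) / eps δ ≤ Q + (2 * δ + 1) := by
      rw [← log_two_div_eps hH.nonneg, div_le_iff₀ hε]
      have h4 : Real.log (Real.exp (-(eps δ) * Q) / 2) ≤ Real.log (m.dist x y) :=
        Real.log_le_log (by positivity) hd
      rw [Real.log_div (Real.exp_pos _).ne' (by norm_num), Real.log_exp] at h4
      have h5 : (Q + Real.log 2 / eps δ) * eps δ = Q * eps δ + Real.log 2 := by
        field_simp
      rw [h5]
      linarith
    have h6 := four_zzg hH y x g (R := min (zg x g) Q) (by
      rw [zz_comm hH, ← hcoe]; exact EReal.coe_le_coe (min_le_right _ _)) (min_le_left _ _)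
    have h7 : min (zg x g) (-Real.log (m.dist x y) / eps δ) ≤ min (zg x g) Q + (2 * δ + 1) := by
      have := hH.nonneg
      rcases le_total (zg x g) Q with h8 | h8
      · rw [min_eq_left h8]
        exact (min_le_left _ _).trans (by linarith)
      · rw [min_eq_right h8]
        exact (min_le_right _ _).trans h3
    linarith

end Crest.Agent.R193.H_Fields
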