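import Mathlib
import Crest.Prelude.Def_WordHyperbolic
import Crest.Prelude.Def_CayleyBoundary
import Crest.Agent.R193.HypBdry
import Crest.Agent.R193.HRay

/-! Row 193 (helper586): every group element points to a boundary point; exponential growth. -/

set_option autoImplicit false

namespace Crest.Agent.R193.H_Star

open Crest.GroupTheory Filter Topology
open Crest.Agent.R193.Hyp

variable {G : Type*} [Group G] {S : Set G} {δ : ℝ}

/-- value of the product at a class through any representative -/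
theorem le_zg_mk (hH : IsHyp S δ) (c : CayleyRay S) (g : G) (n : ℕ) :
    gp S (c.toFun n) g - 4 * δ ≤ zg (Quot.mk _ c) g := by
  have h1 := gp_le_zg hH (Quot.mk _ c) g n
  have h2 := rep_dist_le hH (γ := c) rfl n
  have h3 := gp_lip_left hH.gen (c.toFun n) (ray (Quot.mk _ c) n) g
  rw [abs_le] at h3
  linarith [h3.2]

theorem exists_star (hH : IsHyp S δ) (hnt : ∃ x y : CayleyBoundary S, x ≠ y) :
    ∃ C : ℝ, ∀ g : G, ∃ x : CayleyBoundary S, (wordLength S g : ℝ) - C ≤ zg x g := by
  obtain ⟨x, y, hxy⟩ := hnt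
  obtain ⟨K, hK⟩ := exists_zz_le hH hxy
  have hK0 : 0 ≤ K := by
    have h1 : (0 : EReal) ≤ (K : EReal) := (P_nonneg hH _ _).trans hK
    exact_mod_cast h1
  refine ⟨K + 8 * δ, fun g => ?_⟩
  -- one of the two points is away from `g⁻¹`
  obtain ⟨z, hz⟩ : ∃ z : CayleyBoundary S, zg z g⁻¹ ≤ K + δ := by
    by_contra hcon
    push Not at hcon
    have h1 := hcon x
    have h2 := hcon y
    have h3 := four_zgz hH x y g⁻¹ (R := min (zg x g⁻¹) (zg y g⁻¹)) (min_le_left _ _)
      (min_le_right _ _)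
    have h4 : ((min (zg x g⁻¹) (zg y g⁻¹) - δ : ℝ) : EReal) ≤ (K : EReal) := h3.trans hK
    rw [EReal.coe_le_coe_iff] at h4
    have h5 : K + δ < min (zg x g⁻¹) (zg y g⁻¹) := lt_min h1 h2
    linarith
  have hfin : ∀ n, {g : G | wordLength S g ≤ n}.Finite := fun n => Hyp.finite_ball hH.gen hH.fin n
  have hyp : H.Hyp S δ := fun a b c => IsHyp.gp_four hH a b c
  obtain ⟨c', hc'⟩ := H.exists_translate S hH.gen hfin hH.nonneg hyp g (rep z)
  refine ⟨Quot.mk _ c', ?_⟩
  set k := wordLength S g with hk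
  have h1 := hc' k (k + k) le_rfl
  have h2 := le_zg_mk hH c' g k
  have h3 : min (gp S (c'.toFun k) (g * (rep z).toFun (k + k)))
      (gp S (g * (rep z).toFun (k + k)) g) - δ ≤ gp S (c'.toFun k) g :=
    IsHyp.gp_four hH _ _ _
  have h4 : H.gp S (g * (rep z).toFun (k + k)) g + H.gp S ((rep z).toFun (k + k)) g⁻¹ =
      wordLength S g := H.gp_smul hH.gen g _
  have h5 : gp S (ray z (k + k)) g⁻¹ ≤ zg z g⁻¹ := gp_le_zg hH z g⁻¹ (k + k)
  change gp S (g * (rep z).toFun (k + k)) g + gp S ((rep z).toFun (k + k)) g⁻¹ =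
      wordLength S g at h4
  change gp S ((rep z).toFun (k + k)) g⁻¹ ≤ zg z g⁻¹ at h5
  change (k : ℝ) - δ ≤ gp S (c'.toFun k) (g * (rep z).toFun (k + k)) at h1
  have h6 : (k : ℝ) - δ - (K + δ) ≤ min (gp S (c'.toFun k) (g * (rep z).toFun (k + k)))
      (gp S (g * (rep z).toFun (k + k)) g) := by
    have := hH.nonneg
    refine le_min (by linarith) ?_
    rw [← hk] at h4
    linarith
  have := hH.nonneg
  linarith

/-- exponential growth of balls -/
theorem card_ball (S : Finset G) (hS : Subgroup.closure (S : Set G) = ⊤) :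
    ∃ v : ℝ, 0 < v ∧ ∀ n : ℕ,
      ({g : G | wordLength (S : Set G) g ≤ n}.ncard : ℝ) ≤ Real.exp (v * n) := by
  refine ⟨Real.log (2 * S.card + 2), Real.log_pos ?_, fun n => ?_⟩
  · have : (0 : ℝ) ≤ S.card := Nat.cast_nonneg _
    linarith
  · have h1 := H.card_ball_le S hS n
    rw [Set.ncard_eq_toFinset_card _ (H.finite_ball S hS n)]
    have h0 : (0 : ℝ) ≤ S.card := Nat.cast_nonneg _
    have h2 : Real.exp (Real.log (2 * S.card + 2) * n) = (2 * S.card + 2) ^ n := by
      rw [mul_comm, Real.exp_nat_mul, Real.exp_log (by linarith)]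
    rw [h2]
    calc ((H.finite_ball S hS n).toFinset.card : ℝ) ≤ (((2 * S.card + 1) ^ n : ℕ) : ℝ) := by
          exact_mod_cast h1
      _ = (2 * S.card + 1 : ℝ) ^ n := by push_cast; ring
      _ ≤ _ := pow_le_pow_left₀ (by linarith) (by linarith) n

end Crest.Agent.R193.H_Star
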