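import Mathlib
import Crest.Agent.R193.Defs
import Crest.Agent.R193.M_Defs
import Crest.Agent.R193.M2_Lim
import Crest.Agent.R193.M3_Level

/-!
# R193, block M2 (helper818): size of the level sets of the limit function
-/

set_option autoImplicit false

noncomputable section

open Set Filter Topology Metric MeasureTheory

namespace Crest.Agent.R193.M2_Lev

open Crest.Agent.R193 M2_Ring M2_Equi M2_Lim

variable {G Z : Type} [Group G] [MetricSpace Z] [MulAction G Z] {S : Setup G Z} {T : Tiles S}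

/-- the mid-line of the rectangle -/
def mid (χ : Chart Z) : Set Z := χ.f '' (Icc (0 : ℝ) 1 ×ˢ {(1 / 2 : ℝ)})

theorem mid_pre (χ : Chart Z) : IsPreconnected (mid χ) :=
  (isPreconnected_Icc.prod isPreconnected_singleton).image _ χ.emb.continuous.continuousOn

theorem mid_compact (χ : Chart Z) : IsCompact (mid χ) :=
  (isCompact_Icc.prod isCompact_singleton).image χ.emb.continuous

theorem mid_sub (χ : Chart Z) : mid χ ⊆ Qs χ := by
  apply image_mono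
  rintro ⟨a, b⟩ ⟨ha, hb⟩
  have : b = 1 / 2 := hb
  subst this
  exact ⟨ha, by norm_num, by norm_num⟩

theorem core_compact (χ : Chart Z) (s : ℝ) : IsCompact (χ.core s) :=
  (isCompact_Icc.prod isCompact_Icc).image χ.emb.continuous

theorem core_sub_Qo (χ : Chart Z) {s : ℝ} (hs : 0 < s) : χ.core s ⊆ χ.Qo := by
  apply image_mono
  rintro ⟨a, b⟩ ⟨⟨h1, h2⟩, ⟨h3, h4⟩⟩
  exact ⟨⟨by linarith, by linarith⟩, ⟨by linarith, by linarith⟩⟩

theorem Qo_sub_Qs (χ : Chart Z) : χ.Qo ⊆ Qs χ :=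
  image_mono (prod_mono Ioo_subset_Icc_self Subset.rfl)

theorem coreO_open (χ : Chart Z) (s : ℝ) : IsOpen (χ.coreO s) :=
  χ.emb.isOpenMap _ (isOpen_Ioo.prod isOpen_Ioo)

theorem core_sub_coreO (χ : Chart Z) {s s' : ℝ} (hs : s' < s) : χ.core s ⊆ χ.coreO s' := by
  apply image_mono
  rintro ⟨a, b⟩ ⟨⟨h1, h2⟩, ⟨h3, h4⟩⟩
  exact ⟨⟨by linarith, by linarith⟩, ⟨by linarith, by linarith⟩⟩

theorem coreO_sub_core (χ : Chart Z) (s : ℝ) : χ.coreO s ⊆ χ.core s :=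
  image_mono (prod_mono Ioo_subset_Icc_self Ioo_subset_Icc_self)

theorem coreO_sub_Qo (χ : Chart Z) {s : ℝ} (hs : 0 ≤ s) : χ.coreO s ⊆ χ.Qo := by
  apply image_mono
  rintro ⟨a, b⟩ ⟨⟨h1, h2⟩, ⟨h3, h4⟩⟩
  exact ⟨⟨by linarith, by linarith⟩, ⟨by linarith, by linarith⟩⟩

open Classical in
/-- two adjacent tiles on the mid-line on the two sides of the level `t` -/
theorem exists_crossing_mid (P : Rec T) {n : ℕ} (hn : n ∈ P.recs) {t : ℝ} (ht0 : 0 ≤ t)
    (ht1 : t < 1) : ∃ h ∈ T.V P.χ n, ∃ h' ∈ T.V P.χ n, ∃ z ∈ mid P.χ, z ∈ T.U h ∧ z ∈ T.U h' ∧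
      P.u n h ≤ t ∧ t < P.u n h' := by
  set A1 : Set Z := ⋃ h ∈ (T.V P.χ n).filter (fun h => P.u n h ≤ t), T.U h with hA1
  set A2 : Set Z := ⋃ h ∈ (T.V P.χ n).filter (fun h => t < P.u n h), T.U h with hA2
  have h1 : IsClosed A1 := isClosed_biUnion_finset fun h _ => T.isClosed h
  have h2 : IsClosed A2 := isClosed_biUnion_finset fun h _ => T.isClosed h
  have hmQ : mid P.χ ⊆ P.χ.Q := (mid_sub _).trans (Qs_sub_Q _)
  have hcov : mid P.χ ⊆ A1 ∪ A2 := by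
    intro z hz
    have hV := tl_V (T := T) n (hmQ hz)
    have hz' := (tl_mem (T := T) n z).2
    by_cases h : P.u n (tl T n z) ≤ t
    · left
      exact mem_iUnion₂.2 ⟨tl T n z, Finset.mem_filter.2 ⟨hV, h⟩, hz'⟩
    · right
      exact mem_iUnion₂.2 ⟨tl T n z, Finset.mem_filter.2 ⟨hV, not_le.1 h⟩, hz'⟩
  have hz0 : P.χ.f (0, 1 / 2) ∈ mid P.χ := ⟨(0, 1 / 2), ⟨⟨le_rfl, zero_le_one⟩, rfl⟩, rfl⟩
  have hz1 : P.χ.f (1, 1 / 2) ∈ mid P.χ := ⟨(1, 1 / 2), ⟨⟨zero_le_one, le_rfl⟩, rfl⟩, rfl⟩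
  have e0 : (mid P.χ ∩ A1).Nonempty := by
    refine ⟨_, hz0, ?_⟩
    have hV := tl_V (T := T) n (hmQ hz0)
    have hb := (P.sol n hn).bc.1 ⟨tl T n (P.χ.f (0, 1 / 2)), hV⟩
      ⟨_, (tl_mem n _).2, ⟨(0, 1 / 2), ⟨rfl, by norm_num, by norm_num⟩, rfl⟩⟩
    have hb' : P.u n (tl T n (P.χ.f (0, 1 / 2))) = 0 := hb
    exact mem_iUnion₂.2 ⟨_, Finset.mem_filter.2 ⟨hV, by rw [hb']; exact ht0⟩, (tl_mem n _).2⟩
  have e1 : (mid P.χ ∩ A2).Nonempty := by
    refine ⟨_, hz1, ?_⟩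
    have hV := tl_V (T := T) n (hmQ hz1)
    have hb := (P.sol n hn).bc.2 ⟨tl T n (P.χ.f (1, 1 / 2)), hV⟩
      ⟨_, (tl_mem n _).2, ⟨(1, 1 / 2), ⟨rfl, by norm_num, by norm_num⟩, rfl⟩⟩
    have hb' : P.u n (tl T n (P.χ.f (1, 1 / 2))) = 1 := hb
    exact mem_iUnion₂.2 ⟨_, Finset.mem_filter.2 ⟨hV, by rw [hb']; exact ht1⟩, (tl_mem n _).2⟩
  obtain ⟨z, hz, hza, hzb⟩ := isPreconnected_closed_iff.1 (mid_pre P.χ) A1 A2 h1 h2 hcov e0 e1
  obtain ⟨h, hh, hzh⟩ := mem_iUnion₂.1 hza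
  obtain ⟨h', hh', hzh'⟩ := mem_iUnion₂.1 hzb
  exact ⟨h, (Finset.mem_filter.1 hh).1, h', (Finset.mem_filter.1 hh').1, z, hz, hzh, hzh',
    (Finset.mem_filter.1 hh).2, (Finset.mem_filter.1 hh').2⟩

/-- union of a chain of tiles is preconnected -/
theorem chain_pre (T : Tiles S) (B : Set G) {h h1 : G}
    (hc : Relation.ReflTransGen (fun a b => T.adj a b ∧ b ∈ B) h h1) (hB : h ∈ B) :
    ∃ c : Set Z, IsPreconnected c ∧ T.U h ⊆ c ∧ T.U h1 ⊆ c ∧ ∀ y ∈ c, ∃ k ∈ B, y ∈ T.U k := by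
  induction hc with
  | refl => exact ⟨T.U h, (T.isConnected h).isPreconnected, Subset.rfl, Subset.rfl,
      fun y hy => ⟨h, hB, hy⟩⟩
  | @tail a b _ hab ih =>
    obtain ⟨c, hc1, hc2, hc3, hc4⟩ := ih
    obtain ⟨y, hy1, hy2⟩ := hab.1
    refine ⟨c ∪ T.U b, hc1.union y (hc3 hy1) hy2 (T.isConnected b).isPreconnected,
      hc2.trans subset_union_left, subset_union_right, ?_⟩
    rintro z (hz | hz)
    · exact hc4 z hz
    · exact ⟨b, hab.2, hz⟩

/-- **Connected sets of approximate level `t`** from the middle part of the mid-line to the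
complement of the core. -/
theorem exists_cont (Φ : Z ≃ₜ S2) (P : Rec T) (l : Ultrafilter ℕ) (w : Z → ℝ)
    (hl : (l : Filter ℕ) ≤ atTop) (hrec : P.recs ∈ (l : Filter ℕ))
    (hunif : ∀ K : Set Z, IsCompact K → K ⊆ Qs P.χ → ∀ e > 0, ∀ᶠ n in (l : Filter ℕ),
      ∀ h ∈ T.V P.χ n, ∀ y ∈ T.U h ∩ K, |P.u n h - w y| ≤ e)
    {s : ℝ} (hs : 0 < s) {t : ℝ} (ht0 : 0 ≤ t) (ht1 : t < 1) {η : ℝ} (hη : 0 < η) :
    ∃ (c : Set Z) (z : Z), IsPreconnected c ∧ z ∈ c ∧ z ∈ mid P.χ ∧ |w z - t| ≤ η ∧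
      (c ∩ P.χ.T).Nonempty ∧ ∀ y ∈ c ∩ P.χ.core s, |w y - t| ≤ η := by
  have hK1 : IsCompact (mid P.χ ∪ P.χ.core (s / 2)) :=
    (mid_compact _).union (core_compact _ _)
  have hK1s : mid P.χ ∪ P.χ.core (s / 2) ⊆ Qs P.χ :=
    union_subset (mid_sub _) ((core_sub_Qo _ (half_pos hs)).trans (Qo_sub_Qs _))
  obtain ⟨n1, hn1⟩ := small (T := T) (core_compact P.χ s) (coreO_open P.χ (s / 2))
    (core_sub_coreO P.χ (half_lt_self hs))
  have hev := hunif _ hK1 hK1s (η / 4) (by positivity)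
  obtain ⟨n, ⟨hn, hnr⟩, hnn1⟩ :=
    ((hev.and hrec).and (hl (eventually_ge_atTop n1))).exists
  obtain ⟨h, hh, h', hh', z, hz, hzh, hzh', hle, hlt⟩ :=
    exists_crossing_mid P hnr ht0 ht1
  have hadj : T.adj h h' := ⟨z, hzh, hzh'⟩
  have hlev : h ∈ T.lev P.χ n (P.u n) t := ⟨hh, h', hh', hadj, Or.inl ⟨hle, hlt⟩⟩
  obtain ⟨h1, hh1, hchain, hT⟩ := M3_Level.M3_adj T Φ P hnr ht0 ht1 hlev
  obtain ⟨c, hc1, hc2, hc3, hc4⟩ := chain_pre T _ hchain hlev
  refine ⟨c, z, hc1, hc2 hzh, hz, ?_, hT.mono (inter_subset_inter_left _ hc3), ?_⟩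
  · have a1 := hn h hh z ⟨hzh, Or.inl hz⟩
    have a2 := hn h' hh' z ⟨hzh', Or.inl hz⟩
    rw [abs_le] at a1 a2 ⊢
    constructor <;> linarith [a1.1, a1.2, a2.1, a2.2]
  · rintro y ⟨hyc, hys⟩
    obtain ⟨k, hk, hyk⟩ := hc4 y hyc
    obtain ⟨hkV, k', hk'V, ⟨x, hxk, hxk'⟩, hor⟩ := hk
    have hys' : y ∈ P.χ.core (s / 2) :=
      coreO_sub_core _ _ (core_sub_coreO _ (half_lt_self hs) hys)
    have a1 := hn k hkV y ⟨hyk, Or.inr hys'⟩
    have hkU : T.U k ⊆ P.χ.coreO (s / 2) :=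
      hn1 n hnn1 k (Setup.mem_sph.2 (Tiles.mem_V.1 hkV).1) ⟨y, hyk, hys⟩
    have hx' : x ∈ P.χ.core (s / 2) := coreO_sub_core _ _ (hkU hxk)
    have a2 := hn k hkV x ⟨hxk, Or.inr hx'⟩
    have a3 := hn k' hk'V x ⟨hxk', Or.inr hx'⟩
    rw [abs_le] at a1 a2 a3 ⊢
    rcases hor with hor | hor <;>
      constructor <;> linarith [a1.1, a1.2, a2.1, a2.2, a3.1, a3.2, hor.1, hor.2]

/-- Covering: a preconnected set of size `≥ d` needs `≥ d / D` sets of diameter `≤ D`. -/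
theorem card_cover {c : Set Z} (hc : IsPreconnected c) {x y : Z} (hx : x ∈ c) (hy : y ∈ c)
    {d D : ℝ} (hd : d ≤ dist y x) (hD : 0 ≤ D) (F : Finset G) (U : G → Set Z)
    (hU : ∀ h ∈ F, ∀ a ∈ U h, ∀ b ∈ U h, dist a b ≤ D)
    (hcov : ∀ z ∈ c, dist z x < d → ∃ h ∈ F, z ∈ U h) : d ≤ F.card * D := by
  set f : Z → ℝ := fun z => dist z x with hf
  have hfc : Continuous f := continuous_id.dist continuous_const
  have hIco : Ico 0 d ⊆ ⋃ h ∈ F, f '' U h := by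
    intro τ hτ
    have h1 : τ ∈ f '' c := by
      have := (hc.image f hfc.continuousOn).ordConnected
      refine this.out ⟨x, hx, dist_self x⟩ ⟨y, hy, rfl⟩ ⟨hτ.1, hτ.2.le.trans hd⟩
    obtain ⟨z, hz, hzτ⟩ := h1
    obtain ⟨h, hh, hzh⟩ := hcov z hz (by show f z < d; rw [hzτ]; exact hτ.2)
    exact mem_iUnion₂.2 ⟨h, hh, z, hzh, hzτ⟩
  have h1 : volume (Ico (0 : ℝ) d) ≤ ∑ h ∈ F, volume (f '' U h) :=
    (measure_mono hIco).trans (measure_biUnion_finset_le _ _)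
  have h2 : ∀ h ∈ F, volume (f '' U h) ≤ ENNReal.ofReal D := by
    intro h hh
    refine (Real.volume_le_diam _).trans ?_
    apply Metric.ediam_le
    rintro _ ⟨a, ha, rfl⟩ _ ⟨b, hb, rfl⟩
    rw [edist_dist]
    apply ENNReal.ofReal_le_ofReal
    rw [Real.dist_eq]
    refine (abs_dist_sub_le _ _ _).trans (hU h hh a ha b hb)
  have h3 := h1.trans (Finset.sum_le_sum h2)
  rw [Real.volume_Ico, sub_zero, Finset.sum_const, nsmul_eq_mul] at h3
  have h4 : ENNReal.ofReal d ≤ ENNReal.ofReal (F.card * D) := by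
    rw [ENNReal.ofReal_mul (by positivity), ENNReal.ofReal_natCast]
    exact h3
  rcases le_or_gt d 0 with h | h
  · exact h.trans (by positivity)
  · exact (ENNReal.ofReal_le_ofReal_iff (by positivity)).1 h4

theorem exists_pos_le (F : Finset G) (f : G → ℝ) (hf : ∀ h, 0 < f h) :
    ∃ η > 0, ∀ h ∈ F, η ≤ f h := by
  classical
  induction F using Finset.induction_on with
  | empty => exact ⟨1, one_pos, fun h hh => absurd hh (Finset.notMem_empty h)⟩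
  | @insert a F _ ih =>
    obtain ⟨η, hη, h1⟩ := ih
    refine ⟨min η (f a), lt_min hη (hf a), ?_⟩
    intro h hh
    rcases Finset.mem_insert.1 hh with rfl | hh
    · exact min_le_right _ _
    · exact (min_le_left _ _).trans (h1 h hh)

open Classical in
theorem zc_eq (T : Tiles S) (χ : Chart Z) (w : Z → ℝ) (s : ℝ) (i : ℕ) (t : ℝ) :
    zc T χ w s i t = ∑ h ∈ S.sph i, (if (T.U h ∩ χ.core s).Nonempty ∧
      t ∈ closure (w '' (T.U h ∩ χ.Qo)) then (1 : ℝ) else 0) := by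
  unfold zc
  rw [Finset.card_filter]
  push_cast
  exact Finset.sum_congr rfl fun h _ => by congr 1

theorem measurable_zc (T : Tiles S) (χ : Chart Z) (w : Z → ℝ) (s : ℝ) (i : ℕ) :
    Measurable (zc T χ w s i) := by
  classical
  have : zc T χ w s i = fun t => ∑ h ∈ S.sph i, (if (T.U h ∩ χ.core s).Nonempty ∧
      t ∈ closure (w '' (T.U h ∩ χ.Qo)) then (1 : ℝ) else 0) := by
    funext t
    exact zc_eq T χ w s i t
  rw [this]
  refine Finset.measurable_sum _ fun h _ => ?_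
  refine Measurable.ite ?_ measurable_const measurable_const
  by_cases hc : (T.U h ∩ χ.core s).Nonempty
  · have e : {t : ℝ | (T.U h ∩ χ.core s).Nonempty ∧ t ∈ closure (w '' (T.U h ∩ χ.Qo))} =
        closure (w '' (T.U h ∩ χ.Qo)) := by
      ext t
      simp [hc]
    rw [e]
    exact isClosed_closure.measurableSet
  · have e : {t : ℝ | (T.U h ∩ χ.core s).Nonempty ∧ t ∈ closure (w '' (T.U h ∩ χ.Qo))} = ∅ := by
      ext t
      simp [hc]
    rw [e]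
    exact MeasurableSet.empty

theorem zc_le (T : Tiles S) (χ : Chart Z) (w : Z → ℝ) (s : ℝ) (i : ℕ) (t : ℝ) :
    zc T χ w s i t ≤ (S.sph i).card := by
  classical
  rw [zc_eq, Finset.card_eq_sum_ones]
  push_cast
  refine Finset.sum_le_sum fun h _ => ?_
  split_ifs
  · exact le_rfl
  · exact zero_le_one

theorem zc_nonneg (T : Tiles S) (χ : Chart Z) (w : Z → ℝ) (s : ℝ) (i : ℕ) (t : ℝ) :
    0 ≤ zc T χ w s i t := by
  classical
  rw [zc_eq]
  refine Finset.sum_nonneg fun h _ => ?_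
  split_ifs
  · exact zero_le_one
  · exact le_rfl

open Classical in
/-- **Lower bound for the size of the level sets.** -/
theorem low (Φ : Z ≃ₜ S2) (P : Rec T) (l : Ultrafilter ℕ) (w : Z → ℝ)
    (hl : (l : Filter ℕ) ≤ atTop) (hrec : P.recs ∈ (l : Filter ℕ))
    (hcont : ContinuousOn w (Qs P.χ))
    (hw0 : ∀ b ∈ Ioo (0 : ℝ) 1, w (P.χ.f (0, b)) = 0)
    (hw1 : ∀ b ∈ Ioo (0 : ℝ) 1, w (P.χ.f (1, b)) = 1)
    (hunif : ∀ K : Set Z, IsCompact K → K ⊆ Qs P.χ → ∀ e > 0, ∀ᶠ n in (l : Filter ℕ),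
      ∀ h ∈ T.V P.χ n, ∀ y ∈ T.U h ∩ K, |P.u n h - w y| ≤ e)
    (w' : Z → ℝ) (hw' : ∀ x ∈ P.χ.Qo, w' x = w x) :
    ∃ s0 : ℝ, 0 < s0 ∧ s0 < 1 / 2 ∧ ∃ c > 0, ∃ a > 0, ∀ᶠ i : ℕ in atTop,
      c * Real.exp (a * i) ≤ ∫ t in Icc (1 / 4 : ℝ) (3 / 4), zc T P.χ w' s0 i t := by
  set χ := P.χ with hχ
  set g : ℝ → ℝ := fun a => w (χ.f (a, 1 / 2)) with hg
  have hgc : ContinuousOn g (Icc 0 1) := by
    refine hcont.comp (f := fun a : ℝ => χ.f (a, 1 / 2)) ?_ ?_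
    · exact (χ.emb.continuous.comp (by fun_prop : Continuous fun a : ℝ => (a, (1 / 2 : ℝ)))).continuousOn
    intro a ha
    exact ⟨(a, 1 / 2), ⟨ha, by norm_num, by norm_num⟩, rfl⟩
  have hg0 : g 0 = 0 := hw0 (1 / 2) ⟨by norm_num, by norm_num⟩
  have hg1 : g 1 = 1 := hw1 (1 / 2) ⟨by norm_num, by norm_num⟩
  rw [Metric.continuousOn_iff] at hgc
  obtain ⟨d1, hd1, h1⟩ := hgc 0 ⟨le_rfl, zero_le_one⟩ (1 / 8) (by norm_num)
  obtain ⟨d2, hd2, h2⟩ := hgc 1 ⟨zero_le_one, le_rfl⟩ (1 / 8) (by norm_num)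
  set a0 : ℝ := min (min d1 d2 / 2) (1 / 8) with ha0
  have ha0pos : 0 < a0 := by
    have := lt_min hd1 hd2
    exact lt_min (by linarith) (by norm_num)
  have ha08 : a0 ≤ 1 / 8 := min_le_right _ _
  have ha0d1 : a0 < d1 := by
    have h3 : a0 ≤ min d1 d2 / 2 := min_le_left _ _
    have h4 : min d1 d2 ≤ d1 := min_le_left _ _
    have := lt_min hd1 hd2
    linarith
  have ha0d2 : a0 < d2 := by
    have h3 : a0 ≤ min d1 d2 / 2 := min_le_left _ _
    have h4 : min d1 d2 ≤ d2 := min_le_right _ _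
    have := lt_min hd1 hd2
    linarith
  have hmid : ∀ a ∈ Icc (0 : ℝ) 1, 1 / 8 ≤ g a → g a ≤ 7 / 8 → a ∈ Icc a0 (1 - a0) := by
    intro a ha hga hgb
    constructor
    · by_contra hcon
      push Not at hcon
      have := h1 a ha (by rw [Real.dist_eq, sub_zero, abs_of_nonneg ha.1]; linarith)
      rw [hg0, Real.dist_eq, sub_zero, abs_lt] at this
      linarith [this.2]
    · by_contra hcon
      push Not at hcon
      have := h2 a ha (by rw [Real.dist_eq, abs_lt]; constructor <;> linarith [ha.2])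
      rw [hg1, Real.dist_eq, abs_lt] at this
      linarith [this.1]
  set s0 : ℝ := a0 / 2 with hs0
  have hs0pos : 0 < s0 := half_pos ha0pos
  set A0 : Set Z := χ.f '' (Icc a0 (1 - a0) ×ˢ {(1 / 2 : ℝ)}) with hA0
  have hA0c : IsCompact A0 := (isCompact_Icc.prod isCompact_singleton).image χ.emb.continuous
  have hA0s : A0 ⊆ χ.coreO s0 := by
    apply image_mono
    rintro ⟨a, b⟩ ⟨⟨h3, h4⟩, h5⟩
    have : b = 1 / 2 := h5
    subst this
    exact ⟨⟨by linarith, by linarith⟩, ⟨by linarith, by linarith⟩⟩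
  obtain ⟨d0, hd0, hth⟩ := hA0c.exists_thickening_subset_open (coreO_open χ s0) hA0s
  refine ⟨s0, hs0pos, by linarith, (1 / 2) * (d0 * Real.exp (-S.ε * (T.R + S.δ))),
    by positivity, S.ε, S.ε_pos, ?_⟩
  refine Eventually.of_forall fun i => ?_
  -- the pointwise bound
  have hpt : ∀ t ∈ Icc (1 / 4 : ℝ) (3 / 4),
      d0 * Real.exp (-S.ε * (T.R + S.δ)) * Real.exp (S.ε * i) ≤ zc T χ w' s0 i t := by
    intro t ht
    set F : Finset G := (S.sph i).filter (fun h => (T.U h ∩ χ.core s0).Nonempty ∧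
      t ∈ closure (w' '' (T.U h ∩ χ.Qo))) with hF
    have hzF : zc T χ w' s0 i t = F.card := by
      rw [zc_eq, hF, Finset.card_filter]
      push_cast
      rfl
    have hch : ∀ h : G, ∃ ηh : ℝ, 0 < ηh ∧ ((∃ y ∈ T.U h ∩ χ.Qo, |w' y - t| ≤ ηh) →
        t ∈ closure (w' '' (T.U h ∩ χ.Qo))) := by
      intro h
      by_cases hc : t ∈ closure (w' '' (T.U h ∩ χ.Qo))
      · exact ⟨1, one_pos, fun _ => hc⟩
      · have hc' := hc
        rw [Metric.mem_closure_iff] at hc'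
        push Not at hc'
        obtain ⟨e, he, hce⟩ := hc'
        refine ⟨e / 2, half_pos he, ?_⟩
        rintro ⟨y, hy, hyt⟩
        have := hce (w' y) ⟨y, hy, rfl⟩
        rw [Real.dist_eq, abs_sub_comm] at this
        linarith
    choose ηf hηf hηf' using hch
    obtain ⟨η1, hη1, hη1'⟩ := exists_pos_le (S.sph i) ηf hηf
    obtain ⟨c, z, hc1, hc2, hc3, hc4, hc5, hc6⟩ := exists_cont Φ P l w hl hrec hunif hs0pos
      (t := t) (by linarith [ht.1]) (by linarith [ht.2]) (η := min η1 (1 / 8))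
      (lt_min hη1 (by norm_num))
    have hzA : z ∈ A0 := by
      obtain ⟨⟨a, b⟩, ⟨ha, hb⟩, rfl⟩ := hc3
      have hb' : b = 1 / 2 := hb
      subst hb'
      have h3 : |g a - t| ≤ 1 / 8 := hc4.trans (min_le_right _ _)
      rw [abs_le] at h3
      exact ⟨(a, 1 / 2), ⟨hmid a ha (by linarith [h3.1, ht.1]) (by linarith [h3.2, ht.2]), rfl⟩, rfl⟩
    obtain ⟨y1, hy1c, hy1T⟩ := hc5
    have hfar : d0 ≤ dist y1 z := by
      by_contra hcon
      push Not at hcon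
      exact hy1T (coreO_sub_Qo χ hs0pos.le (hth (Metric.mem_thickening_iff.2 ⟨z, hzA, hcon⟩)))
    have hcard := card_cover hc1 hc2 hy1c hfar
      (D := Real.exp (-S.ε * ((i : ℝ) - T.R - S.δ))) (Real.exp_pos _).le F T.U ?_ ?_
    · rw [hzF]
      have e1 : Real.exp (-S.ε * ((i : ℝ) - T.R - S.δ)) *
          (Real.exp (-S.ε * (T.R + S.δ)) * Real.exp (S.ε * i)) = 1 := by
        rw [← Real.exp_add, ← Real.exp_add]
        convert Real.exp_zero using 2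
        ring
      have e2 : 0 < Real.exp (-S.ε * (T.R + S.δ)) * Real.exp (S.ε * i) := by positivity
      calc d0 * Real.exp (-S.ε * (T.R + S.δ)) * Real.exp (S.ε * i)
          = d0 * (Real.exp (-S.ε * (T.R + S.δ)) * Real.exp (S.ε * i)) := by ring
        _ ≤ (F.card * Real.exp (-S.ε * ((i : ℝ) - T.R - S.δ))) *
            (Real.exp (-S.ε * (T.R + S.δ)) * Real.exp (S.ε * i)) :=
            mul_le_mul_of_nonneg_right hcard e2.le
        _ = F.card * (Real.exp (-S.ε * ((i : ℝ) - T.R - S.δ)) *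
          (Real.exp (-S.ε * (T.R + S.δ)) * Real.exp (S.ε * i))) := by ring
        _ = F.card := by rw [e1, mul_one]
    · intro h hh a ha b hb
      have h3 := T_Comp.dist_le_of_Sh S (T.sub h ha) (T.sub h hb)
      rwa [Setup.mem_sph.1 (Finset.mem_filter.1 hh).1] at h3
    · intro y hy hyz
      have hyO : y ∈ χ.coreO s0 := hth (Metric.mem_thickening_iff.2 ⟨z, hzA, hyz⟩)
      have hyQ : y ∈ χ.Qo := coreO_sub_Qo χ hs0pos.le hyO
      have hyC : y ∈ χ.core s0 := coreO_sub_core χ s0 hyO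
      obtain ⟨h3, h4⟩ := tl_mem (T := T) i y
      refine ⟨tl T i y, Finset.mem_filter.2 ⟨h3, ⟨y, h4, hyC⟩, ?_⟩, h4⟩
      apply hηf' (tl T i y)
      refine ⟨y, ⟨h4, hyQ⟩, ?_⟩
      rw [hw' y hyQ]
      exact (hc6 y ⟨hy, hyC⟩).trans ((min_le_left _ _).trans (hη1' _ h3))
  -- integrate
  have hint : IntegrableOn (fun t => zc T χ w' s0 i t) (Icc (1 / 4 : ℝ) (3 / 4)) := by
    refine Measure.integrableOn_of_bounded (M := ((S.sph i).card : ℝ)) (by simp)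
      (measurable_zc T χ w' s0 i).aestronglyMeasurable ?_
    refine Eventually.of_forall fun t => ?_
    rw [Real.norm_eq_abs, abs_of_nonneg (zc_nonneg T χ w' s0 i t)]
    exact zc_le T χ w' s0 i t
  have hc : IntegrableOn (fun _ : ℝ => d0 * Real.exp (-S.ε * (T.R + S.δ)) * Real.exp (S.ε * i))
      (Icc (1 / 4 : ℝ) (3 / 4)) := by
    exact integrableOn_const (by simp) enorm_ne_top
  have := setIntegral_mono_on hc hint measurableSet_Icc hpt
  rw [setIntegral_const] at this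
  refine le_trans (le_of_eq ?_) this
  rw [Real.volume_real_Icc_of_le (by norm_num), smul_eq_mul]
  ring

end Crest.Agent.R193.M2_Lev
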