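import Mathlib
import Crest.Agent.R193.Defs
import Crest.Agent.R193.M_Defs
import Crest.Agent.R193.M2_Main
import Crest.Agent.R193.M5_Out
import Crest.Agent.R193.M_Asm

/-!
# R193, block M: `M_main` (bounded combinatorial moduli)

Assembly of M1 (helper260, helper878), M2 (helper818), M3 (helper878), M4-M5 (helper578),
M6 (helper983), M7 (helper635).
-/

set_option autoImplicit false

open Set Filter Topology MeasureTheory

namespace Crest.Agent.R193.M_Main

open Crest.Agent.R193

variable {G Z : Type} [Group G] [MetricSpace Z] [MulAction G Z]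

/-- BLOCK M: Theorem M, bounded moduli. -/
theorem M_main (S : Setup G Z) (T : Tiles S) (Φ : Z ≃ₜ S2) (ψ : Chart Z) :
    ∃ L : ℝ, ∀ n : ℕ, SepBound T n (ψ.D 1) (ψ.E 2) L :=
  M_Asm.M_main_of S T Φ (M2_Main.M2_main T Φ) (fun P Λ => M5.m5out Φ P Λ) ψ

end Crest.Agent.R193.M_Main
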