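import Mathlib
import Crest.Prelude.Def_HyperbolicThreeSpace

/-!
R193, block K: a group acting on a space homeomorphic to the Riemann sphere by Moebius or
anti-Moebius maps, properly and cocompactly on distinct triples, acts properly and cocompactly
on hyperbolic three-space.
-/

set_option autoImplicit false

namespace Crest.Agent.R193.K

open Crest.HyperbolicSpace OnePoint

noncomputable section

/-! ### coordinates -/

/-- the point of the upper half space over `x` at height `t` -/
def mkp (x : ℂ) (t : ℝ) (h : 0 < t) : UpperHalfSpace3 :=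
  ⟨!₂[x.re, x.im, t], by simpa using h⟩

/-- foot point -/
def cx (p : UpperHalfSpace3) : ℂ := ⟨p.1 0, p.1 1⟩

/-- height -/
def hh (p : UpperHalfSpace3) : ℝ := p.1 2

lemma hh_pos (p : UpperHalfSpace3) : 0 < hh p := p.2

@[simp] lemma cx_mkp (x : ℂ) (t : ℝ) (h : 0 < t) : cx (mkp x t h) = x := by
  simp [cx, mkp]

@[simp] lemma hh_mkp (x : ℂ) (t : ℝ) (h : 0 < t) : hh (mkp x t h) = t := by
  simp [hh, mkp]

lemma ext_pt {p q : UpperHalfSpace3} (h1 : cx p = cx q) (h2 : hh p = hh q) : p = q := by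
  apply Subtype.ext
  ext i
  have h1r := congrArg Complex.re h1
  have h1i := congrArg Complex.im h1
  simp only [cx] at h1r h1i
  fin_cases i
  · exact h1r
  · exact h1i
  · exact h2

lemma mkp_cx_hh (p : UpperHalfSpace3) : mkp (cx p) (hh p) (hh_pos p) = p :=
  ext_pt (by simp) (by simp)

lemma norm_sub_sq_eq (p q : UpperHalfSpace3) :
    ‖p.1 - q.1‖ ^ 2 = Complex.normSq (cx p - cx q) + (hh p - hh q) ^ 2 := by
  rw [EuclideanSpace.norm_sq_eq, Fin.sum_univ_three, Complex.normSq_apply]
  simp only [cx, hh, Real.norm_eq_abs, sq_abs, PiLp.sub_apply, Complex.sub_re, Complex.sub_im]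
  ring

lemma coshDist3_eq (p q : UpperHalfSpace3) :
    coshDist3 p q =
      1 + (Complex.normSq (cx p - cx q) + (hh p - hh q) ^ 2) / (2 * hh p * hh q) := by
  rw [coshDist3, norm_sub_sq_eq]
  rfl

/-- base point -/
def jj : UpperHalfSpace3 := mkp 0 1 one_pos

/-! ### Moebius and anti-Moebius maps -/

/-- inversion `z ↦ 1 / z` -/
def invMap : OnePoint ℂ → OnePoint ℂ
  | ∞ => ((0 : ℂ) : OnePoint ℂ)
  | (z : ℂ) => if z = 0 then ∞ else ((z⁻¹ : ℂ) : OnePoint ℂ)

/-- similarity `z ↦ a z + b` -/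
def simMap (a b : ℂ) : OnePoint ℂ → OnePoint ℂ
  | ∞ => ∞
  | (z : ℂ) => ((a * z + b : ℂ) : OnePoint ℂ)

/-- complex conjugation -/
def conjMap : OnePoint ℂ → OnePoint ℂ
  | ∞ => ∞
  | (z : ℂ) => (((starRingEnd ℂ) z : ℂ) : OnePoint ℂ)

/-- The group of Moebius and anti-Moebius maps, generated by similarities, conjugation and the
inversion. -/
inductive IsMob : (OnePoint ℂ → OnePoint ℂ) → Prop
  | id : IsMob id
  | comp {f g : OnePoint ℂ → OnePoint ℂ} : IsMob f → IsMob g → IsMob (f ∘ g)
  | sim (a b : ℂ) (ha : a ≠ 0) : IsMob (simMap a b)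
  | conj : IsMob conjMap
  | inv : IsMob invMap

@[simp] lemma invMap_infty : invMap ∞ = ((0 : ℂ) : OnePoint ℂ) := rfl
@[simp] lemma invMap_coe (z : ℂ) :
    invMap (z : OnePoint ℂ) = if z = 0 then ∞ else ((z⁻¹ : ℂ) : OnePoint ℂ) := rfl
@[simp] lemma simMap_infty (a b : ℂ) : simMap a b ∞ = ∞ := rfl
@[simp] lemma simMap_coe (a b z : ℂ) :
    simMap a b (z : OnePoint ℂ) = ((a * z + b : ℂ) : OnePoint ℂ) := rfl
@[simp] lemma conjMap_infty : conjMap ∞ = ∞ := rfl
@[simp] lemma conjMap_coe (z : ℂ) :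
    conjMap (z : OnePoint ℂ) = (((starRingEnd ℂ) z : ℂ) : OnePoint ℂ) := rfl

/-! ### the visual metric (squared) -/

/-- `|z - x|^2 + t^2` -/
def NN (p : UpperHalfSpace3) (z : ℂ) : ℝ := Complex.normSq (z - cx p) + hh p ^ 2

lemma NN_pos (p : UpperHalfSpace3) (z : ℂ) : 0 < NN p z := by
  have := Complex.normSq_nonneg (z - cx p)
  have := hh_pos p
  unfold NN
  positivity

/-- squared visual (chordal) distance of two boundary points, seen from `p` -/
def vis (p : UpperHalfSpace3) : OnePoint ℂ → OnePoint ℂ → ℝ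
  | ∞, ∞ => 0
  | ∞, (w : ℂ) => 4 * hh p ^ 2 / NN p w
  | (z : ℂ), ∞ => 4 * hh p ^ 2 / NN p z
  | (z : ℂ), (w : ℂ) => 4 * hh p ^ 2 * Complex.normSq (z - w) / (NN p z * NN p w)

@[simp] lemma vis_inf_inf (p : UpperHalfSpace3) : vis p ∞ ∞ = 0 := rfl
@[simp] lemma vis_inf_coe (p : UpperHalfSpace3) (w : ℂ) :
    vis p ∞ (w : OnePoint ℂ) = 4 * hh p ^ 2 / NN p w := rfl
@[simp] lemma vis_coe_inf (p : UpperHalfSpace3) (z : ℂ) :
    vis p (z : OnePoint ℂ) ∞ = 4 * hh p ^ 2 / NN p z := rfl
@[simp] lemma vis_coe_coe (p : UpperHalfSpace3) (z w : ℂ) :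
    vis p (z : OnePoint ℂ) (w : OnePoint ℂ) =
      4 * hh p ^ 2 * Complex.normSq (z - w) / (NN p z * NN p w) := rfl

lemma vis_comm (p : UpperHalfSpace3) (ξ η : OnePoint ℂ) : vis p ξ η = vis p η ξ := by
  induction ξ using OnePoint.rec <;> induction η using OnePoint.rec
  · rfl
  · simp
  · simp
  · rename_i z w
    simp only [vis_coe_coe]
    rw [Complex.normSq_sub, Complex.normSq_sub]
    have : ((z * (starRingEnd ℂ) w).re) = ((w * (starRingEnd ℂ) z).re) := by
      simp [Complex.mul_re]; ring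
    rw [this]; ring

lemma vis_nonneg (p : UpperHalfSpace3) (ξ η : OnePoint ℂ) : 0 ≤ vis p ξ η := by
  induction ξ using OnePoint.rec <;> induction η using OnePoint.rec
  · simp
  · rename_i w; have := NN_pos p w; simp only [vis_inf_coe]; positivity
  · rename_i w; have := NN_pos p w; simp only [vis_coe_inf]; positivity
  · rename_i z w
    have := NN_pos p w; have := NN_pos p z; have := Complex.normSq_nonneg (z - w)
    simp only [vis_coe_coe]; positivity

/-- the visual metric determines the base point -/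
lemma vis_inj {p q : UpperHalfSpace3} (h : ∀ ξ η, vis p ξ η = vis q ξ η) : p = q := by
  have hp := hh_pos p
  have hq := hh_pos q
  have h1 := h (cx p : OnePoint ℂ) ∞
  simp only [vis_coe_inf, NN, sub_self, map_zero, zero_add] at h1
  have e : Complex.normSq (cx p - cx q) = 0 := by
    have hn := Complex.normSq_nonneg (cx p - cx q)
    have h2 : 4 * hh p ^ 2 / hh p ^ 2 = 4 := by field_simp
    rw [h2, eq_div_iff (by positivity)] at h1
    linarith
  have hx : cx p = cx q := by
    have := Complex.normSq_eq_zero.mp e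
    exact sub_eq_zero.mp this
  refine ext_pt hx ?_
  have h3 := h ((cx p + 1 : ℂ) : OnePoint ℂ) ∞
  simp only [vis_coe_inf, NN, hx, add_sub_cancel_left, map_one] at h3
  rw [div_eq_div_iff (by positivity) (by positivity)] at h3
  have h4 : hh p ^ 2 = hh q ^ 2 := by nlinarith
  exact (pow_left_inj₀ hp.le hq.le two_ne_zero).mp h4

/-! ### extensions -/

/-- `F` extends the boundary map `f` -/
def Ext (F : UpperHalfSpace3 → UpperHalfSpace3) (f : OnePoint ℂ → OnePoint ℂ) : Prop :=
  ∀ p ξ η, vis (F p) (f ξ) (f η) = vis p ξ η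

lemma Ext.comp {F F' : UpperHalfSpace3 → UpperHalfSpace3} {f f' : OnePoint ℂ → OnePoint ℂ}
    (h : Ext F f) (h' : Ext F' f') : Ext (F ∘ F') (f ∘ f') := fun p ξ η => by
  simp only [Function.comp_apply]
  rw [h, h']

lemma Ext.unique {F F' : UpperHalfSpace3 → UpperHalfSpace3} {f : OnePoint ℂ → OnePoint ℂ}
    (hf : Function.Surjective f) (h : Ext F f) (h' : Ext F' f) : F = F' := by
  funext p
  apply vis_inj
  intro ξ η
  obtain ⟨ξ, rfl⟩ := hf ξ
  obtain ⟨η, rfl⟩ := hf η
  rw [h, h']

/-- extension of the similarity -/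
def simExt (a b : ℂ) (ha : a ≠ 0) (p : UpperHalfSpace3) : UpperHalfSpace3 :=
  mkp (a * cx p + b) (‖a‖ * hh p) (mul_pos (norm_pos_iff.mpr ha) (hh_pos p))

def conjExt (p : UpperHalfSpace3) : UpperHalfSpace3 :=
  mkp ((starRingEnd ℂ) (cx p)) (hh p) (hh_pos p)

lemma ss_pos (p : UpperHalfSpace3) : 0 < Complex.normSq (cx p) + hh p ^ 2 := by
  have := Complex.normSq_nonneg (cx p)
  have := hh_pos p
  positivity

def invExt (p : UpperHalfSpace3) : UpperHalfSpace3 :=
  mkp ((starRingEnd ℂ) (cx p) / ((Complex.normSq (cx p) + hh p ^ 2 : ℝ) : ℂ))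
    (hh p / (Complex.normSq (cx p) + hh p ^ 2)) (div_pos (hh_pos p) (ss_pos p))

lemma NN_simExt (a b : ℂ) (ha : a ≠ 0) (p : UpperHalfSpace3) (z : ℂ) :
    NN (simExt a b ha p) (a * z + b) = Complex.normSq a * NN p z := by
  simp only [NN, simExt, cx_mkp, hh_mkp]
  have : a * z + b - (a * cx p + b) = a * (z - cx p) := by ring
  rw [this, Complex.normSq_mul, mul_pow, ← Complex.normSq_eq_norm_sq]
  ring

lemma ext_sim (a b : ℂ) (ha : a ≠ 0) : Ext (simExt a b ha) (simMap a b) := by
  intro p ξ η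
  have hA : 0 < Complex.normSq a := Complex.normSq_pos.mpr ha
  have hh1 : hh (simExt a b ha p) ^ 2 = Complex.normSq a * hh p ^ 2 := by
    simp only [simExt, hh_mkp, mul_pow, ← Complex.normSq_eq_norm_sq]
  induction ξ using OnePoint.rec <;> induction η using OnePoint.rec
  · simp
  · rename_i w
    have := NN_pos p w
    simp only [simMap_infty, simMap_coe, vis_inf_coe, NN_simExt, hh1]
    field_simp
  · rename_i w
    have := NN_pos p w
    simp only [simMap_infty, simMap_coe, vis_coe_inf, NN_simExt, hh1]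
    field_simp
  · rename_i z w
    have := NN_pos p w
    have := NN_pos p z
    simp only [simMap_coe, vis_coe_coe, NN_simExt, hh1]
    have : a * z + b - (a * w + b) = a * (z - w) := by ring
    rw [this, Complex.normSq_mul]
    field_simp

lemma NN_conjExt (p : UpperHalfSpace3) (z : ℂ) :
    NN (conjExt p) ((starRingEnd ℂ) z) = NN p z := by
  simp only [NN, conjExt, cx_mkp, hh_mkp, ← map_sub, Complex.normSq_conj]

lemma ext_conj : Ext conjExt conjMap := by
  intro p ξ η
  have hh1 : hh (conjExt p) = hh p := by simp [conjExt]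
  induction ξ using OnePoint.rec <;> induction η using OnePoint.rec
  · simp
  · simp only [conjMap_infty, conjMap_coe, vis_inf_coe, NN_conjExt, hh1]
  · simp only [conjMap_infty, conjMap_coe, vis_coe_inf, NN_conjExt, hh1]
  · simp only [conjMap_coe, vis_coe_coe, NN_conjExt, hh1, ← map_sub, Complex.normSq_conj]

lemma hh_invExt (p : UpperHalfSpace3) :
    hh (invExt p) = hh p / (Complex.normSq (cx p) + hh p ^ 2) := by simp [invExt]

lemma NN_invExt (p : UpperHalfSpace3) (z : ℂ) (hz : z ≠ 0) :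
    NN (invExt p) z⁻¹ =
      NN p z / (Complex.normSq z * (Complex.normSq (cx p) + hh p ^ 2)) := by
  have hs := ss_pos p
  have hz' : 0 < Complex.normSq z := Complex.normSq_pos.mpr hz
  simp only [NN, invExt, cx_mkp, hh_mkp]
  set x := cx p
  set t := hh p
  set s : ℝ := Complex.normSq x + t ^ 2 with hsdef
  have hs0 : s ≠ 0 := hs.ne'
  have hz0 : Complex.normSq z ≠ 0 := hz'.ne'
  have e3 : (z⁻¹ * (starRingEnd ℂ) ((starRingEnd ℂ) x / (s : ℂ))).re
      = (z * (starRingEnd ℂ) x).re / (Complex.normSq z * s) := by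
    have : z⁻¹ * (starRingEnd ℂ) ((starRingEnd ℂ) x / (s : ℂ))
        = ((starRingEnd ℂ) z * x) / ((Complex.normSq z * s : ℝ) : ℂ) := by
      rw [map_div₀, Complex.conj_conj, Complex.conj_ofReal, Complex.inv_def]
      push_cast
      field_simp
    rw [this, Complex.div_ofReal_re]
    congr 1
    simp [Complex.mul_re]
  rw [Complex.normSq_sub, Complex.normSq_sub, e3, Complex.normSq_inv, Complex.normSq_div,
    Complex.normSq_conj, Complex.normSq_ofReal]
  have hx : Complex.normSq x = s - t ^ 2 := by rw [hsdef]; ring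
  rw [hx]
  field_simp
  ring

lemma NN_invExt_zero (p : UpperHalfSpace3) :
    NN (invExt p) 0 = 1 / (Complex.normSq (cx p) + hh p ^ 2) := by
  have hs := ss_pos p
  simp only [NN, invExt, cx_mkp, hh_mkp, zero_sub, Complex.normSq_neg, Complex.normSq_div,
    Complex.normSq_conj, Complex.normSq_ofReal]
  field_simp

lemma NN_zero (p : UpperHalfSpace3) : NN p 0 = Complex.normSq (cx p) + hh p ^ 2 := by
  simp [NN]

lemma ext_inv : Ext invExt invMap := by
  intro p ξ η
  have hs := ss_pos p
  have ht := hh_pos p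
  induction ξ using OnePoint.rec <;> induction η using OnePoint.rec
  · simp
  · rename_i w
    have hw' := NN_pos p w
    simp only [invMap_infty, invMap_coe]
    split_ifs with h
    · subst h
      rw [vis_coe_inf, vis_inf_coe, NN_invExt_zero, hh_invExt, NN_zero]
      field_simp
    · have h' : 0 < Complex.normSq w := Complex.normSq_pos.mpr h
      simp only [vis_coe_coe, vis_inf_coe, NN_invExt_zero, hh_invExt, zero_sub,
        Complex.normSq_neg, Complex.normSq_inv, NN_invExt p w h]
      field_simp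
  · rename_i w
    have hw' := NN_pos p w
    simp only [invMap_infty, invMap_coe]
    split_ifs with h
    · subst h
      rw [vis_inf_coe, vis_coe_inf, NN_invExt_zero, hh_invExt, NN_zero]
      field_simp
    · have h' : 0 < Complex.normSq w := Complex.normSq_pos.mpr h
      simp only [vis_coe_coe, vis_coe_inf, NN_invExt_zero, hh_invExt, sub_zero,
        Complex.normSq_neg, Complex.normSq_inv, NN_invExt p w h]
      field_simp
  · rename_i z w
    have hw' := NN_pos p w
    have hz' := NN_pos p z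
    simp only [invMap_coe]
    split_ifs with h h2 h2
    · subst h; subst h2; simp
    · subst h
      have h' : 0 < Complex.normSq w := Complex.normSq_pos.mpr h2
      simp only [vis_coe_coe, vis_inf_coe, hh_invExt, zero_sub,
        Complex.normSq_neg, NN_invExt p w h2, NN_zero]
      field_simp
    · subst h2
      have h' : 0 < Complex.normSq z := Complex.normSq_pos.mpr h
      simp only [vis_coe_coe, vis_coe_inf, hh_invExt, sub_zero,
        Complex.normSq_neg, NN_invExt p z h, NN_zero]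
      field_simp
    · have h1' : 0 < Complex.normSq w := Complex.normSq_pos.mpr h2
      have h2' : 0 < Complex.normSq z := Complex.normSq_pos.mpr h
      have e : z⁻¹ - w⁻¹ = (w - z) / (z * w) := by field_simp
      have e2 : Complex.normSq (w - z) = Complex.normSq (z - w) := by
        rw [← Complex.normSq_neg]; congr 1; ring
      simp only [vis_coe_coe, hh_invExt, NN_invExt p z h, NN_invExt p w h2, e,
        Complex.normSq_div, Complex.normSq_mul, e2]
      field_simp

/-! ### the extensions are isometries -/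

lemma simExt_simExt (a b : ℂ) (ha : a ≠ 0) (p : UpperHalfSpace3) :
    simExt a⁻¹ (-(a⁻¹ * b)) (inv_ne_zero ha) (simExt a b ha p) = p := by
  apply ext_pt
  · simp only [simExt, cx_mkp]
    field_simp
    ring
  · have : ‖a‖ ≠ 0 := norm_ne_zero_iff.mpr ha
    simp only [simExt, hh_mkp, norm_inv]
    field_simp

lemma simExt_simExt' (a b : ℂ) (ha : a ≠ 0) (p : UpperHalfSpace3) :
    simExt a b ha (simExt a⁻¹ (-(a⁻¹ * b)) (inv_ne_zero ha) p) = p := by
  apply ext_pt
  · simp only [simExt, cx_mkp]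
    field_simp
    ring
  · have : ‖a‖ ≠ 0 := norm_ne_zero_iff.mpr ha
    simp only [simExt, hh_mkp, norm_inv]
    field_simp

lemma cosh_sim (a b : ℂ) (ha : a ≠ 0) (p q : UpperHalfSpace3) :
    coshDist3 (simExt a b ha p) (simExt a b ha q) = coshDist3 p q := by
  have hA : 0 < ‖a‖ := norm_pos_iff.mpr ha
  have hp := hh_pos p
  have hq := hh_pos q
  simp only [coshDist3_eq, simExt, cx_mkp, hh_mkp]
  have : a * cx p + b - (a * cx q + b) = a * (cx p - cx q) := by ring
  rw [this, Complex.normSq_mul, Complex.normSq_eq_norm_sq a]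
  field_simp

def simIso (a b : ℂ) (ha : a ≠ 0) : isometryGroup3 :=
  ⟨{ toFun := simExt a b ha
     invFun := simExt a⁻¹ (-(a⁻¹ * b)) (inv_ne_zero ha)
     left_inv := simExt_simExt a b ha
     right_inv := simExt_simExt' a b ha }, fun p q => cosh_sim a b ha p q⟩

lemma conjExt_conjExt (p : UpperHalfSpace3) : conjExt (conjExt p) = p := by
  apply ext_pt <;> simp [conjExt]

lemma cosh_conj (p q : UpperHalfSpace3) :
    coshDist3 (conjExt p) (conjExt q) = coshDist3 p q := by
  simp only [coshDist3_eq, conjExt, cx_mkp, hh_mkp, ← map_sub, Complex.normSq_conj]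

def conjIso : isometryGroup3 :=
  ⟨{ toFun := conjExt
     invFun := conjExt
     left_inv := conjExt_conjExt
     right_inv := conjExt_conjExt }, fun p q => cosh_conj p q⟩

lemma ss_invExt (p : UpperHalfSpace3) :
    Complex.normSq (cx (invExt p)) + hh (invExt p) ^ 2
      = (Complex.normSq (cx p) + hh p ^ 2)⁻¹ := by
  have h := NN_invExt_zero p
  rw [NN_zero] at h
  rw [h, one_div]

lemma invExt_invExt (p : UpperHalfSpace3) : invExt (invExt p) = p := by
  have hs := ss_pos p
  have h1 := ss_invExt p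
  apply ext_pt
  · rw [invExt, cx_mkp, h1]
    simp only [invExt, cx_mkp, map_div₀, Complex.conj_conj, Complex.conj_ofReal]
    have : ((Complex.normSq (cx p) + hh p ^ 2 : ℝ) : ℂ) ≠ 0 := by
      exact_mod_cast hs.ne'
    push_cast at this ⊢
    field_simp
  · rw [hh_invExt, h1, hh_invExt]
    field_simp

lemma cosh_inv (p q : UpperHalfSpace3) :
    coshDist3 (invExt p) (invExt q) = coshDist3 p q := by
  have hs := ss_pos p
  have hr := ss_pos q
  have hp := hh_pos p
  have hq := hh_pos q
  have hss := ss_invExt p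
  have hrr := ss_invExt q
  have e : ((cx (invExt p)) * (starRingEnd ℂ) (cx (invExt q))).re
      = (cx p * (starRingEnd ℂ) (cx q)).re /
        ((Complex.normSq (cx p) + hh p ^ 2) * (Complex.normSq (cx q) + hh q ^ 2)) := by
    have : (cx (invExt p)) * (starRingEnd ℂ) (cx (invExt q))
        = ((starRingEnd ℂ) (cx p) * cx q) /
        (((Complex.normSq (cx p) + hh p ^ 2) * (Complex.normSq (cx q) + hh q ^ 2) : ℝ) : ℂ) := by
      simp only [invExt, cx_mkp, map_div₀, Complex.conj_conj, Complex.conj_ofReal]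
      push_cast
      rw [div_mul_div_comm]
    rw [this, Complex.div_ofReal_re]
    congr 1
    simp [Complex.mul_re]
  rw [coshDist3_eq, coshDist3_eq, Complex.normSq_sub, Complex.normSq_sub, e]
  have e1 : Complex.normSq (cx (invExt p)) =
      (Complex.normSq (cx p) + hh p ^ 2)⁻¹ - hh (invExt p) ^ 2 := by rw [← hss]; ring
  have e2 : Complex.normSq (cx (invExt q)) =
      (Complex.normSq (cx q) + hh q ^ 2)⁻¹ - hh (invExt q) ^ 2 := by rw [← hrr]; ring
  rw [e1, e2, hh_invExt, hh_invExt]
  set s : ℝ := Complex.normSq (cx p) + hh p ^ 2 with hsdef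
  set r : ℝ := Complex.normSq (cx q) + hh q ^ 2 with hrdef
  have f1 : Complex.normSq (cx p) = s - hh p ^ 2 := by rw [hsdef]; ring
  have f2 : Complex.normSq (cx q) = r - hh q ^ 2 := by rw [hrdef]; ring
  rw [f1, f2]
  field_simp
  ring

def invIso : isometryGroup3 :=
  ⟨{ toFun := invExt
     invFun := invExt
     left_inv := invExt_invExt
     right_inv := invExt_invExt }, fun p q => cosh_inv p q⟩

lemma exists_ext {f : OnePoint ℂ → OnePoint ℂ} (hf : IsMob f) :
    ∃ F : isometryGroup3, Ext (F : Equiv.Perm UpperHalfSpace3) f := by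
  induction hf with
  | id => exact ⟨1, fun p ξ η => rfl⟩
  | comp _ _ h1 h2 =>
    obtain ⟨F1, h1⟩ := h1
    obtain ⟨F2, h2⟩ := h2
    exact ⟨F1 * F2, h1.comp h2⟩
  | sim a b ha => exact ⟨simIso a b ha, ext_sim a b ha⟩
  | conj => exact ⟨conjIso, ext_conj⟩
  | inv => exact ⟨invIso, ext_inv⟩

/-! ### comparison with the base point -/

/-- Poisson weight -/
def PP (q : UpperHalfSpace3) : OnePoint ℂ → ℝ
  | ∞ => hh q
  | (z : ℂ) => hh q * (1 + Complex.normSq z) / NN q z

@[simp] lemma PP_inf (q : UpperHalfSpace3) : PP q ∞ = hh q := rfl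
@[simp] lemma PP_coe (q : UpperHalfSpace3) (z : ℂ) :
    PP q (z : OnePoint ℂ) = hh q * (1 + Complex.normSq z) / NN q z := rfl

lemma PP_pos (q : UpperHalfSpace3) (ξ : OnePoint ℂ) : 0 < PP q ξ := by
  have := hh_pos q
  induction ξ using OnePoint.rec with
  | infty => simpa
  | coe z =>
    have := NN_pos q z
    have := Complex.normSq_nonneg z
    simp only [PP_coe]
    positivity

lemma cx_jj : cx jj = 0 := by simp [jj]
lemma hh_jj : hh jj = 1 := by simp [jj]
lemma NN_jj (z : ℂ) : NN jj z = 1 + Complex.normSq z := by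
  simp [NN, cx_jj, hh_jj, add_comm]

lemma vis_eq (q : UpperHalfSpace3) (ξ η : OnePoint ℂ) :
    vis q ξ η = vis jj ξ η * PP q ξ * PP q η := by
  have := hh_pos q
  induction ξ using OnePoint.rec <;> induction η using OnePoint.rec
  · simp
  · rename_i w
    have := NN_pos q w
    have := Complex.normSq_nonneg w
    simp only [vis_inf_coe, PP_inf, PP_coe, NN_jj, hh_jj]
    field_simp
  · rename_i w
    have := NN_pos q w
    have := Complex.normSq_nonneg w
    simp only [vis_coe_inf, PP_inf, PP_coe, NN_jj, hh_jj]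
    field_simp
  · rename_i z w
    have := NN_pos q w
    have := NN_pos q z
    have := Complex.normSq_nonneg w
    have := Complex.normSq_nonneg z
    simp only [vis_coe_coe, PP_coe, NN_jj, hh_jj]
    field_simp

lemma cosh_jj (q : UpperHalfSpace3) :
    coshDist3 q jj = (1 + Complex.normSq (cx q) + hh q ^ 2) / (2 * hh q) := by
  have := hh_pos q
  rw [coshDist3_eq, cx_jj, hh_jj, sub_zero]
  field_simp
  ring

lemma antipodal_aux (q : UpperHalfSpace3) (z w : ℂ)
    (h : vis q (z : OnePoint ℂ) (w : OnePoint ℂ) = 4) :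
    (z - cx q) * (starRingEnd ℂ) (w - cx q) = -((hh q ^ 2 : ℝ) : ℂ) := by
  have h1 := NN_pos q z
  have h2 := NN_pos q w
  rw [vis_coe_coe, div_eq_iff (by positivity)] at h
  have key : Complex.normSq ((z - cx q) * (starRingEnd ℂ) (w - cx q) + ((hh q ^ 2 : ℝ) : ℂ)) = 0 := by
    rw [Complex.normSq_add, Complex.normSq_mul, Complex.normSq_conj, Complex.normSq_ofReal,
      Complex.conj_ofReal, Complex.re_mul_ofReal]
    have e : z - w = (z - cx q) - (w - cx q) := by ring
    rw [e, Complex.normSq_sub] at h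
    simp only [NN] at h
    nlinarith
  have := Complex.normSq_eq_zero.mp key
  exact eq_neg_of_add_eq_zero_left this

lemma cosh_eq_of_antipodal (q : UpperHalfSpace3) (ξ η : OnePoint ℂ) (h : vis q ξ η = 4) :
    coshDist3 q jj = (PP q ξ + PP q η) / 2 := by
  have ht := hh_pos q
  rw [cosh_jj]
  induction ξ using OnePoint.rec <;> induction η using OnePoint.rec
  · simp at h
  · rename_i w
    have hw := NN_pos q w
    rw [vis_inf_coe, div_eq_iff (by positivity)] at h
    have : Complex.normSq (w - cx q) = 0 := by simp only [NN] at h; linarith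
    have hx : w = cx q := sub_eq_zero.mp (Complex.normSq_eq_zero.mp this)
    subst hx
    simp only [PP_inf, PP_coe, NN, sub_self, map_zero, zero_add]
    field_simp
    ring
  · rename_i w
    have hw := NN_pos q w
    rw [vis_coe_inf, div_eq_iff (by positivity)] at h
    have : Complex.normSq (w - cx q) = 0 := by simp only [NN] at h; linarith
    have hx : w = cx q := sub_eq_zero.mp (Complex.normSq_eq_zero.mp this)
    subst hx
    simp only [PP_inf, PP_coe, NN, sub_self, map_zero, zero_add]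
    field_simp
  · rename_i z w
    have key := antipodal_aux q z w h
    set x := cx q with hx
    set t := hh q with htdef
    set u := z - x with hu
    set v := w - x with hv
    have hu0 : u ≠ 0 := by
      intro h0
      rw [h0, zero_mul] at key
      have : ((t ^ 2 : ℝ) : ℂ) = 0 := by
        have := congrArg Neg.neg key
        simpa using this.symm
      have : t ^ 2 = 0 := by exact_mod_cast this
      nlinarith
    have hU : 0 < Complex.normSq u := Complex.normSq_pos.mpr hu0
    have hNz : NN q z = Complex.normSq u + t ^ 2 := rfl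
    have hNw : NN q w = Complex.normSq v + t ^ 2 := rfl
    have hvn : Complex.normSq v = t ^ 4 / Complex.normSq u := by
      have := congrArg Complex.normSq key
      rw [Complex.normSq_mul, Complex.normSq_conj, Complex.normSq_neg, Complex.normSq_ofReal] at this
      field_simp
      linarith
    have hzz : z = x + u := by rw [hu]; ring
    have hww : w = x + v := by rw [hv]; ring
    -- the real part of `x * conj v`
    have hre : (x * (starRingEnd ℂ) v).re = -(t ^ 2) * (x * (starRingEnd ℂ) u).re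
        / Complex.normSq u := by
      have e : x * (starRingEnd ℂ) v = -((t ^ 2 : ℝ) : ℂ) * (x * (starRingEnd ℂ) u)
          / ((Complex.normSq u : ℝ) : ℂ) := by
        have h3 : (starRingEnd ℂ) v = -((t ^ 2 : ℝ) : ℂ) / u := by
          field_simp
          rw [mul_comm]; exact key
        rw [h3, Complex.normSq_eq_conj_mul_self]
        have : (starRingEnd ℂ) u ≠ 0 := by simpa using hu0
        field_simp
      rw [e, Complex.div_ofReal_re, ← Complex.ofReal_neg, Complex.re_ofReal_mul]
    simp only [PP_coe, hNz, hNw]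
    rw [hzz, hww, Complex.normSq_add, Complex.normSq_add, hre, hvn]
    field_simp
    ring

/-! ### continuity and compactness -/

/-- inverse stereographic projection -/
def sg : OnePoint ℂ → ℂ × ℝ
  | ∞ => (0, 1)
  | (z : ℂ) => (((2 / (1 + Complex.normSq z) : ℝ) : ℂ) * z, 1 - 2 / (1 + Complex.normSq z))

@[simp] lemma sg_inf : sg ∞ = (0, 1) := rfl
@[simp] lemma sg_coe (z : ℂ) : sg (z : OnePoint ℂ) =
  (((2 / (1 + Complex.normSq z) : ℝ) : ℂ) * z, 1 - 2 / (1 + Complex.normSq z)) := rfl

lemma vis_jj_eq (ξ η : OnePoint ℂ) :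
    vis jj ξ η = Complex.normSq ((sg ξ).1 - (sg η).1) + ((sg ξ).2 - (sg η).2) ^ 2 := by
  induction ξ using OnePoint.rec <;> induction η using OnePoint.rec
  · simp
  · rename_i w
    have hw := Complex.normSq_nonneg w
    simp only [vis_inf_coe, sg_inf, sg_coe, NN_jj, hh_jj, zero_sub, Complex.normSq_neg,
      Complex.normSq_mul, Complex.normSq_ofReal]
    field_simp
    ring
  · rename_i w
    have hw := Complex.normSq_nonneg w
    simp only [vis_coe_inf, sg_inf, sg_coe, NN_jj, hh_jj, sub_zero,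
      Complex.normSq_mul, Complex.normSq_ofReal]
    field_simp
    ring
  · rename_i z w
    have hw := Complex.normSq_nonneg w
    have hz := Complex.normSq_nonneg z
    simp only [vis_coe_coe, sg_coe, NN_jj, hh_jj]
    rw [Complex.normSq_sub, Complex.normSq_sub, Complex.normSq_mul, Complex.normSq_ofReal,
      Complex.normSq_mul, Complex.normSq_ofReal, map_mul, Complex.conj_ofReal]
    have e : (((2 / (1 + Complex.normSq z) : ℝ) : ℂ) * z *
        (((2 / (1 + Complex.normSq w) : ℝ) : ℂ) * (starRingEnd ℂ) w)).re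
        = (2 / (1 + Complex.normSq z)) * (2 / (1 + Complex.normSq w)) *
          (z * (starRingEnd ℂ) w).re := by
      have : ((2 / (1 + Complex.normSq z) : ℝ) : ℂ) * z *
        (((2 / (1 + Complex.normSq w) : ℝ) : ℂ) * (starRingEnd ℂ) w)
        = (((2 / (1 + Complex.normSq z)) * (2 / (1 + Complex.normSq w)) : ℝ) : ℂ) *
          (z * (starRingEnd ℂ) w) := by
        push_cast; ring
      rw [this, Complex.re_ofReal_mul]
    rw [e]
    field_simp
    ring

lemma continuous_sg : Continuous sg := by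
  rw [OnePoint.continuous_iff]
  constructor
  · have h1 : Filter.Tendsto (fun z : ℂ => 2 / (1 + Complex.normSq z)) (Filter.cocompact ℂ)
        (nhds 0) := by
      have h2 : Filter.Tendsto (fun z : ℂ => 1 + Complex.normSq z) (Filter.cocompact ℂ)
          Filter.atTop := by
        have h3 := tendsto_norm_cocompact_atTop (E := ℂ)
        have h4 : Filter.Tendsto (fun z : ℂ => ‖z‖ ^ 2) (Filter.cocompact ℂ) Filter.atTop :=
          (Filter.tendsto_pow_atTop two_ne_zero).comp h3
        have h5 := Filter.tendsto_atTop_add_const_left (Filter.cocompact ℂ) (1 : ℝ) h4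
        simpa [Complex.normSq_eq_norm_sq] using h5
      exact Filter.Tendsto.div_atTop tendsto_const_nhds h2
    have h6 : Filter.Tendsto (fun z : ℂ => ((2 / (1 + Complex.normSq z) : ℝ) : ℂ) * z)
        (Filter.cocompact ℂ) (nhds 0) := by
      rw [tendsto_zero_iff_norm_tendsto_zero]
      have h7 : Filter.Tendsto (fun z : ℂ => Real.sqrt (2 * (2 / (1 + Complex.normSq z))))
          (Filter.cocompact ℂ) (nhds 0) := by
        have := (Real.continuous_sqrt.tendsto _).comp (h1.const_mul 2)
        rw [mul_zero, Real.sqrt_zero] at this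
        exact this
      refine squeeze_zero (fun _ => norm_nonneg _) (fun z => ?_) h7
      have hz := Complex.normSq_nonneg z
      apply Real.le_sqrt_of_sq_le
      rw [norm_mul, mul_pow, Complex.norm_real, Real.norm_eq_abs, sq_abs,
        ← Complex.normSq_eq_norm_sq]
      rw [div_pow, div_mul_eq_mul_div, mul_div_assoc', div_le_div_iff₀ (by positivity)
        (by positivity)]
      nlinarith
    have h8 : Filter.Tendsto (fun z : ℂ => (1 : ℝ) - 2 / (1 + Complex.normSq z))
        (Filter.cocompact ℂ) (nhds 1) := by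
      simpa using h1.const_sub 1
    rw [Filter.coclosedCompact_eq_cocompact]
    exact h6.prodMk_nhds h8
  · have h : Continuous fun z : ℂ => 2 / (1 + Complex.normSq z) := by
      apply Continuous.div continuous_const (continuous_const.add Complex.continuous_normSq)
      intro z
      have := Complex.normSq_nonneg z
      have h' : 0 < 1 + Complex.normSq z := by linarith
      exact h'.ne'
    exact ((Complex.continuous_ofReal.comp h).mul continuous_id).prodMk (continuous_const.sub h)

lemma continuous_vis_jj : Continuous fun p : OnePoint ℂ × OnePoint ℂ => vis jj p.1 p.2 := by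
  have h1 := continuous_sg.comp (continuous_fst (X := OnePoint ℂ) (Y := OnePoint ℂ))
  have h2 := continuous_sg.comp (continuous_snd (X := OnePoint ℂ) (Y := OnePoint ℂ))
  simp only [vis_jj_eq]
  refine (Complex.continuous_normSq.comp (h1.fst.sub h2.fst)).add ((h1.snd.sub h2.snd).pow 2)

lemma vis_jj_le (ξ η : OnePoint ℂ) : vis jj ξ η ≤ 4 := by
  induction ξ using OnePoint.rec <;> induction η using OnePoint.rec
  · simp
  · rename_i w
    have hw := Complex.normSq_nonneg w
    simp only [vis_inf_coe, NN_jj, hh_jj]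
    rw [div_le_iff₀ (by positivity)]
    nlinarith
  · rename_i w
    have hw := Complex.normSq_nonneg w
    simp only [vis_coe_inf, NN_jj, hh_jj]
    rw [div_le_iff₀ (by positivity)]
    nlinarith
  · rename_i z w
    have hw := Complex.normSq_nonneg w
    have hz := Complex.normSq_nonneg z
    simp only [vis_coe_coe, NN_jj, hh_jj]
    rw [div_le_iff₀ (by positivity)]
    have h1 := Complex.normSq_nonneg (1 + z * (starRingEnd ℂ) w)
    rw [Complex.normSq_add, Complex.normSq_mul, Complex.normSq_conj, map_one, one_mul] at h1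
    have e : ((starRingEnd ℂ) (z * (starRingEnd ℂ) w)).re = (z * (starRingEnd ℂ) w).re := by
      simp [Complex.mul_re]
    rw [e] at h1
    rw [Complex.normSq_sub]
    nlinarith

lemma vis_jj_pos {ξ η : OnePoint ℂ} (h : ξ ≠ η) : 0 < vis jj ξ η := by
  induction ξ using OnePoint.rec <;> induction η using OnePoint.rec
  · exact absurd rfl h
  · rename_i w
    have hw := Complex.normSq_nonneg w
    simp only [vis_inf_coe, NN_jj, hh_jj]
    positivity
  · rename_i w
    have hw := Complex.normSq_nonneg w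
    simp only [vis_coe_inf, NN_jj, hh_jj]
    positivity
  · rename_i z w
    have hw := Complex.normSq_nonneg w
    have hz := Complex.normSq_nonneg z
    have : z - w ≠ 0 := sub_ne_zero.mpr (fun e => h (by rw [e]))
    have := Complex.normSq_pos.mpr this
    simp only [vis_coe_coe, NN_jj, hh_jj]
    positivity

lemma PP_le (q : UpperHalfSpace3) (ξ : OnePoint ℂ) : PP q ξ ≤ 2 * coshDist3 q jj := by
  have ht := hh_pos q
  rw [cosh_jj]
  induction ξ using OnePoint.rec with
  | infty =>
    have := Complex.normSq_nonneg (cx q)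
    simp only [PP_inf]
    rw [mul_div_assoc', le_div_iff₀ (by positivity)]
    nlinarith
  | coe z =>
    have hz := NN_pos q z
    have hx := Complex.normSq_nonneg (cx q)
    have hu := Complex.normSq_nonneg (z - cx q)
    simp only [PP_coe]
    rw [mul_div_assoc', div_le_div_iff₀ hz (by positivity)]
    have h1 := Complex.normSq_nonneg (cx q * (starRingEnd ℂ) (z - cx q) - ((hh q ^ 2 : ℝ) : ℂ))
    rw [Complex.normSq_sub, Complex.normSq_mul, Complex.normSq_conj, Complex.normSq_ofReal,
      Complex.conj_ofReal, Complex.re_mul_ofReal] at h1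
    have e : z = cx q + (z - cx q) := by ring
    have e2 : Complex.normSq z = Complex.normSq (cx q) + Complex.normSq (z - cx q)
        + 2 * (cx q * (starRingEnd ℂ) (z - cx q)).re := by
      conv_lhs => rw [e]
      rw [Complex.normSq_add]
    rw [e2]
    simp only [NN]
    nlinarith

/-- the standard triple seen from `p` -/
def tri (p : UpperHalfSpace3) : Fin 3 → OnePoint ℂ :=
  ![(cx p : OnePoint ℂ), ∞, ((cx p + (hh p : ℂ) : ℂ) : OnePoint ℂ)]

lemma vis_tri01 (p : UpperHalfSpace3) : vis p (cx p : OnePoint ℂ) ∞ = 4 := by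
  have := hh_pos p
  simp only [vis_coe_inf, NN, sub_self, map_zero, zero_add]
  field_simp

lemma vis_tri21 (p : UpperHalfSpace3) :
    vis p ((cx p + (hh p : ℂ) : ℂ) : OnePoint ℂ) ∞ = 2 := by
  have := hh_pos p
  simp only [vis_coe_inf, NN, add_sub_cancel_left, Complex.normSq_ofReal]
  field_simp
  ring

lemma vis_tri02 (p : UpperHalfSpace3) :
    vis p (cx p : OnePoint ℂ) ((cx p + (hh p : ℂ) : ℂ) : OnePoint ℂ) = 2 := by
  have := hh_pos p
  have e : cx p - (cx p + (hh p : ℂ)) = -(hh p : ℂ) := by ring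
  simp only [vis_coe_coe, NN, add_sub_cancel_left, sub_self, map_zero, zero_add, e,
    Complex.normSq_ofReal, Complex.normSq_neg]
  field_simp
  ring

/-- the distance bound from a separated regular triple -/
lemma cosh_le_of_regular (q : UpperHalfSpace3) (ξ η ζ : OnePoint ℂ) {δ : ℝ} (hδ : 0 < δ)
    (h1 : vis q ξ η = 4) (h2 : vis q ξ ζ = 2) (h3 : vis q η ζ = 2)
    (d1 : δ ≤ vis jj ξ η) (d2 : δ ≤ vis jj ξ ζ) (d3 : δ ≤ vis jj η ζ) :
    coshDist3 q jj ≤ 4 / δ := by
  have e := cosh_eq_of_antipodal q ξ η h1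
  have p1 := PP_pos q ξ
  have p2 := PP_pos q η
  have p3 := PP_pos q ζ
  rw [vis_eq] at h1 h2 h3
  have u2 := vis_jj_le ξ ζ
  have u3 := vis_jj_le η ζ
  have a1 : δ * (PP q ξ * PP q η) ≤ 4 := by
    have : 0 < PP q ξ * PP q η := by positivity
    nlinarith
  have a2 : δ * (PP q ξ * PP q ζ) ≤ 2 := by
    have : 0 < PP q ξ * PP q ζ := by positivity
    nlinarith
  have a3 : δ * (PP q η * PP q ζ) ≤ 2 := by
    have : 0 < PP q η * PP q ζ := by positivity
    nlinarith
  have b2 : 1 ≤ 2 * (PP q ξ * PP q ζ) := by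
    have : 0 < PP q ξ * PP q ζ := by positivity
    nlinarith
  have b3 : 1 ≤ 2 * (PP q η * PP q ζ) := by
    have : 0 < PP q η * PP q ζ := by positivity
    nlinarith
  have c1 : PP q ξ ≤ 4 / δ := by
    rw [le_div_iff₀ hδ]
    -- P_ξ² ≤ P_ξ² * 2 P_η P_ζ = 2 (P_ξ P_η)(P_ξ P_ζ) ≤ 2 * 4/δ * 2/δ
    have f1 : (δ * PP q ξ) ^ 2 ≤ 4 ^ 2 := by
      have g1 : (δ * PP q ξ) ^ 2 ≤ (δ * PP q ξ) ^ 2 * (2 * (PP q η * PP q ζ)) := by
        have : 0 ≤ (δ * PP q ξ) ^ 2 := by positivity
        nlinarith
      have g2 : (δ * PP q ξ) ^ 2 * (2 * (PP q η * PP q ζ))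
          = 2 * ((δ * (PP q ξ * PP q η)) * (δ * (PP q ξ * PP q ζ))) := by ring
      have g3 : (δ * (PP q ξ * PP q η)) * (δ * (PP q ξ * PP q ζ)) ≤ 4 * 2 :=
        mul_le_mul a1 a2 (by positivity) (by norm_num)
      linarith
    have := abs_le_of_sq_le_sq' f1 (by norm_num)
    linarith [this.2]
  have c2 : PP q η ≤ 4 / δ := by
    rw [le_div_iff₀ hδ]
    have f1 : (δ * PP q η) ^ 2 ≤ 4 ^ 2 := by
      have g1 : (δ * PP q η) ^ 2 ≤ (δ * PP q η) ^ 2 * (2 * (PP q ξ * PP q ζ)) := by
        have : 0 ≤ (δ * PP q η) ^ 2 := by positivity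
        nlinarith
      have g2 : (δ * PP q η) ^ 2 * (2 * (PP q ξ * PP q ζ))
          = 2 * ((δ * (PP q ξ * PP q η)) * (δ * (PP q η * PP q ζ))) := by ring
      have g3 : (δ * (PP q ξ * PP q η)) * (δ * (PP q η * PP q ζ)) ≤ 4 * 2 :=
        mul_le_mul a1 a3 (by positivity) (by norm_num)
      linarith
    have := abs_le_of_sq_le_sq' f1 (by norm_num)
    linarith [this.2]
  rw [e]
  linarith

lemma isCompact_coshBall (D : ℝ) : IsCompact {q : UpperHalfSpace3 | coshDist3 q jj ≤ D} := by
  rw [Subtype.isCompact_iff]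
  have hc0 : Continuous fun p : EuclideanSpace ℝ (Fin 3) => p 0 :=
    (EuclideanSpace.proj (𝕜 := ℝ) (0 : Fin 3)).continuous
  have hc1 : Continuous fun p : EuclideanSpace ℝ (Fin 3) => p 1 :=
    (EuclideanSpace.proj (𝕜 := ℝ) (1 : Fin 3)).continuous
  have hc2 : Continuous fun p : EuclideanSpace ℝ (Fin 3) => p 2 :=
    (EuclideanSpace.proj (𝕜 := ℝ) (2 : Fin 3)).continuous
  have himg : Subtype.val '' {q : UpperHalfSpace3 | coshDist3 q jj ≤ D} =
      {p : EuclideanSpace ℝ (Fin 3) | 0 ≤ p 2 ∧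
        1 + (p 0 ^ 2 + p 1 ^ 2) + p 2 ^ 2 ≤ D * (2 * p 2)} := by
    ext p
    constructor
    · rintro ⟨q, hq, rfl⟩
      have h2 := q.2
      have h3 : hh q = q.1 2 := rfl
      rw [Set.mem_ofPred_eq, cosh_jj, div_le_iff₀ (by have := hh_pos q; positivity)] at hq
      refine ⟨h2.le, ?_⟩
      have e : Complex.normSq (cx q) = q.1 0 ^ 2 + q.1 1 ^ 2 := by
        rw [Complex.normSq_apply]; simp only [cx]; ring
      rw [e, h3] at hq
      exact hq
    · rintro ⟨h1, h2⟩
      have h3 : 0 < p 2 := by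
        rcases h1.eq_or_lt with h | h
        · exfalso
          rw [← h] at h2
          nlinarith [sq_nonneg (p 0), sq_nonneg (p 1)]
        · exact h
      refine ⟨⟨p, h3⟩, ?_, rfl⟩
      rw [Set.mem_ofPred_eq, cosh_jj]
      have h4 : hh ⟨p, h3⟩ = p 2 := rfl
      have e : Complex.normSq (cx ⟨p, h3⟩) = p 0 ^ 2 + p 1 ^ 2 := by
        rw [Complex.normSq_apply]; simp only [cx]; ring
      rw [h4, e, div_le_iff₀ (by positivity)]
      exact h2
  rw [himg]
  apply Metric.isCompact_of_isClosed_isBounded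
  · apply IsClosed.inter
    · exact isClosed_le continuous_const hc2
    · exact isClosed_le ((continuous_const.add ((hc0.pow 2).add (hc1.pow 2))).add (hc2.pow 2))
        (continuous_const.mul (continuous_const.mul hc2))
  · rw [Metric.isBounded_iff_subset_closedBall 0]
    refine ⟨2 * |D| , ?_⟩
    rintro p ⟨h1, h2⟩
    rw [mem_closedBall_zero_iff]
    have hn : ‖p‖ ^ 2 = p 0 ^ 2 + p 1 ^ 2 + p 2 ^ 2 := by
      rw [EuclideanSpace.norm_sq_eq, Fin.sum_univ_three]
      simp [sq_abs]
    have h5 : p 2 ≤ ‖p‖ := by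
      apply le_of_sq_le_sq _ (norm_nonneg _)
      rw [hn]; nlinarith [sq_nonneg (p 0), sq_nonneg (p 1)]
    have h6 : ‖p‖ ^ 2 ≤ |D| * (2 * ‖p‖) := by
      have : D * (2 * p 2) ≤ |D| * (2 * ‖p‖) :=
        mul_le_mul (le_abs_self D) (by linarith) (by linarith) (abs_nonneg D)
      rw [hn]; linarith
    by_contra hcon
    rw [not_le] at hcon
    have h7 : 0 < ‖p‖ := lt_of_le_of_lt (by positivity) hcon
    nlinarith

lemma continuous_cosh_jj : Continuous fun q : UpperHalfSpace3 => coshDist3 q jj := by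
  have hc2 : Continuous fun p : EuclideanSpace ℝ (Fin 3) => p 2 :=
    (EuclideanSpace.proj (𝕜 := ℝ) (2 : Fin 3)).continuous
  unfold coshDist3
  refine continuous_const.add (Continuous.div ?_ ?_ ?_)
  · fun_prop
  · exact ((continuous_const.mul (hc2.comp continuous_subtype_val)).mul continuous_const)
  · intro q
    have := q.2
    have h2 := jj.2
    positivity

/-! ### the main theorem of the block -/

variable {G Z : Type*} [Group G] [TopologicalSpace Z] [MulAction G Z]

/-- the action transported to the Riemann sphere -/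
def act (Φ : Z ≃ₜ OnePoint ℂ) (g : G) (ξ : OnePoint ℂ) : OnePoint ℂ := Φ (g • Φ.symm ξ)

lemma act_mul (Φ : Z ≃ₜ OnePoint ℂ) (g h : G) : act Φ (g * h) = act Φ g ∘ act Φ h := by
  funext ξ
  simp [act, mul_smul]

lemma act_one (Φ : Z ≃ₜ OnePoint ℂ) : act Φ (1 : G) = id := by
  funext ξ
  simp [act]

lemma act_surj (Φ : Z ≃ₜ OnePoint ℂ) (g : G) : Function.Surjective (act Φ g) := by
  intro ξ
  refine ⟨act Φ g⁻¹ ξ, ?_⟩
  have := congrFun (act_mul Φ g g⁻¹) ξ
  rw [mul_inv_cancel, act_one] at this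
  exact this.symm

/-- Block K of R193. -/
theorem K_final (Φ : Z ≃ₜ OnePoint ℂ)
    (hM : ∀ g : G, ∃ m : OnePoint ℂ → OnePoint ℂ, IsMob m ∧ ∀ z : Z, Φ (g • z) = m (Φ z))
    (hconv : ∀ C : Set (Z × Z), IsCompact C → (∀ p ∈ C, p.1 ≠ p.2) →
      {g : G | ∃ x y z : Z, (x, y) ∈ C ∧ (x, z) ∈ C ∧ (y, z) ∈ C ∧
        (g • x, g • y) ∈ C ∧ (g • x, g • z) ∈ C ∧ (g • y, g • z) ∈ C}.Finite)
    (hcoc : ∃ C : Set (Z × Z), IsCompact C ∧ (∀ p ∈ C, p.1 ≠ p.2) ∧
      ∀ x y z : Z, x ≠ y → x ≠ z → y ≠ z →
        ∃ g : G, (g • x, g • y) ∈ C ∧ (g • x, g • z) ∈ C ∧ (g • y, g • z) ∈ C) :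
    ∃ ρ : G →* isometryGroup3,
      (∀ K : Set UpperHalfSpace3, IsCompact K →
        Set.Finite {g : G | ∃ x ∈ K, (ρ g : Equiv.Perm UpperHalfSpace3) x ∈ K}) ∧
      (∃ K : Set UpperHalfSpace3, IsCompact K ∧
        ∀ x : UpperHalfSpace3, ∃ g : G, (ρ g : Equiv.Perm UpperHalfSpace3) x ∈ K) ∧
      Finite ρ.ker := by
  classical
  have hMob : ∀ g : G, IsMob (act Φ g) := by
    intro g
    obtain ⟨m, hm, h⟩ := hM g
    have : act Φ g = m := by
      funext ξ
      simp [act, h]
    rw [this]; exact hm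
  choose F hF using fun g : G => exists_ext (hMob g)
  have hFeq : ∀ g h : G, F (g * h) = F g * F h := by
    intro g h
    have h1 : Ext ((F g : Equiv.Perm UpperHalfSpace3) ∘ (F h : Equiv.Perm UpperHalfSpace3))
        (act Φ (g * h)) := by
      rw [act_mul]; exact (hF g).comp (hF h)
    have h2 := Ext.unique (act_surj Φ (g * h)) (hF (g * h)) h1
    apply Subtype.ext
    apply Equiv.ext
    intro x
    exact congrFun h2 x
  let ρ : G →* isometryGroup3 := MonoidHom.mk' F hFeq
  have hρ : ∀ g, ρ g = F g := fun g => rfl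
  have hprop : ∀ K : Set UpperHalfSpace3, IsCompact K →
      Set.Finite {g : G | ∃ x ∈ K, (ρ g : Equiv.Perm UpperHalfSpace3) x ∈ K} := by
    intro K hK
    rcases K.eq_empty_or_nonempty with rfl | hne
    · simp
    obtain ⟨q0, hq0, hmax⟩ := hK.exists_isMaxOn hne continuous_cosh_jj.continuousOn
    set M : ℝ := 2 * coshDist3 q0 jj with hMdef
    have hPM : ∀ q ∈ K, ∀ ξ, PP q ξ ≤ M := by
      intro q hq ξ
      have h1 := PP_le q ξ
      have h2 : coshDist3 q jj ≤ coshDist3 q0 jj := hmax hq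
      linarith
    have hM0 : 0 < M := lt_of_lt_of_le (PP_pos q0 ∞) (hPM q0 hq0 ∞)
    have hvis : ∀ q ∈ K, ∀ ξ η, 2 ≤ vis q ξ η → 2 / M ^ 2 ≤ vis jj ξ η := by
      intro q hq ξ η h
      rw [vis_eq] at h
      have h1 := hPM q hq ξ
      have h2 := hPM q hq η
      have h3 := PP_pos q ξ
      have h4 := PP_pos q η
      have h5 := vis_nonneg jj ξ η
      rw [div_le_iff₀ (by positivity)]
      have h6 : PP q ξ * PP q η ≤ M * M := mul_le_mul h1 h2 h4.le hM0.le
      nlinarith
    set C : Set (Z × Z) := {p | 2 / M ^ 2 ≤ vis jj (Φ p.1) (Φ p.2)} with hC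
    have hZ : CompactSpace Z := Φ.symm.compactSpace
    have hCc : IsCompact C := by
      apply IsClosed.isCompact
      apply isClosed_le continuous_const
      exact continuous_vis_jj.comp
        ((Φ.continuous.comp continuous_fst).prodMk (Φ.continuous.comp continuous_snd))
    have hCd : ∀ p ∈ C, p.1 ≠ p.2 := by
      intro p hp h
      have h1 : 2 / M ^ 2 ≤ vis jj (Φ p.1) (Φ p.2) := hp
      have h2 : vis jj (Φ p.2) (Φ p.2) = 0 := by
        rw [vis_jj_eq]; simp
      rw [h, h2] at h1
      have : 0 < 2 / M ^ 2 := by positivity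
      linarith
    refine (hconv C hCc hCd).subset ?_
    rintro g ⟨p, hp, hgp⟩
    have hE := hF g
    have key : ∀ ξ η, vis ((F g : Equiv.Perm UpperHalfSpace3) p) (Φ (g • Φ.symm ξ))
        (Φ (g • Φ.symm η)) = vis p ξ η := fun ξ η => hE p ξ η
    refine ⟨Φ.symm (cx p : OnePoint ℂ), Φ.symm ∞,
      Φ.symm ((cx p + (hh p : ℂ) : ℂ) : OnePoint ℂ), ?_, ?_, ?_, ?_, ?_, ?_⟩
    · change 2 / M ^ 2 ≤ vis jj (Φ (Φ.symm _)) (Φ (Φ.symm _))
      rw [Φ.apply_symm_apply, Φ.apply_symm_apply]
      apply hvis p hp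
      rw [vis_tri01]; norm_num
    · change 2 / M ^ 2 ≤ vis jj (Φ (Φ.symm _)) (Φ (Φ.symm _))
      rw [Φ.apply_symm_apply, Φ.apply_symm_apply]
      apply hvis p hp
      rw [vis_tri02]
    · change 2 / M ^ 2 ≤ vis jj (Φ (Φ.symm _)) (Φ (Φ.symm _))
      rw [Φ.apply_symm_apply, Φ.apply_symm_apply]
      apply hvis p hp
      rw [vis_comm, vis_tri21]
    · change 2 / M ^ 2 ≤ vis jj (Φ (g • Φ.symm _)) (Φ (g • Φ.symm _))
      apply hvis _ hgp
      change 2 ≤ vis ((F g : Equiv.Perm UpperHalfSpace3) p) _ _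
      rw [key, vis_tri01]; norm_num
    · change 2 / M ^ 2 ≤ vis jj (Φ (g • Φ.symm _)) (Φ (g • Φ.symm _))
      apply hvis _ hgp
      change 2 ≤ vis ((F g : Equiv.Perm UpperHalfSpace3) p) _ _
      rw [key, vis_tri02]
    · change 2 / M ^ 2 ≤ vis jj (Φ (g • Φ.symm _)) (Φ (g • Φ.symm _))
      apply hvis _ hgp
      change 2 ≤ vis ((F g : Equiv.Perm UpperHalfSpace3) p) _ _
      rw [key, vis_comm, vis_tri21]
  refine ⟨ρ, hprop, ?_, ?_⟩
  · obtain ⟨C, hCc, hCd, hC⟩ := hcoc
    -- a positive lower bound of `vis jj` on `C`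
    obtain ⟨δ, hδ, hδC⟩ : ∃ δ : ℝ, 0 < δ ∧ ∀ p ∈ C, δ ≤ vis jj (Φ p.1) (Φ p.2) := by
      rcases C.eq_empty_or_nonempty with rfl | hne
      · exact ⟨1, one_pos, by simp⟩
      have hcont : Continuous fun p : Z × Z => vis jj (Φ p.1) (Φ p.2) :=
        continuous_vis_jj.comp
          ((Φ.continuous.comp continuous_fst).prodMk (Φ.continuous.comp continuous_snd))
      obtain ⟨p0, hp0, hmin⟩ := hCc.exists_isMinOn hne hcont.continuousOn
      exact ⟨_, vis_jj_pos (fun h => hCd p0 hp0 (Φ.injective h)), fun p hp => hmin hp⟩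
    refine ⟨_, isCompact_coshBall (4 / δ), fun p => ?_⟩
    have hinj : ∀ ξ η : OnePoint ℂ, ξ ≠ η → Φ.symm ξ ≠ Φ.symm η :=
      fun ξ η h h' => h (Φ.symm.injective h')
    have ht := hh_pos p
    have ht' : (hh p : ℂ) ≠ 0 := by exact_mod_cast ht.ne'
    obtain ⟨g, h1, h2, h3⟩ := hC (Φ.symm (cx p : OnePoint ℂ)) (Φ.symm ∞)
      (Φ.symm ((cx p + (hh p : ℂ) : ℂ) : OnePoint ℂ))
      (hinj _ _ (OnePoint.coe_ne_infty _))
      (hinj _ _ (by
        rw [Ne, OnePoint.coe_eq_coe]
        intro h
        exact ht' (by simpa using h.symm)))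
      (hinj _ _ (OnePoint.infty_ne_coe _))
    refine ⟨g, ?_⟩
    have key : ∀ ξ η, vis ((F g : Equiv.Perm UpperHalfSpace3) p) (Φ (g • Φ.symm ξ))
        (Φ (g • Φ.symm η)) = vis p ξ η := fun ξ η => hF g p ξ η
    change coshDist3 ((F g : Equiv.Perm UpperHalfSpace3) p) jj ≤ 4 / δ
    refine cosh_le_of_regular _ (Φ (g • Φ.symm (cx p : OnePoint ℂ))) (Φ (g • Φ.symm ∞))
      (Φ (g • Φ.symm ((cx p + (hh p : ℂ) : ℂ) : OnePoint ℂ))) hδ ?_ ?_ ?_
      (hδC _ h1) (hδC _ h2) (hδC _ h3)
    · rw [key, vis_tri01]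
    · rw [key, vis_tri02]
    · rw [key, vis_comm, vis_tri21]
  · have h := hprop {jj} isCompact_singleton
    have : (ρ.ker : Set G).Finite := by
      refine h.subset ?_
      intro g hg
      have hg' : ρ g = 1 := hg
      refine ⟨jj, rfl, ?_⟩
      rw [hg']
      rfl
    exact this.to_subtype

end

end Crest.Agent.R193.K
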