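import Mathlib

/-!
# R193 block D3 (helper934): abstract relaxation of a bilinear form with Leibniz rule, part 1

`PreForm Z`: an algebra `F ⊆ C(Z,ℝ)` and `G u v φ` ("`∫ φ dΓ(u,v)`"), defined for `u v ∈ F`, `φ ∈ C(Z)`.
Part 1: Cauchy–Schwarz, energy of products, the class `D`, optimal sequences.
-/

set_option autoImplicit false

open Filter Topology

namespace Crest.Agent.R193.Relax

variable {Z : Type*} [TopologicalSpace Z] [CompactSpace Z]

/-- A bilinear form with values in functionals on `C(Z)`, symmetric, positive, with Leibniz rule. -/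
structure PreForm (Z : Type*) [TopologicalSpace Z] [CompactSpace Z] where
  F : Subalgebra ℝ C(Z, ℝ)
  G : C(Z, ℝ) → C(Z, ℝ) → C(Z, ℝ) → ℝ
  symm : ∀ {u v : C(Z, ℝ)}, u ∈ F → v ∈ F → ∀ φ, G u v φ = G v u φ
  add_left : ∀ {u u' v : C(Z, ℝ)}, u ∈ F → u' ∈ F → v ∈ F → ∀ φ,
    G (u + u') v φ = G u v φ + G u' v φ
  smul_left : ∀ {u v : C(Z, ℝ)} (c : ℝ), u ∈ F → v ∈ F → ∀ φ, G (c • u) v φ = c * G u v φ
  add_wt : ∀ {u v : C(Z, ℝ)}, u ∈ F → v ∈ F → ∀ φ φ', G u v (φ + φ') = G u v φ + G u v φ'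
  smul_wt : ∀ {u v : C(Z, ℝ)}, u ∈ F → v ∈ F → ∀ (c : ℝ) φ, G u v (c • φ) = c * G u v φ
  nonneg : ∀ {u : C(Z, ℝ)}, u ∈ F → ∀ φ : C(Z, ℝ), 0 ≤ φ → 0 ≤ G u u φ
  leibniz : ∀ {u v w : C(Z, ℝ)}, u ∈ F → v ∈ F → w ∈ F → ∀ φ,
    G (u * v) w φ = G u w (v * φ) + G v w (u * φ)

namespace PreForm

variable (P : PreForm Z)

/-- total energy -/
def E (u : C(Z, ℝ)) : ℝ := P.G u u 1

variable {P}

section basic

variable {u u' v v' w : C(Z, ℝ)}

lemma neg_mem (hu : u ∈ P.F) : -u ∈ P.F := P.F.neg_mem hu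
lemma sub_mem (hu : u ∈ P.F) (hv : v ∈ P.F) : u - v ∈ P.F := P.F.sub_mem hu hv

lemma add_right (hu : u ∈ P.F) (hv : v ∈ P.F) (hv' : v' ∈ P.F) (φ : C(Z, ℝ)) :
    P.G u (v + v') φ = P.G u v φ + P.G u v' φ := by
  rw [P.symm hu (P.F.add_mem hv hv'), P.add_left hv hv' hu, P.symm hv hu, P.symm hv' hu]

lemma smul_right (c : ℝ) (hu : u ∈ P.F) (hv : v ∈ P.F) (φ : C(Z, ℝ)) :
    P.G u (c • v) φ = c * P.G u v φ := by
  rw [P.symm hu (P.F.smul_mem hv c), P.smul_left c hv hu, P.symm hv hu]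

lemma neg_left (hu : u ∈ P.F) (hv : v ∈ P.F) (φ : C(Z, ℝ)) : P.G (-u) v φ = -P.G u v φ := by
  have := P.smul_left (-1) hu hv φ
  simpa using this

lemma neg_right (hu : u ∈ P.F) (hv : v ∈ P.F) (φ : C(Z, ℝ)) : P.G u (-v) φ = -P.G u v φ := by
  have := smul_right (P := P) (-1) hu hv φ
  simpa using this

lemma sub_left (hu : u ∈ P.F) (hu' : u' ∈ P.F) (hv : v ∈ P.F) (φ : C(Z, ℝ)) :
    P.G (u - u') v φ = P.G u v φ - P.G u' v φ := by
  rw [sub_eq_add_neg, P.add_left hu (neg_mem hu') hv, neg_left hu' hv]; ring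

lemma sub_right (hu : u ∈ P.F) (hv : v ∈ P.F) (hv' : v' ∈ P.F) (φ : C(Z, ℝ)) :
    P.G u (v - v') φ = P.G u v φ - P.G u v' φ := by
  rw [sub_eq_add_neg, add_right hu hv (neg_mem hv'), neg_right hu hv']; ring

lemma neg_wt (hu : u ∈ P.F) (hv : v ∈ P.F) (φ : C(Z, ℝ)) : P.G u v (-φ) = -P.G u v φ := by
  have := P.smul_wt hu hv (-1) φ
  simpa using this

lemma sub_wt (hu : u ∈ P.F) (hv : v ∈ P.F) (φ φ' : C(Z, ℝ)) :
    P.G u v (φ - φ') = P.G u v φ - P.G u v φ' := by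
  rw [sub_eq_add_neg, P.add_wt hu hv, neg_wt hu hv]; ring

lemma zero_wt (hu : u ∈ P.F) (hv : v ∈ P.F) : P.G u v 0 = 0 := by
  have := P.smul_wt hu hv 0 0
  simpa using this

lemma zero_left (hv : v ∈ P.F) (φ : C(Z, ℝ)) : P.G 0 v φ = 0 := by
  have := P.smul_left 0 (P.F.zero_mem) hv φ
  simpa using this

lemma zero_right (hv : v ∈ P.F) (φ : C(Z, ℝ)) : P.G v 0 φ = 0 := by
  rw [P.symm hv P.F.zero_mem, zero_left hv]

lemma leibniz_right (hu : u ∈ P.F) (hv : v ∈ P.F) (hw : w ∈ P.F) (φ : C(Z, ℝ)) :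
    P.G w (u * v) φ = P.G w u (v * φ) + P.G w v (u * φ) := by
  rw [P.symm hw (P.F.mul_mem hu hv), P.leibniz hu hv hw, P.symm hu hw, P.symm hv hw]

lemma one_left (hv : v ∈ P.F) (φ : C(Z, ℝ)) : P.G 1 v φ = 0 := by
  have := P.leibniz P.F.one_mem P.F.one_mem hv φ
  simp only [one_mul] at this
  linarith

lemma one_right (hv : v ∈ P.F) (φ : C(Z, ℝ)) : P.G v 1 φ = 0 := by
  rw [P.symm hv P.F.one_mem, one_left hv]

lemma E_nonneg (hu : u ∈ P.F) : 0 ≤ P.E u := P.nonneg hu 1 (by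
  intro z; simp)

lemma mono_wt (hu : u ∈ P.F) {φ φ' : C(Z, ℝ)} (h : φ ≤ φ') : P.G u u φ ≤ P.G u u φ' := by
  have h1 := P.nonneg hu (φ' - φ) (by intro z; simpa using h z)
  rw [sub_wt hu hu] at h1
  linarith

lemma quad (hu : u ∈ P.F) (hv : v ∈ P.F) (t : ℝ) (φ : C(Z, ℝ)) :
    P.G (u + t • v) (u + t • v) φ = P.G u u φ + 2 * t * P.G u v φ + t ^ 2 * P.G v v φ := by
  have hv' := P.F.smul_mem hv t
  rw [P.add_left hu hv' (P.F.add_mem hu hv'), add_right hu hu hv', add_right hv' hu hv',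
    P.smul_left t hv hu, P.smul_left t hv hv', smul_right t hu hv, smul_right t hv hv,
    P.symm hv hu]
  ring

/-- Cauchy–Schwarz with nonnegative weight -/
lemma cauchy_schwarz (hu : u ∈ P.F) (hv : v ∈ P.F) {φ : C(Z, ℝ)} (hφ : 0 ≤ φ) :
    (P.G u v φ) ^ 2 ≤ P.G u u φ * P.G v v φ := by
  have h : ∀ t : ℝ, 0 ≤ P.G v v φ * (t * t) + (2 * P.G u v φ) * t + P.G u u φ := by
    intro t
    have h1 := P.nonneg (P.F.add_mem hu (P.F.smul_mem hv t)) φ hφ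
    rw [quad hu hv] at h1
    nlinarith
  have h2 := discrim_le_zero h
  unfold discrim at h2
  nlinarith

lemma abs_le_sqrt (hu : u ∈ P.F) (hv : v ∈ P.F) {φ : C(Z, ℝ)} (hφ : 0 ≤ φ) :
    |P.G u v φ| ≤ √(P.G u u φ) * √(P.G v v φ) := by
  rw [← Real.sqrt_mul (P.nonneg hu φ hφ)]
  exact Real.abs_le_sqrt (cauchy_schwarz hu hv hφ)

omit [CompactSpace Z] in
/-- the positive part of a weight -/
lemma pos_sub_neg (φ : C(Z, ℝ)) : φ = (φ ⊔ 0) - ((-φ) ⊔ 0) := by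
  ext z
  simp only [ContinuousMap.coe_sub, Pi.sub_apply, ContinuousMap.sup_apply,
    ContinuousMap.coe_zero, Pi.zero_apply, ContinuousMap.coe_neg, Pi.neg_apply]
  rcases le_total (φ z) 0 with h | h
  · rw [max_eq_right h, max_eq_left (by linarith)]; ring
  · rw [max_eq_left h, max_eq_right (by linarith)]; ring

lemma pos_add_neg_le (φ : C(Z, ℝ)) : (φ ⊔ 0) + ((-φ) ⊔ 0) ≤ ‖φ‖ • (1 : C(Z, ℝ)) := by
  intro z
  change max (φ z) 0 + max (-φ z) 0 ≤ ‖φ‖ * 1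
  have hz := φ.norm_coe_le_norm z
  rw [Real.norm_eq_abs] at hz
  rcases le_total (φ z) 0 with h | h
  · rw [max_eq_right h, max_eq_left (by linarith)]
    rw [abs_of_nonpos h] at hz; linarith
  · rw [max_eq_left h, max_eq_right (by linarith)]
    rw [abs_of_nonneg h] at hz; linarith

/-- the basic bound for signed weights -/
lemma abs_G_le (hu : u ∈ P.F) (hv : v ∈ P.F) (φ : C(Z, ℝ)) :
    |P.G u v φ| ≤ ‖φ‖ * (√(P.E u) * √(P.E v)) := by
  set p : C(Z, ℝ) := φ ⊔ 0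
  set n : C(Z, ℝ) := (-φ) ⊔ 0
  have hp : 0 ≤ p := le_sup_right
  have hn : 0 ≤ n := le_sup_right
  have e1 : P.G u v φ = P.G u v p - P.G u v n := by
    conv_lhs => rw [pos_sub_neg φ]
    exact sub_wt hu hv _ _
  have key : ∀ {x : C(Z, ℝ)}, x ∈ P.F → P.G x x p + P.G x x n ≤ ‖φ‖ * P.E x := by
    intro x hx
    rw [← P.add_wt hx hx]
    refine (mono_wt hx (pos_add_neg_le φ)).trans ?_
    rw [P.smul_wt hx hx]; rfl
  have ku := key hu
  have kv := key hv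
  have a1 := P.nonneg hu p hp
  have a2 := P.nonneg hu n hn
  have b1 := P.nonneg hv p hp
  have b2 := P.nonneg hv n hn
  have c1 := abs_le_sqrt hu hv hp
  have c2 := abs_le_sqrt hu hv hn
  have hEu := E_nonneg (P := P) hu
  have hEv := E_nonneg (P := P) hv
  -- sqrt a1 sqrt b1 + sqrt a2 sqrt b2 ≤ sqrt (a1+a2) sqrt (b1+b2)
  have h3 : √(P.G u u p) * √(P.G v v p) + √(P.G u u n) * √(P.G v v n)
      ≤ √(P.G u u p + P.G u u n) * √(P.G v v p + P.G v v n) := by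
    rw [← Real.sqrt_mul (show 0 ≤ P.G u u p + P.G u u n by linarith)]
    apply Real.le_sqrt_of_sq_le
    have s1 := Real.sq_sqrt a1
    have s2 := Real.sq_sqrt a2
    have s3 := Real.sq_sqrt b1
    have s4 := Real.sq_sqrt b2
    nlinarith [sq_nonneg (√(P.G u u p) * √(P.G v v n) - √(P.G u u n) * √(P.G v v p))]
  have h4 : √(P.G u u p + P.G u u n) * √(P.G v v p + P.G v v n)
      ≤ √(‖φ‖ * P.E u) * √(‖φ‖ * P.E v) :=
    mul_le_mul (Real.sqrt_le_sqrt ku) (Real.sqrt_le_sqrt kv) (Real.sqrt_nonneg _)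
      (Real.sqrt_nonneg _)
  have h5 : √(‖φ‖ * P.E u) * √(‖φ‖ * P.E v) = ‖φ‖ * (√(P.E u) * √(P.E v)) := by
    rw [Real.sqrt_mul (norm_nonneg _), Real.sqrt_mul (norm_nonneg _)]
    have := Real.mul_self_sqrt (norm_nonneg φ)
    calc _ = (√‖φ‖ * √‖φ‖) * (√(P.E u) * √(P.E v)) := by ring
      _ = _ := by rw [this]
  calc |P.G u v φ| = |P.G u v p - P.G u v n| := by rw [e1]
    _ ≤ |P.G u v p| + |P.G u v n| := abs_sub _ _
    _ ≤ _ := by linarith

lemma sqrtE_add (hu : u ∈ P.F) (hv : v ∈ P.F) : √(P.E (u + v)) ≤ √(P.E u) + √(P.E v) := by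
  have h1 : P.E (u + v) = P.E u + 2 * P.G u v 1 + P.E v := by
    have := quad (P := P) hu hv 1 1
    simpa [E] using this
  have h2 := abs_le_sqrt (P := P) hu hv (φ := 1) (by intro z; simp)
  have h3 := le_abs_self (P.G u v 1)
  apply Real.sqrt_le_iff.2
  refine ⟨by positivity, ?_⟩
  have e1 := Real.sq_sqrt (E_nonneg (P := P) hu)
  have e2 := Real.sq_sqrt (E_nonneg (P := P) hv)
  simp only [E] at *
  nlinarith

lemma E_smul (c : ℝ) (hu : u ∈ P.F) : P.E (c • u) = c ^ 2 * P.E u := by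
  unfold E
  rw [P.smul_left c hu (P.F.smul_mem hu c), smul_right c hu hu]; ring

lemma sqrtE_smul (c : ℝ) (hu : u ∈ P.F) : √(P.E (c • u)) = |c| * √(P.E u) := by
  rw [E_smul c hu, Real.sqrt_mul (sq_nonneg c), Real.sqrt_sq_eq_abs]

lemma E_neg (hu : u ∈ P.F) : P.E (-u) = P.E u := by
  have := E_smul (P := P) (-1) hu
  simpa using this

lemma sqrtE_sub (hu : u ∈ P.F) (hv : v ∈ P.F) : √(P.E (u - v)) ≤ √(P.E u) + √(P.E v) := by
  have := sqrtE_add (P := P) hu (neg_mem hv)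
  rwa [← sub_eq_add_neg, E_neg hv] at this

lemma sqrtE_mul (hu : u ∈ P.F) (hv : v ∈ P.F) :
    √(P.E (u * v)) ≤ ‖v‖ * √(P.E u) + ‖u‖ * √(P.E v) := by
  have huv := P.F.mul_mem hu hv
  have h1 : P.E (u * v) = P.G u u (v * v) + 2 * P.G u v (u * v) + P.G v v (u * u) := by
    unfold E
    rw [P.leibniz hu hv huv, leibniz_right hu hv hu, leibniz_right hu hv hv, P.symm hv hu]
    simp only [mul_one]
    rw [mul_comm v u]
    ring
  have h2 := le_abs_self (P.G u u (v * v))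
  have h3 := le_abs_self (P.G u v (u * v))
  have h4 := le_abs_self (P.G v v (u * u))
  have g2 := abs_G_le (P := P) hu hu (v * v)
  have g3 := abs_G_le (P := P) hu hv (u * v)
  have g4 := abs_G_le (P := P) hv hv (u * u)
  have n1 := norm_mul_le v v
  have n2 := norm_mul_le u v
  have n3 := norm_mul_le u u
  apply Real.sqrt_le_iff.2
  refine ⟨by positivity, ?_⟩
  set a := √(P.E u)
  set b := √(P.E v)
  have ha : 0 ≤ a := Real.sqrt_nonneg _
  have hb : 0 ≤ b := Real.sqrt_nonneg _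
  have m1 : ‖v * v‖ * (a * a) ≤ ‖v‖ * ‖v‖ * (a * a) :=
    mul_le_mul_of_nonneg_right n1 (by positivity)
  have m2 : ‖u * v‖ * (a * b) ≤ ‖u‖ * ‖v‖ * (a * b) :=
    mul_le_mul_of_nonneg_right n2 (by positivity)
  have m3 : ‖u * u‖ * (b * b) ≤ ‖u‖ * ‖u‖ * (b * b) :=
    mul_le_mul_of_nonneg_right n3 (by positivity)
  rw [h1]
  nlinarith

end basic

end PreForm

end Crest.Agent.R193.Relax
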