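import Crest.Agent.R193.Relax1

/-!
# R193 block D3 (helper934): abstract relaxation, part 2: the class `D`, optimal sequences
-/

set_option autoImplicit false

open Filter Topology

namespace Crest.Agent.R193.Relax

variable {Z : Type*} [TopologicalSpace Z] [CompactSpace Z]

namespace PreForm

variable {P : PreForm Z}

/-- `s` is a sequence in `F` with bounded energy converging uniformly to `u` -/
structure Appr (P : PreForm Z) (u : C(Z, ℝ)) (s : ℕ → C(Z, ℝ)) : Prop where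
  mem : ∀ k, s k ∈ P.F
  lim : Tendsto s atTop (𝓝 u)
  bdd : ∃ C : ℝ, ∀ k, P.E (s k) ≤ C

/-- optimal sequences (uniform form) -/
structure Opt (P : PreForm Z) (u : C(Z, ℝ)) (s : ℕ → C(Z, ℝ)) : Prop extends Appr P u s where
  opt : ∀ C : ℝ, ∀ ε > 0, ∃ δ > 0, ∃ N : ℕ, ∀ k ≥ N, ∀ w ∈ P.F, ‖w‖ < δ → P.E w ≤ C →
    |P.G (s k) w 1| ≤ ε

/-- relaxed domain -/
def Dset (P : PreForm Z) : Set C(Z, ℝ) := {u | ∃ s, Appr P u s}

lemma mem_Dset_of_mem {u : C(Z, ℝ)} (hu : u ∈ P.F) : u ∈ P.Dset :=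
  ⟨fun _ => u, ⟨fun _ => hu, tendsto_const_nhds, P.E u, fun _ => le_rfl⟩⟩

/-- local infimum of the energy -/
noncomputable def I (P : PreForm Z) (u : C(Z, ℝ)) (n : ℕ) : ℝ :=
  sInf {e | ∃ v ∈ P.F, ‖v - u‖ < 1 / ((n : ℝ) + 1) ∧ P.E v = e}

lemma I_bddBelow (u : C(Z, ℝ)) (n : ℕ) :
    BddBelow {e | ∃ v ∈ P.F, ‖v - u‖ < 1 / ((n : ℝ) + 1) ∧ P.E v = e} := by
  refine ⟨0, ?_⟩
  rintro e ⟨v, hv, -, rfl⟩
  exact E_nonneg hv

lemma I_le {u v : C(Z, ℝ)} {n : ℕ} (hv : v ∈ P.F) (h : ‖v - u‖ < 1 / ((n : ℝ) + 1)) :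
    I P u n ≤ P.E v := csInf_le (I_bddBelow u n) ⟨v, hv, h, rfl⟩

lemma I_nonempty {u : C(Z, ℝ)} {s : ℕ → C(Z, ℝ)} (hs : Appr P u s) {C : ℝ}
    (hC : ∀ k, P.E (s k) ≤ C) (n : ℕ) :
    ∃ v ∈ P.F, ‖v - u‖ < 1 / ((n : ℝ) + 1) ∧ P.E v ≤ C := by
  have h := hs.lim
  rw [Metric.tendsto_atTop] at h
  obtain ⟨N, hN⟩ := h (1 / ((n : ℝ) + 1)) (by positivity)
  exact ⟨s N, hs.mem N, by simpa [dist_eq_norm] using hN N le_rfl, hC N⟩

/-- existence of optimal sequences -/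
theorem exists_opt {u : C(Z, ℝ)} (hu : u ∈ P.Dset) : ∃ s, Opt P u s := by
  classical
  obtain ⟨s0, hs0⟩ := hu
  obtain ⟨C0, hC0⟩ := hs0.bdd
  have hne : ∀ n : ℕ, {e | ∃ v ∈ P.F, ‖v - u‖ < 1 / ((n : ℝ) + 1) ∧ P.E v = e}.Nonempty := by
    intro n
    obtain ⟨v, hv, h1, -⟩ := I_nonempty hs0 hC0 n
    exact ⟨_, v, hv, h1, rfl⟩
  have hle : ∀ n, I P u n ≤ C0 := by
    intro n
    obtain ⟨v, hv, h1, h2⟩ := I_nonempty hs0 hC0 n
    exact (I_le hv h1).trans h2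
  have hmono : Monotone (I P u) := by
    intro m n hmn
    apply csInf_le_csInf (I_bddBelow u m) (hne n)
    rintro e ⟨v, hv, h1, rfl⟩
    refine ⟨v, hv, h1.trans_le ?_, rfl⟩
    have : (m : ℝ) ≤ n := by exact_mod_cast hmn
    apply one_div_le_one_div_of_le (by positivity) (by linarith)
  have hbdd : BddAbove (Set.range (I P u)) := ⟨C0, by rintro _ ⟨n, rfl⟩; exact hle n⟩
  set m := ⨆ n, I P u n
  have hlim : Tendsto (I P u) atTop (𝓝 m) := tendsto_atTop_ciSup hmono hbdd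
  have hIm : ∀ n, I P u n ≤ m := fun n => le_ciSup hbdd n
  -- choose the sequence
  have hch : ∀ n : ℕ, ∃ v ∈ P.F, ‖v - u‖ < 1 / ((n : ℝ) + 1) ∧ P.E v < I P u n + 1 / ((n : ℝ) + 1) := by
    intro n
    have := exists_lt_of_csInf_lt (hne n) (show I P u n < I P u n + 1 / ((n : ℝ) + 1) by
      have : (0:ℝ) < 1 / ((n : ℝ) + 1) := by positivity
      linarith)
    obtain ⟨e, ⟨v, hv, h1, rfl⟩, h2⟩ := this
    exact ⟨v, hv, h1, h2⟩
  choose s hsF hs1 hs2 using hch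
  have hslim : Tendsto s atTop (𝓝 u) := by
    rw [tendsto_iff_norm_sub_tendsto_zero]
    refine squeeze_zero (fun n => norm_nonneg _) (fun n => (hs1 n).le) ?_
    exact tendsto_one_div_add_atTop_nhds_zero_nat
  refine ⟨s, ⟨⟨hsF, hslim, m + 1, ?_⟩, ?_⟩⟩
  · intro k
    have h1 := hIm k
    have h2 : 1 / ((k : ℝ) + 1) ≤ 1 := by
      rw [div_le_one (by positivity)]; have : (0:ℝ) ≤ k := by positivity
      linarith
    linarith [hs2 k]
  · intro C ε hε
    set C' := max C 0 + 1 with hC'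
    have hC'pos : 0 < C' := by positivity
    -- t with t C' / 2 ≤ ε / 2
    set t := ε / (2 * C') with ht
    have htpos : 0 < t := by positivity
    -- n with m - I n small
    have hη : 0 < t * ε / 4 := by positivity
    obtain ⟨n, hn⟩ := (hlim.eventually (lt_mem_nhds (show m - t * ε / 4 < m by linarith))).exists
    -- N with 1/(N+1) < min (1/(2(n+1))) ..., δ
    have hsm : ∃ N : ℕ, ∀ k ≥ N, ‖s k - u‖ < 1 / (2 * ((n : ℝ) + 1)) ∧ 1 / ((k : ℝ) + 1) < t * ε / 4 := by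
      have h1 := (tendsto_iff_norm_sub_tendsto_zero.1 hslim).eventually
        (gt_mem_nhds (show (0:ℝ) < 1 / (2 * ((n : ℝ) + 1)) by positivity))
      have h2 := (tendsto_one_div_add_atTop_nhds_zero_nat (𝕜 := ℝ)).eventually
        (gt_mem_nhds hη)
      obtain ⟨N, hN⟩ := eventually_atTop.1 (h1.and h2)
      exact ⟨N, hN⟩
    obtain ⟨N, hN⟩ := hsm
    refine ⟨1 / (2 * ((n : ℝ) + 1)) / t, by positivity, N, ?_⟩
    intro k hk w hw hwδ hwC
    obtain ⟨hk1, hk2⟩ := hN k hk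
    have hEw : P.E w ≤ C' := by
      have := le_max_left C 0
      linarith
    have hEw0 := E_nonneg (P := P) hw
    have key : ∀ σ : ℝ, |σ| = t → I P u n ≤ P.E (s k) + 2 * σ * P.G (s k) w 1 + t ^ 2 * C' := by
      intro σ hσ
      have h1 : ‖(s k + σ • w) - u‖ < 1 / ((n : ℝ) + 1) := by
        have e : (s k + σ • w) - u = (s k - u) + σ • w := by abel
        rw [e]
        refine (norm_add_le _ _).trans_lt ?_
        rw [norm_smul, Real.norm_eq_abs, hσ]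
        have h2 : t * ‖w‖ < 1 / (2 * ((n : ℝ) + 1)) := by
          rw [lt_div_iff₀ htpos] at hwδ
          linarith [mul_comm t ‖w‖]
        have h3 : 1 / ((n : ℝ) + 1) = 1 / (2 * ((n : ℝ) + 1)) + 1 / (2 * ((n : ℝ) + 1)) := by
          field_simp; norm_num
        rw [h3]
        linarith
      have h2 := I_le (P.F.add_mem (hsF k) (P.F.smul_mem hw σ)) h1
      have h3 := quad (P := P) (hsF k) hw σ 1
      have h4 : σ ^ 2 = t ^ 2 := by rw [← hσ, sq_abs]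
      have h5 : P.E (s k + σ • w) = P.E (s k) + 2 * σ * P.G (s k) w 1 + t ^ 2 * P.E w := by
        unfold E; rw [h3, h4]
      rw [h5] at h2
      have h6 : t ^ 2 * P.E w ≤ t ^ 2 * C' := mul_le_mul_of_nonneg_left hEw (sq_nonneg t)
      linarith
    have hEs : P.E (s k) ≤ m + t * ε / 4 := by
      have := hIm k
      linarith [hs2 k]
    have hplus := key t (abs_of_pos htpos)
    have hminus := key (-t) (by rw [abs_neg, abs_of_pos htpos])
    have htC : t ^ 2 * C' = t * ε / 2 := by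
      rw [ht]; field_simp
    rw [abs_le]
    constructor
    · -- from plus: 2 t G ≥ I n - E - t² C'
      have h1 : 2 * t * P.G (s k) w 1 ≥ -(t * ε / 4) - t * ε / 4 - t * ε / 2 := by
        rw [← htC]; linarith
      have h2 : t * (P.G (s k) w 1 + ε) ≥ 0 := by nlinarith
      have h3 := nonneg_of_mul_nonneg_right (a := t) h2 htpos
      linarith
    · have h1 : 2 * t * P.G (s k) w 1 ≤ (t * ε / 4) + t * ε / 4 + t * ε / 2 := by
        rw [← htC]; linarith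
      have h2 : t * (ε - P.G (s k) w 1) ≥ 0 := by nlinarith
      have h3 := nonneg_of_mul_nonneg_right (a := t) h2 htpos
      linarith

/-- common bounds for an `Appr` sequence -/
lemma Appr.norm_bdd {u : C(Z, ℝ)} {s : ℕ → C(Z, ℝ)} (hs : Appr P u s) :
    ∃ C : ℝ, 0 ≤ C ∧ ∀ k, ‖s k‖ ≤ C ∧ √(P.E (s k)) ≤ C := by
  obtain ⟨C1, hC1⟩ := hs.bdd
  obtain ⟨C2, hC2⟩ := (hs.lim.norm.bddAbove_range)
  refine ⟨max (max C2 (√C1)) 0, le_max_right _ _, fun k => ⟨?_, ?_⟩⟩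
  · have : ‖s k‖ ≤ C2 := hC2 ⟨k, rfl⟩
    exact this.trans ((le_max_left _ _).trans (le_max_left _ _))
  · exact (Real.sqrt_le_sqrt (hC1 k)).trans ((le_max_right _ _).trans (le_max_left _ _))

/-- two optimal sequences of the same function are `E`-close, uniformly -/
theorem Opt.cauchy {u : C(Z, ℝ)} {s s' : ℕ → C(Z, ℝ)} (hs : Opt P u s) (hs' : Opt P u s')
    {ε : ℝ} (hε : 0 < ε) : ∃ N, ∀ k ≥ N, ∀ l ≥ N, P.E (s k - s' l) ≤ ε := by
  obtain ⟨C, hC0, hC⟩ := hs.toAppr.norm_bdd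
  obtain ⟨C', hC'0, hC'⟩ := hs'.toAppr.norm_bdd
  obtain ⟨δ1, hδ1, N1, h1⟩ := hs.opt ((C + C') ^ 2) (ε / 2) (by linarith)
  obtain ⟨δ2, hδ2, N2, h2⟩ := hs'.opt ((C + C') ^ 2) (ε / 2) (by linarith)
  have l1 := (tendsto_iff_norm_sub_tendsto_zero.1 hs.lim).eventually
    (gt_mem_nhds (show (0:ℝ) < min δ1 δ2 / 2 by positivity))
  have l2 := (tendsto_iff_norm_sub_tendsto_zero.1 hs'.lim).eventually
    (gt_mem_nhds (show (0:ℝ) < min δ1 δ2 / 2 by positivity))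
  obtain ⟨N3, h3⟩ := eventually_atTop.1 l1
  obtain ⟨N4, h4⟩ := eventually_atTop.1 l2
  refine ⟨max (max N1 N2) (max N3 N4), fun k hk l hl => ?_⟩
  have hk1 : N1 ≤ k := le_trans (le_trans (le_max_left _ _) (le_max_left _ _)) hk
  have hk3 : N3 ≤ k := le_trans (le_trans (le_max_left _ _) (le_max_right _ _)) hk
  have hl2 : N2 ≤ l := le_trans (le_trans (le_max_right _ _) (le_max_left _ _)) hl
  have hl4 : N4 ≤ l := le_trans (le_trans (le_max_right _ _) (le_max_right _ _)) hl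
  have hmem := sub_mem (P := P) (hs.mem k) (hs'.mem l)
  have hn : ‖s k - s' l‖ < min δ1 δ2 := by
    have e : s k - s' l = (s k - u) - (s' l - u) := by abel
    rw [e]
    refine (norm_sub_le _ _).trans_lt ?_
    have := h3 k hk3
    have := h4 l hl4
    linarith
  have hE : P.E (s k - s' l) ≤ (C + C') ^ 2 := by
    have h5 := sqrtE_sub (P := P) (hs.mem k) (hs'.mem l)
    have h6 := (hC k).2
    have h7 := (hC' l).2
    have h8 : √(P.E (s k - s' l)) ≤ C + C' := by linarith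
    exact (Real.sqrt_le_left (by linarith)).1 h8
  have g1 := h1 k hk1 _ hmem (hn.trans_le (min_le_left _ _)) hE
  have g2 := h2 l hl2 _ hmem (hn.trans_le (min_le_right _ _)) hE
  have e : P.E (s k - s' l) = P.G (s k) (s k - s' l) 1 - P.G (s' l) (s k - s' l) 1 := by
    unfold E
    exact sub_left (hs.mem k) (hs'.mem l) hmem 1
  rw [e]
  have a1 := (abs_le.1 g1).2
  have a2 := (abs_le.1 g2).1
  linarith

/-- basic continuity estimate -/
lemma G_sub_le {u u' v v' φ φ' : C(Z, ℝ)} (hu : u ∈ P.F) (hu' : u' ∈ P.F) (hv : v ∈ P.F)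
    (hv' : v' ∈ P.F) :
    |P.G u v φ - P.G u' v' φ'| ≤ ‖φ‖ * (√(P.E (u - u')) * √(P.E v))
      + ‖φ‖ * (√(P.E u') * √(P.E (v - v'))) + ‖φ - φ'‖ * (√(P.E u') * √(P.E v')) := by
  have e : P.G u v φ - P.G u' v' φ' = P.G (u - u') v φ + P.G u' (v - v') φ + P.G u' v' (φ - φ') := by
    rw [sub_left hu hu' hv, sub_right hu' hv hv', sub_wt hu' hv']; ring
  rw [e]
  have h1 := abs_G_le (P := P) (sub_mem hu hu') hv φ
  have h2 := abs_G_le (P := P) hu' (sub_mem hv hv') φ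
  have h3 := abs_G_le (P := P) hu' hv' (φ - φ')
  refine (abs_add_le _ _).trans (add_le_add ((abs_add_le _ _).trans (add_le_add h1 h2)) h3)

lemma Opt.E_sub_tendsto {u : C(Z, ℝ)} {s s' : ℕ → C(Z, ℝ)} (hs : Opt P u s) (hs' : Opt P u s') :
    Tendsto (fun k => √(P.E (s k - s' k))) atTop (𝓝 0) := by
  rw [← Real.sqrt_zero]
  refine (Real.continuous_sqrt.tendsto 0).comp ?_
  rw [Metric.tendsto_atTop]
  intro ε hε
  obtain ⟨N, hN⟩ := hs.cauchy hs' (half_pos hε)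
  refine ⟨N, fun k hk => ?_⟩
  rw [Real.dist_eq, sub_zero, abs_of_nonneg (E_nonneg (sub_mem (hs.mem k) (hs'.mem k)))]
  linarith [hN k hk k hk]

/-- convergence of the forms along optimal sequences -/
theorem Opt.cauchySeq {u v : C(Z, ℝ)} {s t : ℕ → C(Z, ℝ)} (hs : Opt P u s) (ht : Opt P v t)
    (φ : C(Z, ℝ)) : CauchySeq (fun k => P.G (s k) (t k) φ) := by
  obtain ⟨C, hC0, hC⟩ := hs.toAppr.norm_bdd
  obtain ⟨C', hC'0, hC'⟩ := ht.toAppr.norm_bdd
  rw [Metric.cauchySeq_iff]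
  intro ε hε
  set M := ‖φ‖ * (C + C') + 1
  have hM : 0 < M := by positivity
  obtain ⟨N1, h1⟩ := hs.cauchy hs (ε := (ε / (2 * M)) ^ 2) (by positivity)
  obtain ⟨N2, h2⟩ := ht.cauchy ht (ε := (ε / (2 * M)) ^ 2) (by positivity)
  refine ⟨max N1 N2, fun k hk l hl => ?_⟩
  have g1 := h1 k (le_trans (le_max_left _ _) hk) l (le_trans (le_max_left _ _) hl)
  have g2 := h2 k (le_trans (le_max_right _ _) hk) l (le_trans (le_max_right _ _) hl)
  have g1' : √(P.E (s k - s l)) ≤ ε / (2 * M) := Real.sqrt_le_iff.2 ⟨by positivity, g1⟩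
  have g2' : √(P.E (t k - t l)) ≤ ε / (2 * M) := Real.sqrt_le_iff.2 ⟨by positivity, g2⟩
  rw [Real.dist_eq]
  have h := G_sub_le (P := P) (φ := φ) (φ' := φ) (hs.mem k) (hs.mem l) (ht.mem k) (ht.mem l)
  rw [sub_self, norm_zero, zero_mul, add_zero] at h
  refine h.trans_lt ?_
  have b1 : ‖φ‖ * (√(P.E (s k - s l)) * √(P.E (t k))) ≤ ‖φ‖ * (ε / (2 * M) * C') :=
    mul_le_mul_of_nonneg_left (mul_le_mul g1' (hC' k).2 (Real.sqrt_nonneg _) (by positivity))
      (norm_nonneg _)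
  have b2 : ‖φ‖ * (√(P.E (s l)) * √(P.E (t k - t l))) ≤ ‖φ‖ * (C * (ε / (2 * M))) :=
    mul_le_mul_of_nonneg_left (mul_le_mul (hC l).2 g2' (Real.sqrt_nonneg _) hC0)
      (norm_nonneg _)
  have b3 : ‖φ‖ * (ε / (2 * M) * C') + ‖φ‖ * (C * (ε / (2 * M))) = (ε / (2 * M)) * (M - 1) := by
    simp only [M]; ring
  have b4 : (ε / (2 * M)) * (M - 1) < ε := by
    rw [div_mul_eq_mul_div, div_lt_iff₀ (by positivity)]
    nlinarith
  linarith

end PreForm

end Crest.Agent.R193.Relax
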