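import Crest.Agent.R193.Relax2

/-!
# R193 block D3 (helper934): abstract relaxation, part 3: algebra of optimal sequences, relaxed form
-/

set_option autoImplicit false

open Filter Topology

namespace Crest.Agent.R193.Relax

variable {Z : Type*} [TopologicalSpace Z] [CompactSpace Z]

/-- partial derivative -/
noncomputable def pd {m : ℕ} (ψ : (Fin m → ℝ) → ℝ) (i : Fin m) : (Fin m → ℝ) → ℝ :=
  fun x => fderiv ℝ ψ x (Pi.single i 1)

/-- composition `ψ (u_1, …, u_m)` -/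
def compC {m : ℕ} (ψ : (Fin m → ℝ) → ℝ) (hψ : Continuous ψ) (u : Fin m → C(Z, ℝ)) : C(Z, ℝ) :=
  ⟨fun z => ψ (fun i => u i z), hψ.comp (continuous_pi fun i => (u i).continuous)⟩

omit [CompactSpace Z] in
@[simp] lemma compC_apply {m : ℕ} (ψ : (Fin m → ℝ) → ℝ) (hψ : Continuous ψ)
    (u : Fin m → C(Z, ℝ)) (z : Z) : compC ψ hψ u z = ψ (fun i => u i z) := rfl

lemma continuous_pd {m : ℕ} {ψ : (Fin m → ℝ) → ℝ} (hψ : ContDiff ℝ 1 ψ) (i : Fin m) :
    Continuous (pd ψ i) :=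
  (hψ.continuous_fderiv (by norm_num)).clm_apply continuous_const

lemma contDiff_pd {m : ℕ} {ψ : (Fin m → ℝ) → ℝ} (hψ : ContDiff ℝ 2 ψ) (i : Fin m) :
    ContDiff ℝ 1 (pd ψ i) :=
  (hψ.fderiv_right (m := 1) (by norm_num)).clm_apply contDiff_const

lemma continuous_compC [T2Space Z] {m : ℕ} (ψ : (Fin m → ℝ) → ℝ) (hψ : Continuous ψ) :
    Continuous (fun u : Fin m → C(Z, ℝ) => compC ψ hψ u) := by
  apply ContinuousMap.continuous_of_continuous_uncurry
  refine hψ.comp (continuous_pi fun i => ?_)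
  exact ((continuous_apply i).comp continuous_fst).eval continuous_snd

namespace PreForm

variable {P : PreForm Z}

/-- chain rule for functions of class `C^n` -/
def Chain (P : PreForm Z) (n : WithTop ℕ∞) : Prop :=
  ∀ (m : ℕ) (ψ : (Fin m → ℝ) → ℝ), ContDiff ℝ n ψ → ∀ (hc : Continuous ψ)
    (hp : ∀ i, Continuous (pd ψ i)) (u : Fin m → C(Z, ℝ)), (∀ i, u i ∈ P.F) →
    compC ψ hc u ∈ P.F ∧ ∀ v ∈ P.F, ∀ φ : C(Z, ℝ),
      P.G (compC ψ hc u) v φ = ∑ i, P.G (u i) v (compC (pd ψ i) (hp i) u * φ)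

section algebra

variable {u v : C(Z, ℝ)} {s t : ℕ → C(Z, ℝ)}

lemma Appr.add (hs : Appr P u s) (ht : Appr P v t) : Appr P (u + v) (fun k => s k + t k) := by
  obtain ⟨C, hC0, hC⟩ := hs.norm_bdd
  obtain ⟨C', hC'0, hC'⟩ := ht.norm_bdd
  refine ⟨fun k => P.F.add_mem (hs.mem k) (ht.mem k), hs.lim.add ht.lim, (C + C') ^ 2, fun k => ?_⟩
  have h := sqrtE_add (P := P) (hs.mem k) (ht.mem k)
  exact (Real.sqrt_le_left (by linarith)).1 (by linarith [(hC k).2, (hC' k).2])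

lemma Appr.smul (c : ℝ) (hs : Appr P u s) : Appr P (c • u) (fun k => c • s k) := by
  obtain ⟨C, hC⟩ := hs.bdd
  refine ⟨fun k => P.F.smul_mem (hs.mem k) c, hs.lim.const_smul c, c ^ 2 * C, fun k => ?_⟩
  rw [E_smul c (hs.mem k)]
  exact mul_le_mul_of_nonneg_left (hC k) (sq_nonneg c)

lemma Appr.mul (hs : Appr P u s) (ht : Appr P v t) : Appr P (u * v) (fun k => s k * t k) := by
  obtain ⟨C, hC0, hC⟩ := hs.norm_bdd
  obtain ⟨C', hC'0, hC'⟩ := ht.norm_bdd
  refine ⟨fun k => P.F.mul_mem (hs.mem k) (ht.mem k), hs.lim.mul ht.lim,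
    (C' * C + C * C') ^ 2, fun k => ?_⟩
  have h := sqrtE_mul (P := P) (hs.mem k) (ht.mem k)
  have h1 : ‖t k‖ * √(P.E (s k)) ≤ C' * C :=
    mul_le_mul (hC' k).1 (hC k).2 (Real.sqrt_nonneg _) hC'0
  have h2 : ‖s k‖ * √(P.E (t k)) ≤ C * C' :=
    mul_le_mul (hC k).1 (hC' k).2 (Real.sqrt_nonneg _) hC0
  exact (Real.sqrt_le_left (by positivity)).1 (by linarith)

lemma Opt.add (hs : Opt P u s) (ht : Opt P v t) : Opt P (u + v) (fun k => s k + t k) := by
  refine ⟨hs.toAppr.add ht.toAppr, fun C ε hε => ?_⟩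
  obtain ⟨δ1, hδ1, N1, h1⟩ := hs.opt C (ε / 2) (half_pos hε)
  obtain ⟨δ2, hδ2, N2, h2⟩ := ht.opt C (ε / 2) (half_pos hε)
  refine ⟨min δ1 δ2, lt_min hδ1 hδ2, max N1 N2, fun k hk w hw hwn hwE => ?_⟩
  have g1 := h1 k (le_trans (le_max_left _ _) hk) w hw (hwn.trans_le (min_le_left _ _)) hwE
  have g2 := h2 k (le_trans (le_max_right _ _) hk) w hw (hwn.trans_le (min_le_right _ _)) hwE
  rw [P.add_left (hs.mem k) (ht.mem k) hw]
  refine (abs_add_le _ _).trans (by linarith)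

lemma Opt.smul (c : ℝ) (hs : Opt P u s) : Opt P (c • u) (fun k => c • s k) := by
  refine ⟨hs.toAppr.smul c, fun C ε hε => ?_⟩
  obtain ⟨δ1, hδ1, N1, h1⟩ := hs.opt C (ε / (|c| + 1)) (by positivity)
  refine ⟨δ1, hδ1, N1, fun k hk w hw hwn hwE => ?_⟩
  have g1 := h1 k hk w hw hwn hwE
  rw [P.smul_left c (hs.mem k) hw, abs_mul]
  calc |c| * |P.G (s k) w 1| ≤ |c| * (ε / (|c| + 1)) := mul_le_mul_of_nonneg_left g1 (abs_nonneg _)
    _ ≤ (|c| + 1) * (ε / (|c| + 1)) := by gcongr; linarith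
    _ = ε := by field_simp

lemma Opt.one : Opt P 1 (fun _ => 1) := by
  refine ⟨⟨fun _ => P.F.one_mem, tendsto_const_nhds, P.E 1, fun _ => le_rfl⟩, fun C ε hε => ?_⟩
  refine ⟨1, one_pos, 0, fun k _ w hw _ _ => ?_⟩
  rw [one_left hw, abs_zero]; exact hε.le

/-- the key identity for transferring weights -/
lemma transfer {a b w : C(Z, ℝ)} (ha : a ∈ P.F) (hb : b ∈ P.F) (hw : w ∈ P.F) :
    P.G a w b = P.G a (b * w) 1 - P.G a b w := by
  rw [leibniz_right hb hw ha]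
  simp only [mul_one]
  ring

/-- if `s` is optimal and `b_k` is bounded in `F` in norm and energy, then
`G (s k) w (b k)` is uniformly small for small `w` of bounded energy -/
lemma Opt.weighted (hs : Opt P u s) {b : ℕ → C(Z, ℝ)} (hb : ∀ k, b k ∈ P.F) {B : ℝ}
    (hB : ∀ k, ‖b k‖ ≤ B ∧ √(P.E (b k)) ≤ B) (C ε : ℝ) (hε : 0 < ε) :
    ∃ δ > 0, ∃ N : ℕ, ∀ k ≥ N, ∀ w ∈ P.F, ‖w‖ < δ → P.E w ≤ C →
      |P.G (s k) w (b k)| ≤ ε := by
  obtain ⟨C1, hC10, hC1⟩ := hs.toAppr.norm_bdd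
  have hB0 : 0 ≤ B := (norm_nonneg _).trans (hB 0).1
  obtain ⟨δ1, hδ1, N1, h1⟩ := hs.opt ((B + B * √(max C 0)) ^ 2) (ε / 2) (half_pos hε)
  refine ⟨min 1 (min (δ1 / (B + 1)) (ε / (2 * (C1 * B + 1)))), by positivity, N1,
    fun k hk w hw hwn hwE => ?_⟩
  have hw1 : ‖w‖ ≤ 1 := (hwn.trans_le (min_le_left _ _)).le
  have hw2 : ‖w‖ < δ1 / (B + 1) := hwn.trans_le ((min_le_right _ _).trans (min_le_left _ _))
  have hw3 : ‖w‖ < ε / (2 * (C1 * B + 1)) := hwn.trans_le ((min_le_right _ _).trans (min_le_right _ _))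
  rw [transfer (hs.mem k) (hb k) hw]
  have g1 : |P.G (s k) (b k * w) 1| ≤ ε / 2 := by
    apply h1 k hk _ (P.F.mul_mem (hb k) hw)
    · calc ‖b k * w‖ ≤ ‖b k‖ * ‖w‖ := norm_mul_le _ _
        _ ≤ B * ‖w‖ := mul_le_mul_of_nonneg_right (hB k).1 (norm_nonneg _)
        _ ≤ (B + 1) * ‖w‖ := by gcongr; linarith
        _ < δ1 := by rwa [lt_div_iff₀ (by linarith), mul_comm] at hw2
    · have h2 := sqrtE_mul (P := P) (hb k) hw
      have h3 : √(P.E w) ≤ √(max C 0) := Real.sqrt_le_sqrt (hwE.trans (le_max_left _ _))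
      have h4 : ‖w‖ * √(P.E (b k)) ≤ 1 * B := mul_le_mul hw1 (hB k).2 (Real.sqrt_nonneg _) zero_le_one
      have h5 : ‖b k‖ * √(P.E w) ≤ B * √(max C 0) :=
        mul_le_mul (hB k).1 h3 (Real.sqrt_nonneg _) hB0
      exact (Real.sqrt_le_left (by positivity)).1 (by linarith)
  have g2 : |P.G (s k) (b k) w| ≤ ε / 2 := by
    refine (abs_G_le (P := P) (hs.mem k) (hb k) w).trans ?_
    have h6 : √(P.E (s k)) * √(P.E (b k)) ≤ C1 * B :=
      mul_le_mul (hC1 k).2 (hB k).2 (Real.sqrt_nonneg _) hC10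
    calc ‖w‖ * (√(P.E (s k)) * √(P.E (b k))) ≤ ‖w‖ * (C1 * B) :=
          mul_le_mul_of_nonneg_left h6 (norm_nonneg _)
      _ ≤ ‖w‖ * (C1 * B + 1) := by gcongr; linarith
      _ ≤ (ε / (2 * (C1 * B + 1))) * (C1 * B + 1) := by gcongr
      _ = ε / 2 := by field_simp
  refine (abs_sub _ _).trans (by linarith)

lemma Opt.mul (hs : Opt P u s) (ht : Opt P v t) : Opt P (u * v) (fun k => s k * t k) := by
  refine ⟨hs.toAppr.mul ht.toAppr, fun C ε hε => ?_⟩
  obtain ⟨C1, hC10, hC1⟩ := hs.toAppr.norm_bdd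
  obtain ⟨C2, hC20, hC2⟩ := ht.toAppr.norm_bdd
  obtain ⟨δ1, hδ1, N1, h1⟩ := hs.weighted ht.mem hC2 C (ε / 2) (half_pos hε)
  obtain ⟨δ2, hδ2, N2, h2⟩ := ht.weighted hs.mem hC1 C (ε / 2) (half_pos hε)
  refine ⟨min δ1 δ2, lt_min hδ1 hδ2, max N1 N2, fun k hk w hw hwn hwE => ?_⟩
  have g1 := h1 k (le_trans (le_max_left _ _) hk) w hw (hwn.trans_le (min_le_left _ _)) hwE
  have g2 := h2 k (le_trans (le_max_right _ _) hk) w hw (hwn.trans_le (min_le_right _ _)) hwE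
  rw [P.leibniz (hs.mem k) (ht.mem k) hw]
  simp only [mul_one]
  refine (abs_add_le _ _).trans (by linarith)

end algebra

/-! ### the relaxed form -/

/-- a chosen optimal sequence -/
noncomputable def os (P : PreForm Z) (u : C(Z, ℝ)) : ℕ → C(Z, ℝ) := by
  classical
  exact if h : u ∈ P.Dset then (exists_opt h).choose else fun _ => 0

lemma os_spec {u : C(Z, ℝ)} (h : u ∈ P.Dset) : Opt P u (P.os u) := by
  classical
  unfold os
  rw [dif_pos h]
  exact (exists_opt h).choose_spec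

lemma Opt.memD {u : C(Z, ℝ)} {s : ℕ → C(Z, ℝ)} (h : Opt P u s) : u ∈ P.Dset := ⟨s, h.toAppr⟩

/-- relaxed form -/
noncomputable def relG (P : PreForm Z) (u v φ : C(Z, ℝ)) : ℝ :=
  limUnder atTop (fun k => P.G (P.os u k) (P.os v k) φ)

lemma tendsto_relG_os {u v : C(Z, ℝ)} (hu : u ∈ P.Dset) (hv : v ∈ P.Dset) (φ : C(Z, ℝ)) :
    Tendsto (fun k => P.G (P.os u k) (P.os v k) φ) atTop (𝓝 (P.relG u v φ)) :=
  ((os_spec hu).cauchySeq (os_spec hv) φ).tendsto_limUnder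

/-- the relaxed form is the limit along any optimal sequences, with converging weights -/
theorem Opt.tendsto {u v φ : C(Z, ℝ)} {s t f : ℕ → C(Z, ℝ)} (hs : Opt P u s) (ht : Opt P v t)
    (hf : Tendsto f atTop (𝓝 φ)) :
    Tendsto (fun k => P.G (s k) (t k) (f k)) atTop (𝓝 (P.relG u v φ)) := by
  have hu := hs.memD
  have hv := ht.memD
  have h0 := tendsto_relG_os (P := P) hu hv φ
  have hs' := os_spec hu
  have ht' := os_spec hv
  obtain ⟨C1, hC10, hC1⟩ := hs'.toAppr.norm_bdd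
  obtain ⟨C2, hC20, hC2⟩ := ht.toAppr.norm_bdd
  obtain ⟨C4, hC40, hC4⟩ := ht'.toAppr.norm_bdd
  obtain ⟨C3, hC3⟩ := hf.norm.bddAbove_range
  have hC3' : ∀ k, ‖f k‖ ≤ C3 := fun k => hC3 ⟨k, rfl⟩
  have hC30 : 0 ≤ C3 := (norm_nonneg _).trans (hC3' 0)
  have hdiff : Tendsto (fun k => P.G (s k) (t k) (f k) - P.G (P.os u k) (P.os v k) φ) atTop
      (𝓝 0) := by
    have e1 := hs.E_sub_tendsto hs'
    have e2 := ht.E_sub_tendsto ht'
    have e3 := tendsto_iff_norm_sub_tendsto_zero.1 hf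
    have hb : Tendsto (fun k => C3 * (√(P.E (s k - P.os u k)) * C2)
        + C3 * (C1 * √(P.E (t k - P.os v k))) + ‖f k - φ‖ * (C1 * C4)) atTop (𝓝 0) := by
      have := (((e1.mul_const C2).const_mul C3).add ((e2.const_mul C1).const_mul C3)).add
        (e3.mul_const (C1 * C4))
      simpa using this
    refine squeeze_zero_norm (fun k => ?_) hb
    rw [Real.norm_eq_abs]
    refine (G_sub_le (P := P) (hs.mem k) (hs'.mem k) (ht.mem k) (ht'.mem k)).trans ?_
    have a1 : ‖f k‖ * (√(P.E (s k - P.os u k)) * √(P.E (t k)))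
        ≤ C3 * (√(P.E (s k - P.os u k)) * C2) :=
      mul_le_mul (hC3' k) (mul_le_mul_of_nonneg_left (hC2 k).2 (Real.sqrt_nonneg _))
        (by positivity) hC30
    have a2 : ‖f k‖ * (√(P.E (P.os u k)) * √(P.E (t k - P.os v k)))
        ≤ C3 * (C1 * √(P.E (t k - P.os v k))) :=
      mul_le_mul (hC3' k) (mul_le_mul_of_nonneg_right (hC1 k).2 (Real.sqrt_nonneg _))
        (by positivity) hC30
    have a3 : ‖f k - φ‖ * (√(P.E (P.os u k)) * √(P.E (P.os v k))) ≤ ‖f k - φ‖ * (C1 * C4) :=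
      mul_le_mul_of_nonneg_left (mul_le_mul (hC1 k).2 (hC4 k).2 (Real.sqrt_nonneg _) hC10)
        (norm_nonneg _)
    linarith
  have := hdiff.add h0
  simpa using this

theorem Opt.tendsto' {u v : C(Z, ℝ)} {s t : ℕ → C(Z, ℝ)} (hs : Opt P u s) (ht : Opt P v t)
    (φ : C(Z, ℝ)) : Tendsto (fun k => P.G (s k) (t k) φ) atTop (𝓝 (P.relG u v φ)) :=
  hs.tendsto ht tendsto_const_nhds

/-- the relaxed domain as a subalgebra -/
def relF (P : PreForm Z) : Subalgebra ℝ C(Z, ℝ) where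
  carrier := P.Dset
  mul_mem' := fun ha hb => ((os_spec ha).mul (os_spec hb)).memD
  add_mem' := fun ha hb => ((os_spec ha).add (os_spec hb)).memD
  algebraMap_mem' := fun r => mem_Dset_of_mem (P.F.algebraMap_mem r)

lemma mem_relF {u : C(Z, ℝ)} : u ∈ P.relF ↔ u ∈ P.Dset := Iff.rfl

/-- **the relaxed form** -/
noncomputable def relax (P : PreForm Z) : PreForm Z where
  F := P.relF
  G := P.relG
  symm := by
    intro u v hu hv φ
    have h1 := (os_spec hu).tendsto' (os_spec hv) φ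
    have h2 := (os_spec hv).tendsto' (os_spec hu) φ
    refine tendsto_nhds_unique h1 (h2.congr fun k => ?_)
    exact P.symm ((os_spec hv).mem k) ((os_spec hu).mem k) φ
  add_left := by
    intro u u' v hu hu' hv φ
    have h1 := ((os_spec hu).add (os_spec hu')).tendsto' (os_spec hv) φ
    have h2 := ((os_spec hu).tendsto' (os_spec hv) φ).add ((os_spec hu').tendsto' (os_spec hv) φ)
    refine tendsto_nhds_unique h1 (h2.congr fun k => ?_)
    exact (P.add_left ((os_spec hu).mem k) ((os_spec hu').mem k) ((os_spec hv).mem k) φ).symm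
  smul_left := by
    intro u v c hu hv φ
    have h1 := ((os_spec hu).smul c).tendsto' (os_spec hv) φ
    have h2 := ((os_spec hu).tendsto' (os_spec hv) φ).const_mul c
    refine tendsto_nhds_unique h1 (h2.congr fun k => ?_)
    exact (P.smul_left c ((os_spec hu).mem k) ((os_spec hv).mem k) φ).symm
  add_wt := by
    intro u v hu hv φ φ'
    have h1 := (os_spec hu).tendsto' (os_spec hv) (φ + φ')
    have h2 := ((os_spec hu).tendsto' (os_spec hv) φ).add ((os_spec hu).tendsto' (os_spec hv) φ')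
    refine tendsto_nhds_unique h1 (h2.congr fun k => ?_)
    exact (P.add_wt ((os_spec hu).mem k) ((os_spec hv).mem k) φ φ').symm
  smul_wt := by
    intro u v hu hv c φ
    have h1 := (os_spec hu).tendsto' (os_spec hv) (c • φ)
    have h2 := ((os_spec hu).tendsto' (os_spec hv) φ).const_mul c
    refine tendsto_nhds_unique h1 (h2.congr fun k => ?_)
    exact (P.smul_wt ((os_spec hu).mem k) ((os_spec hv).mem k) c φ).symm
  nonneg := by
    intro u hu φ hφ
    have h1 := (os_spec hu).tendsto' (os_spec hu) φ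
    exact ge_of_tendsto' h1 fun k => P.nonneg ((os_spec hu).mem k) φ hφ
  leibniz := by
    intro u v w hu hv hw φ
    have h1 := ((os_spec hu).mul (os_spec hv)).tendsto' (os_spec hw) φ
    have h2 := ((os_spec hu).tendsto (os_spec hw) ((os_spec hv).lim.mul_const φ)).add
      ((os_spec hv).tendsto (os_spec hw) ((os_spec hu).lim.mul_const φ))
    refine tendsto_nhds_unique h1 (h2.congr fun k => ?_)
    exact (P.leibniz ((os_spec hu).mem k) ((os_spec hv).mem k) ((os_spec hw).mem k) φ).symm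

@[simp] lemma relax_G (u v φ : C(Z, ℝ)) : P.relax.G u v φ = P.relG u v φ := rfl
@[simp] lemma relax_F : P.relax.F = P.relF := rfl
lemma mem_relax_F {u : C(Z, ℝ)} : u ∈ P.relax.F ↔ u ∈ P.Dset := Iff.rfl

lemma le_relax_F : P.F ≤ P.relax.F := fun _ hu => mem_Dset_of_mem hu

end PreForm

end Crest.Agent.R193.Relax
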