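import Crest.Agent.R193.Relax3

/-!
# R193 block D3 (helper934): abstract relaxation, part 4:
chain rule, (WEAK), (CLOSED), comparison with the original form, locality, invariance
-/

set_option autoImplicit false

open Filter Topology

namespace Crest.Agent.R193.Relax

variable {Z : Type*} [TopologicalSpace Z] [CompactSpace Z]

namespace PreForm

variable {P : PreForm Z}

/-! ### general facts for any `PreForm` -/

section general

variable {u v w χ φ : C(Z, ℝ)}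

/-- locality: if `(u - c) χ = 0` and `χ φ = φ` then `G u v φ = 0`. -/
theorem locality (hu : u ∈ P.F) (hv : v ∈ P.F) (hχ : χ ∈ P.F) (c : ℝ)
    (h1 : (u - c • (1 : C(Z, ℝ))) * χ = 0) (h2 : χ * φ = φ) : P.G u v φ = 0 := by
  have hc : c • (1 : C(Z, ℝ)) ∈ P.F := P.F.smul_mem P.F.one_mem c
  have huc := sub_mem hu hc
  have e1 := P.leibniz huc hχ hv φ
  rw [h1, zero_left hv, h2] at e1
  have e2 : (u - c • (1 : C(Z, ℝ))) * φ = 0 := by
    rw [← h2, ← mul_assoc, h1, zero_mul]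
  rw [e2, zero_wt hχ hv, add_zero, sub_left hu hc hv, P.smul_left c P.F.one_mem hv,
    one_left hv] at e1
  linarith

/-- `G u v φ` only depends on `u` near the support of `φ`. -/
theorem local_congr {u' : C(Z, ℝ)} (hu : u ∈ P.F) (hu' : u' ∈ P.F) (hv : v ∈ P.F) (hχ : χ ∈ P.F)
    (h1 : (u - u') * χ = 0) (h2 : χ * φ = φ) : P.G u v φ = P.G u' v φ := by
  have := locality (P := P) (sub_mem hu hu') hv hχ 0 (by simpa using h1) h2
  rw [sub_left hu hu' hv] at this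
  linarith

lemma G_le_norm_mul_E (hu : u ∈ P.F) (φ : C(Z, ℝ)) : P.G u u φ ≤ ‖φ‖ * P.E u := by
  have := (le_abs_self _).trans (abs_G_le (P := P) hu hu φ)
  rwa [Real.mul_self_sqrt (E_nonneg hu)] at this

/-- `√` of the weighted energy is a seminorm -/
lemma sqrtG_add (hu : u ∈ P.F) (hv : v ∈ P.F) (hφ : 0 ≤ φ) :
    √(P.G (u + v) (u + v) φ) ≤ √(P.G u u φ) + √(P.G v v φ) := by
  have h1 : P.G (u + v) (u + v) φ = P.G u u φ + 2 * P.G u v φ + P.G v v φ := by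
    have := quad (P := P) hu hv 1 φ
    simpa using this
  have h2 := abs_le_sqrt (P := P) hu hv hφ
  have h3 := le_abs_self (P.G u v φ)
  apply Real.sqrt_le_iff.2
  refine ⟨by positivity, ?_⟩
  have e1 := Real.sq_sqrt (P.nonneg hu φ hφ)
  have e2 := Real.sq_sqrt (P.nonneg hv φ hφ)
  nlinarith

lemma sqrtG_sub (hu : u ∈ P.F) (hv : v ∈ P.F) (hφ : 0 ≤ φ) :
    √(P.G (u - v) (u - v) φ) ≤ √(P.G u u φ) + √(P.G v v φ) := by
  have := sqrtG_add (P := P) hu (neg_mem hv) hφ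
  rwa [← sub_eq_add_neg, neg_left hv (neg_mem hv), neg_right hv hv, neg_neg] at this

/-- energy bound for compositions -/
lemma sqrtE_comp {n : WithTop ℕ∞} (hP : Chain P n) {m : ℕ} {ψ : (Fin m → ℝ) → ℝ}
    (hψ : ContDiff ℝ n ψ) (hc : Continuous ψ) (hp : ∀ i, Continuous (pd ψ i))
    {a : Fin m → C(Z, ℝ)} (ha : ∀ i, a i ∈ P.F) :
    √(P.E (compC ψ hc a)) ≤ ∑ i, ‖compC (pd ψ i) (hp i) a‖ * √(P.E (a i)) := by
  obtain ⟨hmem, hG⟩ := hP m ψ hψ hc hp a ha
  set f := compC ψ hc a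
  have e1 : P.E f = ∑ i, P.G (a i) f (compC (pd ψ i) (hp i) a) := by
    have := hG f hmem 1
    simpa [E] using this
  have e2 : P.E f ≤ (∑ i, ‖compC (pd ψ i) (hp i) a‖ * √(P.E (a i))) * √(P.E f) := by
    rw [Finset.sum_mul]
    conv_lhs => rw [e1]
    refine Finset.sum_le_sum fun i _ => ?_
    refine (le_abs_self _).trans ((abs_G_le (P := P) (ha i) hmem _).trans (le_of_eq ?_))
    ring
  have h0 : 0 ≤ ∑ i, ‖compC (pd ψ i) (hp i) a‖ * √(P.E (a i)) :=
    Finset.sum_nonneg fun i _ => by positivity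
  by_contra hlt
  rw [not_le] at hlt
  have hs := Real.mul_self_sqrt (E_nonneg (P := P) hmem)
  have hpos : 0 < √(P.E f) := lt_of_le_of_lt h0 hlt
  nlinarith

end general

/-! ### smallness predicate -/

/-- `g k w` is uniformly small for `k` large, `w` small in norm with bounded energy -/
def Small (P : PreForm Z) (g : ℕ → C(Z, ℝ) → ℝ) : Prop :=
  ∀ C : ℝ, ∀ ε > 0, ∃ δ > 0, ∃ N : ℕ, ∀ k ≥ N, ∀ w ∈ P.F, ‖w‖ < δ → P.E w ≤ C → |g k w| ≤ ε

lemma Small.sum {ι : Type*} (S : Finset ι) {g : ι → ℕ → C(Z, ℝ) → ℝ}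
    (h : ∀ i ∈ S, Small P (g i)) : Small P (fun k w => ∑ i ∈ S, g i k w) := by
  classical
  induction S using Finset.induction_on with
  | empty =>
    intro C ε hε
    exact ⟨1, one_pos, 0, fun k _ w _ _ _ => by simpa using hε.le⟩
  | insert a S ha ih =>
    intro C ε hε
    obtain ⟨δ1, hδ1, N1, h1⟩ := h a (Finset.mem_insert_self a S) C (ε / 2) (half_pos hε)
    obtain ⟨δ2, hδ2, N2, h2⟩ := ih (fun i hi => h i (Finset.mem_insert_of_mem hi)) C (ε / 2)
      (half_pos hε)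
    refine ⟨min δ1 δ2, lt_min hδ1 hδ2, max N1 N2, fun k hk w hw hwn hwE => ?_⟩
    have g1 := h1 k (le_trans (le_max_left _ _) hk) w hw (hwn.trans_le (min_le_left _ _)) hwE
    have g2 := h2 k (le_trans (le_max_right _ _) hk) w hw (hwn.trans_le (min_le_right _ _)) hwE

    change |∑ i ∈ insert a S, g i k w| ≤ ε
    rw [Finset.sum_insert ha]
    refine (abs_add_le _ _).trans (by linarith)

/-- weights in the closure of `F` are allowed -/
lemma Opt.small {u φ : C(Z, ℝ)} {s : ℕ → C(Z, ℝ)} (hs : Opt P u s)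
    (hφ : φ ∈ closure (P.F : Set C(Z, ℝ))) : Small P (fun k w => P.G (s k) w φ) := by
  intro C ε hε
  obtain ⟨C1, hC10, hC1⟩ := hs.toAppr.norm_bdd
  obtain ⟨φ', hφ', hd⟩ := Metric.mem_closure_iff.1 hφ (ε / (2 * (C1 * √(max C 0) + 1)))
    (by positivity)
  set B := max ‖φ'‖ (√(P.E φ'))
  obtain ⟨δ, hδ, N, h⟩ := hs.weighted (b := fun _ => φ') (fun _ => hφ') (B := B)
    (fun _ => ⟨le_max_left _ _, le_max_right _ _⟩) C (ε / 2) (half_pos hε)
  refine ⟨δ, hδ, N, fun k hk w hw hwn hwE => ?_⟩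
  have g1 := h k hk w hw hwn hwE
  have e : P.G (s k) w φ = P.G (s k) w φ' + P.G (s k) w (φ - φ') := by
    rw [sub_wt (hs.mem k) hw]; ring
  change |P.G (s k) w φ| ≤ ε
  rw [e]
  have g2 : |P.G (s k) w (φ - φ')| ≤ ε / 2 := by
    refine (abs_G_le (P := P) (hs.mem k) hw _).trans ?_
    rw [← dist_eq_norm]
    have h3 : √(P.E w) ≤ √(max C 0) := Real.sqrt_le_sqrt (hwE.trans (le_max_left _ _))
    have h4 : √(P.E (s k)) * √(P.E w) ≤ C1 * √(max C 0) :=
      mul_le_mul (hC1 k).2 h3 (Real.sqrt_nonneg _) hC10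
    calc dist φ φ' * (√(P.E (s k)) * √(P.E w)) ≤ dist φ φ' * (C1 * √(max C 0) + 1) := by
          apply mul_le_mul_of_nonneg_left (by linarith) dist_nonneg
      _ ≤ (ε / (2 * (C1 * √(max C 0) + 1))) * (C1 * √(max C 0) + 1) := by
          apply mul_le_mul_of_nonneg_right hd.le (by positivity)
      _ = ε / 2 := by field_simp
  refine (abs_add_le _ _).trans (by linarith)

/-- `√E` along an optimal sequence -/
lemma Opt.E_tendsto {u : C(Z, ℝ)} {s : ℕ → C(Z, ℝ)} (hs : Opt P u s) :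
    Tendsto (fun k => P.E (s k)) atTop (𝓝 (P.relax.E u)) := hs.tendsto' hs 1

/-- compositions of optimal sequences are optimal -/
theorem Opt.comp [T2Space Z] (hP : Chain P 1) {m : ℕ} {ψ : (Fin m → ℝ) → ℝ}
    (hψ : ContDiff ℝ 2 ψ) (hc : Continuous ψ) {u : Fin m → C(Z, ℝ)}
    {s : Fin m → ℕ → C(Z, ℝ)} (hs : ∀ i, Opt P (u i) (s i)) :
    Opt P (compC ψ hc u) (fun k => compC ψ hc (fun i => s i k)) := by
  have hψ1 : ContDiff ℝ 1 ψ := hψ.of_le (by norm_num)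
  have hp : ∀ i, Continuous (pd ψ i) := continuous_pd hψ1
  have hpp : ∀ i j, Continuous (pd (pd ψ i) j) := fun i j => continuous_pd (contDiff_pd hψ i) j
  have hlim : Tendsto (fun k => (fun i => s i k)) atTop (𝓝 u) :=
    tendsto_pi_nhds.2 fun i => (hs i).lim
  have hmem : ∀ k, compC ψ hc (fun i => s i k) ∈ P.F := fun k =>
    (hP m ψ hψ1 hc hp _ fun i => (hs i).mem k).1
  have hmem' : ∀ i k, compC (pd ψ i) (hp i) (fun i => s i k) ∈ P.F := fun i k =>
    (hP m (pd ψ i) (contDiff_pd hψ i) (hp i) (hpp i) _ fun i => (hs i).mem k).1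
  have hbn : ∀ (f : (Fin m → ℝ) → ℝ) (hf : Continuous f), ∃ B : ℝ, 0 ≤ B ∧
      ∀ k, ‖compC f hf (fun i => s i k)‖ ≤ B := by
    intro f hf
    have h1 : Tendsto (fun k => compC f hf (fun i => s i k)) atTop (𝓝 (compC f hf u)) :=
      ((continuous_compC (Z := Z) f hf).tendsto u).comp hlim
    obtain ⟨B, hB⟩ := h1.norm.bddAbove_range
    exact ⟨B, (norm_nonneg _).trans (hB ⟨0, rfl⟩), fun k => hB ⟨k, rfl⟩⟩
  choose Cs hCs0 hCs using fun i => (hs i).toAppr.norm_bdd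
  choose B1 hB10 hB1 using fun i => hbn (pd ψ i) (hp i)
  choose B2 hB20 hB2 using fun i => fun j => hbn (pd (pd ψ i) j) (hpp i j)
  -- energy bounds
  have hE1 : ∀ k, √(P.E (compC ψ hc (fun i => s i k))) ≤ ∑ i, B1 i * Cs i := by
    intro k
    refine (sqrtE_comp hP hψ1 hc hp (fun i => (hs i).mem k)).trans ?_
    exact Finset.sum_le_sum fun i _ => mul_le_mul (hB1 i k) (hCs i k).2 (Real.sqrt_nonneg _)
      (hB10 i)
  have hE2 : ∀ i k, √(P.E (compC (pd ψ i) (hp i) (fun i => s i k))) ≤ ∑ j, B2 i j * Cs j := by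
    intro i k
    refine (sqrtE_comp hP (contDiff_pd hψ i) (hp i) (hpp i) (fun i => (hs i).mem k)).trans ?_
    exact Finset.sum_le_sum fun j _ => mul_le_mul (hB2 i j k) (hCs j k).2 (Real.sqrt_nonneg _)
      (hB20 i j)
  refine ⟨⟨hmem, ((continuous_compC (Z := Z) ψ hc).tendsto u).comp hlim,
    (∑ i, B1 i * Cs i) ^ 2, fun k => ?_⟩, ?_⟩
  · exact (Real.sqrt_le_left (Finset.sum_nonneg fun i _ => mul_nonneg (hB10 i) (hCs0 i))).1 (hE1 k)
  · have hsm : Small P (fun k w => ∑ i ∈ Finset.univ,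
        P.G (s i k) w (compC (pd ψ i) (hp i) (fun i => s i k))) := by
      apply Small.sum
      intro i _ C ε hε
      exact (hs i).weighted (hmem' i) (B := max (B1 i) (∑ j, B2 i j * Cs j))
        (fun k => ⟨(hB1 i k).trans (le_max_left _ _), (hE2 i k).trans (le_max_right _ _)⟩) C ε hε
    intro C ε hε
    obtain ⟨δ, hδ, N, h⟩ := hsm C ε hε
    refine ⟨δ, hδ, N, fun k hk w hw hwn hwE => ?_⟩
    have := h k hk w hw hwn hwE
    rw [(hP m ψ hψ1 hc hp _ fun i => (hs i).mem k).2 w hw 1]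
    simpa using this

/-- **chain rule for the relaxed form** -/
theorem chain_relax [T2Space Z] (hP : Chain P 1) : Chain P.relax 2 := by
  intro m ψ hψ hc hp u hu
  have hs : ∀ i, Opt P (u i) (P.os (u i)) := fun i => os_spec (hu i)
  have hcomp := Opt.comp hP hψ hc hs
  refine ⟨hcomp.memD, fun v hv φ => ?_⟩
  have hψ1 : ContDiff ℝ 1 ψ := hψ.of_le (by norm_num)
  have h1 := hcomp.tendsto' (os_spec hv) φ
  have hlim : Tendsto (fun k => (fun i => P.os (u i) k)) atTop (𝓝 u) :=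
    tendsto_pi_nhds.2 fun i => (hs i).lim
  have h2 : Tendsto (fun k => ∑ i, P.G (P.os (u i) k) (P.os v k)
      (compC (pd ψ i) (hp i) (fun i => P.os (u i) k) * φ)) atTop
      (𝓝 (∑ i, P.relG (u i) v (compC (pd ψ i) (hp i) u * φ))) := by
    apply tendsto_finsetSum
    intro i _
    apply (hs i).tendsto (os_spec hv)
    exact (((continuous_compC (Z := Z) (pd ψ i) (hp i)).tendsto u).comp hlim).mul_const φ
  refine tendsto_nhds_unique h1 (h2.congr fun k => ?_)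
  exact ((hP m ψ hψ1 hc hp _ fun i => (hs i).mem k).2 _ ((os_spec hv).mem k) φ).symm

/-! ### (WEAK), semicontinuity, (CLOSED) -/

lemma memD_closure {φ : C(Z, ℝ)} (hd : Dense (P.F : Set C(Z, ℝ))) :
    φ ∈ closure (P.F : Set C(Z, ℝ)) := hd φ

/-- **(WEAK)** -/
theorem weak {u φ : C(Z, ℝ)} (hu : u ∈ P.relax.F) (hφ : φ ∈ closure (P.F : Set C(Z, ℝ)))
    (C : ℝ) {ε : ℝ} (hε : 0 < ε) :
    ∃ δ > 0, ∀ w ∈ P.relax.F, ‖w‖ < δ → P.relax.E w ≤ C → |P.relax.G u w φ| ≤ ε := by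
  obtain ⟨δ, hδ, N, h⟩ := (os_spec hu).small hφ (C + 1) ε hε
  refine ⟨δ, hδ, fun w hw hwn hwE => ?_⟩
  have ht := os_spec hw
  have h1 := ht.lim.norm.eventually (gt_mem_nhds hwn)
  have h2 := ht.E_tendsto.eventually (gt_mem_nhds (show P.relax.E w < C + 1 by linarith))
  have h3 := ((os_spec hu).tendsto' ht φ).abs
  refine le_of_tendsto h3 ?_
  filter_upwards [h1, h2, eventually_ge_atTop N] with k hk1 hk2 hk3
  exact h k hk3 _ (ht.mem k) hk1 hk2.le

lemma one_mem_closure : (1 : C(Z, ℝ)) ∈ closure (P.F : Set C(Z, ℝ)) := subset_closure P.F.one_mem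

/-- the relaxed energy is at most the original one, with weights -/
theorem relax_le {v φ : C(Z, ℝ)} (hv : v ∈ P.F) (hφ0 : 0 ≤ φ)
    (hφ : φ ∈ closure (P.F : Set C(Z, ℝ))) : P.relax.G v v φ ≤ P.G v v φ := by
  have hs := os_spec (le_relax_F hv)
  obtain ⟨C1, hC10, hC1⟩ := hs.toAppr.norm_bdd
  apply le_of_forall_pos_le_add
  intro ε hε
  obtain ⟨δ, hδ, N, h⟩ := hs.small hφ ((C1 + √(P.E v)) ^ 2) (ε / 2) (half_pos hε)
  have h1 := (tendsto_iff_norm_sub_tendsto_zero.1 hs.lim).eventually (gt_mem_nhds hδ)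
  refine le_of_tendsto (hs.tendsto' hs φ) ?_
  filter_upwards [h1, eventually_ge_atTop N] with k hk1 hk3
  have hw := sub_mem hv (hs.mem k)
  have hE : P.E (v - P.os v k) ≤ (C1 + √(P.E v)) ^ 2 := by
    have h5 := sqrtE_sub (P := P) hv (hs.mem k)
    have h6 := (hC1 k).2
    exact (Real.sqrt_le_left (by positivity)).1 (by linarith)
  have h7 := h k hk3 _ hw (by rwa [← norm_neg, neg_sub]) hE
  have e := quad (P := P) (hs.mem k) hw 1 φ
  have e2 : P.os v k + (1 : ℝ) • (v - P.os v k) = v := by rw [one_smul]; abel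
  rw [e2] at e
  have h8 := P.nonneg hw φ hφ0
  have h9 := (abs_le.1 h7).1
  nlinarith

theorem relax_E_le {v : C(Z, ℝ)} (hv : v ∈ P.F) : P.relax.E v ≤ P.E v :=
  relax_le hv (by intro z; simp) one_mem_closure

/-- lower semicontinuity inside the relaxed domain -/
theorem lsc {u φ : C(Z, ℝ)} (hu : u ∈ P.relax.F) (hφ0 : 0 ≤ φ)
    (hφ : φ ∈ closure (P.F : Set C(Z, ℝ))) (C : ℝ) {ε : ℝ} (hε : 0 < ε) :
    ∃ δ > 0, ∀ v ∈ P.relax.F, ‖v - u‖ < δ → P.relax.E v ≤ C →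
      P.relax.G u u φ - ε ≤ P.relax.G v v φ := by
  obtain ⟨δ, hδ, h⟩ := weak hu hφ ((√(max C 0) + √(P.relax.E u)) ^ 2) (half_pos hε)
  refine ⟨δ, hδ, fun v hv hvn hvE => ?_⟩
  have hw := sub_mem hv hu
  have h1 := h _ hw hvn (by
    have h5 := sqrtE_sub (P := P.relax) hv hu
    have h6 : √(P.relax.E v) ≤ √(max C 0) := Real.sqrt_le_sqrt (hvE.trans (le_max_left _ _))
    exact (Real.sqrt_le_left (by positivity)).1 (by linarith))
  have e := quad (P := P.relax) hu hw 1 φ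
  have e2 : u + (1 : ℝ) • (v - u) = v := by rw [one_smul]; abel
  rw [e2] at e
  have h8 := P.relax.nonneg hw φ hφ0
  have h9 := (abs_le.1 h1).1
  linarith

/-- every element of the relaxed domain is approximated by `F` in norm and in all weighted energies -/
theorem exists_approx {u : C(Z, ℝ)} (hu : u ∈ P.relax.F) : ∃ s : ℕ → C(Z, ℝ), (∀ k, s k ∈ P.F) ∧
    Tendsto s atTop (𝓝 u) ∧ ∀ φ, Tendsto (fun k => P.G (s k) (s k) φ) atTop (𝓝 (P.relax.G u u φ)) :=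
  ⟨P.os u, (os_spec hu).mem, (os_spec hu).lim, fun φ => (os_spec hu).tendsto' (os_spec hu) φ⟩

/-- **(CLOSED)** -/
theorem closed {u : C(Z, ℝ)} {v : ℕ → C(Z, ℝ)} (hv : ∀ k, v k ∈ P.relax.F)
    (hlim : Tendsto v atTop (𝓝 u)) {C : ℝ} (hC : ∀ k, P.relax.E (v k) ≤ C) :
    u ∈ P.relax.F ∧ P.relax.E u ≤ C := by
  have hmem : u ∈ P.relax.F := by
    have hch : ∀ k : ℕ, ∃ f ∈ P.F, ‖f - v k‖ < 1 / ((k : ℝ) + 1) ∧ P.E f < C + 1 := by
      intro k
      have ht := os_spec (hv k)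
      have h1 := (tendsto_iff_norm_sub_tendsto_zero.1 ht.lim).eventually
        (gt_mem_nhds (show (0:ℝ) < 1 / ((k : ℝ) + 1) by positivity))
      have h2 := ht.E_tendsto.eventually
        (gt_mem_nhds (show P.relax.E (v k) < C + 1 by linarith [hC k]))
      obtain ⟨j, hj1, hj2⟩ := (h1.and h2).exists
      exact ⟨_, ht.mem j, hj1, hj2⟩
    choose f hf h1 h2 using hch
    refine ⟨f, hf, ?_, C + 1, fun k => (h2 k).le⟩
    rw [tendsto_iff_norm_sub_tendsto_zero] at hlim ⊢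
    refine squeeze_zero (g := fun k : ℕ => 1 / ((k : ℝ) + 1) + ‖v k - u‖) (fun k => norm_nonneg _)
      (fun k => ?_) ?_
    · calc ‖f k - u‖ = ‖(f k - v k) + (v k - u)‖ := by congr 1; abel
        _ ≤ ‖f k - v k‖ + ‖v k - u‖ := norm_add_le _ _
        _ ≤ _ := by linarith [h1 k]
    · have := (tendsto_one_div_add_atTop_nhds_zero_nat (𝕜 := ℝ)).add hlim
      simpa using this
  refine ⟨hmem, ?_⟩
  apply le_of_forall_pos_le_add
  intro ε hε
  obtain ⟨δ, hδ, h⟩ := lsc (P := P) (φ := 1) hmem (by intro z; simp) one_mem_closure C hε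
  have h1 := (tendsto_iff_norm_sub_tendsto_zero.1 hlim).eventually (gt_mem_nhds hδ)
  obtain ⟨k, hk⟩ := h1.exists
  have := h _ (hv k) hk (hC k)
  have h3 := hC k
  have : P.relax.E u - ε ≤ P.relax.E (v k) := this
  linarith

/-- a sequence in `F` converging uniformly with bounded energy -/
theorem closed' {u : C(Z, ℝ)} {v : ℕ → C(Z, ℝ)} (hv : ∀ k, v k ∈ P.F)
    (hlim : Tendsto v atTop (𝓝 u)) {C : ℝ} (hC : ∀ k, P.E (v k) ≤ C) :
    u ∈ P.relax.F ∧ P.relax.E u ≤ C :=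
  closed (fun k => le_relax_F (hv k)) hlim fun k => (relax_E_le (hv k)).trans (hC k)

/-- weighted lower semicontinuity along sequences of the relaxed domain -/
theorem lsc_seq {u φ : C(Z, ℝ)} {v : ℕ → C(Z, ℝ)} (hv : ∀ k, v k ∈ P.relax.F)
    (hlim : Tendsto v atTop (𝓝 u)) {C : ℝ} (hC : ∀ k, P.relax.E (v k) ≤ C) (hφ0 : 0 ≤ φ)
    (hφ : φ ∈ closure (P.F : Set C(Z, ℝ))) {c : ℝ}
    (hc : ∃ᶠ k in atTop, P.relax.G (v k) (v k) φ ≤ c) : P.relax.G u u φ ≤ c := by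
  obtain ⟨hmem, -⟩ := closed hv hlim hC
  apply le_of_forall_pos_le_add
  intro ε hε
  obtain ⟨δ, hδ, h⟩ := lsc (P := P) hmem hφ0 hφ C hε
  have h1 := (tendsto_iff_norm_sub_tendsto_zero.1 hlim).eventually (gt_mem_nhds hδ)
  obtain ⟨k, hk1, hk2⟩ := (hc.and_eventually h1).exists
  have := h _ (hv k) hk2 (hC k)
  linarith

/-! ### invariance -/

/-- `P` is invariant under the homeomorphism `T` -/
structure Inv (P : PreForm Z) (T : Z ≃ₜ Z) : Prop where
  mem : ∀ u ∈ P.F, u.comp (T : C(Z, Z)) ∈ P.F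
  mem_symm : ∀ u ∈ P.F, u.comp (T.symm : C(Z, Z)) ∈ P.F
  G_eq : ∀ u ∈ P.F, ∀ v ∈ P.F, ∀ φ : C(Z, ℝ),
    P.G (u.comp (T : C(Z, Z))) (v.comp (T : C(Z, Z))) (φ.comp (T : C(Z, Z))) = P.G u v φ

lemma norm_comp_homeo (u : C(Z, ℝ)) (T : Z ≃ₜ Z) : ‖u.comp (T : C(Z, Z))‖ = ‖u‖ := by
  apply le_antisymm
  · rw [ContinuousMap.norm_le _ (norm_nonneg _)]
    intro z
    exact u.norm_coe_le_norm (T z)
  · rw [ContinuousMap.norm_le _ (norm_nonneg _)]
    intro z
    have := (u.comp (T : C(Z, Z))).norm_coe_le_norm (T.symm z)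
    simpa using this

omit [CompactSpace Z] in
lemma comp_homeo_symm (u : C(Z, ℝ)) (T : Z ≃ₜ Z) :
    (u.comp (T : C(Z, Z))).comp (T.symm : C(Z, Z)) = u := by ext z; simp

omit [CompactSpace Z] in
lemma comp_symm_homeo (u : C(Z, ℝ)) (T : Z ≃ₜ Z) :
    (u.comp (T.symm : C(Z, Z))).comp (T : C(Z, Z)) = u := by ext z; simp

lemma Inv.E_eq {T : Z ≃ₜ Z} (h : Inv P T) {u : C(Z, ℝ)} (hu : u ∈ P.F) :
    P.E (u.comp (T : C(Z, Z))) = P.E u := h.G_eq u hu u hu 1

lemma Inv.E_symm {T : Z ≃ₜ Z} (h : Inv P T) {u : C(Z, ℝ)} (hu : u ∈ P.F) :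
    P.E (u.comp (T.symm : C(Z, Z))) = P.E u := by
  have := h.E_eq (h.mem_symm u hu)
  rw [comp_symm_homeo] at this
  exact this.symm

lemma tendsto_comp_homeo {u : C(Z, ℝ)} {s : ℕ → C(Z, ℝ)} (T : Z ≃ₜ Z)
    (h : Tendsto s atTop (𝓝 u)) :
    Tendsto (fun k => (s k).comp (T : C(Z, Z))) atTop (𝓝 (u.comp (T : C(Z, Z)))) := by
  rw [tendsto_iff_norm_sub_tendsto_zero] at h ⊢
  refine h.congr fun k => ?_
  rw [← norm_comp_homeo (s k - u) T]
  rfl

lemma Opt.comp_homeo {T : Z ≃ₜ Z} (h : Inv P T) {u : C(Z, ℝ)} {s : ℕ → C(Z, ℝ)}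
    (hs : Opt P u s) : Opt P (u.comp (T : C(Z, Z))) (fun k => (s k).comp (T : C(Z, Z))) := by
  obtain ⟨C, hC⟩ := hs.bdd
  refine ⟨⟨fun k => h.mem _ (hs.mem k), tendsto_comp_homeo T hs.lim, C, fun k => ?_⟩,
    fun C ε hε => ?_⟩
  · rw [h.E_eq (hs.mem k)]; exact hC k
  · obtain ⟨δ, hδ, N, h1⟩ := hs.opt C ε hε
    refine ⟨δ, hδ, N, fun k hk w hw hwn hwE => ?_⟩
    have g := h1 k hk (w.comp (T.symm : C(Z, Z))) (h.mem_symm w hw)
      (by rwa [norm_comp_homeo w T.symm]) (by rwa [h.E_symm hw])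
    have e := h.G_eq (s k) (hs.mem k) (w.comp (T.symm : C(Z, Z))) (h.mem_symm w hw) 1
    rw [comp_symm_homeo] at e
    have e1 : (1 : C(Z, ℝ)).comp (T : C(Z, Z)) = 1 := by ext z; simp
    rw [e1] at e
    rwa [e]

lemma Inv.symm {T : Z ≃ₜ Z} (h : Inv P T) : Inv P T.symm := by
  refine ⟨h.mem_symm, by simpa using h.mem, fun u hu v hv φ => ?_⟩
  have e := h.G_eq _ (h.mem_symm u hu) _ (h.mem_symm v hv) (φ.comp (T.symm : C(Z, Z)))
  rw [comp_symm_homeo, comp_symm_homeo, comp_symm_homeo] at e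
  exact e.symm

/-- the relaxed form is invariant -/
theorem Inv.relax {T : Z ≃ₜ Z} (h : Inv P T) : Inv P.relax T := by
  refine ⟨fun u hu => ((os_spec hu).comp_homeo h).memD,
    fun u hu => ((os_spec hu).comp_homeo h.symm).memD, fun u hu v hv φ => ?_⟩
  have h1 := ((os_spec hu).comp_homeo h).tendsto' ((os_spec hv).comp_homeo h)
    (φ.comp (T : C(Z, Z)))
  have h2 := (os_spec hu).tendsto' (os_spec hv) φ
  refine tendsto_nhds_unique h1 (h2.congr fun k => ?_)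
  exact (h.G_eq _ ((os_spec hu).mem k) _ ((os_spec hv).mem k) φ).symm

end PreForm

end Crest.Agent.R193.Relax
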