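import Crest.Agent.R193.Relax4
import Crest.Agent.R193.Defs

/-!
# R193, block D3: adapter from an abstract invariant pre-form to the algebraic fields of `DForm`

`AlgForm S` has verbatim the algebraic fields of `DForm S` (from `const_mem` to `closed`).
`AlgForm.ofPreForm` produces it from a pre-form (`Relax.PreForm`) with the `C¹` chain rule, dense
domain and invariance under `G`.
-/

set_option autoImplicit false

noncomputable section

open Set Filter Topology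

namespace Crest.Agent.R193.RelaxD

open Relax Relax.PreForm

/-- the algebraic part of `DForm` -/
structure AlgForm {G Z : Type} [Group G] [MetricSpace Z] [MulAction G Z] (S : Setup G Z) where
  Dom : Set C(Z, ℝ)
  Γ : C(Z, ℝ) → C(Z, ℝ) → C(Z, ℝ) → ℝ
  const_mem : ∀ c : ℝ, ContinuousMap.const Z c ∈ Dom
  add_mem : ∀ u ∈ Dom, ∀ v ∈ Dom, u + v ∈ Dom
  smul_mem : ∀ c : ℝ, ∀ u ∈ Dom, c • u ∈ Dom
  mul_mem : ∀ u ∈ Dom, ∀ v ∈ Dom, u * v ∈ Dom
  symm : ∀ u ∈ Dom, ∀ v ∈ Dom, ∀ φ, Γ u v φ = Γ v u φ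
  add_left : ∀ u ∈ Dom, ∀ u' ∈ Dom, ∀ v ∈ Dom, ∀ φ, Γ (u + u') v φ = Γ u v φ + Γ u' v φ
  smul_left : ∀ c : ℝ, ∀ u ∈ Dom, ∀ v ∈ Dom, ∀ φ, Γ (c • u) v φ = c * Γ u v φ
  add_test : ∀ u ∈ Dom, ∀ v ∈ Dom, ∀ φ φ' : C(Z, ℝ), Γ u v (φ + φ') = Γ u v φ + Γ u v φ'
  smul_test : ∀ c : ℝ, ∀ u ∈ Dom, ∀ v ∈ Dom, ∀ φ : C(Z, ℝ), Γ u v (c • φ) = c * Γ u v φ
  nonneg : ∀ u ∈ Dom, ∀ φ : C(Z, ℝ), (∀ x, 0 ≤ φ x) → 0 ≤ Γ u u φ
  chain : ∀ (ψ : ℝ × ℝ → ℝ) (_ : ContDiff ℝ 2 ψ), ∀ u ∈ Dom, ∀ v ∈ Dom, ∀ (w' d1 d2 : C(Z, ℝ)),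
    (∀ x, w' x = ψ (u x, v x)) → (∀ x, d1 x = fderiv ℝ ψ (u x, v x) (1, 0)) →
    (∀ x, d2 x = fderiv ℝ ψ (u x, v x) (0, 1)) →
    w' ∈ Dom ∧ ∀ w ∈ Dom, ∀ φ : C(Z, ℝ), Γ w' w φ = Γ u w (φ * d1) + Γ v w (φ * d2)
  inv : ∀ (g : G) (u v φ u' v' φ' : C(Z, ℝ)), u ∈ Dom → v ∈ Dom →
    (∀ x, u' x = u (g • x)) → (∀ x, v' x = v (g • x)) → (∀ x, φ' x = φ (g • x)) →
    u' ∈ Dom ∧ Γ u' v' φ' = Γ u v φ
  closed : ∀ (u : ℕ → C(Z, ℝ)) (w : C(Z, ℝ)) (C : ℝ), (∀ n, u n ∈ Dom) →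
    Tendsto u atTop (𝓝 w) → (∀ n, Γ (u n) (u n) 1 ≤ C) →
    w ∈ Dom ∧ ∀ v ∈ Dom, ∀ φ, Tendsto (fun n => Γ (u n) v φ) atTop (𝓝 (Γ w v φ))

section
variable {G Z : Type} [Group G] [MetricSpace Z] [MulAction G Z]

/-- the homeomorphism `x ↦ g • x` of the boundary -/
def act (S : Setup G Z) (g : G) : Z ≃ₜ Z where
  toFun := fun x => g • x
  invFun := fun x => g⁻¹ • x
  left_inv := fun x => by simp
  right_inv := fun x => by simp
  continuous_toFun := S.cont g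
  continuous_invFun := S.cont g⁻¹

variable [CompactSpace Z]

/-- weak continuity in the form needed by `DForm.closed` -/
theorem weak_tendsto {P : PreForm Z} (hd : Dense (P.F : Set C(Z, ℝ))) {u : ℕ → C(Z, ℝ)}
    {w : C(Z, ℝ)} {C : ℝ} (hu : ∀ n, u n ∈ P.relax.F) (hlim : Tendsto u atTop (𝓝 w))
    (hC : ∀ n, P.relax.E (u n) ≤ C) :
    w ∈ P.relax.F ∧ ∀ v ∈ P.relax.F, ∀ φ,
      Tendsto (fun n => P.relax.G (u n) v φ) atTop (𝓝 (P.relax.G w v φ)) := by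
  obtain ⟨hw, hwC⟩ := PreForm.closed hu hlim hC
  refine ⟨hw, fun v hv φ => ?_⟩
  rw [Metric.tendsto_nhds]
  intro ε hε
  obtain ⟨d, hd0, h⟩ := PreForm.weak hv (memD_closure hd (φ := φ)) ((√C + √C) ^ 2) (half_pos hε)
  have h1 := (tendsto_iff_norm_sub_tendsto_zero.1 hlim).eventually (gt_mem_nhds hd0)
  filter_upwards [h1] with n hn
  have hmem : u n - w ∈ P.relax.F := P.relax.F.sub_mem (hu n) hw
  have hE : P.relax.E (u n - w) ≤ (√C + √C) ^ 2 := by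
    have h2 := sqrtE_sub (P := P.relax) (hu n) hw
    have h3 : √(P.relax.E (u n - w)) ≤ √C + √C :=
      h2.trans (add_le_add (Real.sqrt_le_sqrt (hC n)) (Real.sqrt_le_sqrt hwC))
    have h4 := E_nonneg (P := P.relax) hmem
    calc P.relax.E (u n - w) = √(P.relax.E (u n - w)) ^ 2 := (Real.sq_sqrt h4).symm
      _ ≤ _ := by gcongr
  have h5 := h _ hmem hn hE
  have h6 : P.relax.G (u n) v φ - P.relax.G w v φ = P.relax.G v (u n - w) φ := by
    rw [P.relax.symm hv hmem, ← sub_left (P := P.relax) (hu n) hw hv]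
  rw [Real.dist_eq, h6]
  linarith

/-- **Adapter.** -/
def AlgForm.ofPreForm (S : Setup G Z) (P : PreForm Z) (hP : Chain P 1)
    (hd : Dense (P.F : Set C(Z, ℝ))) (hinv : ∀ g : G, Inv P (act S g)) : AlgForm S where
  Dom := {u | u ∈ P.relax.F}
  Γ := P.relax.G
  const_mem := fun c => P.relax.F.algebraMap_mem c
  add_mem := fun u hu v hv => P.relax.F.add_mem hu hv
  smul_mem := fun c u hu => P.relax.F.smul_mem hu c
  mul_mem := fun u hu v hv => P.relax.F.mul_mem hu hv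
  symm := fun u hu v hv φ => P.relax.symm hu hv φ
  add_left := fun u hu u' hu' v hv φ => P.relax.add_left hu hu' hv φ
  smul_left := fun c u hu v hv φ => P.relax.smul_left c hu hv φ
  add_test := fun u hu v hv φ φ' => P.relax.add_wt hu hv φ φ'
  smul_test := fun c u hu v hv φ => P.relax.smul_wt hu hv c φ
  nonneg := fun u hu φ hφ => P.relax.nonneg hu φ hφ
  chain := by
    intro ψ hψ u hu v hv w' d1 d2 hw' hd1 hd2
    have hC := chain_relax hP
    set ψ' : (Fin 2 → ℝ) → ℝ := fun x => ψ (x 0, x 1) with hψ'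
    let L : (Fin 2 → ℝ) →L[ℝ] ℝ × ℝ :=
      (ContinuousLinearMap.proj (R := ℝ) (φ := fun _ : Fin 2 => ℝ) 0).prod
        (ContinuousLinearMap.proj (R := ℝ) (φ := fun _ : Fin 2 => ℝ) 1)
    have hψ'L : ψ' = ψ ∘ L := rfl
    have hcd : ContDiff ℝ 2 ψ' := by rw [hψ'L]; exact hψ.comp L.contDiff
    have hdiff : Differentiable ℝ ψ := hψ.differentiable (by norm_num)
    have hpd : ∀ i x, pd ψ' i x = fderiv ℝ ψ (x 0, x 1) (L (Pi.single i 1)) := by
      intro i x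
      have : HasFDerivAt ψ' ((fderiv ℝ ψ (L x)).comp L) x :=
        ((hdiff (L x)).hasFDerivAt).comp x L.hasFDerivAt
      rw [pd, this.fderiv]
      rfl
    have h1 : ContDiff ℝ 1 ψ' := hcd.of_le (by norm_num)
    obtain ⟨hm, hG⟩ := hC 2 ψ' hcd hcd.continuous (fun i => continuous_pd h1 i) ![u, v]
      (by intro i; fin_cases i <;> assumption)
    have hwe : compC ψ' hcd.continuous ![u, v] = w' := by
      ext x; simp [hψ', hw']
    rw [hwe] at hm hG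
    refine ⟨hm, fun w hw φ => ?_⟩
    rw [hG w hw φ, Fin.sum_univ_two]
    have e1 : compC (pd ψ' 0) (continuous_pd h1 0) ![u, v] = d1 := by
      ext x
      rw [compC_apply, hpd, hd1]
      simp [L]
    have e2 : compC (pd ψ' 1) (continuous_pd h1 1) ![u, v] = d2 := by
      ext x
      rw [compC_apply, hpd, hd2]
      simp [L]
    rw [e1, e2, mul_comm d1, mul_comm d2]
    rfl
  inv := by
    intro g u v φ u' v' φ' hu hv hu' hv' hφ'
    have h := (hinv g).relax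
    have e1 : u' = u.comp (act S g : C(Z, Z)) := by ext x; exact hu' x
    have e2 : v' = v.comp (act S g : C(Z, Z)) := by ext x; exact hv' x
    have e3 : φ' = φ.comp (act S g : C(Z, Z)) := by ext x; exact hφ' x
    subst e1 e2 e3
    exact ⟨h.mem u hu, h.G_eq u hu v hv φ⟩
  closed := fun u w C hu hlim hC => weak_tendsto hd hu hlim hC

end

end Crest.Agent.R193.RelaxD
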