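import Mathlib
import Crest.Prelude.Def_WordHyperbolic
import Crest.Prelude.Def_CayleyBoundary
import Crest.Prelude.Def_HyperbolicThreeSpace
import Crest.Agent.R193.Defs

/-!
# R193: top level statements of the blocks (skeleton, contains sorry; the proved versions live in
`R193/H_Main.lean`, `T_Main.lean`, `M_Main.lean`, `F_Main.lean`, `D_Main.lean`, `E_Main.lean`,
`K_Main.lean` under the names `Crest.Agent.R193.H_main`, ...).
-/

set_option autoImplicit false

noncomputable section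

open Set Filter Topology MeasureTheory
open Crest.GroupTheory Crest.HyperbolicSpace

namespace Crest.Agent.R193.Spec

open Crest.Agent.R193

/-- BLOCK H: hyperbolic toolkit. -/
theorem H_main (G : Type) [Group G] (S : Finset G) (hS : Subgroup.closure (S : Set G) = ⊤)
    (hδ : ∃ δ : ℝ, 0 ≤ δ ∧ ∀ w x y z : G,
      min (gromovProduct (S : Set G) w x y) (gromovProduct (S : Set G) w y z) - δ ≤
        gromovProduct (S : Set G) w x z)
    (hB : Nonempty (CayleyBoundary (S : Set G) ≃ₜ Metric.sphere (0 : EuclideanSpace ℝ (Fin 3)) 1)) :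
    ∃ (Z : Type) (_ : MetricSpace Z) (_ : MulAction G Z) (_ : Setup G Z), Nonempty (Z ≃ₜ S2) := by
  sorry

section
variable {G Z : Type} [Group G] [MetricSpace Z] [MulAction G Z]

/-- BLOCK T: tiles exist. -/
theorem T_main (S : Setup G Z) (Φ : Z ≃ₜ S2) : Nonempty (Tiles S) := by
  sorry

/-- BLOCK M: Theorem M, bounded moduli. -/
theorem M_main (S : Setup G Z) (T : Tiles S) (Φ : Z ≃ₜ S2) (ψ : Chart Z) :
    ∃ L : ℝ, ∀ n : ℕ, SepBound T n (ψ.D 1) (ψ.E 2) L := by
  sorry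

/-- BLOCKS C, F, R: the invariant Dirichlet form. -/
theorem F_main (S : Setup G Z) (T : Tiles S) (Φ : Z ≃ₜ S2)
    (hM : ∀ ψ : Chart Z, ∃ L : ℝ, ∀ n : ℕ, SepBound T n (ψ.D 1) (ψ.E 2) L) :
    Nonempty (DForm S) := by
  sorry
end

/-- BLOCK D: uniformisation of the form. -/
theorem D_main {G Z : Type} [Group G] [MetricSpace Z] [MulAction G Z] (S : Setup G Z)
    (Q : DForm S) (Φ : Z ≃ₜ S2) :
    ∃ F : Z ≃ₜ OnePoint ℂ, ∀ g : G, WeakConf (fun w => F (g • F.symm w)) := by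
  sorry

/-- BLOCK E: weakly conformal homeomorphisms of the sphere are (anti-)Moebius. -/
theorem E_main (f : OnePoint ℂ ≃ₜ OnePoint ℂ) (hf : WeakConf f) : IsMob f := by
  sorry

/-- BLOCK K: from a Moebius action to the conclusion. -/
theorem K_main {G Z : Type} [Group G] [MetricSpace Z] [MulAction G Z] (S : Setup G Z)
    (F : Z ≃ₜ OnePoint ℂ) (hF : ∀ g : G, IsMob (fun w => F (g • F.symm w))) :
    ∃ ρ : G →* isometryGroup3,
      (∀ K : Set UpperHalfSpace3, IsCompact K →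
        Set.Finite {g : G | ∃ x ∈ K, (ρ g : Equiv.Perm UpperHalfSpace3) x ∈ K}) ∧
      (∃ K : Set UpperHalfSpace3, IsCompact K ∧
        ∀ x : UpperHalfSpace3, ∃ g : G, (ρ g : Equiv.Perm UpperHalfSpace3) x ∈ K) ∧
      Finite ρ.ker := by
  sorry

/-- ASSEMBLY. -/
theorem final (G : Type) [Group G] (S : Finset G) (hS : Subgroup.closure (S : Set G) = ⊤)
    (hδ : ∃ δ : ℝ, 0 ≤ δ ∧ ∀ w x y z : G,
      min (gromovProduct (S : Set G) w x y) (gromovProduct (S : Set G) w y z) - δ ≤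
        gromovProduct (S : Set G) w x z)
    (hB : Nonempty (CayleyBoundary (S : Set G) ≃ₜ Metric.sphere (0 : EuclideanSpace ℝ (Fin 3)) 1)) :
    ∃ ρ : G →* isometryGroup3,
      (∀ K : Set UpperHalfSpace3, IsCompact K →
        Set.Finite {g : G | ∃ x ∈ K, (ρ g : Equiv.Perm UpperHalfSpace3) x ∈ K}) ∧
      (∃ K : Set UpperHalfSpace3, IsCompact K ∧
        ∀ x : UpperHalfSpace3, ∃ g : G, (ρ g : Equiv.Perm UpperHalfSpace3) x ∈ K) ∧
      Finite ρ.ker := by
  obtain ⟨Z, iM, iA, S0, ⟨Φ⟩⟩ := H_main G S hS hδ hB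
  obtain ⟨T⟩ := T_main S0 Φ
  obtain ⟨Q⟩ := F_main S0 T Φ (fun ψ => M_main S0 T Φ ψ)
  obtain ⟨F, hF⟩ := D_main S0 Q Φ
  refine K_main S0 F (fun g => ?_)
  let f : OnePoint ℂ ≃ₜ OnePoint ℂ := (F.symm.trans
    (⟨⟨fun x => g • x, fun x => g⁻¹ • x, fun x => by simp, fun x => by simp⟩,
      S0.cont g, S0.cont g⁻¹⟩ : Z ≃ₜ Z)).trans F
  exact E_main f (hF g)

end Crest.Agent.R193.Spec
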