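import Mathlib
import Crest.Agent.R193.Defs

/-!
# R193 block T: separation can be restricted to the closed annulus
-/

set_option autoImplicit false
set_option linter.style.haveILetI false
set_option linter.deprecated false

noncomputable section

open Set Filter Topology

namespace Crest.Agent.R193.T_Sep

open Crest.Agent.R193

variable {Z : Type} [TopologicalSpace Z]

theorem Separates.mono {K K' D E : Set Z} (h : Separates K D E) (hK : K ⊆ K') :
    Separates K' D E := by
  intro c hc h1 h2
  exact (h c hc h1 h2).mono (inter_subset_inter_right _ hK)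

theorem Separates.anti {K D E D' E' : Set Z} (h : Separates K D E) (hD : D' ⊆ D) (hE : E' ⊆ E) :
    Separates K D' E' := by
  intro c hc h1 h2
  exact h c hc (h1.mono (inter_subset_inter_right _ hD)) (h2.mono (inter_subset_inter_right _ hE))

theorem Separates.symm {K D E : Set Z} (h : Separates K D E) : Separates K E D := by
  intro c hc h1 h2
  exact h c hc h2 h1

/-- If the closed set `K` separates the disjoint closed sets `D`, `E` in a locally connected space,
then every preconnected set meeting `D` and `E` meets `K` at a point of the closure of the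
complement of `D ∪ E`. -/
theorem restrict [LocallyConnectedSpace Z] {K D E : Set Z} (hK : IsClosed K)
    (hD : IsClosed D) (hE : IsClosed E) (hDE : Disjoint D E) (h : Separates K D E) {c : Set Z}
    (hc : IsPreconnected c) (hcD : (c ∩ D).Nonempty) (hcE : (c ∩ E).Nonempty) :
    (c ∩ closure ((D ∪ E)ᶜ) ∩ K).Nonempty := by
  by_contra hcon
  rw [not_nonempty_iff_eq_empty] at hcon
  set O := closure ((D ∪ E)ᶜ) with hO
  have hcO : ∀ x ∈ c, x ∈ O → x ∉ K := by
    intro x hx hxO hxK
    have : x ∈ c ∩ O ∩ K := ⟨⟨hx, hxO⟩, hxK⟩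
    rw [hcon] at this
    exact this
  have hKo : IsOpen Kᶜ := hK.isOpen_compl
  -- union of the components of `Kᶜ` meeting `D`
  set VD : Set Z := {x | x ∈ Kᶜ ∧ (connectedComponentIn Kᶜ x ∩ D).Nonempty} with hVD
  set VE : Set Z := {x | x ∈ Kᶜ ∧ ¬ (connectedComponentIn Kᶜ x ∩ D).Nonempty} with hVE
  have hcompopen : ∀ x ∈ Kᶜ, IsOpen (connectedComponentIn Kᶜ x) := fun x _ =>
    hKo.connectedComponentIn
  have hVDo : IsOpen VD := by
    rw [isOpen_iff_mem_nhds]
    rintro x ⟨hx1, hx2⟩
    refine mem_of_superset ((hcompopen x hx1).mem_nhds (mem_connectedComponentIn hx1)) ?_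
    intro y hy
    refine ⟨connectedComponentIn_subset _ _ hy, ?_⟩
    rw [← connectedComponentIn_eq hy]
    exact hx2
  have hVEo : IsOpen VE := by
    rw [isOpen_iff_mem_nhds]
    rintro x ⟨hx1, hx2⟩
    refine mem_of_superset ((hcompopen x hx1).mem_nhds (mem_connectedComponentIn hx1)) ?_
    intro y hy
    refine ⟨connectedComponentIn_subset _ _ hy, ?_⟩
    rw [← connectedComponentIn_eq hy]
    exact hx2
  have hDV : ∀ x ∈ D, x ∉ K → x ∈ VD := fun x hx hxK =>
    ⟨hxK, x, mem_connectedComponentIn hxK, hx⟩
  have hEV : ∀ x ∈ E, x ∉ K → x ∈ VE := by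
    intro x hx hxK
    refine ⟨hxK, ?_⟩
    intro hne
    obtain ⟨y, hy1, hy2⟩ := h _ (isPreconnected_connectedComponentIn (F := Kᶜ) (x := x)) hne
      ⟨x, mem_connectedComponentIn hxK, hx⟩
    exact connectedComponentIn_subset _ _ hy1 hy2
  have hVdisj : ∀ x, x ∈ VD → x ∉ VE := fun x h1 h2 => h2.2 h1.2
  have hOcl : IsClosed O := isClosed_closure
  -- the two open sets
  set WD : Set Z := VD ∪ (O ∪ E)ᶜ with hWD
  set WE : Set Z := VE ∪ (O ∪ D)ᶜ with hWE
  have hWDo : IsOpen WD := hVDo.union (hOcl.union hE).isOpen_compl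
  have hWEo : IsOpen WE := hVEo.union (hOcl.union hD).isOpen_compl
  have hcover : c ⊆ WD ∪ WE := by
    intro x hx
    by_cases hxO : x ∈ O
    · have hxK := hcO x hx hxO
      by_cases hne : (connectedComponentIn Kᶜ x ∩ D).Nonempty
      · exact Or.inl (Or.inl ⟨hxK, hne⟩)
      · exact Or.inr (Or.inl ⟨hxK, hne⟩)
    · by_cases hxE : x ∈ E
      · right
        right
        rw [mem_compl_iff, mem_union]
        rintro (h1 | h1)
        · exact hxO h1
        · exact Set.disjoint_left.mp hDE h1 hxE
      · left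
        right
        rw [mem_compl_iff, mem_union]
        rintro (h1 | h1)
        · exact hxO h1
        · exact hxE h1
  have h1 : (c ∩ WD).Nonempty := by
    obtain ⟨x, hx, hxD⟩ := hcD
    refine ⟨x, hx, ?_⟩
    by_cases hxO : x ∈ O
    · exact Or.inl (hDV x hxD (hcO x hx hxO))
    · right
      rw [mem_compl_iff, mem_union]
      rintro (h1 | h1)
      · exact hxO h1
      · exact Set.disjoint_left.mp hDE hxD h1
  have h2 : (c ∩ WE).Nonempty := by
    obtain ⟨x, hx, hxE⟩ := hcE
    refine ⟨x, hx, ?_⟩
    by_cases hxO : x ∈ O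
    · exact Or.inl (hEV x hxE (hcO x hx hxO))
    · right
      rw [mem_compl_iff, mem_union]
      rintro (h1 | h1)
      · exact hxO h1
      · exact Set.disjoint_left.mp hDE h1 hxE
  obtain ⟨x, hxc, hxD, hxE⟩ := hc WD WE hWDo hWEo hcover h1 h2
  -- membership outside `O` means membership in `D` or `E`
  have hout : x ∉ O → x ∈ D ∪ E := by
    intro hx
    by_contra hcon2
    exact hx (subset_closure hcon2)
  rcases hxD with h3 | h3
  · rcases hxE with h4 | h4
    · exact hVdisj x h3 h4
    · rw [mem_compl_iff, mem_union, not_or] at h4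
      rcases hout h4.1 with h5 | h5
      · exact h4.2 h5
      · exact hVdisj x h3 (hEV x h5 h3.1)
  · rw [mem_compl_iff, mem_union, not_or] at h3
    rcases hxE with h4 | h4
    · rcases hout h3.1 with h5 | h5
      · exact hVdisj x (hDV x h5 h4.1) h4
      · exact h3.2 h5
    · rw [mem_compl_iff, mem_union, not_or] at h4
      rcases hout h3.1 with h5 | h5
      · exact h4.2 h5
      · exact h3.2 h5

theorem locallyConnectedSpace_of_homeo (Φ : Z ≃ₜ S2) : LocallyConnectedSpace Z := by
  haveI : LocallyConnectedSpace S2 :=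
    ChartedSpace.locallyConnectedSpace (EuclideanSpace ℝ (Fin 2)) S2
  exact Φ.isOpenEmbedding.locallyConnectedSpace

end Crest.Agent.R193.T_Sep
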